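import Vale.Agent.Lib.P095G.G1Unit
import Vale.Agent.Lib.P095E.ZProps
import Vale.Agent.Lib.P095E.ZPropsB
import Vale.Agent.Lib.P101.Quot

/-!
# P095 stage 3, part G1: `Z`-stability gives a unital homomorphism `Z → FA`
-/

open scoped ENNReal Topology
open Filter P101 P095E P095F

namespace P095G

universe u v

private theorem g1m_closure {B : Type u} [NormedAddCommGroup B] [NormedSpace ℂ B]
    (T : ℕ → B → B) (hadd : ∀ n x y, T n (x + y) = T n x + T n y)
    (hsmul : ∀ n (c : ℂ) x, T n (c • x) = c • T n x) (C : ℝ) (hC : 0 < C)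
    (hb : ∀ n x, ‖T n x‖ ≤ C * ‖x‖) (S : Set B)
    (hS : ∀ x ∈ S, Tendsto (fun n => ‖T n x‖) atTop (𝓝 0)) (x : B)
    (hx : x ∈ closure (Submodule.span ℂ S : Set B)) :
    Tendsto (fun n => ‖T n x‖) atTop (𝓝 0) := by
  have hspan : ∀ y ∈ Submodule.span ℂ S, Tendsto (fun n => ‖T n y‖) atTop (𝓝 0) := by
    intro y hy
    induction hy using Submodule.span_induction with
    | mem y hy => exact hS y hy
    | zero =>
      have h0 : ∀ n, T n 0 = 0 := fun n => by
        have := hsmul n 0 0
        rwa [zero_smul, zero_smul] at this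
      simp only [h0, norm_zero]
      exact tendsto_const_nhds
    | add y z _ _ hy hz =>
      have h1 := hy.add hz
      rw [add_zero] at h1
      refine squeeze_zero (fun n => norm_nonneg _) (fun n => ?_) h1
      rw [hadd]
      exact norm_add_le _ _
    | smul c y _ hy =>
      have h1 := hy.const_mul ‖c‖
      rw [mul_zero] at h1
      refine squeeze_zero (fun n => norm_nonneg _) (fun n => ?_) h1
      rw [hsmul, norm_smul]
  rw [Metric.tendsto_atTop]
  intro ε hε
  obtain ⟨y, hy, hxy⟩ := Metric.mem_closure_iff.1 hx (ε / (2 * C)) (by positivity)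
  obtain ⟨N, hN⟩ := Metric.tendsto_atTop.1 (hspan y hy) (ε / 2) (by positivity)
  refine ⟨N, fun n hn => ?_⟩
  have h1 := hN n hn
  rw [Real.dist_eq, sub_zero, abs_of_nonneg (norm_nonneg _)] at h1 ⊢
  have h2 : T n x = T n y + T n (x - y) := by
    rw [← hadd, add_sub_cancel]
  have h3 := hb n (x - y)
  rw [dist_eq_norm] at hxy
  have h4 : C * ‖x - y‖ ≤ ε / 2 := by
    have h5 : C * ‖x - y‖ ≤ C * (ε / (2 * C)) := mul_le_mul_of_nonneg_left hxy.le hC.le
    refine h5.trans (le_of_eq ?_)
    field_simp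
  rw [h2]
  have h5 := norm_add_le (T n y) (T n (x - y))
  linarith

private theorem g1m_toFA_eq {E : Type u} [CStarAlgebra E] [Nontrivial E] {ω : Ultrafilter ℕ}
    (hω : (ω : Filter ℕ) ≤ Filter.cofinite) {I : Ideal E} {p q : FOmega ω E}
    {wp wq : lp (fun _ : ℕ => E) ∞} (hp : toUltrapower ω E wp = (p : Ultrapower ω E))
    (hq : toUltrapower ω E wq = (q : Ultrapower ω E))
    (h : ∀ a ∈ I, Tendsto (fun n => ‖(wp n - wq n) * a‖) atTop (𝓝 0)) :
    toFA ω I p = toFA ω I q := by
  have hω' : (ω : Filter ℕ) ≤ atTop := by rwa [Nat.cofinite_eq_atTop] at hω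
  rw [← sub_eq_zero, ← map_sub, toFA_eq_zero_iff]
  intro a haI
  change ((p : Ultrapower ω E) - q) * toUltrapower ω E (constSeq E a) = 0
  rw [← hp, ← hq, ← map_sub, ← map_mul, toUltrapower_eq_zero_iff]
  exact (h a haI).mono_left hω'

private theorem g1m_folner_unit : FolnerGroup Unit := by
  intro K₀ ε hε
  refine ⟨{()}, Finset.singleton_nonempty _, fun h _ => ?_⟩
  have : IsEmpty {g : Unit // g ∉ ({()} : Finset Unit) ∧ h⁻¹ * g ∈ ({()} : Finset Unit)} :=
    ⟨fun g => g.2.1 (by simp)⟩
  rw [Nat.card_of_isEmpty, Nat.cast_zero]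
  positivity

/-- a closed two-sided ideal as a non-unital *-subalgebra -/
def idealSub {E : Type u} [CStarAlgebra E] (I : Ideal E) [I.IsTwoSided]
    (hcl : IsClosed (I : Set E)) : NonUnitalStarSubalgebra ℂ E where
  carrier := I
  add_mem' := fun ha hb => I.add_mem ha hb
  zero_mem' := I.zero_mem
  mul_mem' := fun {a b} _ hb => I.mul_mem_left a hb
  smul_mem' := fun c x hx => by
    change c • x ∈ I
    rw [Algebra.smul_def]
    exact I.mul_mem_left _ hx
  star_mem' := fun {x} hx => star_mem_of_closed I hcl hx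

/-- a *-homomorphism which is injective on a closed ideal is isometric on it -/
theorem norm_map_of_injOn {E B : Type u} [CStarAlgebra E] [CStarAlgebra B] (I : Ideal E)
    [I.IsTwoSided] (hcl : IsClosed (I : Set E)) (e : E →⋆ₐ[ℂ] B)
    (he : ∀ x ∈ I, e x = 0 → x = 0) {x : E} (hx : x ∈ I) : ‖e x‖ = ‖x‖ := by
  have hclosed : IsClosed (idealSub I hcl : Set E) := hcl
  let f : idealSub I hcl →⋆ₙₐ[ℂ] B :=
    { toFun := fun y => e y
      map_smul' := fun c y => map_smul e c (y : E)
      map_zero' := map_zero e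
      map_add' := fun y z => map_add e (y : E) z
      map_mul' := fun y z => map_mul e (y : E) z
      map_star' := fun y => map_star e (y : E) }
  have hf : Function.Injective f := by
    rw [injective_iff_map_eq_zero]
    intro y hy
    exact Subtype.ext (he y y.2 hy)
  exact NonUnitalStarAlgHom.norm_map f hf ⟨x, hx⟩

/-- G1.  `e` is the unitization of the isomorphism `I ≅ closed span of i(I) j(Z)` (injective on `I`,
not necessarily on `E`). -/
theorem exists_hom_FA {E Z B : Type u} [CStarAlgebra E] [Nontrivial E] [CStarAlgebra Z]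
    [CStarAlgebra B] [TopologicalSpace.SeparableSpace E] [TopologicalSpace.SeparableSpace Z]
    {ω : Ultrafilter ℕ} (hω : (ω : Filter ℕ) ≤ Filter.cofinite) {I : Ideal E}
    (hI : GoodIdeal I) (hZ : SelfAbsorbing Z) (i : E →⋆ₐ[ℂ] B) (j : Z →⋆ₐ[ℂ] B)
    (hij : ∀ a z, Commute (i a) (j z)) (e : E →⋆ₐ[ℂ] B)
    (he : ∀ x ∈ I, e x = 0 → x = 0)
    (hrange : ∀ x : B, (∃ a ∈ I, e a = x) ↔
      x ∈ closure (Submodule.span ℂ {y : B | ∃ a ∈ I, ∃ z, y = i a * j z} : Set B)) :
    Nonempty (Z →⋆ₐ[ℂ] FA ω I) := by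
  classical
  have htwo := hI.two
  have hω' : (ω : Filter ℕ) ≤ atTop := by rwa [Nat.cofinite_eq_atTop] at hω
  obtain ⟨u, hu1, hu2, hu3, -, -⟩ := exists_unitSeq hI g1m_folner_unit
    (1 : Unit →* (E ≃⋆ₐ[ℂ] E)) (fun _ a ha => ha) (fun _ => True) (fun _ _ _ _ => trivial)
    (fun _ _ _ => trivial) (fun _ _ _ => trivial) (fun _ => 0) (fun _ _ => I.zero_mem)
  obtain ⟨b, hb⟩ := exists_asymptotic_endo hZ
  set S : Set B := {y : B | ∃ a ∈ I, ∃ z, y = i a * j z} with hS
  have hni : ∀ a, ‖i a‖ ≤ ‖a‖ := fun a => NonUnitalStarAlgHom.norm_apply_le i a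
  have hnj : ∀ z, ‖j z‖ ≤ ‖z‖ := fun z => NonUnitalStarAlgHom.norm_apply_le j z
  have hnb : ∀ n z, ‖j (b n z)‖ ≤ ‖z‖ := fun n z =>
    NonUnitalStarAlgHom.norm_apply_le (j.comp (b n)) z
  have hne : ∀ a ∈ I, ‖e a‖ = ‖a‖ := fun a ha => norm_map_of_injOn I hI.closed e he ha
  have hinj : ∀ a ∈ I, ∀ b ∈ I, e a = e b → a = b := fun a ha b hb h =>
    sub_eq_zero.1 (he _ (I.sub_mem ha hb) (by rw [map_sub, h, sub_self]))
  have hsmulI : ∀ (c : ℂ) (x : E), x ∈ I → c • x ∈ I := by
    intro c x hx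
    rw [Algebra.smul_def]
    exact I.mul_mem_left _ hx
  have hnu : ∀ n, ‖i (u n)‖ ≤ 1 := fun n => (hni _).trans (hu1 n).2.1.2
  -- the elements
  have hex : ∀ n z, ∃ a ∈ I, e a = i (u n) * j (b n z) := fun n z =>
    (hrange _).2 (subset_closure (Submodule.subset_span ⟨u n, (hu1 n).1, b n z, rfl⟩))
  choose x hxI hx using hex
  have hxn : ∀ n z, ‖x n z‖ ≤ ‖z‖ := by
    intro n z
    rw [← hne _ (hxI n z), hx]
    refine (norm_mul_le _ _).trans ?_
    have h1 := mul_le_mul (hnu n) (hnb n z) (norm_nonneg _) zero_le_one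
    rwa [one_mul] at h1
  have hadd : ∀ n z z', x n (z + z') = x n z + x n z' := by
    intro n z z'
    apply hinj _ (hxI _ _) _ (I.add_mem (hxI _ _) (hxI _ _))
    rw [map_add, hx, hx, hx, map_add, map_add, mul_add]
  have hsmul : ∀ n (c : ℂ) z, x n (c • z) = c • x n z := by
    intro n c z
    apply hinj _ (hxI _ _) _ (hsmulI _ _ (hxI _ _))
    rw [map_smul, hx, hx, map_smul, map_smul, mul_smul_comm]
  have hstar : ∀ n z, x n (star z) = star (x n z) := by
    intro n z
    apply hinj _ (hxI _ _) _ (star_mem_of_closed I hI.closed (hxI _ _))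
    rw [map_star, hx, hx, star_mul, ← map_star, ← map_star, ← map_star, (hu1 n).2.1.star_eq,
      (hij _ _).eq]
  -- asymptotic properties
  have hunit : ∀ a ∈ I, Tendsto (fun n => ‖i (u n) * e a - e a‖) atTop (𝓝 0) := by
    intro a ha
    refine g1m_closure (fun n y => i (u n) * y - y) (fun n x y => by rw [mul_add]; abel)
      (fun n c x => by rw [mul_smul_comm, smul_sub]) 2 (by norm_num) (fun n y => ?_) S ?_ (e a)
      ((hrange _).1 ⟨a, ha, rfl⟩)
    · have h1 : ‖i (u n) * y‖ ≤ 1 * ‖y‖ :=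
        (norm_mul_le _ _).trans (mul_le_mul_of_nonneg_right (hnu n) (norm_nonneg _))
      have h3 := norm_sub_le (i (u n) * y) y
      linarith
    · rintro _ ⟨a', ha', z', rfl⟩
      have h1 := (hu3 a' ha').1.mul_const ‖z'‖
      rw [zero_mul] at h1
      refine squeeze_zero (fun n => norm_nonneg _) (fun n => ?_) h1
      have h2 : i (u n) * (i a' * j z') - i a' * j z' = i (u n * a' - a') * j z' := by
        rw [map_sub, map_mul, sub_mul, mul_assoc]
      rw [h2]
      exact (norm_mul_le _ _).trans (mul_le_mul (hni _) (hnj _) (norm_nonneg _)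
        (norm_nonneg _))
  have hcomm : ∀ z, ∀ a ∈ I, Tendsto (fun n => ‖x n z * a - a * x n z‖) atTop (𝓝 0) := by
    intro z a ha
    have h0 := g1m_closure (fun n y => i (u n) * j (b n z) * y - y * (i (u n) * j (b n z)))
      (fun n x y => by rw [mul_add, add_mul]; abel)
      (fun n c x => by rw [mul_smul_comm, smul_mul_assoc, smul_sub]) (2 * ‖z‖ + 1)
      (by positivity) (fun n y => ?_) S ?_ (e a) ((hrange _).1 ⟨a, ha, rfl⟩)
    · refine h0.congr fun n => ?_
      rw [← hne (x n z * a - a * x n z) (I.sub_mem (I.mul_mem_left _ ha)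
        (I.mul_mem_right _ ha)), map_sub, map_mul, map_mul, hx]
    · have h1 : ‖i (u n) * j (b n z)‖ ≤ ‖z‖ := by
        rw [← hx, hne _ (hxI n z)]
        exact hxn n z
      have h2 : ‖i (u n) * j (b n z) * y‖ ≤ ‖z‖ * ‖y‖ :=
        (norm_mul_le _ _).trans (mul_le_mul_of_nonneg_right h1 (norm_nonneg _))
      have h3 : ‖y * (i (u n) * j (b n z))‖ ≤ ‖y‖ * ‖z‖ :=
        (norm_mul_le _ _).trans (mul_le_mul_of_nonneg_left h1 (norm_nonneg _))
      have h4 := norm_sub_le (i (u n) * j (b n z) * y) (y * (i (u n) * j (b n z)))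
      nlinarith [norm_nonneg y]
    · rintro _ ⟨a', ha', z', rfl⟩
      have h1 := ((hu2 a').mul_const (‖z‖ * ‖z'‖)).add ((hb z z').const_mul ‖a'‖)
      rw [zero_mul, mul_zero, add_zero] at h1
      refine squeeze_zero (fun n => norm_nonneg _) (fun n => ?_) h1
      have h2 : i (u n) * j (b n z) * (i a' * j z') - i a' * j z' * (i (u n) * j (b n z)) =
          i (u n * a' - a' * u n) * (j (b n z) * j z') +
            i (a' * u n) * j (b n z * z' - z' * b n z) := by
        have c1 : i (u n) * j (b n z) * (i a' * j z') = i (u n) * i a' * (j (b n z) * j z') := by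
          rw [mul_assoc, ← mul_assoc (j (b n z)), ← (hij a' (b n z)).eq]
          simp only [mul_assoc]
        have c2 : i a' * j z' * (i (u n) * j (b n z)) = i a' * i (u n) * (j z' * j (b n z)) := by
          rw [mul_assoc, ← mul_assoc (j z'), ← (hij (u n) z').eq]
          simp only [mul_assoc]
        rw [c1, c2, map_sub, map_sub, map_mul, map_mul, map_mul, map_mul, sub_mul, mul_sub]
        abel
      rw [h2]
      refine (norm_add_le _ _).trans (add_le_add ?_ ?_)
      · refine (norm_mul_le _ _).trans (mul_le_mul (hni _) ?_ (norm_nonneg _) (norm_nonneg _))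
        exact (norm_mul_le _ _).trans (mul_le_mul (hnb n z) (hnj z') (norm_nonneg _)
          (norm_nonneg _))
      · refine (norm_mul_le _ _).trans (mul_le_mul ?_ (hnj _) (norm_nonneg _) (norm_nonneg _))
        refine (hni _).trans ((norm_mul_le _ _).trans ?_)
        have := mul_le_mul_of_nonneg_left (hu1 n).2.1.2 (norm_nonneg a')
        rwa [mul_one] at this
  -- the classes
  let l : Z → lp (fun _ : ℕ => E) ∞ := fun z => ⟨fun n => x n z, memℓp_infty ⟨‖z‖, by
    rintro _ ⟨n, rfl⟩
    exact hxn n z⟩⟩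
  have hmem : ∀ z, toUltrapower ω E (l z) ∈ centralSeq ω E := by
    intro z
    refine mem_centralSeq_of_commute ω E fun c => commute_of_eventually ω E fun ε hε => ?_
    obtain ⟨r, hr⟩ := hI.unitize c
    have h1 := (hcomm z _ hr).mono_left hω'
    filter_upwards [(Metric.tendsto_nhds.1 h1) ε hε] with n hn
    rw [Real.dist_eq, sub_zero, abs_of_nonneg (norm_nonneg _)] at hn
    have h2 : l z n * constSeq E c n - constSeq E c n * l z n =
        x n z * (c - algebraMap ℂ E r) - (c - algebraMap ℂ E r) * x n z := by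
      change x n z * c - c * x n z = _
      have h3 := Algebra.commutes r (x n z)
      rw [mul_sub, sub_mul, h3]
      abel
    rw [h2]
    exact hn
  let X : Z → FOmega ω E := fun z => ⟨toUltrapower ω E (l z), hmem z⟩
  have hXadd : ∀ z z', X (z + z') = X z + X z' := by
    intro z z'
    apply Subtype.ext
    change toUltrapower ω E (l (z + z')) = toUltrapower ω E (l z) + toUltrapower ω E (l z')
    rw [← map_add]
    congr 1
    ext n
    exact hadd n z z'
  have hXsmul : ∀ (c : ℂ) z, X (c • z) = c • X z := by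
    intro c z
    apply Subtype.ext
    change toUltrapower ω E (l (c • z)) = c • toUltrapower ω E (l z)
    rw [← map_smul]
    congr 1
    ext n
    exact hsmul n c z
  have hXstar : ∀ z, X (star z) = star (X z) := by
    intro z
    apply Subtype.ext
    change toUltrapower ω E (l (star z)) = star (toUltrapower ω E (l z))
    rw [← map_star]
    congr 1
    ext n
    exact hstar n z
  have hXone : toFA ω I (X 1) = 1 := by
    rw [← map_one (toFA ω I)]
    refine g1m_toFA_eq hω (wp := l 1) (wq := 1) rfl (map_one _) fun a ha => ?_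
    refine (hunit a ha).congr fun n => ?_
    rw [← hne ((l 1 n - (1 : lp (fun _ : ℕ => E) ∞) n) * a) (I.mul_mem_left _ ha), map_mul]
    change ‖i (u n) * e a - e a‖ = ‖e (x n 1 - 1) * e a‖
    rw [map_sub, hx, map_one, map_one, map_one, mul_one, sub_mul, one_mul]
  have hXmul : ∀ z z', toFA ω I (X (z * z')) = toFA ω I (X z) * toFA ω I (X z') := by
    intro z z'
    rw [← map_mul]
    symm
    refine g1m_toFA_eq hω (wp := l z * l z') (wq := l (z * z')) (map_mul _ _ _) rfl
      fun a ha => ?_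
    have h1 := (hunit a ha).const_mul ‖z * z'‖
    rw [mul_zero] at h1
    refine squeeze_zero (fun n => norm_nonneg _) (fun n => ?_) h1
    change ‖(x n z * x n z' - x n (z * z')) * a‖ ≤ _
    rw [← hne ((x n z * x n z' - x n (z * z')) * a) (I.mul_mem_left _ ha), map_mul, map_sub,
      map_mul, hx, hx, hx]
    have c1 : i (u n) * j (b n z) * (i (u n) * j (b n z')) =
        i (u n) * j (b n (z * z')) * i (u n) := by
      rw [map_mul, map_mul, mul_assoc, ← mul_assoc (j (b n z)), ← (hij (u n) (b n z)).eq,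
        mul_assoc (i (u n)) (j (b n z)), ← mul_assoc (i (u n)) (i (u n)),
        mul_assoc (i (u n)) (j (b n z) * j (b n z'))]
      have c2 : j (b n z) * j (b n z') * i (u n) = i (u n) * (j (b n z) * j (b n z')) := by
        rw [← map_mul, ((hij (u n) (b n z * b n z')).eq)]
      rw [c2]
      simp only [mul_assoc]
    have c3 : (i (u n) * j (b n z) * (i (u n) * j (b n z')) - i (u n) * j (b n (z * z'))) * e a =
        i (u n) * j (b n (z * z')) * (i (u n) * e a - e a) := by
      rw [c1, sub_mul, mul_sub]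
      simp only [mul_assoc]
    rw [c3]
    refine (norm_mul_le _ _).trans (mul_le_mul_of_nonneg_right ?_ (norm_nonneg _))
    rw [← hx, hne _ (hxI n _)]
    exact hxn n _
  refine ⟨{ toFun := fun z => toFA ω I (X z), map_one' := hXone, map_mul' := hXmul,
            map_zero' := ?_, map_add' := ?_, commutes' := ?_, map_star' := ?_ }⟩
  · have h1 := hXsmul 0 0
    rw [zero_smul, zero_smul] at h1
    change toFA ω I (X 0) = 0
    rw [h1, map_zero]
  · intro z z'
    change toFA ω I (X (z + z')) = _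
    rw [hXadd, map_add]
  · intro c
    change toFA ω I (X (algebraMap ℂ Z c)) = _
    rw [Algebra.algebraMap_eq_smul_one, hXsmul, map_smul, hXone,
      Algebra.algebraMap_eq_smul_one]
  · intro z
    rw [hXstar, map_star]

/-- hence `FA` has no characters -/
theorem isEmpty_char_FA {E Z B : Type u} [CStarAlgebra E] [Nontrivial E] [CStarAlgebra Z]
    [CStarAlgebra B] [TopologicalSpace.SeparableSpace E] [TopologicalSpace.SeparableSpace Z]
    {ω : Ultrafilter ℕ} (hω : (ω : Filter ℕ) ≤ Filter.cofinite) {I : Ideal E}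
    (hI : GoodIdeal I) (hZ : SelfAbsorbing Z) [IsSimpleRing Z] (hZ' : ¬ FiniteDimensional ℂ Z)
    (i : E →⋆ₐ[ℂ] B) (j : Z →⋆ₐ[ℂ] B)
    (hij : ∀ a z, Commute (i a) (j z)) (e : E →⋆ₐ[ℂ] B)
    (he : ∀ x ∈ I, e x = 0 → x = 0)
    (hrange : ∀ x : B, (∃ a ∈ I, e a = x) ↔
      x ∈ closure (Submodule.span ℂ {y : B | ∃ a ∈ I, ∃ z, y = i a * j z} : Set B)) :
    IsEmpty (FA ω I →⋆ₐ[ℂ] ℂ) := by
  obtain ⟨κ⟩ := exists_hom_FA hω hI hZ i j hij e he hrange
  have h := isEmpty_character_of_simple hZ'
  exact ⟨fun χ => h.false (χ.comp κ)⟩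

end P095G
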