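import Vale.Agent.Lib.P095G.GTr

/-!
# P095 stage 3, parts G0.1 and G0.2: quasi-invariant local units

`Pd` is any class of elements closed under sums and scalar multiples containing all elements of `I`
which have a unit in `I` (in the applications `Pd = InIdeal {a₀}`, see part GB.1, or `True`).
-/

open scoped ENNReal Topology
open Filter P101 P095E P095F

namespace P095G

universe u v

variable {E : Type u} [CStarAlgebra E]

private theorem g1_posC_iff [PartialOrder E] [StarOrderedRing E] {x : E} :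
    PosC x ↔ 0 ≤ x ∧ x ≤ 1 := by
  constructor
  · rintro ⟨h1, h2⟩
    have h3 : 0 ≤ x := CStarAlgebra.nonneg_iff_eq_star_mul_self.2 h1
    exact ⟨h3, (CStarAlgebra.norm_le_one_iff_of_nonneg x h3).1 h2⟩
  · rintro ⟨h1, h2⟩
    exact ⟨CStarAlgebra.nonneg_iff_eq_star_mul_self.1 h1,
      (CStarAlgebra.norm_le_one_iff_of_nonneg x h1).2 h2⟩

/-- images of positive contractions -/
theorem PosC.map {F : Type v} [CStarAlgebra F] (f : E →⋆ₐ[ℂ] F) {x : E} (hx : PosC x) :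
    PosC (f x) := by
  obtain ⟨⟨c, rfl⟩, h2⟩ := hx
  exact ⟨⟨f c, by rw [map_mul, map_star]⟩, (NonUnitalStarAlgHom.norm_apply_le f _).trans h2⟩

theorem PosC.zero : PosC (0 : E) := ⟨⟨0, by simp⟩, by simp⟩

theorem PosC.star_eq {x : E} (hx : PosC x) : star x = x := by
  obtain ⟨⟨c, rfl⟩, -⟩ := hx
  rw [star_mul, star_star]

/-- averages of positive contractions -/
theorem PosC.average {ι : Type*} (s : Finset ι) (hs : s.Nonempty) (x : ι → E)
    (hx : ∀ i ∈ s, PosC (x i)) : PosC (((s.card : ℂ)⁻¹) • ∑ i ∈ s, x i) := by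
  let _ := CStarAlgebra.spectralOrder E
  have := CStarAlgebra.spectralOrderedRing E
  have hN : (0 : ℝ) < s.card := by exact_mod_cast hs.card_pos
  have hc : ((s.card : ℂ)⁻¹) • ∑ i ∈ s, x i = ((s.card : ℝ)⁻¹) • ∑ i ∈ s, x i := by
    rw [← Complex.coe_smul, Complex.ofReal_inv, Complex.ofReal_natCast]
  rw [hc, g1_posC_iff]
  constructor
  · exact smul_nonneg (by positivity) (Finset.sum_nonneg fun i hi => (g1_posC_iff.1 (hx i hi)).1)
  · have h1 : ∑ i ∈ s, x i ≤ (s.card : ℝ) • (1 : E) := by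
      have h2 : ∑ i ∈ s, x i ≤ ∑ _i ∈ s, (1 : E) :=
        Finset.sum_le_sum fun i hi => (g1_posC_iff.1 (hx i hi)).2
      rw [Finset.sum_const] at h2
      rwa [← Nat.cast_smul_eq_nsmul ℝ] at h2
    have h3 := smul_le_smul_of_nonneg_left h1 (inv_nonneg.2 hN.le)
    rwa [smul_smul, inv_mul_cancel₀ hN.ne', one_smul] at h3

/-- cut-off function -/
private noncomputable def g1f (δ t : ℝ) : ℝ := max 0 (min 1 (t / δ - 1))

private theorem g1f_cont (δ : ℝ) : Continuous (g1f δ) := by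
  unfold g1f
  fun_prop

private theorem g1f_nonneg (δ t : ℝ) : 0 ≤ g1f δ t := le_max_left _ _

private theorem g1f_le_one (δ t : ℝ) : g1f δ t ≤ 1 :=
  max_le (by norm_num) (min_le_left _ _)

private theorem g1f_zero {δ t : ℝ} (hδ : 0 < δ) (ht : t ≤ δ) : g1f δ t = 0 := by
  unfold g1f
  have h1 : t / δ ≤ 1 := (div_le_one hδ).2 ht
  exact max_eq_left ((min_le_right _ _).trans (by linarith))

private theorem g1f_one {δ t : ℝ} (hδ : 0 < δ) (ht : 2 * δ ≤ t) : g1f δ t = 1 := by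
  unfold g1f
  have h1 : 2 ≤ t / δ := (le_div_iff₀ hδ).2 ht
  rw [min_eq_left (by linarith)]
  exact max_eq_right (by norm_num)

private theorem g1f_mem {I : Ideal E} (htwo : I.IsTwoSided) {c : E} (hc : c ∈ I)
    (hsa : IsSelfAdjoint c) {δ : ℝ} (hδ : 0 < δ) : cfc (g1f δ) c ∈ I := by
  have hg : Continuous (fun t : ℝ => g1f δ t / max t δ) := by
    refine (g1f_cont δ).div (by fun_prop) fun t => ?_
    exact (lt_of_lt_of_le hδ (le_max_right _ _)).ne'
  have h1 : cfc (g1f δ) c = c * cfc (fun t : ℝ => g1f δ t / max t δ) c := by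
    have h2 : cfc (g1f δ) c = cfc (fun t : ℝ => t * (g1f δ t / max t δ)) c := by
      refine cfc_congr fun t _ => ?_
      rcases le_total t δ with h | h
      · rw [g1f_zero hδ h, zero_div, mul_zero]
      · rw [max_eq_left h, mul_div_cancel₀]
        exact (lt_of_lt_of_le hδ h).ne'
    rw [h2, cfc_mul (fun t : ℝ => t) (fun t : ℝ => g1f δ t / max t δ) c (by fun_prop)
      hg.continuousOn, cfc_id' ℝ c]
  rw [h1]
  exact I.mul_mem_right _ hc

/-- local units for one positive element -/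
private theorem g1_unit_pos {I : Ideal E} (htwo : I.IsTwoSided) {c : E} (hc : c ∈ I)
    (hpos : ∃ d, c = star d * d) {δ : ℝ} (hδ : 0 < δ) :
    ∃ u ∈ I, PosC u ∧ (∃ v ∈ I, PosC v ∧ v * u = u) ∧ ‖(1 - u) * c * (1 - u)‖ ≤ 2 * δ := by
  let _ := CStarAlgebra.spectralOrder E
  have := CStarAlgebra.spectralOrderedRing E
  have hc0 : 0 ≤ c := CStarAlgebra.nonneg_iff_eq_star_mul_self.2 hpos
  have hsa : IsSelfAdjoint c := IsSelfAdjoint.of_nonneg hc0
  have hP : ∀ δ' : ℝ, PosC (cfc (g1f δ') c) := by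
    intro δ'
    refine ⟨CStarAlgebra.nonneg_iff_eq_star_mul_self.1 (cfc_nonneg fun t _ => g1f_nonneg δ' t),
      norm_cfc_le (by norm_num) fun t _ => ?_⟩
    rw [Real.norm_of_nonneg (g1f_nonneg δ' t)]
    exact g1f_le_one δ' t
  refine ⟨cfc (g1f δ) c, g1f_mem htwo hc hsa hδ, hP δ, ⟨cfc (g1f (δ / 2)) c,
    g1f_mem htwo hc hsa (half_pos hδ), hP _, ?_⟩, ?_⟩
  · rw [← cfc_mul (g1f (δ / 2)) (g1f δ) c (g1f_cont _).continuousOn (g1f_cont _).continuousOn]
    refine cfc_congr fun t _ => ?_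
    change g1f (δ / 2) t * g1f δ t = g1f δ t
    rcases le_total t δ with h | h
    · rw [g1f_zero hδ h, mul_zero]
    · rw [g1f_one (half_pos hδ) (by linarith), one_mul]
  · have h1 : (1 - cfc (g1f δ) c) * c * (1 - cfc (g1f δ) c) =
        cfc (fun t : ℝ => (1 - g1f δ t) * t * (1 - g1f δ t)) c := by
      have hcont := g1f_cont δ
      have e1 : cfc (fun t : ℝ => 1 - g1f δ t) c = 1 - cfc (g1f δ) c := by
        rw [cfc_sub (fun _ : ℝ => (1 : ℝ)) (g1f δ) c (by fun_prop) hcont.continuousOn,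
          cfc_const_one ℝ c]
      rw [cfc_mul (fun t : ℝ => (1 - g1f δ t) * t) (fun t : ℝ => 1 - g1f δ t) c
        (by fun_prop) (by fun_prop), cfc_mul (fun t : ℝ => 1 - g1f δ t) (fun t : ℝ => t) c
        (by fun_prop) (by fun_prop), e1, cfc_id' ℝ c]
    rw [h1]
    refine norm_cfc_le (by positivity) fun t ht => ?_
    have ht0 : 0 ≤ t := spectrum_nonneg_of_nonneg hc0 ht
    have f0 := g1f_nonneg δ t
    have f1 := g1f_le_one δ t
    have h2 : 0 ≤ (1 - g1f δ t) * t * (1 - g1f δ t) :=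
      mul_nonneg (mul_nonneg (by linarith) ht0) (by linarith)
    rw [Real.norm_of_nonneg h2]
    rcases le_total (2 * δ) t with h | h
    · rw [g1f_one hδ h, sub_self, mul_zero]
      positivity
    · have h3 : (1 - g1f δ t) * t * (1 - g1f δ t) ≤ 1 * t * 1 :=
        mul_le_mul (mul_le_mul_of_nonneg_right (by linarith) ht0) (by linarith) (by linarith)
          (by linarith)
      linarith

/-- G0.1, local units for finite sets -/
theorem exists_unit_fin {I : Ideal E} (hI : GoodIdeal I) (Y : Finset E) (hY : ∀ y ∈ Y, y ∈ I)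
    {ε : ℝ} (hε : 0 < ε) :
    ∃ u ∈ I, PosC u ∧ (∃ v ∈ I, PosC v ∧ v * u = u) ∧
      ∀ y ∈ Y, ‖u * y - y‖ ≤ ε ∧ ‖y * u - y‖ ≤ ε := by
  let _ := CStarAlgebra.spectralOrder E
  have := CStarAlgebra.spectralOrderedRing E
  have htwo := hI.two
  set c : E := ∑ y ∈ Y, (y * star y + star y * y) with hc
  have hcI : c ∈ I := Submodule.sum_mem _ fun y hy =>
    I.add_mem (I.mul_mem_right _ (hY y hy)) (I.mul_mem_left _ (hY y hy))
  have hterm : ∀ y : E, 0 ≤ y * star y + star y * y := fun y =>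
    add_nonneg (mul_star_self_nonneg y) (star_mul_self_nonneg y)
  have hc0 : 0 ≤ c := Finset.sum_nonneg fun y _ => hterm y
  obtain ⟨u, huI, hu, hv, hn⟩ := g1_unit_pos htwo hcI
    (CStarAlgebra.nonneg_iff_eq_star_mul_self.1 hc0) (δ := ε ^ 2 / 2) (by positivity)
  have hsu : star (1 - u) = 1 - u := by rw [star_sub, star_one, hu.star_eq]
  have hn' : ‖(1 - u) * c * (1 - u)‖ ≤ ε ^ 2 := hn.trans (le_of_eq (by ring))
  have key : ∀ w : E, 0 ≤ w → w ≤ c → ‖(1 - u) * w * (1 - u)‖ ≤ ε ^ 2 := by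
    intro w hw0 hwc
    have h1 := star_left_conjugate_le_conjugate hwc (1 - u)
    have h0 := star_left_conjugate_nonneg hw0 (1 - u)
    rw [hsu] at h1 h0
    exact (CStarAlgebra.norm_le_norm_of_nonneg_of_le h0 h1).trans hn'
  refine ⟨u, huI, hu, hv, fun y hy => ?_⟩
  have hle : y * star y + star y * y ≤ c := Finset.single_le_sum (fun y _ => hterm y) hy
  constructor
  · have h1 : u * y - y = - ((1 - u) * y) := by noncomm_ring
    have h2 : ‖(1 - u) * y‖ * ‖(1 - u) * y‖ ≤ ε ^ 2 := by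
      rw [← CStarRing.norm_self_mul_star, star_mul, hsu]
      have h3 : (1 - u) * y * (star y * (1 - u)) = (1 - u) * (y * star y) * (1 - u) := by
        simp only [mul_assoc]
      rw [h3]
      exact key _ (mul_star_self_nonneg y)
        ((le_add_of_nonneg_right (star_mul_self_nonneg y)).trans hle)
    rw [h1, norm_neg]
    exact abs_le_of_sq_le_sq' (by nlinarith [norm_nonneg ((1 - u) * y)]) hε.le |>.2
  · have h1 : y * u - y = - (y * (1 - u)) := by noncomm_ring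
    have h2 : ‖y * (1 - u)‖ * ‖y * (1 - u)‖ ≤ ε ^ 2 := by
      rw [← CStarRing.norm_star_mul_self, star_mul, hsu]
      have h3 : (1 - u) * star y * (y * (1 - u)) = (1 - u) * (star y * y) * (1 - u) := by
        simp only [mul_assoc]
      rw [h3]
      exact key _ (star_mul_self_nonneg y)
        ((le_add_of_nonneg_left (mul_star_self_nonneg y)).trans hle)
    rw [h1, norm_neg]
    exact abs_le_of_sq_le_sq' (by nlinarith [norm_nonneg (y * (1 - u))]) hε.le |>.2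

private theorem g1_norm_average {G : Type v} (K : Finset G) (hK : K.Nonempty) (x : G → E) (y : E)
    {ε : ℝ} (h : ∀ g ∈ K, ‖x g - y‖ ≤ ε) : ‖((K.card : ℂ)⁻¹) • ∑ g ∈ K, x g - y‖ ≤ ε := by
  have hN : (K.card : ℂ) ≠ 0 := by exact_mod_cast hK.card_pos.ne'
  have hN' : (0 : ℝ) < K.card := by exact_mod_cast hK.card_pos
  have h1 : ((K.card : ℂ)⁻¹) • ∑ g ∈ K, x g - y = ((K.card : ℂ)⁻¹) • ∑ g ∈ K, (x g - y) := by
    rw [Finset.sum_sub_distrib, smul_sub, Finset.sum_const, ← Nat.cast_smul_eq_nsmul ℂ,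
      smul_smul, inv_mul_cancel₀ hN, one_smul]
  rw [h1, norm_smul, norm_inv, Complex.norm_natCast]
  have h2 : ‖∑ g ∈ K, (x g - y)‖ ≤ K.card * ε := by
    refine (norm_sum_le _ _).trans ?_
    have := Finset.sum_le_sum h
    rwa [Finset.sum_const, nsmul_eq_mul] at this
  calc (K.card : ℝ)⁻¹ * ‖∑ g ∈ K, (x g - y)‖ ≤ (K.card : ℝ)⁻¹ * (K.card * ε) :=
        mul_le_mul_of_nonneg_left h2 (by positivity)
    _ = ε := by field_simp

/-- almost invariance of averages over Folner sets -/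
private theorem g1_folner {G : Type v} [Group G] (α : G →* (E ≃⋆ₐ[ℂ] E)) (K : Finset G)
    (hK : K.Nonempty) (h : G) {d : ℝ}
    (hd : (Nat.card {g : G // g ∉ K ∧ h⁻¹ * g ∈ K} : ℝ) ≤ d * K.card) (x : E) (hx : ‖x‖ ≤ 1) :
    ‖α h (((K.card : ℂ)⁻¹) • ∑ g ∈ K, α g x) - ((K.card : ℂ)⁻¹) • ∑ g ∈ K, α g x‖ ≤ 2 * d := by
  classical
  have hN : (0 : ℝ) < K.card := by exact_mod_cast hK.card_pos
  set K' : Finset G := K.map (mulLeftEmbedding h) with hK'
  have hmem : ∀ g, g ∈ K' ↔ h⁻¹ * g ∈ K := by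
    intro g
    rw [hK', Finset.mem_map]
    constructor
    · rintro ⟨a, ha, rfl⟩
      change h⁻¹ * (h * a) ∈ K
      rwa [inv_mul_cancel_left]
    · intro hg
      exact ⟨h⁻¹ * g, hg, mul_inv_cancel_left h g⟩
  have hcard : K'.card = K.card := Finset.card_map _
  have e1 : α h (((K.card : ℂ)⁻¹) • ∑ g ∈ K, α g x) = ((K.card : ℂ)⁻¹) • ∑ g ∈ K', α g x := by
    rw [map_smul, map_sum, hK', Finset.sum_map]
    congr 1
    refine Finset.sum_congr rfl fun g _ => ?_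
    change α h (α g x) = α (h * g) x
    rw [map_mul]
    rfl
  have e2 : ∑ g ∈ K', α g x - ∑ g ∈ K, α g x = ∑ g ∈ K' \ K, α g x - ∑ g ∈ K \ K', α g x := by
    rw [← Finset.sum_inter_add_sum_sdiff K' K, ← Finset.sum_inter_add_sum_sdiff K K',
      Finset.inter_comm]
    abel
  have c1 : ((K' \ K).card : ℝ) ≤ d * K.card := by
    refine le_trans (le_of_eq ?_) hd
    have : (K' \ K).card = Nat.card {g : G // g ∉ K ∧ h⁻¹ * g ∈ K} := by
      symm
      refine Nat.subtype_card (K' \ K) fun g => ?_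
      rw [Finset.mem_sdiff, hmem]
      exact and_comm
    rw [this]
  have c2 : (K \ K').card = (K' \ K).card := by
    have h1 := Finset.card_sdiff_add_card_inter K K'
    have h2 := Finset.card_sdiff_add_card_inter K' K
    rw [Finset.inter_comm] at h2
    omega
  have hb : ∀ S : Finset G, ‖∑ g ∈ S, α g x‖ ≤ S.card := by
    intro S
    refine (norm_sum_le _ _).trans ?_
    have h1 : ∑ g ∈ S, ‖α g x‖ ≤ ∑ _g ∈ S, (1 : ℝ) :=
      Finset.sum_le_sum fun g _ => by rw [norm_aut]; exact hx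
    rwa [Finset.sum_const, nsmul_eq_mul, mul_one] at h1
  rw [e1, ← smul_sub, e2, norm_smul, norm_inv, Complex.norm_natCast]
  have h3 : ‖∑ g ∈ K' \ K, α g x - ∑ g ∈ K \ K', α g x‖ ≤ 2 * (d * K.card) := by
    refine (norm_sub_le _ _).trans ?_
    have h4 := hb (K' \ K)
    have h5 := hb (K \ K')
    rw [c2] at h5
    linarith
  calc (K.card : ℝ)⁻¹ * ‖∑ g ∈ K' \ K, α g x - ∑ g ∈ K \ K', α g x‖ ≤
        (K.card : ℝ)⁻¹ * (2 * (d * K.card)) := mul_le_mul_of_nonneg_left h3 (by positivity)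
    _ = 2 * d := by field_simp

/-- G0.1, quasi-central and quasi-invariant local units -/
theorem exists_unit {I : Ideal E} (hI : GoodIdeal I) {G : Type v} [Group G] (hG : FolnerGroup G)
    (α : G →* (E ≃⋆ₐ[ℂ] E)) (hα : ∀ g, ∀ a ∈ I, α g a ∈ I) (Pd : E → Prop)
    (hadd : ∀ x y, Pd x → Pd y → Pd (x + y)) (hsmul : ∀ (c : ℂ) x, Pd x → Pd (c • x))
    (hun : ∀ x ∈ I, (∃ v ∈ I, PosC v ∧ v * x = x) → Pd x) (FF Y : Finset E)
    (hY : ∀ y ∈ Y, y ∈ I) (K : Finset G) {ε : ℝ} (hε : 0 < ε) :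
    ∃ u ∈ I, PosC u ∧ Pd u ∧ (∀ y ∈ Y, ‖u * y - y‖ ≤ ε ∧ ‖y * u - y‖ ≤ ε) ∧
      (∀ b ∈ FF, ‖u * b - b * u‖ ≤ ε) ∧ ∀ g ∈ K, ‖α g u - u‖ ≤ ε := by
  classical
  have htwo := hI.two
  obtain ⟨K', hK'ne, hK'⟩ := hG K (ε / 2) (by positivity)
  choose cc hcc using hI.unitize
  set Y1 : Finset E := Y ∪ FF.image (fun b => b - algebraMap ℂ E (cc b)) with hY1
  have hY1I : ∀ y ∈ Y1, y ∈ I := by
    intro y hy
    rw [hY1, Finset.mem_union, Finset.mem_image] at hy
    rcases hy with hy | ⟨b, -, rfl⟩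
    · exact hY y hy
    · exact hcc b
  obtain ⟨u0, hu0I, hu0, ⟨v0, hv0I, hv0, hv0u⟩, hu0Y⟩ := exists_unit_fin hI
    (K'.biUnion fun g => Y1.image fun y => α g⁻¹ y) (by
      intro y hy
      rw [Finset.mem_biUnion] at hy
      obtain ⟨g, -, hy⟩ := hy
      rw [Finset.mem_image] at hy
      obtain ⟨y', hy', rfl⟩ := hy
      exact hα _ _ (hY1I y' hy')) (ε := ε / 2) (by positivity)
  set u : E := ((K'.card : ℂ)⁻¹) • ∑ g ∈ K', α g u0 with hu
  have hαα : ∀ g y, α g (α g⁻¹ y) = y := by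
    intro g y
    change (α g * α g⁻¹) y = y
    rw [← map_mul, mul_inv_cancel, map_one]
    rfl
  have hsmem : ∀ (c : ℂ) (x : E), x ∈ I → c • x ∈ I := by
    intro c x hx
    rw [Algebra.smul_def]
    exact I.mul_mem_left _ hx
  have hterm : ∀ g, Pd (α g u0) := by
    intro g
    refine hun _ (hα g _ hu0I) ⟨α g v0, hα g _ hv0I, hv0.map (α g : E →⋆ₐ[ℂ] E), ?_⟩
    rw [← map_mul, hv0u]
  have hPsum : ∀ S : Finset G, Pd (∑ g ∈ S, α g u0) := by
    intro S
    induction S using Finset.induction_on with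
    | empty =>
      rw [Finset.sum_empty]
      exact hun 0 I.zero_mem ⟨0, I.zero_mem, PosC.zero, zero_mul 0⟩
    | insert g S hg ih =>
      rw [Finset.sum_insert hg]
      exact hadd _ _ (hterm g) ih
  have hgY : ∀ y ∈ Y1, ‖u * y - y‖ ≤ ε / 2 ∧ ‖y * u - y‖ ≤ ε / 2 := by
    intro y hy
    constructor
    · have h1 : u * y = ((K'.card : ℂ)⁻¹) • ∑ g ∈ K', (α g u0 * y) := by
        rw [hu, smul_mul_assoc, Finset.sum_mul]
      rw [h1]
      refine g1_norm_average K' hK'ne _ y fun g hg => ?_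
      have h2 : α g u0 * y - y = α g (u0 * α g⁻¹ y - α g⁻¹ y) := by
        rw [map_sub, map_mul, hαα]
      rw [h2, norm_aut]
      exact (hu0Y _ (Finset.mem_biUnion.2 ⟨g, hg, Finset.mem_image_of_mem _ hy⟩)).1
    · have h1 : y * u = ((K'.card : ℂ)⁻¹) • ∑ g ∈ K', (y * α g u0) := by
        rw [hu, mul_smul_comm, Finset.mul_sum]
      rw [h1]
      refine g1_norm_average K' hK'ne _ y fun g hg => ?_
      have h2 : y * α g u0 - y = α g (α g⁻¹ y * u0 - α g⁻¹ y) := by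
        rw [map_sub, map_mul, hαα]
      rw [h2, norm_aut]
      exact (hu0Y _ (Finset.mem_biUnion.2 ⟨g, hg, Finset.mem_image_of_mem _ hy⟩)).2
  refine ⟨u, ?_, ?_, ?_, ?_, ?_, ?_⟩
  · exact hsmem _ _ (Submodule.sum_mem _ fun g _ => hα g _ hu0I)
  · exact PosC.average K' hK'ne _ fun g _ => hu0.map (α g : E →⋆ₐ[ℂ] E)
  · exact hsmul _ _ (hPsum K')
  · intro y hy
    obtain ⟨h1, h2⟩ := hgY y (Finset.mem_union_left _ hy)
    exact ⟨h1.trans (by linarith), h2.trans (by linarith)⟩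
  · intro b hb
    obtain ⟨h1, h2⟩ := hgY (b - algebraMap ℂ E (cc b))
      (Finset.mem_union_right _ (Finset.mem_image_of_mem _ hb))
    set y := b - algebraMap ℂ E (cc b) with hy
    have h3 : u * b - b * u = (u * y - y) - (y * u - y) := by
      have hc := Algebra.commutes (cc b) u
      have h4 : b = y + algebraMap ℂ E (cc b) := by rw [hy]; abel
      rw [h4, mul_add, add_mul, hc]
      abel
    rw [h3]
    refine (norm_sub_le _ _).trans ?_
    linarith
  · intro g hg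
    refine (g1_folner α K' hK'ne g (hK' g hg) u0 hu0.2).trans (le_of_eq ?_)
    ring

private theorem g1_dense {S : Set E} {d : ℕ → E} (hd : ∀ x ∈ S, ∀ ε : ℝ, 0 < ε → ∃ k, ‖x - d k‖ < ε)
    (T : ℕ → E → E) (hT : ∀ n x y, T n x = T n y + T n (x - y))
    (hTb : ∀ n x, ‖T n x‖ ≤ 2 * ‖x‖)
    (h : ∀ k, Tendsto (fun n => ‖T n (d k)‖) atTop (𝓝 0)) (x : E) (hx : x ∈ S) :
    Tendsto (fun n => ‖T n x‖) atTop (𝓝 0) := by
  rw [Metric.tendsto_atTop]
  intro ε hε
  obtain ⟨k, hk⟩ := hd x hx (ε / 4) (by positivity)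
  obtain ⟨N, hN⟩ := Metric.tendsto_atTop.1 (h k) (ε / 2) (by positivity)
  refine ⟨N, fun n hn => ?_⟩
  have h1 := hN n hn
  rw [Real.dist_eq, sub_zero, abs_of_nonneg (norm_nonneg _)] at h1 ⊢
  rw [hT n x (d k)]
  have h2 := hTb n (x - d k)
  have h3 := norm_add_le (T n (d k)) (T n (x - d k))
  linarith

private theorem g1_tendsto_of_le {f : ℕ → ℝ} (h0 : ∀ n, 0 ≤ f n) (k : ℕ)
    (h : ∀ n, k ≤ n → f n ≤ 1 / ((n : ℝ) + 1)) : Tendsto f atTop (𝓝 0) := by
  refine squeeze_zero' (Eventually.of_forall h0) ?_ tendsto_one_div_add_atTop_nhds_zero_nat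
  filter_upwards [eventually_ge_atTop k] with n hn
  exact h n hn

/-- G0.2, sequences -/
theorem exists_unitSeq [TopologicalSpace.SeparableSpace E] {I : Ideal E} (hI : GoodIdeal I)
    {G : Type v} [Group G] [Countable G] (hG : FolnerGroup G)
    (α : G →* (E ≃⋆ₐ[ℂ] E)) (hα : ∀ g, ∀ a ∈ I, α g a ∈ I) (Pd : E → Prop)
    (hadd : ∀ x y, Pd x → Pd y → Pd (x + y)) (hsmul : ∀ (c : ℂ) x, Pd x → Pd (c • x))
    (hun : ∀ x ∈ I, (∃ v ∈ I, PosC v ∧ v * x = x) → Pd x)
    (y : ℕ → lp (fun _ : ℕ => E) ∞) (hy : ∀ l n, y l n ∈ I) :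
    ∃ v : lp (fun _ : ℕ => E) ∞, (∀ n, v n ∈ I ∧ PosC (v n) ∧ Pd (v n)) ∧
      (∀ x : E, Tendsto (fun n => ‖v n * x - x * v n‖) atTop (𝓝 0)) ∧
      (∀ a ∈ I, Tendsto (fun n => ‖v n * a - a‖) atTop (𝓝 0) ∧
        Tendsto (fun n => ‖a * v n - a‖) atTop (𝓝 0)) ∧
      (∀ g, Tendsto (fun n => ‖α g (v n) - v n‖) atTop (𝓝 0)) ∧
      ∀ l, Tendsto (fun n => ‖v n * y l n - y l n‖) atTop (𝓝 0) ∧
        Tendsto (fun n => ‖y l n * v n - y l n‖) atTop (𝓝 0) := by
  classical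
  have : SecondCountableTopology E := UniformSpace.secondCountable_of_separable E
  have hneI : Nonempty (I : Set E) := ⟨⟨0, I.zero_mem⟩⟩
  obtain ⟨γ, hγ⟩ := exists_surjective_nat G
  set d : ℕ → E := TopologicalSpace.denseSeq E with hd
  set a : ℕ → (I : Set E) := TopologicalSpace.denseSeq (I : Set E) with ha
  have hdd : ∀ x ∈ (Set.univ : Set E), ∀ ε : ℝ, 0 < ε → ∃ k, ‖x - d k‖ < ε := by
    intro x _ ε hε
    obtain ⟨k, hk⟩ := (TopologicalSpace.denseRange_denseSeq E).exists_dist_lt x hε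
    exact ⟨k, by rwa [dist_eq_norm] at hk⟩
  have had : ∀ x ∈ (I : Set E), ∀ ε : ℝ, 0 < ε → ∃ k, ‖x - (a k : E)‖ < ε := by
    intro x hx ε hε
    obtain ⟨k, hk⟩ := (TopologicalSpace.denseRange_denseSeq (I : Set E)).exists_dist_lt
      ⟨x, hx⟩ hε
    refine ⟨k, ?_⟩
    rw [Subtype.dist_eq, dist_eq_norm] at hk
    exact hk
  have hex : ∀ n : ℕ, ∃ u ∈ I, PosC u ∧ Pd u ∧
      (∀ z ∈ ((Finset.range (n + 1)).image fun l => y l n) ∪
        ((Finset.range (n + 1)).image fun k => (a k : E)),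
        ‖u * z - z‖ ≤ 1 / ((n : ℝ) + 1) ∧ ‖z * u - z‖ ≤ 1 / ((n : ℝ) + 1)) ∧
      (∀ b ∈ (Finset.range (n + 1)).image d, ‖u * b - b * u‖ ≤ 1 / ((n : ℝ) + 1)) ∧
      ∀ g ∈ (Finset.range (n + 1)).image γ, ‖α g u - u‖ ≤ 1 / ((n : ℝ) + 1) := by
    intro n
    refine exists_unit hI hG α hα Pd hadd hsmul hun _ _ ?_ _ (by positivity)
    intro z hz
    rw [Finset.mem_union, Finset.mem_image, Finset.mem_image] at hz
    rcases hz with ⟨l, -, rfl⟩ | ⟨k, -, rfl⟩
    · exact hy l n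
    · exact (a k).2
  choose u huI hu huP huY huF huG using hex
  refine ⟨⟨u, memℓp_infty ⟨1, ?_⟩⟩, fun n => ⟨huI n, hu n, huP n⟩, fun x => ?_,
    fun x hx => ⟨?_, ?_⟩, fun g => ?_, fun l => ⟨?_, ?_⟩⟩
  · rintro _ ⟨n, rfl⟩
    exact (hu n).2
  · refine g1_dense hdd (fun n x => u n * x - x * u n) (fun n x y => by noncomm_ring)
      (fun n x => ?_) (fun k => ?_) x (Set.mem_univ x)
    · have h1 : ‖u n * x‖ ≤ 1 * ‖x‖ :=
        (norm_mul_le _ _).trans (mul_le_mul_of_nonneg_right (hu n).2 (norm_nonneg _))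
      have h2 : ‖x * u n‖ ≤ ‖x‖ * 1 :=
        (norm_mul_le _ _).trans (mul_le_mul_of_nonneg_left (hu n).2 (norm_nonneg _))
      have h3 := norm_sub_le (u n * x) (x * u n)
      linarith
    · exact g1_tendsto_of_le (fun n => norm_nonneg _) k fun n hn =>
        huF n _ (Finset.mem_image_of_mem _ (Finset.mem_range.2 (by omega)))
  · refine g1_dense had (fun n x => u n * x - x) (fun n x y => by noncomm_ring)
      (fun n x => ?_) (fun k => ?_) x hx
    · have h1 : ‖u n * x‖ ≤ 1 * ‖x‖ :=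
        (norm_mul_le _ _).trans (mul_le_mul_of_nonneg_right (hu n).2 (norm_nonneg _))
      have h3 := norm_sub_le (u n * x) x
      linarith
    · exact g1_tendsto_of_le (fun n => norm_nonneg _) k fun n hn =>
        (huY n _ (Finset.mem_union_right _ (Finset.mem_image_of_mem (fun k => (a k : E))
          (Finset.mem_range.2 (by omega))))).1
  · refine g1_dense had (fun n x => x * u n - x) (fun n x y => by noncomm_ring)
      (fun n x => ?_) (fun k => ?_) x hx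
    · have h1 : ‖x * u n‖ ≤ ‖x‖ * 1 :=
        (norm_mul_le _ _).trans (mul_le_mul_of_nonneg_left (hu n).2 (norm_nonneg _))
      have h3 := norm_sub_le (x * u n) x
      linarith
    · exact g1_tendsto_of_le (fun n => norm_nonneg _) k fun n hn =>
        (huY n _ (Finset.mem_union_right _ (Finset.mem_image_of_mem (fun k => (a k : E))
          (Finset.mem_range.2 (by omega))))).2
  · obtain ⟨k, rfl⟩ := hγ g
    exact g1_tendsto_of_le (fun n => norm_nonneg _) k fun n hn =>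
      huG n _ (Finset.mem_image_of_mem _ (Finset.mem_range.2 (by omega)))
  · exact g1_tendsto_of_le (fun n => norm_nonneg _) l fun n hn =>
      (huY n _ (Finset.mem_union_left _ (Finset.mem_image_of_mem (fun l => y l n)
        (Finset.mem_range.2 (by omega))))).1
  · exact g1_tendsto_of_le (fun n => norm_nonneg _) l fun n hn =>
      (huY n _ (Finset.mem_union_left _ (Finset.mem_image_of_mem (fun l => y l n)
        (Finset.mem_range.2 (by omega))))).2

/-- the class in `F` of a sequence as in `exists_unitSeq` -/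
private theorem g1_class [Nontrivial E] {ω : Ultrafilter ℕ}
    (hω : (ω : Filter ℕ) ≤ Filter.cofinite) {I : Ideal E} (w : lp (fun _ : ℕ => E) ∞)
    (hc : ∀ x : E, Tendsto (fun n => ‖w n * x - x * w n‖) atTop (𝓝 0))
    (ha : ∀ a ∈ I, Tendsto (fun n => ‖w n * a - a‖) atTop (𝓝 0) ∧
        Tendsto (fun n => ‖a * w n - a‖) atTop (𝓝 0)) :
    ∃ v : FOmega ω E, toUltrapower ω E w = (v : Ultrapower ω E) ∧ toFA ω I v = 1 := by
  have hω' : (ω : Filter ℕ) ≤ atTop := by rwa [Nat.cofinite_eq_atTop] at hω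
  have hmem : toUltrapower ω E w ∈ centralSeq ω E := by
    refine mem_centralSeq_of_commute ω E fun c => commute_of_eventually ω E fun ε hε => ?_
    filter_upwards [(Metric.tendsto_nhds.1 ((hc c).mono_left hω')) ε hε] with n hn
    rw [Real.dist_eq, sub_zero, abs_of_nonneg (norm_nonneg _)] at hn
    exact hn
  refine ⟨⟨toUltrapower ω E w, hmem⟩, rfl, ?_⟩
  rw [← sub_eq_zero, ← map_one (toFA ω I), ← map_sub, toFA_eq_zero_iff]
  intro a haI
  change (toUltrapower ω E w - 1) * toUltrapower ω E (constSeq E a) = 0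
  rw [← map_one (toUltrapower ω E), ← map_sub, ← map_mul, toUltrapower_eq_zero_iff]
  have h1 := (ha a haI).1.mono_left hω'
  refine h1.congr fun n => ?_
  change ‖w n * a - a‖ = ‖(w n - 1) * a‖
  rw [sub_mul, one_mul]

/-- G0.2, in the central sequence algebra -/
theorem exists_unitF [Nontrivial E] [TopologicalSpace.SeparableSpace E] {ω : Ultrafilter ℕ}
    (hω : (ω : Filter ℕ) ≤ Filter.cofinite) {I : Ideal E} (hI : GoodIdeal I)
    {G : Type v} [Group G] [Countable G] (hG : FolnerGroup G)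
    (α : G →* (E ≃⋆ₐ[ℂ] E)) (hα : ∀ g, ∀ a ∈ I, α g a ∈ I)
    (β : G →* (FOmega ω E ≃⋆ₐ[ℂ] FOmega ω E)) (hβ : ∀ g, Induces ω (α g) (β g)) (Pd : E → Prop)
    (hadd : ∀ x y, Pd x → Pd y → Pd (x + y)) (hsmul : ∀ (c : ℂ) x, Pd x → Pd (c • x))
    (hun : ∀ x ∈ I, (∃ v ∈ I, PosC v ∧ v * x = x) → Pd x)
    (y : ℕ → lp (fun _ : ℕ => E) ∞) (hy : ∀ l n, y l n ∈ I) :
    ∃ (v : FOmega ω E) (w : lp (fun _ : ℕ => E) ∞), toUltrapower ω E w = (v : Ultrapower ω E) ∧
      (∀ n, w n ∈ I ∧ PosC (w n) ∧ Pd (w n)) ∧ (∀ g, β g v = v) ∧ toFA ω I v = 1 ∧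
      (∀ l, (v : Ultrapower ω E) * toUltrapower ω E (y l) = toUltrapower ω E (y l) ∧
        toUltrapower ω E (y l) * (v : Ultrapower ω E) = toUltrapower ω E (y l)) ∧
      ∀ l, ∀ ε : ℝ, 0 < ε → ∀ᶠ n in (ω : Filter ℕ), ‖w n * y l n - y l n‖ < ε ∧
        ‖y l n * w n - y l n‖ < ε := by
  have hω' : (ω : Filter ℕ) ≤ atTop := by rwa [Nat.cofinite_eq_atTop] at hω
  obtain ⟨w, h1, h2, h3, h4, h5⟩ := exists_unitSeq hI hG α hα Pd hadd hsmul hun y hy
  obtain ⟨v, hv, hv1⟩ := g1_class hω w h2 h3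
  have hzero : ∀ z z' : lp (fun _ : ℕ => E) ∞,
      Tendsto (fun n => ‖z n - z' n‖) (ω : Filter ℕ) (𝓝 0) →
      toUltrapower ω E z = toUltrapower ω E z' := by
    intro z z' h
    rw [← sub_eq_zero, ← map_sub, toUltrapower_eq_zero_iff]
    exact h
  refine ⟨v, w, hv, h1, fun g => Subtype.ext ?_, hv1, fun l => ⟨?_, ?_⟩, fun l ε hε => ?_⟩
  · rw [hβ g v w hv, ← hv]
    exact hzero _ _ ((h4 g).mono_left hω')
  · rw [← hv, ← map_mul]
    exact hzero _ _ ((h5 l).1.mono_left hω')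
  · rw [← hv, ← map_mul]
    exact hzero _ _ ((h5 l).2.mono_left hω')
  · filter_upwards [(Metric.tendsto_nhds.1 ((h5 l).1.mono_left hω')) ε hε,
      (Metric.tendsto_nhds.1 ((h5 l).2.mono_left hω')) ε hε] with n hn hn'
    rw [Real.dist_eq, sub_zero, abs_of_nonneg (norm_nonneg _)] at hn hn'
    exact ⟨hn, hn'⟩

private theorem g1_folner_unit : FolnerGroup Unit := by
  intro K₀ ε hε
  refine ⟨{()}, Finset.singleton_nonempty _, fun h _ => ?_⟩
  have : IsEmpty {g : Unit // g ∉ ({()} : Finset Unit) ∧ h⁻¹ * g ∈ ({()} : Finset Unit)} :=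
    ⟨fun g => g.2.1 (by simp)⟩
  rw [Nat.card_of_isEmpty, Nat.cast_zero]
  positivity

/-- every element of `FA` is represented by a central sequence in `I` -/
theorem exists_lift_mem [Nontrivial E] [TopologicalSpace.SeparableSpace E] {ω : Ultrafilter ℕ}
    (hω : (ω : Filter ℕ) ≤ Filter.cofinite) {I : Ideal E} (hI : GoodIdeal I) (x : FA ω I) :
    ∃ (x' : FOmega ω E) (w : lp (fun _ : ℕ => E) ∞),
      toUltrapower ω E w = (x' : Ultrapower ω E) ∧ (∀ n, w n ∈ I) ∧ toFA ω I x' = x := by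
  have htwo := hI.two
  obtain ⟨x0, rfl⟩ := toFA_surjective ω I x
  obtain ⟨w0, hw0⟩ := toUltrapower_surjective ω E (x0 : Ultrapower ω E)
  obtain ⟨w, h1, h2, h3, -, -⟩ := exists_unitSeq hI g1_folner_unit
    (1 : Unit →* (E ≃⋆ₐ[ℂ] E)) (fun _ a ha => ha) (fun _ => True) (fun _ _ _ _ => trivial)
    (fun _ _ _ => trivial) (fun _ _ _ => trivial) (fun _ => 0) (fun _ _ => I.zero_mem)
  obtain ⟨v, hv, hv1⟩ := g1_class hω w h2 h3
  refine ⟨v * x0, w * w0, ?_, fun n => I.mul_mem_right _ (h1 n).1, ?_⟩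
  · rw [map_mul, hv, hw0]
    rfl
  · rw [map_mul, hv1, one_mul]

end P095G
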