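import Vale.Agent.Lib.P095G.GBA

/-!
# P095G, GBB: existence of `a₀, a₁`; elements with a unit are in the Pedersen ideal

`exists_trBase`: `x ∈ I`, `x ≠ 0`, `h = x* x / ‖x* x‖`, `a₀ = cfc (max 0 (2t - 1)) h`, `a₁ = cfc (min 1 (2t)) h`
restricted to `[0,1]` (for `a₁` use `fun t => min 1 (max 0 (2 t))`).  `‖a₀‖ = 1` since `1 = ‖h‖` is in the spectrum
of `h` (or: `‖a₀‖ ≤ 1` and `cfc (1 - ...)`, see `IsSelfAdjoint`/`CStarAlgebra` norm lemmas, e.g.
`CStarAlgebra.norm_mem_spectrum_of_nonneg`).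

`gb_mem`: `P = {p : InIdeal {a₀} p}`; by simplicity (`hI.simple a₀`) there is `p ∈ P` with `‖b₁ - p‖ < 1/4`.
`r = 1 - b₁² + b₁ p b₁`; `1 - r = (b₁² - b₁³) + b₁ (b₁ - p) b₁` has norm `≤ 1/4 + 1/4 < 1`
(`‖b₁ - b₁²‖ ≤ 1/4`), so `r` is a unit (`Units.oneSub` / `isUnit_one_sub_of_norm_lt_one`).  `b₁² b = b` gives
`r b = b₁ p b₁ b = b₁ p b`, `b = r⁻¹ b₁ p b ∈ P`.  Right version: apply the left one to `star b`
(`P` is star closed as `a₀` is self-adjoint) or repeat the proof.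
-/

open scoped ENNReal Topology
open Filter P101 P095E P095F

namespace P095G

universe u

variable {E : Type u} [CStarAlgebra E] {I : Ideal E} {a₀ a₁ : E}

theorem GBB_norm0 [Nontrivial E] {h : E} (hh : ∃ c, h = star c * c) (hn : ‖h‖ = 1) :
    (1 : ℝ) ∈ spectrum ℝ h := by
  let _ := CStarAlgebra.spectralOrder E
  let _ := CStarAlgebra.spectralOrderedRing E
  obtain ⟨c, rfl⟩ := hh
  have h1 := CStarAlgebra.norm_mem_spectrum_of_nonneg (star_mul_self_nonneg c)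
  rwa [hn] at h1

theorem exists_trBase (hI : GoodIdeal I) : ∃ a₀ a₁ : E, TrBase I a₀ a₁ := by
  have := hI.two
  obtain ⟨x, hx, hx0⟩ := hI.nonzero
  have : Nontrivial E := ⟨⟨x, 0, hx0⟩⟩
  have hxn : ‖x‖ ≠ 0 := norm_ne_zero_iff.2 hx0
  set c : E := ((‖x‖⁻¹ : ℝ) : ℂ) • x with hc
  set h : E := star c * c with hh
  have hcI : c ∈ I := by
    have e : c = ((((‖x‖⁻¹ : ℝ) : ℂ) • (1 : E)) * x) := by
      rw [hc, smul_mul_assoc, one_mul]
    rw [e]
    exact I.mul_mem_left _ hx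
  have hhI : h ∈ I := I.mul_mem_left _ hcI
  have hcn : ‖c‖ = 1 := by
    rw [hc, norm_smul, Complex.norm_real, norm_inv, norm_norm, inv_mul_cancel₀ hxn]
  have hhn : ‖h‖ = 1 := by
    rw [hh, CStarRing.norm_star_mul_self, hcn, one_mul]
  have hP : PosC h := ⟨⟨c, rfl⟩, hhn.le⟩
  have hs : IsSelfAdjoint h := hP.isSelfAdjoint
  have hf0 : Continuous fun t : ℝ => max 0 (2 * t - 1) := by fun_prop
  have hf1 : Continuous fun t : ℝ => min 1 (max 0 (2 * t)) := by fun_prop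
  have hP0 : PosC (cfc (fun t : ℝ => max 0 (2 * t - 1)) h) := by
    refine gb_cfc_posC hP _ hf0 fun t h0 h1 => ⟨le_max_left _ _, ?_⟩
    exact max_le zero_le_one (by linarith)
  have hP1 : PosC (cfc (fun t : ℝ => min 1 (max 0 (2 * t))) h) := by
    refine gb_cfc_posC hP _ hf1 fun t h0 h1 => ⟨?_, min_le_left _ _⟩
    exact le_min zero_le_one (le_max_left _ _)
  refine ⟨cfc (fun t : ℝ => max 0 (2 * t - 1)) h, cfc (fun t : ℝ => min 1 (max 0 (2 * t))) h,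
    gb_cfc_mem hI hhI hs _ hf0 (by norm_num), gb_cfc_mem hI hhI hs _ hf1 (by norm_num),
    hP0, hP1, ?_, ?_⟩
  · refine le_antisymm hP0.2 ?_
    have h1 := norm_apply_le_norm_cfc (fun t : ℝ => max 0 (2 * t - 1)) h
      (GBB_norm0 ⟨c, rfl⟩ hhn) hf0.continuousOn hs
    have h2 : ‖max 0 (2 * (1 : ℝ) - 1)‖ = 1 := by norm_num
    rwa [h2] at h1
  · rw [← cfc_mul _ _ h hf1.continuousOn hf0.continuousOn]
    refine cfc_congr fun t _ => ?_
    change min 1 (max 0 (2 * t)) * max 0 (2 * t - 1) = max 0 (2 * t - 1)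
    rcases le_or_gt (2 * t) 1 with h1 | h1
    · rw [max_eq_left (by linarith : 2 * t - 1 ≤ 0), mul_zero]
    · rw [max_eq_right (by linarith : (0 : ℝ) ≤ 2 * t), min_eq_left h1.le, one_mul]

theorem gb_star_mem (hT : TrBase I a₀ a₁) {p : E} (hp : InIdeal {a₀} p) :
    InIdeal {a₀} (star p) := by
  obtain ⟨m, a, y, b, hy, rfl⟩ := hp
  refine ⟨m, fun l => star (b l), fun _ => a₀, fun l => star (a l), fun _ => rfl, ?_⟩
  rw [star_sum]
  refine Finset.sum_congr rfl fun l _ => ?_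
  have h1 : y l = a₀ := hy l
  rw [h1, star_mul, star_mul, hT.pos0.isSelfAdjoint.star_eq, mul_assoc]

theorem gb_mem_of_inIdeal (hI : GoodIdeal I) (hT : TrBase I a₀ a₁) {p : E}
    (hp : InIdeal {a₀} p) : p ∈ I := by
  have := hI.two
  obtain ⟨m, a, y, b, hy, rfl⟩ := hp
  refine Ideal.sum_mem _ fun l _ => ?_
  have h1 : y l = a₀ := hy l
  rw [h1]
  exact I.mul_mem_right _ (I.mul_mem_left _ hT.mem0)

theorem GBB_quarter {b : E} (hb : PosC b) : ‖b - b * b‖ ≤ 1 / 4 := by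
  rcases subsingleton_or_nontrivial E with hE | hE
  · rw [Subsingleton.elim (b - b * b) 0, norm_zero]
    norm_num
  let _ := CStarAlgebra.spectralOrder E
  let _ := CStarAlgebra.spectralOrderedRing E
  have hs := hb.isSelfAdjoint
  have hpos : 0 ≤ b := by
    obtain ⟨⟨c, rfl⟩, -⟩ := hb
    exact star_mul_self_nonneg c
  have e : b - b * b = cfc (fun t : ℝ => t - t * t) b := by
    rw [cfc_sub (fun t : ℝ => t) (fun t : ℝ => t * t) b (by fun_prop) (by fun_prop),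
      cfc_mul (fun t : ℝ => t) (fun t : ℝ => t) b (by fun_prop) (by fun_prop), cfc_id' ℝ b]
  rw [e]
  refine norm_cfc_le (by norm_num) fun t ht => ?_
  have h0 : 0 ≤ t := spectrum_nonneg_of_nonneg hpos ht
  have h1 : t ≤ 1 := by
    have h2 := spectrum.norm_le_norm_of_mem ht
    rw [Real.norm_of_nonneg h0] at h2
    exact h2.trans hb.2
  rw [Real.norm_of_nonneg (by nlinarith)]
  nlinarith [sq_nonneg (t - 1 / 2)]

/-- GB.1: elements of `I` with a unit in `I` are in the algebraic ideal generated by `a₀` -/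
theorem gb_mem (hI : GoodIdeal I) (hT : TrBase I a₀ a₁) {b b₁ : E} (h1 : b₁ ∈ I) (hp : PosC b₁)
    (h : b₁ * b = b) : InIdeal {a₀} b := by
  have ha0 : a₀ ≠ 0 := by
    intro h0
    have h2 := hT.norm0
    rw [h0, norm_zero] at h2
    exact zero_ne_one h2
  obtain ⟨n, x, y, hxy⟩ := hI.simple a₀ hT.mem0 ha0 b₁ h1 (1 / 4) (by norm_num)
  set p : E := ∑ i, x i * a₀ * y i with hpdef
  have hpI : InIdeal {a₀} p := ⟨n, x, fun _ => a₀, y, fun _ => rfl, hpdef⟩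
  set d : E := b₁ * b₁ - b₁ * p * b₁ with hd
  have hdn : ‖d‖ < 1 := by
    have e1 : d = b₁ * (b₁ - b₁ * b₁) + b₁ * (b₁ - p) * b₁ := by
      rw [hd]
      noncomm_ring
    have e2 : ‖b₁ * (b₁ - b₁ * b₁)‖ ≤ 1 / 4 := by
      refine (norm_mul_le _ _).trans ?_
      calc ‖b₁‖ * ‖b₁ - b₁ * b₁‖ ≤ 1 * (1 / 4) :=
            mul_le_mul hp.2 (GBB_quarter hp) (norm_nonneg _) zero_le_one
        _ = 1 / 4 := one_mul _
    have e3 : ‖b₁ * (b₁ - p) * b₁‖ ≤ 1 / 4 := by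
      refine (norm_mul_le _ _).trans ?_
      have e4 : ‖b₁ * (b₁ - p)‖ ≤ 1 / 4 := by
        refine (norm_mul_le _ _).trans ?_
        calc ‖b₁‖ * ‖b₁ - p‖ ≤ 1 * (1 / 4) :=
              mul_le_mul hp.2 hxy.le (norm_nonneg _) zero_le_one
          _ = 1 / 4 := one_mul _
      calc ‖b₁ * (b₁ - p)‖ * ‖b₁‖ ≤ 1 / 4 * 1 :=
            mul_le_mul e4 hp.2 (norm_nonneg _) (by norm_num)
        _ = 1 / 4 := mul_one _
    rw [e1]
    calc ‖b₁ * (b₁ - b₁ * b₁) + b₁ * (b₁ - p) * b₁‖ ≤ 1 / 4 + 1 / 4 :=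
          (norm_add_le _ _).trans (add_le_add e2 e3)
      _ < 1 := by norm_num
  obtain ⟨r, hr⟩ := isUnit_one_sub_of_norm_lt_one hdn
  have hrb : (r : E) * b = b₁ * p * b := by
    rw [hr, hd]
    calc (1 - (b₁ * b₁ - b₁ * p * b₁)) * b = b - b₁ * (b₁ * b) + b₁ * p * (b₁ * b) := by
          noncomm_ring
      _ = b₁ * p * b := by
          rw [h, h, sub_self, zero_add]
  have hb : b = (↑r⁻¹ : E) * (b₁ * p * b) := by
    rw [← hrb, ← mul_assoc, Units.inv_mul, one_mul]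
  rw [hb]
  exact ((hpI.mul_left b₁).mul_right b).mul_left _

theorem gb_mem_right (hI : GoodIdeal I) (hT : TrBase I a₀ a₁) {b b₁ : E} (h1 : b₁ ∈ I)
    (hp : PosC b₁) (h : b * b₁ = b) : InIdeal {a₀} b := by
  have h2 : b₁ * star b = star b := by
    have h3 := congrArg star h
    rwa [star_mul, hp.isSelfAdjoint.star_eq] at h3
  have h4 := gb_star_mem hT (gb_mem hI hT h1 hp h2)
  rwa [star_star] at h4

end P095G
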