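import Vale.Agent.Lib.P095G.GCACore

/-!
# P095G, part GCA, final file: `si_localG`

`u'` from `gca_exists_unit` (`‖u' * w - w‖ ≤ t`), `T = {u' * a * u' : a ∈ insert 1 S}`, `s = u' * s₁` with `s₁` from
`si_coreG`.
-/

open scoped ENNReal Topology
open Filter P101 P095E P095F

namespace P095G

universe u

variable {E : Type u} [CStarAlgebra E] {I : Ideal E}

private theorem gcafinal_bound (T : Finset E) : ∃ C : ℝ, 1 ≤ C ∧ ∀ a ∈ T, ‖a‖ ≤ C := by
  refine ⟨1 + ∑ a ∈ T, ‖a‖, ?_, fun a ha => ?_⟩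
  · have : 0 ≤ ∑ a ∈ T, ‖a‖ := Finset.sum_nonneg fun a _ => norm_nonneg a
    linarith
  · have := Finset.single_le_sum (f := fun a : E => ‖a‖) (fun a _ => norm_nonneg a) ha
    linarith

private theorem gcafinal_cut {u' w a e : E} {C t : ℝ} (hC : 0 ≤ C) (hw : ‖w‖ ≤ 1)
    (hu1 : ‖u'‖ ≤ 1) (he : ‖e‖ ≤ 1) (ha : ‖a‖ ≤ C) (h1 : ‖u' * w - w‖ ≤ t)
    (h2 : ‖w * u' - w‖ ≤ t) : ‖w * (u' * a * u') * w * e - w * a * w * e‖ ≤ 2 * (C * t) := by
  have ht : 0 ≤ t := (norm_nonneg _).trans h1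
  have e1 : w * (u' * a * u') * w * e - w * a * w * e =
      (w * u' - w) * a * (u' * w) * e + w * a * (u' * w - w) * e := by
    noncomm_ring
  have e0 : ‖u' * w‖ ≤ 1 * 1 :=
    (norm_mul_le _ _).trans (mul_le_mul hu1 hw (norm_nonneg _) zero_le_one)
  have e2 : ‖(w * u' - w) * a * (u' * w) * e‖ ≤ t * C * (1 * 1) * 1 :=
    (norm_mul_le _ _).trans (mul_le_mul ((norm_mul_le _ _).trans
      (mul_le_mul ((norm_mul_le _ _).trans (mul_le_mul h2 ha (norm_nonneg _) ht)) e0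
        (norm_nonneg _) (by positivity))) he (norm_nonneg _) (by positivity))
  have e3 : ‖w * a * (u' * w - w) * e‖ ≤ 1 * C * t * 1 :=
    (norm_mul_le _ _).trans (mul_le_mul ((norm_mul_le _ _).trans
      (mul_le_mul ((norm_mul_le _ _).trans (mul_le_mul hw ha (norm_nonneg _) zero_le_one)) h1
        (norm_nonneg _) (by positivity))) he (norm_nonneg _) (by positivity))
  rw [e1]
  refine (norm_add_le _ _).trans ((add_le_add e2 e3).trans (le_of_eq ?_))
  ring

theorem si_localG (hI : GoodIdeal I) (hcp : CPAP E) {a₀ a₁ : E} (hT : TrBase I a₀ a₁)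
    (hvw : VWCG I a₀)
    (hmin : ∀ p ∈ I, star p = p → p * p = p → p ≠ 0 → ¬ ∀ a, ∃ c : ℂ, p * a * p = c • p) :
    SILocalG I a₀ := by
  classical
  have := hI.two
  intro S ε hε b hb hbp w hw hwp
  obtain ⟨C, hC, hCS⟩ := gcafinal_bound (insert 1 S)
  have hC0 : 0 < C := by linarith
  obtain ⟨u', hu'I, hu'p, hu'w⟩ := gca_exists_unit hI hw hwp (ε := ε / (8 * C)) (by positivity)
  have hu's : star u' = u' := by
    obtain ⟨⟨c, hc⟩, -⟩ := hu'p
    rw [hc, star_mul, star_star]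
  have hws : star w = w := by
    obtain ⟨⟨c, hc⟩, -⟩ := hwp
    rw [hc, star_mul, star_star]
  have hwu' : ‖w * u' - w‖ ≤ ε / (8 * C) := by
    rwa [← norm_star, star_sub, star_mul, hu's, hws] at hu'w
  obtain ⟨S₀, δ₀, N, v, hδ₀, hN, hvI, hvp, hmain⟩ := si_coreG hI hcp hT hvw hmin
    ((insert 1 S).image fun a => u' * a * u') (by
      intro a ha
      obtain ⟨a', _, rfl⟩ := Finset.mem_image.1 ha
      exact I.mul_mem_left _ hu'I) (ε := ε / 4) (by positivity) hb hbp hw hwp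
  have hδ : 0 < min δ₀ (ε / (4 * N)) := lt_min hδ₀ (by positivity)
  refine ⟨insert u' S₀, min δ₀ (ε / (4 * N)), v, hδ, hvI, hvp, ?_⟩
  intro f hf hbf hfS
  obtain ⟨η, hη, hmain'⟩ := hmain f hf (by
    have := min_le_left δ₀ (ε / (4 * N))
    linarith) fun a ha => (hfS a (Finset.mem_insert_of_mem ha)).trans (min_le_left _ _)
  refine ⟨η, hη, ?_⟩
  intro e he heS heτ
  obtain ⟨s₁, hs₁N, hs₁a, hs₁f⟩ := hmain' e he
    (fun a ha => (heS a (Finset.mem_insert_of_mem ha)).trans (min_le_left _ _)) heτ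
  have key : ∀ a ∈ insert 1 S, ‖star (u' * s₁) * a * (u' * s₁) - w * a * w * e‖ ≤ ε := by
    intro a ha
    have h1 := hs₁a (u' * a * u') (Finset.mem_image_of_mem (fun a => u' * a * u') ha)
    have h2 : star (u' * s₁) * a * (u' * s₁) = star s₁ * (u' * a * u') * s₁ := by
      rw [star_mul, hu's]
      simp only [mul_assoc]
    have h4 := gcafinal_cut hC0.le hwp.2 hu'p.2 he.2 (hCS a ha) hu'w hwu'
    have h5 : C * (ε / (8 * C)) = ε / 8 := by field_simp
    rw [h5] at h4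
    rw [h2]
    calc _ ≤ ‖star s₁ * (u' * a * u') * s₁ - w * (u' * a * u') * w * e‖ +
          ‖w * (u' * a * u') * w * e - w * a * w * e‖ :=
          norm_sub_le_norm_sub_add_norm_sub _ _ _
      _ ≤ ε := by linarith
  refine ⟨u' * s₁, I.mul_mem_right _ hu'I, fun a ha => key a (Finset.mem_insert_of_mem ha), ?_, ?_⟩
  · have h1 := key 1 (Finset.mem_insert_self _ _)
    rwa [mul_one, mul_one] at h1
  · have h1 : f * (u' * s₁) - u' * s₁ = (f * u' - u' * f) * s₁ + u' * (f * s₁ - s₁) := by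
      noncomm_ring
    have h2 : ‖f * u' - u' * f‖ ≤ ε / (4 * N) :=
      (hfS u' (Finset.mem_insert_self _ _)).trans (min_le_right _ _)
    have h3 : ‖(f * u' - u' * f) * s₁‖ ≤ ε / 4 := by
      refine (norm_mul_le _ _).trans ?_
      calc ‖f * u' - u' * f‖ * ‖s₁‖ ≤ ε / (4 * N) * N :=
            mul_le_mul h2 hs₁N (norm_nonneg _) (by positivity)
        _ = ε / 4 := by field_simp
    have h4 : ‖u' * (f * s₁ - s₁)‖ ≤ ε / 4 := by
      refine (norm_mul_le _ _).trans ?_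
      calc ‖u'‖ * ‖f * s₁ - s₁‖ ≤ 1 * (ε / 4) :=
            mul_le_mul hu'p.2 hs₁f (norm_nonneg _) zero_le_one
        _ = ε / 4 := one_mul _
    rw [h1]
    refine (norm_add_le _ _).trans ?_
    linarith

end P095G
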