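import Vale.Agent.Lib.P095F.CDefs
import Vale.Agent.Lib.P095F.QuotAct
import Vale.Agent.Lib.P101.ZUltra

/-!
# P095 stage 3 (nonunital algebras): set-up

`E` is the unitization of the algebra `A` under study, `I` is `A` as an ideal of `E`.
See `PROOF3.md` (same folder).
-/

open scoped ENNReal Topology
open Filter P101 P095E P095F

namespace P095G

universe u v

section Ideal

variable {E : Type u} [CStarAlgebra E]

/-- `I` is a closed two-sided ideal with `E = I + ℂ 1`, and `I` is simple as a C*-algebra. -/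
structure GoodIdeal (I : Ideal E) : Prop where
  two : I.IsTwoSided
  closed : IsClosed (I : Set E)
  unitize : ∀ x : E, ∃ c : ℂ, x - algebraMap ℂ E c ∈ I
  nonzero : ∃ x ∈ I, x ≠ 0
  simple : ∀ x ∈ I, x ≠ 0 → ∀ y ∈ I, ∀ ε : ℝ, 0 < ε →
    ∃ (n : ℕ) (a b : Fin n → E), ‖y - ∑ i, a i * x * b i‖ < ε

end Ideal

section Ann

variable (ω : Ultrafilter ℕ) {E : Type u} [CStarAlgebra E] [Nontrivial E] (I : Ideal E)

/-- the annihilator of `I` in `F_ω(E)` -/
noncomputable def annF : Ideal (FOmega ω E) where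
  carrier := {x | ∀ a ∈ I, (x : Ultrapower ω E) * ultraConst ω E a = 0}
  add_mem' := by
    intro x y hx hy a ha
    change ((x : Ultrapower ω E) + y) * ultraConst ω E a = 0
    rw [add_mul, hx a ha, hy a ha, add_zero]
  zero_mem' := by
    intro a _
    change (0 : Ultrapower ω E) * ultraConst ω E a = 0
    rw [zero_mul]
  smul_mem' := by
    intro c x hx a ha
    change ((c : Ultrapower ω E) * x) * ultraConst ω E a = 0
    rw [mul_assoc, hx a ha, mul_zero]

theorem mem_annF {x : FOmega ω E} :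
    x ∈ annF ω I ↔ ∀ a ∈ I, (x : Ultrapower ω E) * ultraConst ω E a = 0 := Iff.rfl

/-- elements of `F_ω(E)` commute with constants -/
theorem commute_ultraConst (x : FOmega ω E) (a : E) :
    Commute (x : Ultrapower ω E) (ultraConst ω E a) := by
  have h := (StarSubalgebra.mem_centralizer_iff ℂ).1 x.2 (ultraConst ω E a) ⟨a, rfl⟩
  exact (Commute.symm (h.1 : Commute (ultraConst ω E a) (x : Ultrapower ω E)))

instance annF_isTwoSided : (annF ω I).IsTwoSided where
  mul_mem_of_left := by
    intro x y hx a ha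
    change ((x : Ultrapower ω E) * y) * ultraConst ω E a = 0
    rw [mul_assoc, (commute_ultraConst ω y a).eq, ← mul_assoc, hx a ha, zero_mul]

instance annF_isClosed : IsClosed (annF ω I : Set (FOmega ω E)) := by
  have h : (annF ω I : Set (FOmega ω E)) =
      ⋂ a ∈ I, {x : FOmega ω E | (x : Ultrapower ω E) * ultraConst ω E a = 0} := by
    ext x
    simp only [SetLike.mem_coe, mem_annF, Set.mem_iInter, Set.mem_ofPred_eq]
  rw [h]
  refine isClosed_biInter fun a _ => ?_
  exact isClosed_eq (continuous_subtype_val.mul continuous_const) continuous_const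

/-- Kirchberg's central sequence algebra `F(A) = (A_ω ∩ A') / Ann(A)` of the ideal `I = A` of
`E = A + ℂ 1`. -/
def FA : Type u := FOmega ω E ⧸ annF ω I

set_option warn.classDefReducibility false in
/-- the C*-algebra structure of `FA` -/
noncomputable def faCStar : CStarAlgebra (FA ω I) := quotCStarAlgebra (annF ω I)

noncomputable instance faCStarAlgebra : CStarAlgebra (FA ω I) := faCStar ω I

/-- the quotient map -/
noncomputable def toFA : FOmega ω E →⋆ₐ[ℂ] FA ω I := quotMk (annF ω I)

theorem toFA_surjective : Function.Surjective (toFA ω I) := quotMk_surjective (annF ω I)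

theorem toFA_eq_zero_iff (x : FOmega ω E) : toFA ω I x = 0 ↔ x ∈ annF ω I :=
  quotMk_eq_zero_iff (annF ω I) x

variable {ω I}

theorem annF_invariant {α : E ≃⋆ₐ[ℂ] E} (hα : ∀ a ∈ I, α.symm a ∈ I)
    {b : FOmega ω E ≃⋆ₐ[ℂ] FOmega ω E} (hb : Induces ω α b) (x : FOmega ω E)
    (hx : x ∈ annF ω I) : b x ∈ annF ω I := by
  intro a ha
  obtain ⟨y, hy⟩ := toUltrapower_surjective ω E (x : Ultrapower ω E)
  have h1 := hx (α.symm a) (hα a ha)
  rw [← hy] at h1
  have hc : ∀ c : E, ultraConst ω E c = toUltrapower ω E (constSeq E c) := fun _ => rfl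
  rw [hb x y hy]
  rw [hc, ← map_mul, toUltrapower_eq_zero_iff] at h1 ⊢
  refine h1.congr fun n => ?_
  have h2 : (lpMap (α : E →⋆ₐ[ℂ] E) y * constSeq E a) n = α ((y * constSeq E (α.symm a)) n) := by
    change α (y n) * a = α (y n * α.symm a)
    rw [map_mul, StarAlgEquiv.apply_symm_apply]
  rw [h2, norm_aut]

end Ann

section Act

variable (ω : Ultrafilter ℕ) {E : Type u} [CStarAlgebra E] [Nontrivial E] (I : Ideal E)
  {G : Type v} [Group G] (α : G →* (E ≃⋆ₐ[ℂ] E)) (hα : ∀ g, ∀ a ∈ I, α g a ∈ I)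
  (β : G →* (FOmega ω E ≃⋆ₐ[ℂ] FOmega ω E)) (hβ : ∀ g, Induces ω (α g) (β g))

include hα hβ in
theorem annF_invariant' (g : G) (x : FOmega ω E) (hx : x ∈ annF ω I) : β g x ∈ annF ω I := by
  refine annF_invariant (fun a ha => ?_) (hβ g) x hx
  have h1 : (α g).symm a = α g⁻¹ a := by
    apply (α g).injective
    change (α g) ((α g).symm a) = (α g) (α g⁻¹ a)
    rw [StarAlgEquiv.apply_symm_apply]
    change a = (α g * α g⁻¹) a
    rw [← map_mul, mul_inv_cancel, map_one]
    rfl
  rw [h1]
  exact hα _ a ha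

/-- the action on `FA` -/
noncomputable def faAct : G →* (FA ω I ≃⋆ₐ[ℂ] FA ω I) :=
  quotAct (annF ω I) β (annF_invariant' ω I α hα β hβ)

theorem faAct_toFA (g : G) (x : FOmega ω E) :
    faAct ω I α hα β hβ g (toFA ω I x) = toFA ω I (β g x) :=
  quotAct_mk (annF ω I) β (annF_invariant' ω I α hα β hβ) g x

end Act

end P095G
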