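import Vale.Agent.Lib.P095F.CBInd
import Vale.Agent.Lib.P095G.GDefs

/-!
# P095G, part GC, module Norm: norms in `FA` (G0.3)
-/

open scoped ENNReal Topology
open Filter P101 P095E P095F

namespace P095G

universe u

variable (ω : Ultrafilter ℕ) {E : Type u} [CStarAlgebra E] [Nontrivial E] {I : Ideal E}

/-- constants are embedded isometrically -/
theorem gcnorm_ultraConst (a : E) : ‖ultraConst ω E a‖ = ‖a‖ := by
  refine NonUnitalStarAlgHom.norm_map (ultraConst ω E) ?_ a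
  rw [injective_iff_map_eq_zero]
  intro b hb
  have h1 := (toUltrapower_eq_zero_iff ω E (constSeq E b)).1 hb
  have h2 : (fun n : ℕ => ‖(constSeq E b) n‖) = fun _ => ‖b‖ := rfl
  rw [h2] at h1
  exact norm_eq_zero.1 (tendsto_nhds_unique tendsto_const_nhds h1)

/-- the bump of a positive element of norm one is not zero -/
theorem gcnorm_bump_ne_zero {E : Type u} [CStarAlgebra E] [PartialOrder E]
    [StarOrderedRing E] {p : E} (hp : 0 ≤ p) (hp1 : ‖p‖ = 1) {ε : ℝ} (hε : 0 < ε) :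
    cfc (fun t : ℝ => max (t - (1 - ε)) 0) p ≠ 0 := by
  intro h0
  have hnt : Nontrivial E := ⟨p, 0, fun h => by rw [h, norm_zero] at hp1; exact zero_ne_one hp1⟩
  have h1 : ‖p‖ ∈ spectrum ℝ p := CStarAlgebra.norm_mem_spectrum_of_nonneg hp
  rw [hp1] at h1
  have h2 := cfc_map_spectrum (fun t : ℝ => max (t - (1 - ε)) 0) p hp.isSelfAdjoint
    (by fun_prop)
  rw [h0, spectrum.zero_eq] at h2
  have h3 : max ((1 : ℝ) - (1 - ε)) 0 ∈ ({0} : Set ℝ) := by
    rw [h2]
    exact ⟨1, h1, rfl⟩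
  rw [Set.mem_singleton_iff] at h3
  have h4 : (1 : ℝ) - (1 - ε) ≤ 0 := by
    rw [← h3]
    exact le_max_left _ _
  linarith

/-- Lifts of almost the same norm.  (`P101.quot_exists_lift`, `Submodule.Quotient.norm_mk_lt`.) -/
theorem exists_lift_lt (I : Ideal E) (z : FA ω I) {r : ℝ} (hr : ‖z‖ < r) :
    ∃ x : FOmega ω E, toFA ω I x = z ∧ ‖x‖ < r := by
  obtain ⟨x, h1, h2⟩ := quot_exists_lift (annF ω I) z (sub_pos.2 hr)
  refine ⟨x, h1, h2.trans_le ?_⟩
  have h3 : ‖z‖ + (r - ‖z‖) = r := by ring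
  exact h3.le

/-- `‖x a‖ ≤ ‖toFA x‖ ‖a‖` for `a ∈ I`: replace `x` by a lift of `toFA x` of almost the same norm
(the difference is in `annF`, so the product with `a` does not change). -/
theorem norm_mul_const_le (x : FOmega ω E) {a : E} (ha : a ∈ I) :
    ‖(x : Ultrapower ω E) * ultraConst ω E a‖ ≤ ‖toFA ω I x‖ * ‖a‖ := by
  by_contra hlt
  rw [not_le] at hlt
  have hna : 0 < ‖a‖ := by
    rcases eq_or_ne a 0 with rfl | h0
    · rw [map_zero, mul_zero, norm_zero, norm_zero, mul_zero] at hlt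
      exact absurd hlt (lt_irrefl _)
    · exact norm_pos_iff.2 h0
  obtain ⟨y, hy1, hy2⟩ := exists_lift_lt ω I (toFA ω I x) ((lt_div_iff₀ hna).2 hlt)
  have h1 : x - y ∈ annF ω I := by
    rw [← toFA_eq_zero_iff, map_sub, hy1, sub_self]
  have h2 : ((x : Ultrapower ω E) - (y : Ultrapower ω E)) * ultraConst ω E a = 0 := h1 a ha
  rw [sub_mul, sub_eq_zero] at h2
  have h3 : ‖(x : Ultrapower ω E) * ultraConst ω E a‖ ≤ ‖y‖ * ‖a‖ := by
    rw [h2]
    refine (norm_mul_le _ _).trans_eq ?_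
    rw [gcnorm_ultraConst]
    rfl
  have h4 : ‖y‖ * ‖a‖ < ‖(x : Ultrapower ω E) * ultraConst ω E a‖ := (lt_div_iff₀ hna).1 hy2
  exact absurd (h3.trans_lt h4) (lt_irrefl _)

/-- If `x a = 0` for a nonzero `a ∈ I` then `toFA x = 0`.  For `y ∈ I`, `y ≈ ∑ a_i a b_i`
(`GoodIdeal.simple`) and `x` commutes with constants, so `x y ≈ ∑ a_i x a b_i = 0`. -/
theorem toFA_eq_zero_of_mul (hI : GoodIdeal I) {x : FOmega ω E} {a : E} (ha : a ∈ I) (ha0 : a ≠ 0)
    (h : (x : Ultrapower ω E) * ultraConst ω E a = 0) : toFA ω I x = 0 := by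
  rw [toFA_eq_zero_iff, mem_annF]
  intro y hy
  rw [← norm_le_zero_iff]
  refine le_of_forall_pos_le_add fun ε hε => ?_
  have hx1 : 0 < ‖x‖ + 1 := by positivity
  obtain ⟨n, c, d, hcd⟩ := hI.simple a ha ha0 y hy (ε / (‖x‖ + 1)) (div_pos hε hx1)
  have h1 : (x : Ultrapower ω E) * ultraConst ω E (∑ i, c i * a * d i) = 0 := by
    rw [map_sum, Finset.mul_sum]
    refine Finset.sum_eq_zero fun i _ => ?_
    rw [map_mul, map_mul, ← mul_assoc, ← mul_assoc, (commute_ultraConst ω x (c i)).eq,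
      mul_assoc (ultraConst ω E (c i)), h, mul_zero, zero_mul]
  have h2 : (x : Ultrapower ω E) * ultraConst ω E y =
      (x : Ultrapower ω E) * ultraConst ω E (y - ∑ i, c i * a * d i) := by
    rw [map_sub, mul_sub, h1, sub_zero]
  rw [h2, zero_add]
  refine (norm_mul_le _ _).trans ?_
  rw [gcnorm_ultraConst]
  calc ‖(x : Ultrapower ω E)‖ * ‖y - ∑ i, c i * a * d i‖
      ≤ (‖x‖ + 1) * (ε / (‖x‖ + 1)) := by
        refine mul_le_mul ?_ hcd.le (norm_nonneg _) hx1.le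
        change ‖x‖ ≤ ‖x‖ + 1
        linarith
    _ = ε := by field_simp

/-- `FA` is not zero: `1 * a = a ≠ 0` for a nonzero `a ∈ I`. -/
theorem fa_nontrivial (hI : GoodIdeal I) : Nontrivial (FA ω I) := by
  obtain ⟨a, ha, ha0⟩ := hI.nonzero
  refine ⟨⟨1, 0, fun h => ?_⟩⟩
  have h1 : toFA ω I 1 = 0 := by rw [map_one, h]
  rw [toFA_eq_zero_iff] at h1
  have h2 : (1 : Ultrapower ω E) * ultraConst ω E a = 0 := h1 a ha
  rw [one_mul, ← norm_eq_zero, gcnorm_ultraConst, norm_eq_zero] at h2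
  exact ha0 h2

/-- the bump of an element of a two-sided ideal is in the ideal -/
theorem gcnorm_bump_mem {E : Type u} [CStarAlgebra E] {I : Ideal E} [I.IsTwoSided] {b : E}
    (hb : b ∈ I) (hsa : IsSelfAdjoint b) {ε : ℝ} (hε1 : ε < 1) :
    cfc (fun t : ℝ => max (t - (1 - ε)) 0) b ∈ I := by
  have hpos : ∀ t : ℝ, 0 < max t (1 - ε) := fun t => lt_max_of_lt_right (by linarith)
  have hg : Continuous (fun t : ℝ => max (t - (1 - ε)) 0 / max t (1 - ε)) :=
    Continuous.div (by fun_prop) (by fun_prop) fun t => (hpos t).ne'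
  have h1 : cfc (fun t : ℝ => max (t - (1 - ε)) 0) b =
      b * cfc (fun t : ℝ => max (t - (1 - ε)) 0 / max t (1 - ε)) b := by
    have h2 : cfc (fun t : ℝ => max (t - (1 - ε)) 0) b =
        cfc (fun t : ℝ => t * (max (t - (1 - ε)) 0 / max t (1 - ε))) b := by
      refine cfc_congr fun t _ => ?_
      rcases le_total t (1 - ε) with h | h
      · have h3 : max (t - (1 - ε)) 0 = 0 := max_eq_right (by linarith)
        simp only [h3, zero_div, mul_zero]
      · have h3 : max (t - (1 - ε)) 0 = t - (1 - ε) := max_eq_left (by linarith)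
        have h4 : max t (1 - ε) = t := max_eq_left h
        have h5 : 0 < t := by linarith
        simp only [h3, h4]
        field_simp
    rw [h2, cfc_mul (fun t : ℝ => t) (fun t : ℝ => max (t - (1 - ε)) 0 / max t (1 - ε)) b
      (by fun_prop) hg.continuousOn, cfc_id' ℝ b]
  rw [h1]
  exact I.mul_mem_right _ hb

/-- the case of normalised positive elements -/
theorem gcnorm_pos {E F U Q : Type u} [CStarAlgebra E] [PartialOrder E] [StarOrderedRing E]
    [CStarAlgebra F] [PartialOrder F] [StarOrderedRing F]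
    [CStarAlgebra U] [PartialOrder U] [StarOrderedRing U]
    [CStarAlgebra Q] [PartialOrder Q] [StarOrderedRing Q] {I : Ideal E} [I.IsTwoSided]
    (c : E →⋆ₐ[ℂ] U) (j : F →⋆ₐ[ℂ] U) (π : F →⋆ₐ[ℂ] Q) (hc : ∀ a, ‖c a‖ = ‖a‖)
    (hj : ∀ x, ‖j x‖ = ‖x‖) (hcomm : ∀ x a, Commute (j x) (c a))
    (h1 : ∀ x, π x = 0 → ∀ a ∈ I, j x * c a = 0)
    (h2 : ∀ x, ∀ a ∈ I, a ≠ 0 → j x * c a = 0 → π x = 0)
    {p : F} (hp : 0 ≤ p) (hp1 : ‖π p‖ = 1) {b : E} (hb : b ∈ I) (hb0 : 0 ≤ b)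
    (hb1 : ‖b‖ = 1) : ‖j p * c b‖ = 1 := by
  have hnt : Nontrivial Q := ⟨π p, 0, fun h => by rw [h, norm_zero] at hp1; exact zero_ne_one hp1⟩
  have cπ : Continuous π := map_continuous π
  have cj : Continuous j := map_continuous j
  have cc : Continuous c := map_continuous c
  obtain ⟨p2, hp2⟩ : ∃ p2 : F, p2 = cfc (fun t : ℝ => min t 1) p := ⟨_, rfl⟩
  have hsp : ∀ t ∈ spectrum ℝ p, 0 ≤ t := fun t ht => spectrum_nonneg_of_nonneg hp ht
  have hp20 : 0 ≤ p2 := by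
    rw [hp2]
    exact cfc_nonneg fun t ht => le_min (hsp t ht) zero_le_one
  have hz0 : 0 ≤ π p := map_nonneg π hp
  have hz20 : 0 ≤ π p2 := map_nonneg π hp20
  -- `π p2 = π p`
  have e1 : π p2 = π p := by
    rw [hp2]
    have h3 : π (cfc (fun t : ℝ => min t 1) p) = cfc (fun t : ℝ => min t 1) (π p) :=
      StarAlgHomClass.map_cfc π (fun t : ℝ => min t 1) p (by fun_prop)
        cπ hp.isSelfAdjoint hz0.isSelfAdjoint
    rw [h3]
    have h4 : cfc (fun t : ℝ => min t 1) (π p) = cfc (fun t : ℝ => t) (π p) := by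
      refine cfc_congr fun t ht => ?_
      have h5 : t ≤ 1 := by
        have h6 := spectrum.norm_le_norm_of_mem ht
        rw [hp1] at h6
        exact (le_abs_self t).trans h6
      exact min_eq_left h5
    rw [h4, cfc_id' ℝ (π p)]
  have hn2 : ‖π p2‖ = 1 := by rw [e1, hp1]
  have hp21 : ‖p2‖ = 1 := by
    refine le_antisymm ?_ ?_
    · rw [hp2]
      refine norm_cfc_le zero_le_one fun t ht => ?_
      rw [Real.norm_eq_abs, abs_of_nonneg (le_min (hsp t ht) zero_le_one)]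
      exact min_le_right _ _
    · rw [← hn2]
      exact NonUnitalStarAlgHom.norm_apply_le π p2
  -- the product does not change
  have e2 : j p * c b = j p2 * c b := by
    have h3 := h1 (p - p2) (by rw [map_sub, e1, sub_self]) b hb
    rwa [map_sub, sub_mul, sub_eq_zero] at h3
  rw [e2]
  have hq0 : 0 ≤ c b := map_nonneg c hb0
  have hpU : 0 ≤ j p2 := map_nonneg j hp20
  refine norm_mul_of_bumps hpU hq0 (hcomm p2 b) (by rw [hj, hp21])
    (by rw [hc, hb1]) fun ε hε0 hε1 => ?_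
  have c1 : cfc (fun t : ℝ => max (t - (1 - ε)) 0) (c b) =
      c (cfc (fun t : ℝ => max (t - (1 - ε)) 0) b) :=
    (StarAlgHomClass.map_cfc c (fun t : ℝ => max (t - (1 - ε)) 0) b
      (by fun_prop) cc hb0.isSelfAdjoint hq0.isSelfAdjoint).symm
  have c2 : cfc (fun t : ℝ => max (t - (1 - ε)) 0) (j p2) =
      j (cfc (fun t : ℝ => max (t - (1 - ε)) 0) p2) :=
    (StarAlgHomClass.map_cfc j (fun t : ℝ => max (t - (1 - ε)) 0) p2
      (by fun_prop) cj hp20.isSelfAdjoint hpU.isSelfAdjoint).symm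
  have c3 : π (cfc (fun t : ℝ => max (t - (1 - ε)) 0) p2) =
      cfc (fun t : ℝ => max (t - (1 - ε)) 0) (π p2) :=
    StarAlgHomClass.map_cfc π (fun t : ℝ => max (t - (1 - ε)) 0) p2 (by fun_prop)
      cπ hp20.isSelfAdjoint hz20.isSelfAdjoint
  rw [c1, c2]
  intro h0
  have h3 := h2 _ _ (gcnorm_bump_mem hb hb0.isSelfAdjoint hε1)
    (gcnorm_bump_ne_zero hb0 hb1 hε0) h0
  rw [c3] at h3
  exact gcnorm_bump_ne_zero hz20 hn2 hε0 h3

/-- the abstract form of the norm formula -/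
theorem gcnorm_abs {E F U Q : Type u} [CStarAlgebra E] [CStarAlgebra F] [CStarAlgebra U]
    [CStarAlgebra Q] {I : Ideal E} [I.IsTwoSided]
    (c : E →⋆ₐ[ℂ] U) (j : F →⋆ₐ[ℂ] U) (π : F →⋆ₐ[ℂ] Q) (hc : ∀ a, ‖c a‖ = ‖a‖)
    (hj : ∀ x, ‖j x‖ = ‖x‖) (hcomm : ∀ x a, Commute (j x) (c a))
    (h1 : ∀ x, π x = 0 → ∀ a ∈ I, j x * c a = 0)
    (h2 : ∀ x, ∀ a ∈ I, a ≠ 0 → j x * c a = 0 → π x = 0)
    (x : F) {a : E} (ha : a ∈ I) : ‖j x * c a‖ = ‖π x‖ * ‖a‖ := by
  rcases eq_or_ne a 0 with rfl | ha0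
  · rw [map_zero, mul_zero, norm_zero, norm_zero, mul_zero]
  rcases eq_or_ne (π x) 0 with hx0 | hx0
  · rw [h1 x hx0 a ha, hx0, norm_zero, norm_zero, zero_mul]
  let := CStarAlgebra.spectralOrder E
  let := CStarAlgebra.spectralOrderedRing E
  let := CStarAlgebra.spectralOrder F
  let := CStarAlgebra.spectralOrderedRing F
  let := CStarAlgebra.spectralOrder U
  let := CStarAlgebra.spectralOrderedRing U
  let := CStarAlgebra.spectralOrder Q
  let := CStarAlgebra.spectralOrderedRing Q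
  have hna : 0 < ‖a‖ := norm_pos_iff.2 ha0
  have hnx : 0 < ‖π x‖ := norm_pos_iff.2 hx0
  obtain ⟨N, hN⟩ : ∃ N : ℝ, N = ‖π x‖ := ⟨_, rfl⟩
  rw [← hN] at hnx ⊢
  obtain ⟨b, hb⟩ : ∃ b : E, b = ((‖a‖ * ‖a‖)⁻¹ : ℝ) • (star a * a) := ⟨_, rfl⟩
  obtain ⟨p, hp⟩ : ∃ p : F, p = ((N * N)⁻¹ : ℝ) • (star x * x) := ⟨_, rfl⟩
  have hb0 : 0 ≤ b := by
    rw [hb]
    exact smul_nonneg (by positivity) (star_mul_self_nonneg a)
  have hp0 : 0 ≤ p := by
    rw [hp]
    exact smul_nonneg (by positivity) (star_mul_self_nonneg x)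
  have hb1 : ‖b‖ = 1 := by
    rw [hb, norm_smul, CStarRing.norm_star_mul_self, Real.norm_eq_abs,
      abs_of_nonneg (by positivity)]
    field_simp
  have hp1 : ‖π p‖ = 1 := by
    have h3 : π p = ((N * N)⁻¹ : ℝ) • (star (π x) * π x) := by
      rw [hp, ← map_star, ← map_mul]
      exact map_real_smul π (map_continuous π) _ _
    rw [h3, norm_smul, CStarRing.norm_star_mul_self, Real.norm_eq_abs,
      abs_of_nonneg (by positivity), ← hN]
    field_simp
  have hbI : b ∈ I := by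
    rw [hb]
    have h3 : ((‖a‖ * ‖a‖)⁻¹ : ℝ) • (star a * a) =
        (((‖a‖ * ‖a‖)⁻¹ : ℝ) • star a) * a := by rw [smul_mul_assoc]
    rw [h3]
    exact I.mul_mem_left _ ha
  have hmain := gcnorm_pos c j π hc hj hcomm h1 h2 hp0 hp1 hbI hb0 hb1
  have hx : ∀ e : E, Commute (j x) (c e) := hcomm x
  have hx' : ∀ e : E, Commute (star (j x)) (c e) := fun e => by
    rw [← map_star]
    exact hcomm (star x) e
  have hsq : ‖j x * c a‖ * ‖j x * c a‖ = (N * ‖a‖) * (N * ‖a‖) := by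
    rw [← CStarRing.norm_star_mul_self]
    have e1 : star (j x * c a) * (j x * c a) = ((N * N) * (‖a‖ * ‖a‖) : ℝ) • (j p * c b) := by
      have h3 : j p = ((N * N)⁻¹ : ℝ) • (star (j x) * j x) := by
        rw [hp, ← map_star, ← map_mul]
        exact map_real_smul j (map_continuous j) _ _
      have h4 : c b = ((‖a‖ * ‖a‖)⁻¹ : ℝ) • (star (c a) * c a) := by
        rw [hb, ← map_star, ← map_mul]
        exact map_real_smul c (map_continuous c) _ _
      rw [h3, h4, smul_mul_smul_comm, smul_smul]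
      have h5 : (N * N) * (‖a‖ * ‖a‖) * ((N * N)⁻¹ * (‖a‖ * ‖a‖)⁻¹) = 1 := by
        field_simp
      rw [h5, one_smul, star_mul]
      have h6 : Commute (star (j x)) (star (c a)) := by
        rw [← map_star c]
        exact hx' _
      have h7 : Commute (j x) (star (c a)) := by
        rw [← map_star]
        exact hx _
      rw [← mul_assoc, ← mul_assoc, ← h6.eq, mul_assoc (star (j x)), ← h7.eq,
        ← mul_assoc]
    rw [e1, norm_smul, hmain, mul_one, Real.norm_eq_abs, abs_of_nonneg (by positivity)]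
    ring
  exact (mul_self_inj_of_nonneg (norm_nonneg _) (by positivity)).1 hsq

/-- **Norms in `FA`**: `‖x a‖ = ‖toFA x‖ ‖a‖` for `x ∈ F_ω(E)`, `a ∈ I`.

Proof.  `≤` is `norm_mul_const_le`.  `≥`: `‖x a‖² = ‖(x a)* (x a)‖ = ‖(x* x) (a* a)‖`, so we may assume
that `x ≥ 0`, `a ≥ 0`, and (scaling) `‖toFA x‖ = 1`, `‖a‖ = 1`.  Replacing `x` by `cfc (min t 1) x`
(`toFA` maps it to `cfc (min t 1) (toFA x) = toFA x`, and it does not change the product with `a`,
since the difference is in `annF`) we may assume `‖x‖ = 1` too.  Apply `P095F.norm_mul_of_bumps` to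
`p = x`, `q = ultraConst a` in `Ultrapower ω E`: with `h_ε(t) = max (t - (1 - ε)) 0`,
`h_ε(x) ∈ F_ω(E)` and `toFA (h_ε(x)) = h_ε(toFA x) ≠ 0` (`1` is in the spectrum), `h_ε(a) ∈ I`
(`h_ε 0 = 0`, `I` closed ideal) is `≠ 0`; so the product is `≠ 0` by `toFA_eq_zero_of_mul`.
(`E` may be assumed to have the spectral order: `CStarAlgebra.spectralOrder`.) -/
theorem norm_mul_const (hI : GoodIdeal I) (x : FOmega ω E) {a : E} (ha : a ∈ I) :
    ‖(x : Ultrapower ω E) * ultraConst ω E a‖ = ‖toFA ω I x‖ * ‖a‖ := by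
  have := hI.two
  exact gcnorm_abs (I := I) (ultraConst ω E) (centralSeq ω E).subtype (toFA ω I)
    (gcnorm_ultraConst ω) (fun _ => rfl) (commute_ultraConst ω)
    (fun x hx => (toFA_eq_zero_iff ω I x).1 hx)
    (fun x a ha ha0 h => toFA_eq_zero_of_mul ω hI ha ha0 h) x ha

end P095G
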