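import Vale.Agent.Lib.P095F.CBRe
import Vale.Agent.Lib.P095G.GCNorm

/-!
# P095G, part GC, module Re: the reindexing lemma for `FA`
-/

open scoped ENNReal Topology
open Filter P101 P095E P095F

namespace P095G

universe u

/-- **Reindexing lemma.**  As `P095F.exists_reindexI` (`Lib/P095F/CBRe.lean`, copy the proof) with the
last conclusion replaced.  In the choice of `m n` require
`‖toFA [Y k]‖ ‖C l n * a‖ - 1/(n+1) < ‖Y k j * (C l n * a)‖` for `k, l ≤ n`: as `C l n * a ∈ I`,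
`norm_mul_const` gives `‖[Y k] * const (C l n * a)‖ = ‖toFA [Y k]‖ ‖C l n * a‖`, so this holds for
`ω`-many `j` (`eventually_norm_gt`).  Then `‖[R (Y k)] [C l] a‖ ≥ ‖toFA [Y k]‖ lim ‖C l n * a‖ =
‖toFA [Y k]‖ ‖[C l] a‖` (`le_norm_toUltrapower`, `eventually_norm_gt`). -/
theorem exists_reindexG (ω : Ultrafilter ℕ) {E : Type u} [CStarAlgebra E] [Nontrivial E]
    {I : Ideal E} (hI : GoodIdeal I) {a : E} (ha : a ∈ I) (hω : (ω : Filter ℕ) ≤ Filter.cofinite)
    [TopologicalSpace.SeparableSpace E] {ι κ μ : Type} [Countable ι] [Countable κ] [Countable μ]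
    (X : ι → lp (fun _ : ℕ => E) ∞) (Y : κ → lp (fun _ : ℕ => E) ∞) (x : κ → FOmega ω E)
    (hY : ∀ k, toUltrapower ω E (Y k) = (x k : Ultrapower ω E))
    (C : μ → lp (fun _ : ℕ => E) ∞) :
    ∃ m : ℕ → ℕ,
      (∀ k, ‖toUltrapower ω E (reindex E m (X k))‖ ≤ ‖toUltrapower ω E (X k)‖) ∧
      (∀ k, toUltrapower ω E (reindex E m (Y k)) ∈ centralSeq ω E) ∧
      (∀ k l, Commute (toUltrapower ω E (reindex E m (Y k))) (toUltrapower ω E (C l))) ∧
      (∀ k l, ‖toFA ω I (x k)‖ * ‖toUltrapower ω E (C l) * ultraConst ω E a‖ ≤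
        ‖toUltrapower ω E (reindex E m (Y k)) * toUltrapower ω E (C l) * ultraConst ω E a‖) := by
  classical
  have hYc : ∀ k, toUltrapower ω E (Y k) ∈ centralSeq ω E := fun k => by
    rw [hY k]
    exact (x k).2
  obtain ⟨f, hf⟩ := exists_injective_nat ι
  obtain ⟨g, hg⟩ := exists_injective_nat κ
  obtain ⟨e, he⟩ := exists_injective_nat μ
  have hfin : ∀ {α : Type} (φ : α → ℕ), Function.Injective φ → ∀ n, {k | φ k ≤ n}.Finite := by
    intro α φ hφ n
    exact (Set.finite_Iic n).preimage hφ.injOn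
  let s : ℕ → E := TopologicalSpace.denseSeq E
  have hpos : ∀ n : ℕ, (0 : ℝ) < 1 / ((n : ℝ) + 1) := fun n => by positivity
  have key : ∀ n : ℕ, ∃ j : ℕ,
      (∀ k, f k ≤ n → ‖X k j‖ < ‖toUltrapower ω E (X k)‖ + 1 / ((n : ℝ) + 1)) ∧
      (∀ k, g k ≤ n → ∀ i, i ≤ n → ‖Y k j * s i - s i * Y k j‖ < 1 / ((n : ℝ) + 1)) ∧
      (∀ k, g k ≤ n → ∀ l, e l ≤ n → ‖Y k j * C l n - C l n * Y k j‖ < 1 / ((n : ℝ) + 1)) ∧
      (∀ k, g k ≤ n → ∀ l, e l ≤ n →
        ‖toFA ω I (x k)‖ * ‖C l n * a‖ - 1 / ((n : ℝ) + 1) < ‖Y k j * (C l n * a)‖) := by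
    intro n
    have h1 : ∀ᶠ j in (ω : Filter ℕ), ∀ k ∈ {k | f k ≤ n},
        ‖X k j‖ < ‖toUltrapower ω E (X k)‖ + 1 / ((n : ℝ) + 1) :=
      (Filter.eventually_all_finite (hfin f hf n)).2 fun k _ =>
        eventually_norm_lt ω E (X k) (lt_add_of_pos_right _ (hpos n))
    have h2 : ∀ᶠ j in (ω : Filter ℕ), ∀ k ∈ {k | g k ≤ n}, ∀ i ∈ {i : ℕ | i ≤ n},
        ‖Y k j * s i - s i * Y k j‖ < 1 / ((n : ℝ) + 1) :=
      (Filter.eventually_all_finite (hfin g hg n)).2 fun k _ =>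
        (Filter.eventually_all_finite (Set.finite_Iic n)).2 fun i _ =>
          eventually_comm_lt ω E (hYc k) (s i) (hpos n)
    have h3 : ∀ᶠ j in (ω : Filter ℕ), ∀ k ∈ {k | g k ≤ n}, ∀ l ∈ {l | e l ≤ n},
        ‖Y k j * C l n - C l n * Y k j‖ < 1 / ((n : ℝ) + 1) :=
      (Filter.eventually_all_finite (hfin g hg n)).2 fun k _ =>
        (Filter.eventually_all_finite (hfin e he n)).2 fun l _ =>
          eventually_comm_lt ω E (hYc k) (C l n) (hpos n)
    have h4 : ∀ᶠ j in (ω : Filter ℕ), ∀ k ∈ {k | g k ≤ n}, ∀ l ∈ {l | e l ≤ n},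
        ‖toFA ω I (x k)‖ * ‖C l n * a‖ - 1 / ((n : ℝ) + 1) < ‖Y k j * (C l n * a)‖ :=
      (Filter.eventually_all_finite (hfin g hg n)).2 fun k _ =>
        (Filter.eventually_all_finite (hfin e he n)).2 fun l _ => by
          have h6 : ‖toUltrapower ω E (Y k * constSeq E (C l n * a))‖ =
              ‖toFA ω I (x k)‖ * ‖C l n * a‖ := by
            rw [map_mul, hY k]
            exact norm_mul_const ω hI (x k) (I.mul_mem_left _ ha)
          have h7 := eventually_norm_gt ω (Y k * constSeq E (C l n * a))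
            (r := ‖toFA ω I (x k)‖ * ‖C l n * a‖ - 1 / ((n : ℝ) + 1))
            (by rw [h6]; linarith [hpos n])
          filter_upwards [h7] with j hj
          exact hj
    obtain ⟨j, hj1, hj2, hj3, hj4⟩ := (h1.and (h2.and (h3.and h4))).exists
    exact ⟨j, fun k hk => hj1 k hk, fun k hk i hi => hj2 k hk i hi,
      fun k hk l hl => hj3 k hk l hl, fun k hk l hl => hj4 k hk l hl⟩
  choose m hm1 hm2 hm3 hm4 using key
  have hlarge : ∀ N : ℕ, ∀ᶠ n in (ω : Filter ℕ), N ≤ n := by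
    intro N
    refine hω ?_
    rw [Nat.cofinite_eq_atTop]
    exact eventually_ge_atTop N
  have hsmall : ∀ ε > (0 : ℝ), ∀ᶠ n : ℕ in (ω : Filter ℕ), 1 / ((n : ℝ) + 1) < ε := by
    intro ε hε
    obtain ⟨N, hN⟩ := exists_nat_one_div_lt hε
    filter_upwards [hlarge N] with n hn
    refine lt_of_le_of_lt ?_ hN
    apply one_div_le_one_div_of_le (by positivity)
    have : (N : ℝ) ≤ n := by exact_mod_cast hn
    linarith
  have hre : ∀ (z : lp (fun _ : ℕ => E) ∞) (n : ℕ), reindex E m z n = z (m n) := fun z n => rfl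
  refine ⟨m, ?_, ?_, ?_, ?_⟩
  · intro k
    refine norm_toUltrapower_le ω E _ (norm_nonneg _) fun ε hε => ?_
    filter_upwards [hlarge (f k), hsmall ε hε] with n hn1 hn2
    rw [hre]
    exact (hm1 n k hn1).le.trans (by linarith)
  · intro k
    refine mem_centralSeq_of_commute ω E fun b => commute_of_eventually ω E fun ε hε => ?_
    set M : ℝ := ‖Y k‖ + 1 with hM
    have hM0 : 0 < M := by positivity
    obtain ⟨i, hi⟩ := (TopologicalSpace.denseRange_denseSeq E).exists_dist_lt b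
      (show (0 : ℝ) < ε / (4 * M) by positivity)
    have hi' : ‖b - s i‖ < ε / (4 * M) := by
      rw [← dist_eq_norm]; exact hi
    filter_upwards [hlarge (g k), hlarge i, hsmall (ε / 2) (by positivity)] with n hn1 hn2 hn3
    rw [hre]
    change ‖Y k (m n) * b - b * Y k (m n)‖ < ε
    have h1 := hm2 n k hn1 i hn2
    have h2 : ‖Y k (m n)‖ ≤ M := (lp.norm_apply_le_norm (by simp) (Y k) (m n)).trans (by linarith)
    have h3 : Y k (m n) * b - b * Y k (m n) =
        (Y k (m n) * s i - s i * Y k (m n)) + (Y k (m n) * (b - s i) - (b - s i) * Y k (m n)) := by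
      noncomm_ring
    rw [h3]
    have h4 : ‖Y k (m n) * (b - s i)‖ ≤ M * (ε / (4 * M)) :=
      (norm_mul_le _ _).trans (mul_le_mul h2 hi'.le (norm_nonneg _) hM0.le)
    have h5 : ‖(b - s i) * Y k (m n)‖ ≤ (ε / (4 * M)) * M :=
      (norm_mul_le _ _).trans (mul_le_mul hi'.le h2 (norm_nonneg _) (by positivity))
    have h6 : M * (ε / (4 * M)) = ε / 4 := by field_simp
    have h7 : (ε / (4 * M)) * M = ε / 4 := by field_simp
    calc _ ≤ ‖Y k (m n) * s i - s i * Y k (m n)‖ +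
          ‖Y k (m n) * (b - s i) - (b - s i) * Y k (m n)‖ := norm_add_le _ _
      _ ≤ ‖Y k (m n) * s i - s i * Y k (m n)‖ +
          (‖Y k (m n) * (b - s i)‖ + ‖(b - s i) * Y k (m n)‖) := by
          gcongr
          exact norm_sub_le _ _
      _ < ε := by
          rw [h6] at h4; rw [h7] at h5
          linarith
  · intro k l
    refine commute_of_eventually ω E fun ε hε => ?_
    filter_upwards [hlarge (g k), hlarge (e l), hsmall ε hε] with n hn1 hn2 hn3
    rw [hre]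
    exact (hm3 n k hn1 l hn2).trans hn3
  · intro k l
    have hca : ultraConst ω E a = toUltrapower ω E (constSeq E a) := rfl
    rw [hca, ← map_mul, ← map_mul, ← map_mul]
    refine le_norm_toUltrapower ω _ fun ε hε => ?_
    obtain ⟨a0, ha0⟩ : ∃ a0, a0 = ‖toFA ω I (x k)‖ := ⟨_, rfl⟩
    obtain ⟨b0, hb0⟩ : ∃ b0, b0 = ‖toUltrapower ω E (C l * constSeq E a)‖ := ⟨_, rfl⟩
    have ha : 0 ≤ a0 := ha0 ▸ norm_nonneg _
    have hδ : 0 < ε / (2 * (a0 + 1)) := by positivity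
    have h8 := eventually_norm_gt ω (C l * constSeq E a) (r := b0 - ε / (2 * (a0 + 1)))
      (by rw [← hb0]; linarith)
    filter_upwards [hlarge (g k), hlarge (e l), hsmall (ε / 2) (by positivity), h8]
      with n hn1 hn2 hn3 hn4
    have h9 := hm4 n k hn1 l hn2
    rw [← ha0] at h9 ⊢
    rw [← hb0]
    change a0 * b0 ≤ ‖Y k (m n) * C l n * a‖ + ε
    rw [mul_assoc]
    have h10 : a0 * (b0 - ε / (2 * (a0 + 1))) ≤ a0 * ‖C l n * a‖ :=
      mul_le_mul_of_nonneg_left hn4.le ha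
    have h11 : a0 * (ε / (2 * (a0 + 1))) ≤ ε / 2 := by
      rw [mul_div_assoc', div_le_div_iff₀ (by positivity) (by norm_num)]
      nlinarith
    have h12 : a0 * (b0 - ε / (2 * (a0 + 1))) = a0 * b0 - a0 * (ε / (2 * (a0 + 1))) := by ring
    linarith

end P095G
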