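import Vale.Agent.Lib.P095E.CopiesE
import Vale.Agent.Lib.P095G.GCRe

/-!
# P095G, part GC, module Hom: one equivariant commuting independent copy in `FA`
-/

open scoped ENNReal Topology
open Filter P101 P095E P095F

namespace P095G

universe u

/-- norms in `FA` of elements given by sequences, before and after reindexing -/
theorem gchom_le {ω : Ultrafilter ℕ} {E : Type u} [CStarAlgebra E] [Nontrivial E]
    {I : Ideal E} (hI : GoodIdeal I) {a : E} (ha : a ∈ I) (ha1 : ‖a‖ = 1) {m : ℕ → ℕ}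
    {S : lp (fun _ : ℕ => E) ∞} {w v : FOmega ω E}
    (hw : (w : Ultrapower ω E) = toUltrapower ω E (reindex E m S))
    (hv : (v : Ultrapower ω E) = toUltrapower ω E S)
    (h : ‖toUltrapower ω E (reindex E m (S * constSeq E a))‖ ≤
      ‖toUltrapower ω E (S * constSeq E a)‖) : ‖toFA ω I w‖ ≤ ‖toFA ω I v‖ := by
  have h1 := norm_mul_const ω hI w ha
  have h2 := norm_mul_const ω hI v ha
  rw [ha1, mul_one] at h1 h2
  have h3 : reindex E m (constSeq E a) = constSeq E a := rfl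
  rw [map_mul, map_mul, map_mul, h3, ← hw, ← hv] at h
  rw [← h1, ← h2]
  exact h

/-- `GoodIdeal` gives an element of norm one -/
theorem gchom_unit {E : Type u} [CStarAlgebra E] {I : Ideal E} (hI : GoodIdeal I) :
    ∃ a ∈ I, ‖a‖ = 1 := by
  obtain ⟨a₀, ha₀, ha₀ne⟩ := hI.nonzero
  refine ⟨((‖a₀‖⁻¹ : ℝ) : ℂ) • a₀, ?_, ?_⟩
  · rw [Algebra.smul_def]
    exact I.mul_mem_left _ ha₀
  · rw [norm_smul, Complex.norm_real, norm_inv, norm_norm,
      inv_mul_cancel₀ (norm_ne_zero_iff.2 ha₀ne)]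

/-- **One independent copy in `FA`.**  Adapt the proof of `P095E.exists_hom_commutingE`
(`Lib/P095E/CopiesE.lean`) and `P095F.exists_hom_indep` (`Lib/P095F/CBHom.lean`).

Let `a ∈ I`, `‖a‖ = 1` (normalize a nonzero element of `I`).  By `norm_mul_const`,
`‖toFA x‖ = ‖x a‖` for `x ∈ F_ω(E)`.  `d k` dense in `D`, lifts `x k ∈ F_ω(E)`, sequences `s k`;
`c l` dense in `insert 0 C`, lifts `y l`, sequences `t l`.  Apply `exists_reindexG` with
`X` = the family of all `(s k + s l - s j) * constSeq a`, `(s k * s l - s j) * constSeq a`,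
`(star (s k) - s j) * constSeq a`, `(z i • s k - s j) * constSeq a`, `(s k - s l) * constSeq a`,
`(s k - 1) * constSeq a`, `(lpMap (α i) (s k) - s j) * constSeq a`, `Y = s`, `C = t`.  As
`reindex` is a *-homomorphism fixing `constSeq a`, with `θ₁ k = [R (s k)] ∈ F_ω(E)` and
`θ₀ k = toFA (θ₁ k)`: `‖θ₀ k + θ₀ l - θ₀ j‖ = ‖(θ₁ k + θ₁ l - θ₁ j) a‖ ≤ ‖(x k + x l - x j) a‖ =
‖d k + d l - d j‖`, etc.; `P101.exists_starHom_of_dense` gives `θ`.  Equivariance as in `CopiesE`
with `hbA`; commutation by `toFA`; independence: `‖d k‖ ‖c l‖ = ‖toFA (x k)‖ ‖y l a‖ ≤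
‖θ₁ k y l a‖ = ‖θ₀ k c l‖`, then density. -/
theorem exists_hom_indepG (ω : Ultrafilter ℕ) (hω : (ω : Filter ℕ) ≤ Filter.cofinite)
    {E : Type u} [CStarAlgebra E] [Nontrivial E] [TopologicalSpace.SeparableSpace E]
    {I : Ideal E} (hI : GoodIdeal I)
    {κ : Type} [Countable κ] (α : κ → (E ≃⋆ₐ[ℂ] E))
    (b : κ → (FOmega ω E ≃⋆ₐ[ℂ] FOmega ω E)) (hb : ∀ i, Induces ω (α i) (b i))
    (bA : κ → (FA ω I ≃⋆ₐ[ℂ] FA ω I)) (hbA : ∀ i x, bA i (toFA ω I x) = toFA ω I (b i x))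
    (D : StarSubalgebra ℂ (FA ω I)) (hcl : IsClosed (D : Set (FA ω I)))
    (hsep : TopologicalSpace.IsSeparable (D : Set (FA ω I))) (C : Set (FA ω I))
    (hC : TopologicalSpace.IsSeparable C) :
    ∃ θ : D →⋆ₐ[ℂ] FA ω I, (∀ (d : D), ∀ c ∈ C, Commute (θ d) c) ∧
      (∀ (i : κ) (d e : D), bA i (d : FA ω I) = (e : FA ω I) → bA i (θ d) = θ e) ∧
      ∀ (d : D), ∀ c ∈ C, ‖θ d * c‖ = ‖d‖ * ‖c‖ := by
  have : IsClosed (D : Set (FA ω I)) := hcl
  have : TopologicalSpace.SeparableSpace D := hsep.separableSpace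
  obtain ⟨a, ha, ha1⟩ := gchom_unit hI
  obtain ⟨cc, hcc, hCc⟩ := hC
  obtain ⟨c, hc⟩ : ∃ c : ℕ → FA ω I, insert 0 cc = Set.range c :=
    (hcc.insert 0).exists_eq_range (Set.insert_nonempty 0 cc)
  have hCc' : C ⊆ closure (Set.range c) := by
    rw [← hc]
    exact hCc.trans (closure_mono (Set.subset_insert 0 cc))
  set d : ℕ → D := TopologicalSpace.denseSeq D with hddef
  have hd : DenseRange d := TopologicalSpace.denseRange_denseSeq D
  set z : ℕ → ℂ := TopologicalSpace.denseSeq ℂ with hzdef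
  have hz : DenseRange z := TopologicalSpace.denseRange_denseSeq ℂ
  have hsurj : Function.Surjective (toUltrapower ω E) := quotMk_surjective (cNull ω E)
  choose x hx using fun k : ℕ => toFA_surjective ω I (d k : FA ω I)
  choose y hy using fun l : ℕ => toFA_surjective ω I (c l)
  choose s hs using fun k : ℕ => hsurj (x k : Ultrapower ω E)
  choose t ht using fun l : ℕ => hsurj (y l : Ultrapower ω E)
  let X := Sum.elim (fun p : ℕ × ℕ × ℕ => (s p.1 + s p.2.1 - s p.2.2) * constSeq E a)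
    (Sum.elim (fun p : ℕ × ℕ × ℕ => (s p.1 * s p.2.1 - s p.2.2) * constSeq E a)
    (Sum.elim (fun p : ℕ × ℕ => (star (s p.1) - s p.2) * constSeq E a)
    (Sum.elim (fun p : ℕ × ℕ × ℕ => (z p.1 • s p.2.1 - s p.2.2) * constSeq E a)
    (Sum.elim (fun p : ℕ × ℕ => (s p.1 - s p.2) * constSeq E a)
    (Sum.elim (fun p : ℕ => (s p - 1) * constSeq E a)
      (fun p : κ × ℕ × ℕ =>
        (lpMap (α p.1 : E →⋆ₐ[ℂ] E) (s p.2.1) - s p.2.2) * constSeq E a))))))
  obtain ⟨m, hm1, hm2, hm3, hm4⟩ := exists_reindexG ω hI ha hω X s x hs t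
  let R := reindex E m
  let θ₁ : ℕ → FOmega ω E := fun k => ⟨toUltrapower ω E (R (s k)), hm2 k⟩
  have hθ₁ : ∀ k, (θ₁ k : Ultrapower ω E) = toUltrapower ω E (reindex E m (s k)) := fun _ => rfl
  let θ₀ : ℕ → FA ω I := fun k => toFA ω I (θ₁ k)
  have hθ₀ : ∀ k, θ₀ k = toFA ω I (θ₁ k) := fun _ => rfl
  have hadd : ∀ k l j, ‖θ₀ k + θ₀ l - θ₀ j‖ ≤ ‖d k + d l - d j‖ := by
    intro k l j
    have h1 := gchom_le (w := θ₁ k + θ₁ l - θ₁ j) (v := x k + x l - x j)
      (S := s k + s l - s j) hI ha ha1 (by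
        rw [map_sub, map_add, map_sub, map_add]; rfl) (by
        rw [map_sub, map_add, hs, hs, hs]; rfl) (hm1 (Sum.inl (k, l, j)))
    rw [map_sub, map_add, map_sub, map_add, hx, hx, hx] at h1
    exact h1
  have hmul : ∀ k l j, ‖θ₀ k * θ₀ l - θ₀ j‖ ≤ ‖d k * d l - d j‖ := by
    intro k l j
    have h1 := gchom_le (w := θ₁ k * θ₁ l - θ₁ j) (v := x k * x l - x j)
      (S := s k * s l - s j) hI ha ha1 (by
        rw [map_sub, map_mul, map_sub, map_mul]; rfl) (by
        rw [map_sub, map_mul, hs, hs, hs]; rfl) (hm1 (Sum.inr (Sum.inl (k, l, j))))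
    rw [map_sub, map_mul, map_sub, map_mul, hx, hx, hx] at h1
    exact h1
  have hstar : ∀ k j, ‖star (θ₀ k) - θ₀ j‖ ≤ ‖star (d k) - d j‖ := by
    intro k j
    have h1 := gchom_le (w := star (θ₁ k) - θ₁ j) (v := star (x k) - x j)
      (S := star (s k) - s j) hI ha ha1 (by
        rw [map_sub, map_star, map_sub, map_star]; rfl) (by
        rw [map_sub, map_star, hs, hs]; rfl) (hm1 (Sum.inr (Sum.inr (Sum.inl (k, j)))))
    rw [map_sub, map_star, map_sub, map_star, hx, hx] at h1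
    exact h1
  have hsmul : ∀ i k j, ‖z i • θ₀ k - θ₀ j‖ ≤ ‖z i • d k - d j‖ := by
    intro i k j
    have h1 := gchom_le (w := z i • θ₁ k - θ₁ j) (v := z i • x k - x j)
      (S := z i • s k - s j) hI ha ha1 (by
        rw [map_sub, map_smul, map_sub, map_smul]; rfl) (by
        rw [map_sub, map_smul, hs, hs]; rfl)
      (hm1 (Sum.inr (Sum.inr (Sum.inr (Sum.inl (i, k, j))))))
    rw [map_sub, map_smul, map_sub, map_smul, hx, hx] at h1
    exact h1
  have hsub : ∀ k l, ‖θ₀ k - θ₀ l‖ ≤ ‖d k - d l‖ := by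
    intro k l
    have h1 := gchom_le (w := θ₁ k - θ₁ l) (v := x k - x l)
      (S := s k - s l) hI ha ha1 (by
        rw [map_sub, map_sub]; rfl) (by
        rw [map_sub, hs, hs]; rfl)
      (hm1 (Sum.inr (Sum.inr (Sum.inr (Sum.inr (Sum.inl (k, l)))))))
    rw [map_sub, map_sub, hx, hx] at h1
    exact h1
  have hone : ∀ k, ‖θ₀ k - 1‖ ≤ ‖d k - 1‖ := by
    intro k
    have h1 := gchom_le (w := θ₁ k - 1) (v := x k - 1)
      (S := s k - 1) hI ha ha1 (by
        rw [map_sub, map_one, map_sub, map_one]; rfl) (by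
        rw [map_sub, map_one, hs]; rfl)
      (hm1 (Sum.inr (Sum.inr (Sum.inr (Sum.inr (Sum.inr (Sum.inl k)))))))
    rw [map_sub, map_sub, map_one, hx] at h1
    exact h1
  have hequiv : ∀ i k j, ‖bA i (θ₀ k) - θ₀ j‖ ≤ ‖bA i (d k : FA ω I) - d j‖ := by
    intro i k j
    have h2 : ((b i (θ₁ k) : FOmega ω E) : Ultrapower ω E) =
        toUltrapower ω E (reindex E m (lpMap (α i : E →⋆ₐ[ℂ] E) (s k))) :=
      hb i (θ₁ k) (R (s k)) rfl
    have h3 : ((b i (x k) : FOmega ω E) : Ultrapower ω E) =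
        toUltrapower ω E (lpMap (α i : E →⋆ₐ[ℂ] E) (s k)) :=
      hb i (x k) (s k) (hs k)
    have h1 := gchom_le (w := b i (θ₁ k) - θ₁ j) (v := b i (x k) - x j)
      (S := lpMap (α i : E →⋆ₐ[ℂ] E) (s k) - s j) hI ha ha1 (by
        rw [map_sub, map_sub, ← h2]; rfl) (by
        rw [map_sub, ← h3, hs]; rfl)
      (hm1 (Sum.inr (Sum.inr (Sum.inr (Sum.inr (Sum.inr (Sum.inr (i, k, j))))))))
    rw [map_sub, map_sub, ← hbA, ← hbA, hx, hx] at h1
    exact h1
  obtain ⟨θ, hθc, hθ⟩ := exists_starHom_of_dense (D := D) (F := FA ω I) d hd z hz θ₀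
    hadd hmul hstar hsmul hsub hone
  have hcomm : ∀ k l, Commute (θ₀ k) (c l) := by
    intro k l
    have h1 := hm3 k l
    rw [ht l] at h1
    have h2 : Commute (θ₁ k) (y l) := Subtype.ext h1
    have h3 := h2.map (toFA ω I)
    rw [hy] at h3
    exact h3
  have hlow : ∀ k l, ‖d k‖ * ‖c l‖ ≤ ‖θ₀ k * c l‖ := by
    intro k l
    have h1 := hm4 k l
    have h2 := norm_mul_const ω hI (y l) ha
    have h3 := norm_mul_const ω hI (θ₁ k * y l) ha
    rw [ha1, mul_one] at h2 h3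
    rw [map_mul] at h3
    rw [hx k, ht l, h2, hy] at h1
    rw [hy] at h3
    refine h1.trans ?_
    rw [hθ₀, ← h3]
    exact le_rfl
  refine ⟨θ, ?_, ?_, ?_⟩
  · intro x y hy
    have h2 : ∀ l, Commute (θ x) (c l) := by
      intro l
      refine hd.induction_on (p := fun x => Commute (θ x) (c l)) x ?_ ?_
      · exact isClosed_eq (by fun_prop) (by fun_prop)
      · intro k
        rw [hθ k]
        exact hcomm k l
    have h3 : IsClosed {y : FA ω I | Commute (θ x) y} :=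
      isClosed_eq (by fun_prop) (by fun_prop)
    have h4 : Set.range c ⊆ {y : FA ω I | Commute (θ x) y} := by
      rintro _ ⟨l, rfl⟩
      exact h2 l
    exact (closure_minimal h4 h3) (hCc' hy)
  · intro i x y hxy
    have hbc : Continuous (bA i) := (isometry_aut (bA i)).continuous
    have h1 : ∀ x y : D, ‖bA i (θ x) - θ y‖ ≤ ‖bA i (x : FA ω I) - y‖ := by
      intro x y
      refine hd.induction_on₂ (p := fun x y : D =>
        ‖bA i (θ x) - θ y‖ ≤ ‖bA i (x : FA ω I) - y‖) ?_ ?_ x y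
      · exact isClosed_le
          (((hbc.comp (hθc.comp continuous_fst)).sub (hθc.comp continuous_snd)).norm)
          (((hbc.comp (continuous_subtype_val.comp continuous_fst)).sub
            (continuous_subtype_val.comp continuous_snd)).norm)
      · intro k l
        rw [hθ k, hθ l]
        exact hequiv i k l
    have h2 := h1 x y
    rw [hxy, sub_self, norm_zero] at h2
    exact sub_eq_zero.1 (norm_le_zero_iff.1 h2)
  · intro x y hy
    refine le_antisymm ?_ ?_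
    · refine (norm_mul_le _ _).trans ?_
      exact mul_le_mul_of_nonneg_right (NonUnitalStarAlgHom.norm_apply_le θ x) (norm_nonneg _)
    · have h1 : ∀ x : D, ∀ l, ‖x‖ * ‖c l‖ ≤ ‖θ x * c l‖ := by
        intro x l
        refine hd.induction_on (p := fun x => ‖x‖ * ‖c l‖ ≤ ‖θ x * c l‖) x ?_ ?_
        · exact isClosed_le (by fun_prop) (by fun_prop)
        · intro k
          rw [hθ k]
          exact hlow k l
      have h3 : IsClosed {y : FA ω I | ‖x‖ * ‖y‖ ≤ ‖θ x * y‖} :=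
        isClosed_le (by fun_prop) (by fun_prop)
      have h4 : Set.range c ⊆ {y : FA ω I | ‖x‖ * ‖y‖ ≤ ‖θ x * y‖} := by
        rintro _ ⟨l, rfl⟩
        exact h1 x l
      exact (closure_minimal h4 h3) (hCc' hy)

end P095G
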