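import Vale.Agent.Lib.P095F.CBCopies
import Vale.Agent.Lib.P095G.GCHom

/-!
# P095G, part GC, module Copies: equivariant (independent) copies in `FA` (G0.4)
-/

open scoped ENNReal Topology
open Filter P101 P095E P095F

namespace P095G

universe u v

/-- `FA` has independent equivariant copies.  Same proof as `P095F.hasIndepCopies_FOmega`
(`Lib/P095F/CBCopies.lean`), with `exists_hom_indepG`; `κ = ℕ`, `G` enumerated by a surjection
`ℕ → G`, `bA k = faAct (g k)` (`faAct_toFA`); the empty product has norm `1` by `fa_nontrivial`. -/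
theorem hasIndepCopies_FA (ω : Ultrafilter ℕ) (hω : (ω : Filter ℕ) ≤ Filter.cofinite)
    {E : Type u} [CStarAlgebra E] [Nontrivial E] [TopologicalSpace.SeparableSpace E]
    {I : Ideal E} (hI : GoodIdeal I) {G : Type v} [Group G] [Countable G]
    (α : G →* (E ≃⋆ₐ[ℂ] E)) (hα : ∀ g, ∀ a ∈ I, α g a ∈ I)
    (β : G →* (FOmega ω E ≃⋆ₐ[ℂ] FOmega ω E)) (hβ : ∀ g, Induces ω (α g) (β g)) :
    HasIndepCopies (Set.range (faAct ω I α hα β hβ)) := by
  have hnt : Nontrivial (FA ω I) := fa_nontrivial ω hI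
  obtain ⟨en, hen⟩ := exists_surjective_nat G
  intro D hcl hsep
  have hclD : IsClosed (D : Set (FA ω I)) := hcl
  have hsepD : TopologicalSpace.SeparableSpace D := hsep.separableSpace
  have hcont : ∀ θ : D →⋆ₐ[ℂ] FA ω I, Continuous θ := fun θ =>
    AddMonoidHomClass.continuous_of_bound θ 1 fun a => by
      rw [one_mul]
      exact NonUnitalStarAlgHom.norm_apply_le θ a
  -- one step of the recursion
  have hstep : ∀ C : {C : StarSubalgebra ℂ (FA ω I) //
      TopologicalSpace.IsSeparable (C : Set (FA ω I))},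
      ∃ (θ : D →⋆ₐ[ℂ] FA ω I) (C' : {C : StarSubalgebra ℂ (FA ω I) //
        TopologicalSpace.IsSeparable (C : Set (FA ω I))}),
        C.1 ≤ C'.1 ∧ (∀ d, θ d ∈ C'.1) ∧ (∀ (d : D), ∀ c ∈ C.1, Commute (θ d) c) ∧
        (∀ (i : ℕ) (d e : D), faAct ω I α hα β hβ (en i) (d : FA ω I) = (e : FA ω I) →
          faAct ω I α hα β hβ (en i) (θ d) = θ e) ∧
        ∀ (d : D), ∀ c ∈ C.1, ‖θ d * c‖ = ‖d‖ * ‖c‖ := by
    rintro ⟨C, hC⟩
    obtain ⟨θ, h1, h2, h3⟩ := exists_hom_indepG ω hω hI (fun i : ℕ => α (en i))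
      (fun i : ℕ => β (en i)) (fun i => hβ (en i)) (fun i : ℕ => faAct ω I α hα β hβ (en i))
      (fun i x => faAct_toFA ω I α hα β hβ (en i) x) D hcl hsep (C : Set (FA ω I)) hC
    obtain ⟨C', -, hC's, hle, hR⟩ := cbcop_gen C hC (Set.range θ)
      (TopologicalSpace.isSeparable_range (hcont θ))
    exact ⟨θ, ⟨C', hC's⟩, hle, fun d => hR ⟨d, rfl⟩, h1, h2, h3⟩
  choose th nx hle hmem hcomm hequi hnorm using hstep
  obtain ⟨C0, -, hC0s, -⟩ := exists_closed_separable (F := FA ω I) ∅ Set.countable_empty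
  let sq : ℕ → {C : StarSubalgebra ℂ (FA ω I) //
      TopologicalSpace.IsSeparable (C : Set (FA ω I))} :=
    fun n => Nat.rec ⟨C0, hC0s⟩ (fun _ C => nx C) n
  have hsq : ∀ n, sq (n + 1) = nx (sq n) := fun n => rfl
  have hmono : Monotone fun n => (sq n).1 := by
    refine monotone_nat_of_le_succ fun n => ?_
    rw [hsq n]
    exact hle (sq n)
  have hin : ∀ n d, th (sq n) d ∈ (sq (n + 1)).1 := by
    intro n d
    rw [hsq n]
    exact hmem (sq n) d
  have hlt : ∀ i j, i < j → ∀ d e : D, Commute (th (sq i) d) (th (sq j) e) := by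
    intro i j hij d e
    exact (hcomm (sq j) e _ (hmono (Nat.succ_le_of_lt hij) (hin i d))).symm
  refine ⟨fun n => th (sq n), ?_, ?_, ?_⟩
  · intro i j hij d e
    rcases lt_or_gt_of_ne hij with h1 | h1
    · exact hlt i j h1 d e
    · exact (hlt j i h1 e d).symm
  · intro j s hs d e hde
    obtain ⟨g, rfl⟩ := hs
    obtain ⟨i, rfl⟩ := hen g
    exact hequi (sq j) i d e hde
  · intro n d
    have hP : ∀ n, ((List.range n).map fun j => th (sq j) (d j)).prod ∈ (sq n).1 := by
      intro n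
      induction n with
      | zero =>
        rw [List.range_zero, List.map_nil, List.prod_nil]
        exact one_mem _
      | succ n ih =>
        rw [List.range_succ, List.map_append, List.prod_append, List.map_singleton,
          List.prod_singleton]
        exact mul_mem (hmono n.le_succ ih) (hin n (d n))
    induction n with
    | zero =>
      rw [List.range_zero, List.map_nil, List.prod_nil, Finset.range_zero, Finset.prod_empty,
        norm_one]
    | succ n ih =>
      rw [List.range_succ, List.map_append, List.prod_append, List.map_singleton,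
        List.prod_singleton, ← (hcomm (sq n) (d n) _ (hP n)).eq, hnorm (sq n) (d n) _ (hP n), ih,
        Finset.prod_range_succ, mul_comm]

theorem hasEquivCopies_FA (ω : Ultrafilter ℕ) (hω : (ω : Filter ℕ) ≤ Filter.cofinite)
    {E : Type u} [CStarAlgebra E] [Nontrivial E] [TopologicalSpace.SeparableSpace E]
    {I : Ideal E} (hI : GoodIdeal I) {G : Type v} [Group G] [Countable G]
    (α : G →* (E ≃⋆ₐ[ℂ] E)) (hα : ∀ g, ∀ a ∈ I, α g a ∈ I)
    (β : G →* (FOmega ω E ≃⋆ₐ[ℂ] FOmega ω E)) (hβ : ∀ g, Induces ω (α g) (β g)) :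
    HasEquivCopies (Set.range (faAct ω I α hα β hβ)) := by
  intro D hcl hsep _
  obtain ⟨θ, h1, h2, _⟩ := hasIndepCopies_FA ω hω hI α hα β hβ D hcl hsep
  exact ⟨θ, h1, h2⟩

end P095G
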