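import Vale.Agent.Lib.P095G.GDefs
import Vale.Agent.Lib.P101.Base

/-!
# P095 stage 3: traces on the Pedersen ideal, comparison, the local form of (SI)
-/

open scoped ENNReal Topology
open Filter P101 P095E P095F

namespace P095G

universe u v

variable {E : Type u} [CStarAlgebra E]

/-- positive contractions -/
def PosC (x : E) : Prop := (∃ c, x = star c * c) ∧ ‖x‖ ≤ 1

/-- `a₀`, `a₁` are positive contractions in `I`, `a₀` has norm one and `a₁` is a unit for it. -/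
structure TrBase (I : Ideal E) (a₀ a₁ : E) : Prop where
  mem0 : a₀ ∈ I
  mem1 : a₁ ∈ I
  pos0 : PosC a₀
  pos1 : PosC a₁
  norm0 : ‖a₀‖ = 1
  mul : a₁ * a₀ = a₀

/-- the normalized traces: tracial functionals, positive on the algebraic ideal generated by `a₀`
(the Pedersen ideal; only the values there matter), with value one at `a₀`. -/
def Tr (a₀ : E) : Set (E →ₗ[ℂ] ℂ) :=
  {τ | (∀ p, InIdeal {a₀} p → ∀ x, τ (p * x) = τ (x * p)) ∧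
    (∀ p, InIdeal {a₀} p → (∃ c, p = star c * c) → 0 ≤ (τ p).re ∧ (τ p).im = 0) ∧ τ a₀ = 1}

/-- very weak comparison for the ideal `I` -/
def VWCG (I : Ideal E) (a₀ : E) : Prop :=
  ∀ u, InIdeal {a₀} u → PosC u → ∀ y ∈ I, y ≠ 0 → ∀ ε : ℝ, 0 < ε → ∃ η : ℝ, 0 < η ∧
    ∀ e : E, PosC e → u * e = e → (∀ τ ∈ Tr a₀, (τ e).re ≤ η) →
      ∃ r : E, ‖star r * (star y * y) * r - e‖ ≤ ε

/-- the local form of (SI) for the ideal `I` -/
def SILocalG (I : Ideal E) (a₀ : E) : Prop :=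
  ∀ (S : Finset E) (ε : ℝ), 0 < ε → ∀ b ∈ I, PosC b → ∀ w ∈ I, PosC w →
    ∃ (S' : Finset E) (δ : ℝ) (v : E), 0 < δ ∧ InIdeal {a₀} v ∧ PosC v ∧
      ∀ f : E, PosC f → 1 - δ ≤ ‖b * f * b‖ → (∀ a ∈ S', ‖f * a - a * f‖ ≤ δ) →
        ∃ η : ℝ, 0 < η ∧ ∀ e : E, PosC e → (∀ a ∈ S', ‖e * a - a * e‖ ≤ δ) →
          (∀ τ ∈ Tr a₀, (τ (v * e * v)).re ≤ η) →
            ∃ s ∈ I, (∀ a ∈ S, ‖star s * a * s - w * a * w * e‖ ≤ ε) ∧
              ‖star s * s - w * w * e‖ ≤ ε ∧ ‖f * s - s‖ ≤ ε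

section Fam

variable {G : Type v} [Group G] (α : G →* (E ≃⋆ₐ[ℂ] E))

/-- the states `x ↦ τ(α_g(a₀) x) / τ(α_g(a₀))`, `τ ∈ Tr a₀` -/
def stFam (a₀ : E) (g : G) : Set (E →ₗ[ℂ] ℂ) :=
  {s | ∃ τ ∈ Tr a₀, ∀ x, s x = τ (α g a₀ * x) / τ (α g a₀)}

end Fam

section J

variable (ω : Ultrafilter ℕ) [Nontrivial E] {G : Type v} [Group G] (α : G →* (E ≃⋆ₐ[ℂ] E))

/-- membership in the trace kernel ideal -/
def InJG (a₀ : E) (x : FOmega ω E) : Prop :=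
  ∃ y : lp (fun _ : ℕ => E) ∞, toUltrapower ω E y = (x : Ultrapower ω E) ∧
    ∀ (g : G) (ε : ℝ), 0 < ε → ∀ᶠ n in (ω : Filter ℕ), ∀ s ∈ stFam α a₀ g,
      (s (star (y n) * y n)).re ≤ ε

end J

end P095G
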