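import Vale.Agent.Lib.P095F.CBSeq
import Vale.Agent.Lib.P095G.GTr
import Vale.Agent.Lib.P095G.GCNorm

/-!
# P095G, part GC, module Lift: lifts and representing sequences of elements of `FA`
-/

open scoped ENNReal Topology
open Filter P101 P095E P095F

namespace P095G

universe u

variable (ω : Ultrafilter ℕ) {E : Type u} [CStarAlgebra E] [Nontrivial E] {I : Ideal E}

/-- the abstract form of `exists_posC_lift` -/
theorem gclift_abs {F Q : Type u} [CStarAlgebra F] [CStarAlgebra Q] (π : F →⋆ₐ[ℂ] Q)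
    (hπ : Function.Surjective π) {z : Q} (hz : ∃ c, z = star c * c) (hz1 : ‖z‖ ≤ 1) :
    ∃ x : F, π x = z ∧ (∃ c, x = star c * c) ∧ ‖x‖ ≤ 1 := by
  let := CStarAlgebra.spectralOrder F
  let := CStarAlgebra.spectralOrderedRing F
  let := CStarAlgebra.spectralOrder Q
  let := CStarAlgebra.spectralOrderedRing Q
  obtain ⟨c, hc⟩ := hz
  obtain ⟨d, hd⟩ := hπ c
  obtain ⟨p, hp⟩ : ∃ p : F, p = star d * d := ⟨_, rfl⟩
  have hp0 : 0 ≤ p := by
    rw [hp]
    exact star_mul_self_nonneg d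
  have hpz : π p = z := by rw [hp, map_mul, map_star, hd, ← hc]
  have hz0 : 0 ≤ π p := map_nonneg π hp0
  have cπ : Continuous π := map_continuous π
  have hsp : ∀ t ∈ spectrum ℝ p, 0 ≤ t := fun t ht => spectrum_nonneg_of_nonneg hp0 ht
  have hx0 : 0 ≤ cfc (fun t : ℝ => min t 1) p :=
    cfc_nonneg fun t ht => le_min (hsp t ht) zero_le_one
  refine ⟨cfc (fun t : ℝ => min t 1) p, ?_, ?_, ?_⟩
  · have h3 : π (cfc (fun t : ℝ => min t 1) p) = cfc (fun t : ℝ => min t 1) (π p) :=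
      StarAlgHomClass.map_cfc π (fun t : ℝ => min t 1) p (by fun_prop)
        cπ hp0.isSelfAdjoint hz0.isSelfAdjoint
    rw [h3]
    have h4 : cfc (fun t : ℝ => min t 1) (π p) = cfc (fun t : ℝ => t) (π p) := by
      refine cfc_congr fun t ht => ?_
      have h5 : t ≤ 1 := by
        have hnt : Nontrivial Q := by
          by_contra hcon
          rw [not_nontrivial_iff_subsingleton] at hcon
          rw [spectrum.of_subsingleton] at ht
          exact ht
        have h6 := spectrum.norm_le_norm_of_mem ht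
        rw [hpz] at h6
        exact (le_abs_self t).trans (h6.trans hz1)
      exact min_eq_left h5
    rw [h4, cfc_id' ℝ (π p), hpz]
  · exact CStarAlgebra.nonneg_iff_eq_star_mul_self.1 hx0
  · refine norm_cfc_le zero_le_one fun t ht => ?_
    rw [Real.norm_eq_abs, abs_of_nonneg (le_min (hsp t ht) zero_le_one)]
    exact min_le_right _ _

/-- Positive contractions lift to positive contractions: lift `c` to `d`, and cut `d* d` with
`cfc (fun t => min t 1)` (`StarAlgHomClass.map_cfc`; `z = cfc (min t 1) z` as `‖z‖ ≤ 1`); see the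
proof of `gcnorm_pos` in `GCNorm.lean`. -/
theorem exists_posC_lift {z : FA ω I} (hz : ∃ c, z = star c * c) (hz1 : ‖z‖ ≤ 1) :
    ∃ x : FOmega ω E, toFA ω I x = z ∧ (∃ c, x = star c * c) ∧ ‖x‖ ≤ 1 :=
  gclift_abs (toFA ω I) (toFA_surjective ω I) hz hz1

/-- distances in `FA` are seen along representing sequences after multiplication with `a ∈ I`
(`norm_mul_const_le`, `P101.eventually_norm_lt` for `(y - y') * constSeq E a`) -/
theorem rep_mul_lt {x x' : FOmega ω E} {y y' : lp (fun _ : ℕ => E) ∞}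
    (hy : toUltrapower ω E y = (x : Ultrapower ω E))
    (hy' : toUltrapower ω E y' = (x' : Ultrapower ω E)) {a : E} (ha : a ∈ I) {r : ℝ}
    (h : ‖toFA ω I x - toFA ω I x'‖ * ‖a‖ < r) :
    ∀ᶠ n in (ω : Filter ℕ), ‖(y n - y' n) * a‖ < r := by
  have h1 : ‖toUltrapower ω E ((y - y') * constSeq E a)‖ < r := by
    rw [map_mul, map_sub, hy, hy']
    have h2 := norm_mul_const_le ω (x - x') ha
    rw [map_sub] at h2
    exact lt_of_le_of_lt h2 h
  exact eventually_norm_lt ω E ((y - y') * constSeq E a) h1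

/-- equality in `FA` from representing sequences, multiplied by one nonzero element of `I`
(`toFA_eq_zero_of_mul`, `P101.toUltrapower_eq_zero_iff`) -/
theorem toFA_eq_of_rep (hI : GoodIdeal I) {x x' : FOmega ω E} {y y' : lp (fun _ : ℕ => E) ∞}
    (hy : toUltrapower ω E y = (x : Ultrapower ω E))
    (hy' : toUltrapower ω E y' = (x' : Ultrapower ω E)) {a : E} (ha : a ∈ I) (ha0 : a ≠ 0)
    (h : ∀ ε : ℝ, 0 < ε → ∀ᶠ n in (ω : Filter ℕ), ‖(y n - y' n) * a‖ ≤ ε) :
    toFA ω I x = toFA ω I x' := by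
  rw [← sub_eq_zero, ← map_sub]
  refine toFA_eq_zero_of_mul ω hI ha ha0 ?_
  have h1 : toUltrapower ω E ((y - y') * constSeq E a) = 0 := by
    rw [toUltrapower_eq_zero_iff, Metric.tendsto_nhds]
    intro ε hε
    filter_upwards [h (ε / 2) (by positivity)] with n hn
    rw [dist_zero_right, norm_norm]
    change ‖(y n - y' n) * a‖ < ε
    linarith
  rw [map_mul, map_sub, hy, hy'] at h1
  exact h1

/-- lower bounds for norms are seen along the ultrafilter (proof: see `cbseq_gt` in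
`Lib/P095F/CBSeq.lean`) -/
theorem eventually_norm_gt (z : lp (fun _ : ℕ => E) ∞) {r : ℝ} (hr : r < ‖toUltrapower ω E z‖) :
    ∀ᶠ n in (ω : Filter ℕ), r < ‖z n‖ := by
  by_contra hcon
  have h1 : ∀ᶠ n in (ω : Filter ℕ), ¬ r < ‖z n‖ := Ultrafilter.eventually_not.2 hcon
  have h2 : 0 ≤ r := by
    obtain ⟨n, hn⟩ := h1.exists
    exact (norm_nonneg (z n)).trans (not_lt.1 hn)
  have h3 : ‖toUltrapower ω E z‖ ≤ r := by
    refine norm_toUltrapower_le ω E z h2 fun ε hε => ?_
    filter_upwards [h1] with n hn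
    exact (not_lt.1 hn).trans (by linarith)
  linarith

/-- A positive element of norm one of `FA` is represented by positive contractions `y n` with
`‖a₀ y_n a₀‖ → 1`.  (`exists_posC_lift`, `P095F.exists_rep_pos`, and
`‖a₀ x a₀‖ = ‖x (a₀ a₀)‖ = ‖toFA x‖ ‖a₀ a₀‖ = 1` by `norm_mul_const`, `commute_ultraConst`;
`eventually_norm_gt`.) -/
theorem exists_rep_oneG (hI : GoodIdeal I) {a₀ a₁ : E} (hb : TrBase I a₀ a₁) {z : FA ω I}
    (hz : ∃ c, z = star c * c) (hz1 : ‖z‖ = 1) :
    ∃ (x : FOmega ω E) (y : lp (fun _ : ℕ => E) ∞), toFA ω I x = z ∧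
      toUltrapower ω E y = (x : Ultrapower ω E) ∧ (∀ n, PosC (y n)) ∧
      ∀ δ : ℝ, 0 < δ → ∀ᶠ n in (ω : Filter ℕ), 1 - δ ≤ ‖a₀ * y n * a₀‖ := by
  obtain ⟨x, hx1, hx2, hx3⟩ := exists_posC_lift ω hz hz1.le
  obtain ⟨y, hy1, hy2, hy3⟩ := exists_rep_pos ω hx2 hx3
  refine ⟨x, y, hx1, hy1, fun n => ⟨hy2 n, hy3 n⟩, fun δ hδ => ?_⟩
  have hsa : star a₀ = a₀ := by
    obtain ⟨c, hc⟩ := hb.pos0.1
    rw [hc, star_mul, star_star]
  have hn : ‖a₀ * a₀‖ = 1 := by
    have h1 := CStarRing.norm_star_mul_self (x := a₀)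
    rw [hsa, hb.norm0, mul_one] at h1
    exact h1
  have h2 : toUltrapower ω E (constSeq E a₀ * y * constSeq E a₀) =
      (x : Ultrapower ω E) * ultraConst ω E (a₀ * a₀) := by
    have h3 : toUltrapower ω E (constSeq E a₀) = ultraConst ω E a₀ := rfl
    rw [map_mul, map_mul, hy1, h3, map_mul, ← mul_assoc, (commute_ultraConst ω x a₀).eq]
  have h3 : ‖toUltrapower ω E (constSeq E a₀ * y * constSeq E a₀)‖ = 1 := by
    rw [h2, norm_mul_const ω hI x (I.mul_mem_left a₀ hb.mem0), hx1, hz1, hn, mul_one]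
  have h4 : 1 - δ < ‖toUltrapower ω E (constSeq E a₀ * y * constSeq E a₀)‖ := by
    rw [h3]
    linarith
  filter_upwards [eventually_norm_gt ω (constSeq E a₀ * y * constSeq E a₀) h4] with n hn
  exact hn.le

end P095G
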