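import Vale.Agent.Lib.P095F.CBInv
import Vale.Agent.Lib.P095G.GCLift

/-!
# P095G, part GC, module Inv: exact invariance in `FA` by the epsilon test
-/

open scoped ENNReal Topology
open Filter P101 P095E P095F

namespace P095G

universe u v

/-- **Exact invariance.**

Proof: adapt the proof of `P095F.exists_inv` (file `P095F/CBInv.lean`).  `xe` a lift of `e`
(`toFA_surjective`), `ye` a representing sequence (`P095F.exists_rep`), `0 < ‖a₀‖` (say `‖a₀‖ = 1`).
`eps_test` with `B = {s : Fin 2 → E // ∀ i, ‖s i‖ ≤ 2}` and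
`∑ i j, ‖(star (s i) * s j - de i j n) * a₀‖ + ∑ i, ‖s i * a k - a k * s i‖ +
  ∑ i, ‖(α (g k) (s i) - s i) * a₀‖`.  Hypothesis of `eps_test`: `h` for `{g 0, …, g m}`;
lifts `x i` of `s' i` with `‖x i‖ < 2` (`exists_lift_lt`, `‖s' i‖ ≤ 1`), representing sequences; `rep_mul_lt`
(`toFA (β g (x i)) = faAct g (s' i)` by `faAct_toFA`).  The resulting sequences define elements of `F` by
`P095F.exists_of_seq`, and `toFA_eq_of_rep` gives the relations in `FA`. -/
theorem exists_invG (ω : Ultrafilter ℕ) (hω : (ω : Filter ℕ) ≤ Filter.cofinite)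
    {E : Type u} [CStarAlgebra E] [Nontrivial E] [TopologicalSpace.SeparableSpace E]
    {I : Ideal E} (hI : GoodIdeal I) {a₀ : E} (ha₀ : a₀ ∈ I) (hn₀ : ‖a₀‖ = 1)
    {G : Type v} [Group G] [Countable G] (α : G →* (E ≃⋆ₐ[ℂ] E)) (hα : ∀ g, ∀ a ∈ I, α g a ∈ I)
    (β : G →* (FOmega ω E ≃⋆ₐ[ℂ] FOmega ω E)) (hβ : ∀ g, Induces ω (α g) (β g))
    {e : FA ω I} (hen : ‖e‖ ≤ 1)
    (h : ∀ (K₀ : Finset G) (ε : ℝ), 0 < ε → ∃ s : Fin 2 → FA ω I,
      (∀ i j, star (s i) * s j = if i = j then e else 0) ∧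
        ∀ g ∈ K₀, ∀ i, ‖faAct ω I α hα β hβ g (s i) - s i‖ ≤ ε) :
    ∃ s : Fin 2 → FA ω I, (∀ i g, faAct ω I α hα β hβ g (s i) = s i) ∧
      ∀ i j, star (s i) * s j = if i = j then e else 0 := by
  classical
  have hne : a₀ ≠ 0 := by
    intro h0
    rw [h0, norm_zero] at hn₀
    exact zero_ne_one hn₀
  obtain ⟨xe, hxe⟩ := toFA_surjective ω I e
  obtain ⟨ye, hye⟩ := exists_rep ω xe
  let a : ℕ → E := TopologicalSpace.denseSeq E
  have hda : DenseRange a := TopologicalSpace.denseRange_denseSeq E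
  obtain ⟨g, hg⟩ := exists_surjective_nat G
  let de : Fin 2 → Fin 2 → lp (fun _ : ℕ => E) ∞ := fun i j => if i = j then ye else 0
  let xd : Fin 2 → Fin 2 → FOmega ω E := fun i j => if i = j then xe else 0
  have hde : ∀ i j, toUltrapower ω E (de i j) = ((xd i j : FOmega ω E) : Ultrapower ω E) := by
    intro i j
    by_cases hij : i = j
    · simp only [de, xd, if_pos hij]
      exact hye
    · simp only [de, xd, if_neg hij, map_zero]
      rfl
  have hxd : ∀ i j, toFA ω I (xd i j) = if i = j then e else 0 := by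
    intro i j
    by_cases hij : i = j
    · simp only [xd, if_pos hij]
      exact hxe
    · simp only [xd, if_neg hij, map_zero]
  let B : Type u := {s : Fin 2 → E // ∀ i, ‖s i‖ ≤ 2}
  let f : ℕ → ℕ → B → ℝ := fun k n s =>
    (∑ i, ∑ j, ‖(star (s.1 i) * s.1 j - de i j n) * a₀‖) + (∑ i, ‖s.1 i * a k - a k * s.1 i‖) +
      ∑ i, ‖(α (g k) (s.1 i) - s.1 i) * a₀‖
  obtain ⟨s, hs⟩ := eps_test hω f (by
    intro m ε hε
    have hε8 : 0 < ε / 16 := by positivity
    obtain ⟨z, hz1, hz2⟩ := h ((Finset.range (m + 1)).image g) (ε / 32) (by positivity)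
    have hzn : ∀ i, ‖z i‖ < 2 := by
      intro i
      have h1 : ‖z i‖ * ‖z i‖ ≤ 1 := by
        rw [← CStarRing.norm_star_mul_self, hz1 i i, if_pos rfl]
        exact hen
      nlinarith [norm_nonneg (z i)]
    choose x hxz hxn using fun i => exists_lift_lt ω I (z i) (hzn i)
    choose y hy using fun i => exists_rep ω (x i)
    have hyn : ∀ᶠ n in (ω : Filter ℕ), ∀ i, ‖y i n‖ ≤ 2 := by
      rw [Filter.eventually_all]
      intro i
      have h1 : ‖toUltrapower ω E (y i)‖ < 2 := by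
        rw [hy i]
        exact hxn i
      filter_upwards [eventually_norm_lt ω E _ h1] with n hn
      exact hn.le
    have hyp : ∀ᶠ n in (ω : Filter ℕ), ∀ i j,
        ‖(star (y i n) * y j n - de i j n) * a₀‖ ≤ ε / 16 := by
      rw [Filter.eventually_all]
      intro i
      rw [Filter.eventually_all]
      intro j
      have h1 : toUltrapower ω E (star (y i) * y j) =
          ((star (x i) * x j : FOmega ω E) : Ultrapower ω E) := by
        rw [map_mul, map_star, hy, hy]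
        rfl
      have h2 : ‖toFA ω I (star (x i) * x j) - toFA ω I (xd i j)‖ * ‖a₀‖ < ε / 16 := by
        rw [hxd, map_mul, map_star, hxz, hxz, hz1 i j, sub_self, norm_zero, zero_mul]
        exact hε8
      filter_upwards [rep_mul_lt ω h1 (hde i j) ha₀ h2] with n hn
      exact hn.le
    have hya : ∀ᶠ n in (ω : Filter ℕ), ∀ k ∈ Finset.range (m + 1), ∀ i,
        ‖y i n * a k - a k * y i n‖ ≤ ε / 16 := by
      rw [Filter.eventually_all_finset]
      intro k _
      rw [Filter.eventually_all]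
      intro i
      exact rep_comm ω (hy i) (a k) hε8
    have hyg : ∀ᶠ n in (ω : Filter ℕ), ∀ k ∈ Finset.range (m + 1), ∀ i,
        ‖(α (g k) (y i n) - y i n) * a₀‖ ≤ ε / 16 := by
      rw [Filter.eventually_all_finset]
      intro k hk
      rw [Filter.eventually_all]
      intro i
      have h1 : ‖toFA ω I (β (g k) (x i)) - toFA ω I (x i)‖ * ‖a₀‖ < ε / 16 := by
        rw [← faAct_toFA ω I α hα β hβ, hxz, hn₀, mul_one]
        exact lt_of_le_of_lt (hz2 (g k) (Finset.mem_image_of_mem g hk) i) (by linarith)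
      filter_upwards [rep_mul_lt ω (hβ (g k) (x i) (y i) (hy i)).symm (hy i) ha₀ h1] with n hn
      exact hn.le
    let s0 : B := ⟨fun _ => 0, fun _ => by simp⟩
    let s : ℕ → B := fun n => if h : ∀ i, ‖y i n‖ ≤ 2 then ⟨fun i => y i n, h⟩ else s0
    refine ⟨s, fun k hk => ?_⟩
    filter_upwards [hyn, hyp, hya, hyg] with n hn1 hn2 hn3 hn4
    have hsn : s n = ⟨fun i => y i n, hn1⟩ := by
      simp only [s]
      rw [dif_pos hn1]
    have hkm : k ∈ Finset.range (m + 1) := Finset.mem_range.2 (by omega)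
    rw [hsn]
    change (∑ i, ∑ j, ‖(star (y i n) * y j n - de i j n) * a₀‖) +
      (∑ i, ‖y i n * a k - a k * y i n‖) + ∑ i, ‖(α (g k) (y i n) - y i n) * a₀‖ < ε
    simp only [Fin.sum_univ_two]
    have c1 := hn2 0 0
    have c2 := hn2 0 1
    have c3 := hn2 1 0
    have c4 := hn2 1 1
    have c5 := hn3 k hkm 0
    have c6 := hn3 k hkm 1
    have c7 := hn4 k hkm 0
    have c8 := hn4 k hkm 1
    linarith)
  -- consequences of the epsilon test
  have hpos1 : ∀ n, 0 ≤ ∑ i, ∑ j, ‖(star ((s n).1 i) * (s n).1 j - de i j n) * a₀‖ := fun n =>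
    Finset.sum_nonneg fun _ _ => Finset.sum_nonneg fun _ _ => norm_nonneg _
  have hpos2 : ∀ n k, 0 ≤ ∑ i, ‖(s n).1 i * a k - a k * (s n).1 i‖ := fun n k =>
    Finset.sum_nonneg fun _ _ => norm_nonneg _
  have hpos3 : ∀ n k, 0 ≤ ∑ i, ‖(α (g k) ((s n).1 i) - (s n).1 i) * a₀‖ := fun n k =>
    Finset.sum_nonneg fun _ _ => norm_nonneg _
  have hA : ∀ (i j : Fin 2) (ε : ℝ), 0 < ε → ∀ᶠ n in (ω : Filter ℕ),
      ‖(star ((s n).1 i) * (s n).1 j - de i j n) * a₀‖ ≤ ε := by
    intro i j ε hε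
    filter_upwards [hs 0 ε hε] with n hn
    have h1 : ‖(star ((s n).1 i) * (s n).1 j - de i j n) * a₀‖ ≤
        ∑ j, ‖(star ((s n).1 i) * (s n).1 j - de i j n) * a₀‖ :=
      Finset.single_le_sum (f := fun j => ‖(star ((s n).1 i) * (s n).1 j - de i j n) * a₀‖)
        (fun _ _ => norm_nonneg _) (Finset.mem_univ j)
    have h2 : (∑ j, ‖(star ((s n).1 i) * (s n).1 j - de i j n) * a₀‖) ≤
        ∑ i, ∑ j, ‖(star ((s n).1 i) * (s n).1 j - de i j n) * a₀‖ :=
      Finset.single_le_sum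
        (f := fun i => ∑ j, ‖(star ((s n).1 i) * (s n).1 j - de i j n) * a₀‖)
        (fun _ _ => Finset.sum_nonneg fun _ _ => norm_nonneg _) (Finset.mem_univ i)
    have h3 := hpos2 n 0
    have h4 := hpos3 n 0
    change (∑ i, ∑ j, ‖(star ((s n).1 i) * (s n).1 j - de i j n) * a₀‖) +
      (∑ i, ‖(s n).1 i * a 0 - a 0 * (s n).1 i‖) +
        ∑ i, ‖(α (g 0) ((s n).1 i) - (s n).1 i) * a₀‖ < ε at hn
    linarith
  have hB : ∀ (i : Fin 2) (k : ℕ) (ε : ℝ), 0 < ε → ∀ᶠ n in (ω : Filter ℕ),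
      ‖(s n).1 i * a k - a k * (s n).1 i‖ ≤ ε := by
    intro i k ε hε
    filter_upwards [hs k ε hε] with n hn
    have h1 : ‖(s n).1 i * a k - a k * (s n).1 i‖ ≤
        ∑ i, ‖(s n).1 i * a k - a k * (s n).1 i‖ :=
      Finset.single_le_sum (f := fun i => ‖(s n).1 i * a k - a k * (s n).1 i‖)
        (fun _ _ => norm_nonneg _) (Finset.mem_univ i)
    have h3 := hpos1 n
    have h4 := hpos3 n k
    change (∑ i, ∑ j, ‖(star ((s n).1 i) * (s n).1 j - de i j n) * a₀‖) +
      (∑ i, ‖(s n).1 i * a k - a k * (s n).1 i‖) +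
        ∑ i, ‖(α (g k) ((s n).1 i) - (s n).1 i) * a₀‖ < ε at hn
    linarith
  have hD : ∀ (i : Fin 2) (k : ℕ) (ε : ℝ), 0 < ε → ∀ᶠ n in (ω : Filter ℕ),
      ‖(α (g k) ((s n).1 i) - (s n).1 i) * a₀‖ ≤ ε := by
    intro i k ε hε
    filter_upwards [hs k ε hε] with n hn
    have h1 : ‖(α (g k) ((s n).1 i) - (s n).1 i) * a₀‖ ≤
        ∑ i, ‖(α (g k) ((s n).1 i) - (s n).1 i) * a₀‖ :=
      Finset.single_le_sum (f := fun i => ‖(α (g k) ((s n).1 i) - (s n).1 i) * a₀‖)
        (fun _ _ => norm_nonneg _) (Finset.mem_univ i)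
    have h3 := hpos1 n
    have h4 := hpos2 n k
    change (∑ i, ∑ j, ‖(star ((s n).1 i) * (s n).1 j - de i j n) * a₀‖) +
      (∑ i, ‖(s n).1 i * a k - a k * (s n).1 i‖) +
        ∑ i, ‖(α (g k) ((s n).1 i) - (s n).1 i) * a₀‖ < ε at hn
    linarith
  choose x y hy hx using fun i : Fin 2 => exists_of_seq ω hda (fun n => (s n).1 i) (C := 2)
    (fun n => (s n).2 i) (hB i)
  refine ⟨fun i => toFA ω I (x i), fun i g' => ?_, fun i j => ?_⟩
  · obtain ⟨k, rfl⟩ := hg g'
    change faAct ω I α hα β hβ (g k) (toFA ω I (x i)) = toFA ω I (x i)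
    rw [faAct_toFA ω I α hα β hβ]
    refine toFA_eq_of_rep ω hI (hβ (g k) (x i) (y i) (hx i)).symm (hx i) ha₀ hne ?_
    intro ε hε
    filter_upwards [hD i k ε hε] with n hn
    have h1 : (lpMap (α (g k) : E →⋆ₐ[ℂ] E) (y i)) n = α (g k) ((s n).1 i) := by
      have h2 : (lpMap (α (g k) : E →⋆ₐ[ℂ] E) (y i)) n = α (g k) (y i n) := rfl
      rw [h2, hy]
    rw [h1, hy]
    exact hn
  · change star (toFA ω I (x i)) * toFA ω I (x j) = _
    rw [← hxd, ← map_star, ← map_mul]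
    refine toFA_eq_of_rep ω hI (y := star (y i) * y j) (y' := de i j) ?_ (hde i j) ha₀ hne ?_
    · rw [map_mul, map_star, hx, hx]
      rfl
    · intro ε hε
      filter_upwards [hA i j ε hε] with n hn
      have h1 : (star (y i) * y j) n = star ((s n).1 i) * (s n).1 j := by
        have h2 : (star (y i) * y j) n = star (y i n) * y j n := rfl
        rw [h2, hy, hy]
      rw [h1]
      exact hn

end P095G
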