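import Vale.Agent.Lib.P095F.CBSiA

/-!
# P095G, part GC, module SiA: two norm estimates in a C*-algebra
-/

open P095F

namespace P095G

universe u

variable {A : Type u} [CStarAlgebra A]

/-- `(s a - a s)* (s a - a s) = a* s* s a - a* (s* a s) - (s* a* s) a + s* a* a s`, which is close to
`a* e a - a* a e - a* e a + a* a e = 0` (adapt `P095F.si_comm`). -/
theorem si_commG {a s e : A} {ε : ℝ} (h0 : ‖star a * (star s * s) - star a * e‖ ≤ ε)
    (h1 : ‖star s * a * s - a * e‖ ≤ ε) (h2 : ‖star s * star a * s - star a * e‖ ≤ ε)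
    (h3 : ‖star s * (star a * a) * s - star a * a * e‖ ≤ ε) :
    ‖s * a - a * s‖ ^ 2 ≤ (1 + 3 * ‖a‖) * ε := by
  have hε : 0 ≤ ε := (norm_nonneg _).trans h0
  have e0 : star (s * a - a * s) * (s * a - a * s) =
      (star a * (star s * s) - star a * e) * a - star a * (star s * a * s - a * e)
        - (star s * star a * s - star a * e) * a
        + (star s * (star a * a) * s - star a * a * e) := by
    rw [star_sub, star_mul, star_mul]
    noncomm_ring
  have n1 : ‖(star a * (star s * s) - star a * e) * a‖ ≤ ε * ‖a‖ := by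
    refine (norm_mul_le _ _).trans ?_
    gcongr
  have n2 : ‖star a * (star s * a * s - a * e)‖ ≤ ‖a‖ * ε := by
    refine (norm_mul_le _ _).trans ?_
    rw [norm_star]
    gcongr
  have n3 : ‖(star s * star a * s - star a * e) * a‖ ≤ ε * ‖a‖ := by
    refine (norm_mul_le _ _).trans ?_
    gcongr
  have n4 : ‖star (s * a - a * s) * (s * a - a * s)‖ ≤
      ε * ‖a‖ + ‖a‖ * ε + ε * ‖a‖ + ε := by
    rw [e0]
    refine (norm_add_le _ _).trans (add_le_add ?_ h3)
    refine (norm_sub_le _ _).trans (add_le_add ?_ n3)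
    exact (norm_sub_le _ _).trans (add_le_add n1 n2)
  rw [CStarRing.norm_star_mul_self] at n4
  calc ‖s * a - a * s‖ ^ 2 = ‖s * a - a * s‖ * ‖s * a - a * s‖ := sq _
    _ ≤ ε * ‖a‖ + ‖a‖ * ε + ε * ‖a‖ + ε := n4
    _ = (1 + 3 * ‖a‖) * ε := by ring

private theorem gcsia_norm_le (α : A ≃⋆ₐ[ℂ] A) (x : A) : ‖α x‖ ≤ ‖x‖ :=
  NonUnitalStarAlgHom.norm_apply_le (α : A ≃⋆ₐ[ℂ] A) x

/-- adapt `P095F.si_orth`:
`(α s)* s' a = (α s)* (α f f' a) s' + (α s)* (α f f') (s' a - a s') - (α s)* (α f) (f' s' - s') a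
 - (α (f s - s))* s' a`. -/
theorem si_orthG (α : A ≃⋆ₐ[ℂ] A) {f f' s s' a : A} {ε δ κ : ℝ} (hf : star f = f)
    (hf1 : ‖f‖ ≤ 1) (hf1' : ‖f'‖ ≤ 1) (h : ‖f * s - s‖ ≤ ε) (h' : ‖f' * s' - s'‖ ≤ ε)
    (hff : ‖α f * f' * a‖ ≤ δ) (hs : ‖s‖ ≤ 2) (hs' : ‖s'‖ ≤ 2) (ha : ‖a‖ ≤ 1)
    (hκ : ‖s' * a - a * s'‖ ≤ κ) : ‖star (α s) * s' * a‖ ≤ 4 * ε + 4 * δ + 2 * κ := by
  have hε : 0 ≤ ε := (norm_nonneg _).trans h
  have hδ : 0 ≤ δ := (norm_nonneg _).trans hff
  have hκ0 : 0 ≤ κ := (norm_nonneg _).trans hκ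
  have e0 : star (α s) * s' * a = star (α s) * (α f * f' * a) * s'
      + star (α s) * (α f * f') * (s' * a - a * s')
      - star (α s) * α f * ((f' * s' - s') * a) - star (α (f * s - s)) * (s' * a) := by
    rw [map_sub, map_mul, star_sub, star_mul, ← map_star α f, hf]
    noncomm_ring
  have m1 : ‖star (α s)‖ ≤ 2 := by
    rw [norm_star]
    exact (gcsia_norm_le α s).trans hs
  have m2 : ‖α f‖ ≤ 1 := (gcsia_norm_le α f).trans hf1
  have n1 : ‖star (α s) * (α f * f' * a) * s'‖ ≤ 2 * δ * 2 := by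
    refine (norm_mul_le _ _).trans ?_
    gcongr
    refine (norm_mul_le _ _).trans ?_
    gcongr
  have n4 : ‖star (α s) * (α f * f') * (s' * a - a * s')‖ ≤ 2 * (1 * 1) * κ := by
    refine (norm_mul_le _ _).trans ?_
    gcongr
    refine (norm_mul_le _ _).trans ?_
    gcongr
    refine (norm_mul_le _ _).trans ?_
    gcongr
  have n2 : ‖star (α s) * α f * ((f' * s' - s') * a)‖ ≤ 2 * 1 * (ε * 1) := by
    refine (norm_mul_le _ _).trans ?_
    gcongr
    · refine (norm_mul_le _ _).trans ?_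
      gcongr
    · refine (norm_mul_le _ _).trans ?_
      gcongr
  have n3 : ‖star (α (f * s - s)) * (s' * a)‖ ≤ ε * (2 * 1) := by
    refine (norm_mul_le _ _).trans ?_
    rw [norm_star]
    gcongr
    · exact (gcsia_norm_le α _).trans h
    · refine (norm_mul_le _ _).trans ?_
      gcongr
  rw [e0]
  calc ‖star (α s) * (α f * f' * a) * s' + star (α s) * (α f * f') * (s' * a - a * s')
      - star (α s) * α f * ((f' * s' - s') * a) - star (α (f * s - s)) * (s' * a)‖
      ≤ ‖star (α s) * (α f * f' * a) * s' + star (α s) * (α f * f') * (s' * a - a * s')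
        - star (α s) * α f * ((f' * s' - s') * a)‖ + ‖star (α (f * s - s)) * (s' * a)‖ :=
        norm_sub_le _ _
    _ ≤ (‖star (α s) * (α f * f' * a) * s' + star (α s) * (α f * f') * (s' * a - a * s')‖
        + ‖star (α s) * α f * ((f' * s' - s') * a)‖) + ‖star (α (f * s - s)) * (s' * a)‖ := by
        gcongr
        exact norm_sub_le _ _
    _ ≤ ((‖star (α s) * (α f * f' * a) * s'‖ + ‖star (α s) * (α f * f') * (s' * a - a * s')‖)
        + ‖star (α s) * α f * ((f' * s' - s') * a)‖) + ‖star (α (f * s - s)) * (s' * a)‖ := by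
        gcongr
        exact norm_add_le _ _
    _ ≤ 4 * ε + 4 * δ + 2 * κ := by linarith

end P095G
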