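import Vale.Agent.Lib.P095G.GBE

/-!
# P095G, GBF: the trace kernel ideal (GB.5)

`inJG_rep`: two representing sequences differ by a null sequence, and the members of `stFam` are states
(norm one): `s (y* y) ` changes by at most `(‖y‖ + ‖y'‖) ‖y - y'‖`.

`inJG_of_mem_annF`: `x ∈ annF`: `‖y_n c‖ → 0` for `c ∈ I`; `stFam_le`: `‖s (y* y)‖ ≤ C ‖y_n* y_n c‖ ≤ C ‖y_n‖ ‖y_n c‖`.

`inJG_small`: `p = ∑ x_i a₀ y_i`: `τ (x_i a₀ y_i w_n) = τ (a₀ y_i w_n x_i) = τ (a₀ y_i x_i w_n) + τ (a₀ y_i [w_n, x_i])`; the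
second term is `≤ C ‖[w_n, x_i]‖`; the first: Cauchy-Schwarz (`IsSt.cs_sq`) for the state
`φ w = τ (a₀ w)` (which is the member of `stFam α a₀ 1` given by `τ`): `‖φ (z w_n)‖² ≤ φ (z z*) φ (w_n* w_n)`.
-/

open scoped ENNReal Topology
open Filter P101 P095E P095F

namespace P095G

universe u v

variable {E : Type u} [CStarAlgebra E] {I : Ideal E} {a₀ a₁ : E} {G : Type v} [Group G]
  {α : G →* (E ≃⋆ₐ[ℂ] E)} {ω : Ultrafilter ℕ} [Nontrivial E]

omit [Nontrivial E] in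
/-- states are norm decreasing -/
theorem GBF_norm_le {s : E →ₗ[ℂ] ℂ} (hs : IsSt s) (x : E) : ‖s x‖ ≤ ‖x‖ := by
  let _ := CStarAlgebra.spectralOrder E
  let _ := CStarAlgebra.spectralOrderedRing E
  exact hs.norm_le x

omit [Nontrivial E] in
theorem GBF_re_le {s : E →ₗ[ℂ] ℂ} (hs : IsSt s) (x : E) : (s x).re ≤ ‖x‖ :=
  (Complex.re_le_norm _).trans (GBF_norm_le hs x)

omit [Nontrivial E] in
theorem GBF_state (hI : GoodIdeal I) (hT : TrBase I a₀ a₁) (hα : ∀ g, ∀ a ∈ I, α g a ∈ I)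
    {τ : E →ₗ[ℂ] ℂ} (hτ : τ ∈ Tr a₀) : τ.comp (LinearMap.mulLeft ℂ a₀) ∈ stFam α a₀ 1 ∧
      IsSt (τ.comp (LinearMap.mulLeft ℂ a₀)) := by
  have h1 : τ.comp (LinearMap.mulLeft ℂ a₀) ∈ stFam α a₀ 1 := by
    refine ⟨τ, hτ, fun x => ?_⟩
    rw [map_one]
    change τ (a₀ * x) = τ (a₀ * x) / τ a₀
    rw [hτ.2.2, div_one]
  exact ⟨h1, stFam_isSt hI hT hα h1⟩

theorem inJG_rep (hI : GoodIdeal I) (hT : TrBase I a₀ a₁) (hα : ∀ g, ∀ a ∈ I, α g a ∈ I)
    {x : FOmega ω E} (hx : InJG ω α a₀ x) {y : lp (fun _ : ℕ => E) ∞}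
    (hy : toUltrapower ω E y = (x : Ultrapower ω E)) (g : G) {ε : ℝ} (hε : 0 < ε) :
    ∀ᶠ n in (ω : Filter ℕ), ∀ s ∈ stFam α a₀ g, (s (star (y n) * y n)).re ≤ ε := by
  obtain ⟨y₀, hy₀, h⟩ := hx
  have hz : Tendsto (fun n => ‖(y - y₀) n‖) (ω : Filter ℕ) (𝓝 0) := by
    rw [← toUltrapower_eq_zero_iff, map_sub, hy, hy₀, sub_self]
  obtain ⟨M, hM0, hM⟩ : ∃ M : ℝ, 0 < M ∧ ∀ n, ‖y n‖ + ‖y₀ n‖ ≤ M := by
    refine ⟨‖y‖ + ‖y₀‖ + 1, by positivity, fun n => ?_⟩
    have h1 := lp.norm_apply_le_norm (by simp) y n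
    have h2 := lp.norm_apply_le_norm (by simp) y₀ n
    linarith
  have hsmall : ∀ᶠ n in (ω : Filter ℕ), ‖(y - y₀) n‖ < ε / 2 / M := by
    have h4 := (Metric.tendsto_nhds.1 hz) (ε / 2 / M) (by positivity)
    filter_upwards [h4] with n hn
    rwa [dist_zero_right, norm_norm] at hn
  filter_upwards [h g (ε / 2) (by positivity), hsmall] with n h1 h2 s hs
  have hst := stFam_isSt hI hT hα hs
  have e1 : star (y n) * y n = star (y₀ n) * y₀ n +
      (star (y n) * (y n - y₀ n) + star (y n - y₀ n) * y₀ n) := by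
    rw [star_sub]
    noncomm_ring
  have e2 : (y - y₀) n = y n - y₀ n := rfl
  rw [e2] at h2
  have e3 : ‖star (y n) * (y n - y₀ n) + star (y n - y₀ n) * y₀ n‖ ≤ ε / 2 := by
    calc ‖star (y n) * (y n - y₀ n) + star (y n - y₀ n) * y₀ n‖
        ≤ ‖star (y n) * (y n - y₀ n)‖ + ‖star (y n - y₀ n) * y₀ n‖ := norm_add_le _ _
      _ ≤ ‖y n‖ * ‖y n - y₀ n‖ + ‖y n - y₀ n‖ * ‖y₀ n‖ := by
          refine add_le_add ((norm_mul_le _ _).trans ?_) ((norm_mul_le _ _).trans ?_)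
          · rw [norm_star]
          · rw [norm_star]
      _ = (‖y n‖ + ‖y₀ n‖) * ‖y n - y₀ n‖ := by ring
      _ ≤ M * (ε / 2 / M) := mul_le_mul (hM n) h2.le (norm_nonneg _) hM0.le
      _ = ε / 2 := by field_simp
  rw [e1, map_add, Complex.add_re]
  have h3 := h1 s hs
  have h4 := GBF_re_le hst (star (y n) * (y n - y₀ n) + star (y n - y₀ n) * y₀ n)
  linarith

theorem inJG_of_mem_annF (hI : GoodIdeal I) (hT : TrBase I a₀ a₁)
    (hα : ∀ g, ∀ a ∈ I, α g a ∈ I) {x : FOmega ω E} (hx : x ∈ annF ω I) : InJG ω α a₀ x := by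
  obtain ⟨y, hy⟩ := toUltrapower_surjective ω E (x : Ultrapower ω E)
  refine ⟨y, hy, fun g ε hε => ?_⟩
  obtain ⟨c, C, hcs, hcp, hcc, hcI, hC, hC'⟩ := stFam_le hI hT hα g
  have h1 := hx c (gb_mem_of_inIdeal hI hT hcI)
  have h2 : Tendsto (fun n => ‖(y * constSeq E c) n‖) (ω : Filter ℕ) (𝓝 0) := by
    rw [← toUltrapower_eq_zero_iff, map_mul, hy]
    exact h1
  have hM : 0 < C * (‖y‖ + 1) + 1 := by positivity
  have hsmall : ∀ᶠ n in (ω : Filter ℕ), ‖(y * constSeq E c) n‖ < ε / (C * (‖y‖ + 1) + 1) := by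
    have h4 := (Metric.tendsto_nhds.1 h2) _ (div_pos hε hM)
    filter_upwards [h4] with n hn
    rwa [dist_zero_right, norm_norm] at hn
  filter_upwards [hsmall] with n hn s hs
  have e2 : (y * constSeq E c) n = y n * c := rfl
  rw [e2] at hn
  have hyn : ‖y n‖ ≤ ‖y‖ + 1 := (lp.norm_apply_le_norm (by simp) y n).trans (by linarith)
  calc (s (star (y n) * y n)).re ≤ ‖s (star (y n) * y n)‖ := Complex.re_le_norm _
    _ ≤ C * ‖star (y n) * y n * c‖ := (hC' s hs _).2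
    _ ≤ C * ((‖y‖ + 1) * ‖y n * c‖) := by
        refine mul_le_mul_of_nonneg_left ?_ hC
        rw [mul_assoc]
        refine (norm_mul_le _ _).trans ?_
        rw [norm_star]
        exact mul_le_mul_of_nonneg_right hyn (norm_nonneg _)
    _ ≤ (C * (‖y‖ + 1) + 1) * ‖y n * c‖ := by
        have := norm_nonneg (y n * c)
        nlinarith
    _ ≤ (C * (‖y‖ + 1) + 1) * (ε / (C * (‖y‖ + 1) + 1)) :=
        mul_le_mul_of_nonneg_left hn.le hM.le
    _ = ε := by field_simp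

/-- `InJG` only depends on the class in `FA`: `x' = x + (x' - x)`, `x' - x ∈ annF` (`toFA_eq_zero_iff`), and
`s ((a+b)*(a+b)) ≤ 2 s (a* a) + 2 s (b* b)` (`(a+b)*(a+b) + (a-b)*(a-b) = 2 a* a + 2 b* b`) -/
theorem inJG_congr (hI : GoodIdeal I) (hT : TrBase I a₀ a₁) (hα : ∀ g, ∀ a ∈ I, α g a ∈ I)
    {x x' : FOmega ω E} (h : toFA ω I x = toFA ω I x') (hx : InJG ω α a₀ x) :
    InJG ω α a₀ x' := by
  have h1 : x' - x ∈ annF ω I := by
    rw [← toFA_eq_zero_iff, map_sub, h, sub_self]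
  obtain ⟨z, hz, hz'⟩ := inJG_of_mem_annF hI hT hα h1
  obtain ⟨y, hy, hy'⟩ := hx
  refine ⟨y + z, ?_, fun g ε hε => ?_⟩
  · rw [map_add, hy, hz]
    change (x : Ultrapower ω E) + ((x' : Ultrapower ω E) - x) = x'
    abel
  · filter_upwards [hy' g (ε / 4) (by positivity), hz' g (ε / 4) (by positivity)]
      with n h2 h3 s hs
    have hst := stFam_isSt hI hT hα hs
    have e1 : star (y n + z n) * (y n + z n) + star (y n - z n) * (y n - z n) =
        (2 : ℂ) • (star (y n) * y n) + (2 : ℂ) • (star (z n) * z n) := by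
      rw [star_add, star_sub, two_smul, two_smul]
      noncomm_ring
    have e2 := congrArg (fun w => (s w).re) e1
    simp only [map_add, map_smul, Complex.add_re, smul_eq_mul] at e2
    have e3 : ∀ w : ℂ, ((2 : ℂ) * w).re = 2 * w.re := by
      intro w
      simp
    rw [e3, e3] at e2
    have e4 := hst.nonneg (y n - z n)
    have e5 : (y + z) n = y n + z n := rfl
    rw [e5]
    have h4 := h2 s hs
    have h5 := h3 s hs
    linarith

theorem inJG_small (hI : GoodIdeal I) (hT : TrBase I a₀ a₁) (hα : ∀ g, ∀ a ∈ I, α g a ∈ I)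
    {x : FOmega ω E} (hx : InJG ω α a₀ x) {y : lp (fun _ : ℕ => E) ∞}
    (hy : toUltrapower ω E y = (x : Ultrapower ω E)) {p : E} (hp : InIdeal {a₀} p) {ε : ℝ}
    (hε : 0 < ε) : ∀ᶠ n in (ω : Filter ℕ), ∀ τ ∈ Tr a₀, ‖τ (p * y n)‖ ≤ ε := by
  classical
  obtain ⟨m, a, q, b, hq, rfl⟩ := hp
  have hq' : ∀ l, q l = a₀ := fun l => hq l
  have h0 : InIdeal {a₀} a₀ := InIdeal.of_mem rfl
  have hε' : 0 < ε / 2 / (m + 1) := by positivity
  -- one term
  have key : ∀ l, ∀ᶠ n in (ω : Filter ℕ), ∀ τ ∈ Tr a₀,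
      ‖τ (a l * q l * b l * y n)‖ ≤ 2 * (ε / 2 / (m + 1)) := by
    intro l
    obtain ⟨C, hC0, hC⟩ := gb_bound hI hT (h0.mul_right (b l))
    have hcomm : ∀ᶠ n in (ω : Filter ℕ),
        ‖y n * a l - a l * y n‖ < ε / 2 / (m + 1) / (C + 1) := by
      refine eventually_comm_lt ω E (y := y) ?_ (a l) (by positivity)
      rw [hy]
      exact x.2
    have hst := inJG_rep hI hT hα hx hy 1
      (ε := (ε / 2 / (m + 1)) ^ 2 / (‖b l * a l‖ ^ 2 + 1)) (by positivity)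
    filter_upwards [hcomm, hst] with n h1 h2 τ hτ
    obtain ⟨hs1, hs2⟩ := GBF_state (α := α) hI hT hα hτ
    have h3 := h2 _ hs1
    have e1 : τ (a l * q l * b l * y n) = τ (a₀ * b l * (y n * a l - a l * y n)) +
        τ.comp (LinearMap.mulLeft ℂ a₀) (b l * a l * y n) := by
      have e2 : τ (a l * q l * b l * y n) = τ (a₀ * b l * y n * a l) := by
        have := hτ.1 (a₀ * b l * y n) ((h0.mul_right (b l)).mul_right (y n)) (a l)
        rw [this, hq']
        congr 1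
        simp only [mul_assoc]
      rw [e2, LinearMap.comp_apply, LinearMap.mulLeft_apply, ← map_add]
      congr 1
      noncomm_ring
    have e3 : ‖τ (a₀ * b l * (y n * a l - a l * y n))‖ ≤ ε / 2 / (m + 1) := by
      calc ‖τ (a₀ * b l * (y n * a l - a l * y n))‖ ≤ C * ‖y n * a l - a l * y n‖ :=
            hC τ hτ _
        _ ≤ (C + 1) * (ε / 2 / (m + 1) / (C + 1)) :=
            mul_le_mul (by linarith) h1.le (norm_nonneg _) (by positivity)
        _ = ε / 2 / (m + 1) := by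
            have : C + 1 ≠ 0 := by positivity
            field_simp
    have e4 : ‖τ.comp (LinearMap.mulLeft ℂ a₀) (b l * a l * y n)‖ ≤ ε / 2 / (m + 1) := by
      have h4 := hs2.cs_sq (star (b l * a l)) (y n)
      rw [star_star] at h4
      have h5 : ((τ.comp (LinearMap.mulLeft ℂ a₀)) (b l * a l * star (b l * a l))).re ≤
          ‖b l * a l‖ ^ 2 + 1 := by
        refine (GBF_re_le hs2 _).trans ((norm_mul_le _ _).trans ?_)
        rw [norm_star]
        nlinarith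
      have h6 : 0 ≤ ((τ.comp (LinearMap.mulLeft ℂ a₀)) (star (y n) * y n)).re := hs2.nonneg _
      have h7 : ‖τ.comp (LinearMap.mulLeft ℂ a₀) (b l * a l * y n)‖ ^ 2 ≤
          (ε / 2 / (m + 1)) ^ 2 := by
        calc ‖τ.comp (LinearMap.mulLeft ℂ a₀) (b l * a l * y n)‖ ^ 2
            ≤ (‖b l * a l‖ ^ 2 + 1) *
              ((ε / 2 / (m + 1)) ^ 2 / (‖b l * a l‖ ^ 2 + 1)) := by
              refine h4.trans ?_
              exact mul_le_mul h5 h3 h6 (by positivity)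
          _ = (ε / 2 / (m + 1)) ^ 2 := by
              have : ‖b l * a l‖ ^ 2 + 1 ≠ 0 := by positivity
              field_simp
      exact (pow_le_pow_iff_left₀ (norm_nonneg _) hε'.le two_ne_zero).1 h7
    rw [e1]
    refine (norm_add_le _ _).trans ?_
    linarith
  filter_upwards [Filter.eventually_all.2 key] with n hn τ hτ
  rw [Finset.sum_mul, map_sum]
  calc ‖∑ l, τ (a l * q l * b l * y n)‖ ≤ ∑ l, ‖τ (a l * q l * b l * y n)‖ := norm_sum_le _ _
    _ ≤ ∑ _l : Fin m, 2 * (ε / 2 / (m + 1)) := Finset.sum_le_sum fun l _ => hn l τ hτ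
    _ = m * (ε / (m + 1)) := by
        rw [Finset.sum_const, Finset.card_univ, Fintype.card_fin, nsmul_eq_mul]
        congr 1
        field_simp
    _ ≤ ε := by
        rw [mul_div_assoc', div_le_iff₀ (by positivity)]
        nlinarith

/-- cut-downs `v y_n v`, `v ∈ P` (trace property: `τ (v (y v)) = τ ((y v) v)`, `= τ (v v y)`) -/
theorem inJG_cut (hI : GoodIdeal I) (hT : TrBase I a₀ a₁) (hα : ∀ g, ∀ a ∈ I, α g a ∈ I)
    {x : FOmega ω E} (hx : InJG ω α a₀ x) {y : lp (fun _ : ℕ => E) ∞}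
    (hy : toUltrapower ω E y = (x : Ultrapower ω E)) {v : E} (hv : InIdeal {a₀} v) {ε : ℝ}
    (hε : 0 < ε) : ∀ᶠ n in (ω : Filter ℕ), ∀ τ ∈ Tr a₀, ‖τ (v * y n * v)‖ ≤ ε := by
  filter_upwards [inJG_small hI hT hα hx hy (hv.mul_left v) hε] with n hn τ hτ
  have h1 := hτ.1 v hv (v * y n)
  rw [← h1, ← mul_assoc]
  exact hn τ hτ

end P095G
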