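import Vale.Agent.Lib.P095G.GCLift
import Vale.Agent.Lib.P095G.GBF

/-!
# P095G, part GC, module Tr: small traces of lifts
-/

open scoped ENNReal Topology
open Filter P101 P095E P095F

namespace P095G

universe u v

/-- If `e ∈ FA` is the image of an element of `J` then every representing sequence of every lift of
`e` has small traces.  (Facts of part GB: `inJG_congr`, `inJG_cut`.) -/
theorem tr_small_lift (ω : Ultrafilter ℕ) {E : Type u} [CStarAlgebra E] [Nontrivial E]
    {I : Ideal E} (hI : GoodIdeal I) {a₀ a₁ : E} (hb : TrBase I a₀ a₁)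
    {G : Type v} [Group G] (α : G →* (E ≃⋆ₐ[ℂ] E)) (hα : ∀ g, ∀ a ∈ I, α g a ∈ I)
    {x x' : FOmega ω E} (hx : InJG ω α a₀ x) (hxx : toFA ω I x' = toFA ω I x)
    {y : lp (fun _ : ℕ => E) ∞} (hy : toUltrapower ω E y = (x' : Ultrapower ω E))
    {v : E} (hv : InIdeal {a₀} v) {η : ℝ} (hη : 0 < η) :
    ∀ᶠ n in (ω : Filter ℕ), ∀ τ ∈ Tr a₀, (τ (v * y n * v)).re ≤ η := by
  have hx' : InJG ω α a₀ x' := inJG_congr hI hb hα hxx.symm hx
  filter_upwards [inJG_cut hI hb hα hx' hy hv hη] with n hn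
  intro τ hτ
  exact (Complex.re_le_norm _).trans (hn τ hτ)

end P095G
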