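import Vale.Agent.Lib.P095G.G1Unit
import Vale.Agent.Lib.P095G.GCLift
import Vale.Agent.Lib.P095G.GCSiA
import Vale.Agent.Lib.P095G.GCTr

/-!
# P095G, part GC, module Si: the local step for orthogonal isometries in `FA`
-/

open scoped ENNReal Topology
open Filter P101 P095E P095F

namespace P095G

universe u v

section Est

variable {A : Type u} [CStarAlgebra A]

/-- `‖w a w - a‖ ≤ 2 κ` -/
private theorem gcsi_waw {w a : A} {κ : ℝ} (hw : ‖w‖ ≤ 1) (h1 : ‖w * a - a‖ ≤ κ)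
    (h2 : ‖a * w - a‖ ≤ κ) : ‖w * a * w - a‖ ≤ 2 * κ := by
  have e0 : w * a * w - a = (w * a - a) * w + (a * w - a) := by noncomm_ring
  rw [e0]
  refine (norm_add_le _ _).trans ?_
  have h3 : ‖(w * a - a) * w‖ ≤ κ * 1 :=
    (norm_mul_le _ _).trans (mul_le_mul h1 hw (norm_nonneg _) ((norm_nonneg _).trans h1))
  linarith

/-- `‖a w w - a‖ ≤ 2 κ` -/
private theorem gcsi_aww {w a : A} {κ : ℝ} (hw : ‖w‖ ≤ 1) (h2 : ‖a * w - a‖ ≤ κ) :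
    ‖a * w * w - a‖ ≤ 2 * κ := by
  have e0 : a * w * w - a = (a * w - a) * w + (a * w - a) := by noncomm_ring
  rw [e0]
  refine (norm_add_le _ _).trans ?_
  have h3 : ‖(a * w - a) * w‖ ≤ κ * 1 :=
    (norm_mul_le _ _).trans (mul_le_mul h2 hw (norm_nonneg _) ((norm_nonneg _).trans h2))
  linarith

/-- `‖w w a - a‖ ≤ 2 κ` -/
private theorem gcsi_wwa {w a : A} {κ : ℝ} (hw : ‖w‖ ≤ 1) (h2 : ‖w * a - a‖ ≤ κ) :
    ‖w * w * a - a‖ ≤ 2 * κ := by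
  have e0 : w * w * a - a = w * (w * a - a) + (w * a - a) := by noncomm_ring
  rw [e0]
  refine (norm_add_le _ _).trans ?_
  have h3 : ‖w * (w * a - a)‖ ≤ 1 * κ :=
    (norm_mul_le _ _).trans (mul_le_mul hw h2 (norm_nonneg _) zero_le_one)
  linarith

/-- `s* a s ≈ a e` -/
private theorem gcsi_h1 {w a e s : A} {κ : ℝ} (hw : ‖w‖ ≤ 1) (he : ‖e‖ ≤ 1)
    (h1 : ‖w * a - a‖ ≤ κ) (h2 : ‖a * w - a‖ ≤ κ) (h : ‖star s * a * s - w * a * w * e‖ ≤ κ) :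
    ‖star s * a * s - a * e‖ ≤ 3 * κ := by
  have e0 : star s * a * s - a * e = (star s * a * s - w * a * w * e) + (w * a * w - a) * e := by
    noncomm_ring
  rw [e0]
  refine (norm_add_le _ _).trans ?_
  have h4 := gcsi_waw hw h1 h2
  have h3 : ‖(w * a * w - a) * e‖ ≤ 2 * κ * 1 :=
    (norm_mul_le _ _).trans (mul_le_mul h4 he (norm_nonneg _) ((norm_nonneg _).trans h4))
  linarith

/-- `b (s* s) ≈ b e` -/
private theorem gcsi_h0 {w b e s : A} {κ C : ℝ} (hw : ‖w‖ ≤ 1) (he : ‖e‖ ≤ 1) (hb : ‖b‖ ≤ C)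
    (h2 : ‖b * w - b‖ ≤ κ) (h : ‖star s * s - w * w * e‖ ≤ κ) :
    ‖b * (star s * s) - b * e‖ ≤ C * κ + 2 * κ := by
  have e0 : b * (star s * s) - b * e = b * (star s * s - w * w * e) + (b * w * w - b) * e := by
    noncomm_ring
  rw [e0]
  refine (norm_add_le _ _).trans ?_
  have h4 := gcsi_aww hw h2
  have h3 : ‖(b * w * w - b) * e‖ ≤ 2 * κ * 1 :=
    (norm_mul_le _ _).trans (mul_le_mul h4 he (norm_nonneg _) ((norm_nonneg _).trans h4))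
  have h5 : ‖b * (star s * s - w * w * e)‖ ≤ C * κ :=
    (norm_mul_le _ _).trans (mul_le_mul hb h (norm_nonneg _) ((norm_nonneg _).trans hb))
  linarith

/-- `(s* s) a ≈ e a` -/
private theorem gcsi_h4 {w a e s : A} {κ : ℝ} (hw : ‖w‖ ≤ 1) (he : ‖e‖ ≤ 1) (ha : ‖a‖ ≤ 1)
    (h2 : ‖w * a - a‖ ≤ κ) (h : ‖star s * s - w * w * e‖ ≤ κ) (hc : ‖e * a - a * e‖ ≤ κ) :
    ‖(star s * s - e) * a‖ ≤ 5 * κ := by
  have hκ : 0 ≤ κ := (norm_nonneg _).trans h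
  have e0 : (star s * s - e) * a = (star s * s - w * w * e) * a + w * w * (e * a - a * e) +
      (w * w * a - a) * e - (e * a - a * e) := by
    noncomm_ring
  have n1 : ‖(star s * s - w * w * e) * a‖ ≤ κ * 1 :=
    (norm_mul_le _ _).trans (mul_le_mul h ha (norm_nonneg _) hκ)
  have n2 : ‖w * w * (e * a - a * e)‖ ≤ 1 * κ := by
    refine (norm_mul_le _ _).trans (mul_le_mul ?_ hc (norm_nonneg _) zero_le_one)
    calc ‖w * w‖ ≤ ‖w‖ * ‖w‖ := norm_mul_le _ _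
      _ ≤ 1 * 1 := mul_le_mul hw hw (norm_nonneg _) zero_le_one
      _ = 1 := one_mul _
  have h4 := gcsi_wwa hw h2
  have n3 : ‖(w * w * a - a) * e‖ ≤ 2 * κ * 1 :=
    (norm_mul_le _ _).trans (mul_le_mul h4 he (norm_nonneg _) ((norm_nonneg _).trans h4))
  rw [e0]
  refine (norm_sub_le _ _).trans ?_
  have n5 := norm_add_le ((star s * s - w * w * e) * a + w * w * (e * a - a * e))
    ((w * w * a - a) * e)
  have n6 := norm_add_le ((star s * s - w * w * e) * a) (w * w * (e * a - a * e))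
  linarith

end Est

/-- **Local step.**  `ye` is a sequence of positive contractions representing `xe ∈ F` with small
traces.

Proof (adapt `P095F.si_step`).  Constants: `ε₁ ≤ 1`, `40 ε₁ ≤ ε`, `40 (1 + 3 ‖a‖) ε₁ ≤ ε²` for
`a ∈ insert a₀ S`; `C` bounds the norms of the elements of
`T = S₀ ∪ S₀.image star ∪ S₀.image (fun a => star a * a)`, `S₀ = insert a₀ S`.
`w ∈ I` PosC from `exists_unit_fin` for `T` and `κ = ε₁`: `‖w a - a‖, ‖a w - a‖ ≤ κ` for `a ∈ T`.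
`hSI T ε₁ a₀ w`: `S'`, `δ`, `v`.  `f` from `hf X ε₁`; `xf i`, `yf i` from `exists_rep_oneG`.  For
`ω`-many `n`: `1 - δ ≤ ‖a₀ yf_n a₀‖`, `‖[yf i n, a]‖ ≤ δ` (`a ∈ S'`, `P095F.rep_comm`) and
`‖α g (yf i n) * yf j n * a₀‖ ≤ 2 ε₁` (`(g, i, j) ∈ X`; `rep_mul_lt` with `y' = 0`, as
`toFA (β g (xf i) * xf j) = faAct g (f i) * f j`).  Fix ONE such `n₀`; `hSI` gives `η i > 0`.
For `ω`-many `n`: `‖[ye n, a]‖ ≤ δ` (`a ∈ S'`), `‖[ye n, a₀]‖ ≤ ε₁`, the traces of `v * ye n * v` are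
`≤ min (η 0) (η 1)`: get `s i` with `‖s* a s - w a w e‖ ≤ ε₁` (`a ∈ T`), `‖s* s - w w e‖ ≤ ε₁`,
`‖f s - s‖ ≤ ε₁` (`e = ye n`).  Then `‖s‖ ≤ 2` (`P095F.si_norm_le`), `‖s* a s - a e‖ ≤ 3 ε₁`,
`‖a* (s* s) - a* e‖ ≤ (C + 2) ε₁` (`a* w w ≈ a*`) so `si_commG` gives the commutator estimate if
`ε₁` is small compared with `C`, `(s* s - e) a₀ ≈ w w e a₀ - e a₀ ≈ w w a₀ e - a₀ e ≈ 0`, and
`si_orthG` (with `a = a₀`, `κ ≤ ε / 8`) the last one. -/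
theorem si_stepG (ω : Ultrafilter ℕ) {E : Type u} [CStarAlgebra E] [Nontrivial E]
    {I : Ideal E} (hI : GoodIdeal I) {a₀ a₁ : E} (hb : TrBase I a₀ a₁) (hSI : SILocalG I a₀)
    {G : Type v} [Group G] (α : G →* (E ≃⋆ₐ[ℂ] E)) (hα : ∀ g, ∀ a ∈ I, α g a ∈ I)
    (β : G →* (FOmega ω E ≃⋆ₐ[ℂ] FOmega ω E)) (hβ : ∀ g, Induces ω (α g) (β g))
    {xe : FOmega ω E} {ye : lp (fun _ : ℕ => E) ∞}
    (hye : toUltrapower ω E ye = (xe : Ultrapower ω E)) (hyp : ∀ n, PosC (ye n))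
    (htr : ∀ v, InIdeal {a₀} v → ∀ η : ℝ, 0 < η →
      ∀ᶠ n in (ω : Filter ℕ), ∀ τ ∈ Tr a₀, (τ (v * ye n * v)).re ≤ η)
    (X : Finset (G × Fin 2 × Fin 2))
    (hf : ∀ ε : ℝ, 0 < ε →
      ∃ f : Fin 2 → FA ω I, (∀ i, ∃ c, f i = star c * c) ∧ (∀ i, ‖f i‖ = 1) ∧
        ∀ p ∈ X, ‖faAct ω I α hα β hβ p.1 (f p.2.1) * f p.2.2‖ ≤ ε)
    (S : Finset E) (hS : ∀ a ∈ S, a ∈ I) {ε : ℝ} (hε : 0 < ε) :
    ∀ᶠ n in (ω : Filter ℕ), ∃ s : Fin 2 → E, (∀ i, ‖s i‖ ≤ 2) ∧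
      (∀ i, ‖(star (s i) * s i - ye n) * a₀‖ ≤ ε) ∧
      (∀ i, ∀ a ∈ S, ‖s i * a - a * s i‖ ≤ ε) ∧
      ∀ p ∈ X, ‖star (α p.1 (s p.2.1)) * s p.2.2 * a₀‖ ≤ ε := by
  classical
  have htwo := hI.two
  -- the finite set
  obtain ⟨S₀, hS₀⟩ : ∃ S₀ : Finset E, S₀ = insert a₀ S := ⟨_, rfl⟩
  have hS₀I : ∀ a ∈ S₀, a ∈ I := by
    intro a ha
    rw [hS₀, Finset.mem_insert] at ha
    rcases ha with rfl | ha
    · exact hb.mem0
    · exact hS a ha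
  have hstar : ∀ a ∈ I, star a ∈ I := fun a ha => star_mem_of_closed I hI.closed ha
  obtain ⟨T, hT⟩ : ∃ T : Finset E, T = S₀ ∪ S₀.image star ∪ S₀.image (fun a => star a * a) :=
    ⟨_, rfl⟩
  have hT1 : ∀ a ∈ S₀, a ∈ T := fun a ha => by
    rw [hT]
    exact Finset.mem_union_left _ (Finset.mem_union_left _ ha)
  have hT2 : ∀ a ∈ S₀, star a ∈ T := fun a ha => by
    rw [hT]
    exact Finset.mem_union_left _ (Finset.mem_union_right _ (Finset.mem_image_of_mem _ ha))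
  have hT3 : ∀ a ∈ S₀, star a * a ∈ T := fun a ha => by
    rw [hT]
    exact Finset.mem_union_right _ (Finset.mem_image.2 ⟨a, ha, rfl⟩)
  have hTI : ∀ a ∈ T, a ∈ I := by
    intro a ha
    rw [hT, Finset.mem_union, Finset.mem_union, Finset.mem_image, Finset.mem_image] at ha
    rcases ha with (ha | ⟨b, hb', rfl⟩) | ⟨b, hb', rfl⟩
    · exact hS₀I a ha
    · exact hstar b (hS₀I b hb')
    · exact I.mul_mem_left _ (hS₀I b hb')
  obtain ⟨C, hC1, hC⟩ : ∃ C : ℝ, 1 ≤ C ∧ ∀ a ∈ T, ‖a‖ ≤ C := by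
    refine ⟨1 + ∑ a ∈ T, ‖a‖, ?_, fun a ha => ?_⟩
    · have h1 : 0 ≤ ∑ a ∈ T, ‖a‖ := Finset.sum_nonneg fun a _ => norm_nonneg a
      linarith
    · have h1 := Finset.single_le_sum (f := fun a : E => ‖a‖) (fun a _ => norm_nonneg a) ha
      linarith
  have hC0 : 0 < C := by linarith
  -- the constant
  obtain ⟨ε₁, h0, e1, e2, e3⟩ : ∃ ε₁ : ℝ, 0 < ε₁ ∧ ε₁ ≤ 1 ∧ 24 * ε₁ ≤ ε ∧
      (1 + 3 * C) * (3 * (C * ε₁)) ≤ (ε / 8) ^ 2 := by
    refine ⟨min (min 1 (ε / 24)) ((ε / 8) ^ 2 / (12 * C ^ 2)), by positivity, ?_, ?_, ?_⟩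
    · exact (min_le_left _ _).trans (min_le_left _ _)
    · have h1 : min (min 1 (ε / 24)) ((ε / 8) ^ 2 / (12 * C ^ 2)) ≤ ε / 24 :=
        (min_le_left _ _).trans (min_le_right _ _)
      linarith
    · obtain ⟨m, hm⟩ : ∃ m : ℝ, m = min (min 1 (ε / 24)) ((ε / 8) ^ 2 / (12 * C ^ 2)) := ⟨_, rfl⟩
      rw [← hm]
      have hm0 : 0 < m := by rw [hm]; positivity
      have h1 : m ≤ (ε / 8) ^ 2 / (12 * C ^ 2) := by rw [hm]; exact min_le_right _ _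
      have h2 : m * (12 * C ^ 2) ≤ (ε / 8) ^ 2 := by
        rwa [le_div_iff₀ (by positivity)] at h1
      have h3 : (1 + 3 * C) * (3 * (C * m)) ≤ m * (12 * C ^ 2) := by
        have h4 : 0 ≤ C * m * (C - 1) := by
          have : 0 ≤ C - 1 := by linarith
          positivity
        nlinarith
      exact h3.trans h2
  obtain ⟨w, hwI, hwp, -, hwT⟩ := exists_unit_fin hI T hTI h0
  obtain ⟨S', δ, v, hδ, hvP, -, hS'⟩ := hSI T ε₁ h0 a₀ hb.mem0 hb.pos0 w hwI hwp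
  obtain ⟨f, hf1, hf2, hf3⟩ := hf ε₁ h0
  choose xf yf hxf hyf hyfp hyfn using fun i => exists_rep_oneG ω hI hb (hf1 i) (hf2 i)
  have hn0 : ∀ᶠ n in (ω : Filter ℕ), (∀ i, 1 - δ ≤ ‖a₀ * yf i n * a₀‖) ∧
      (∀ i, ∀ a ∈ S', ‖yf i n * a - a * yf i n‖ ≤ δ) ∧
      ∀ p ∈ X, ‖α p.1 (yf p.2.1 n) * yf p.2.2 n * a₀‖ ≤ 2 * ε₁ := by
    refine Filter.Eventually.and ?_ (Filter.Eventually.and ?_ ?_)
    · rw [Filter.eventually_all]
      intro i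
      exact hyfn i δ hδ
    · rw [Filter.eventually_all]
      intro i
      rw [Filter.eventually_all_finset]
      intro a _
      exact rep_comm ω (hyf i) a hδ
    · rw [Filter.eventually_all_finset]
      intro p hp
      have h1 : toUltrapower ω E (lpMap (α p.1 : E →⋆ₐ[ℂ] E) (yf p.2.1) * yf p.2.2) =
          ((β p.1 (xf p.2.1) * xf p.2.2 : FOmega ω E) : Ultrapower ω E) := by
        rw [map_mul, ← hβ p.1 (xf p.2.1) (yf p.2.1) (hyf _), hyf p.2.2]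
        rfl
      have h2 : toUltrapower ω E (0 : lp (fun _ : ℕ => E) ∞) =
          ((0 : FOmega ω E) : Ultrapower ω E) := by
        rw [map_zero]
        rfl
      have h3 : ‖toFA ω I (β p.1 (xf p.2.1) * xf p.2.2) - toFA ω I 0‖ * ‖a₀‖ < 2 * ε₁ := by
        rw [map_zero, sub_zero, map_mul, ← faAct_toFA ω I α hα β hβ, hxf, hxf, hb.norm0, mul_one]
        exact lt_of_le_of_lt (hf3 p hp) (by linarith)
      filter_upwards [rep_mul_lt ω h1 h2 hb.mem0 h3] with n hn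
      have h4 : (lpMap (α p.1 : E →⋆ₐ[ℂ] E) (yf p.2.1) * yf p.2.2) n -
          (0 : lp (fun _ : ℕ => E) ∞) n = α p.1 (yf p.2.1 n) * yf p.2.2 n := sub_zero _
      rw [h4] at hn
      exact hn.le
  obtain ⟨n₀, hn₁, hn₂, hn₃⟩ := hn0.exists
  choose η hη0 hη using fun i => hS' (yf i n₀) (hyfp i n₀) (hn₁ i) (hn₂ i)
  have hev1 : ∀ᶠ n in (ω : Filter ℕ), ∀ a ∈ S', ‖ye n * a - a * ye n‖ ≤ δ := by
    rw [Filter.eventually_all_finset]
    intro a _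
    exact rep_comm ω hye a hδ
  have hev2 : ∀ᶠ n in (ω : Filter ℕ), ∀ i, ∀ τ ∈ Tr a₀, (τ (v * ye n * v)).re ≤ η i := by
    rw [Filter.eventually_all]
    intro i
    exact htr v hvP (η i) (hη0 i)
  filter_upwards [hev1, hev2, rep_comm ω hye a₀ h0] with n h1 h2 h3
  choose s _ hs2 hs1 hs3 using fun i => hη i (ye n) (hyp n) h1 (h2 i)
  have hwn : ‖w‖ ≤ 1 := hwp.2
  have hen : ‖ye n‖ ≤ 1 := (hyp n).2
  have ha₀n : ‖a₀‖ ≤ 1 := hb.pos0.2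
  have ha₀S : a₀ ∈ S₀ := by
    rw [hS₀]
    exact Finset.mem_insert_self _ _
  have hwwe : ‖w * w * ye n‖ ≤ 1 := by
    refine (norm_mul_le _ _).trans ?_
    calc ‖w * w‖ * ‖ye n‖ ≤ (1 * 1) * 1 := by
          refine mul_le_mul ((norm_mul_le _ _).trans ?_) hen (norm_nonneg _) (by norm_num)
          exact mul_le_mul hwn hwn (norm_nonneg _) zero_le_one
      _ = 1 := by norm_num
  have hsn : ∀ i, ‖s i‖ ≤ 2 := fun i => si_norm_le ((hs1 i).trans e1) hwwe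
  have hcomm : ∀ i, ∀ a ∈ S₀, ‖s i * a - a * s i‖ ≤ ε / 8 := by
    intro i a ha
    have ha1 := hT1 a ha
    have ha2 := hT2 a ha
    have ha3 := hT3 a ha
    have hb1 : 3 * ε₁ ≤ 3 * (C * ε₁) := by nlinarith
    have k0 : ‖star a * (star (s i) * s i) - star a * ye n‖ ≤ 3 * (C * ε₁) := by
      have := gcsi_h0 hwn hen (hC _ ha2) (hwT _ ha2).2 (hs1 i)
      nlinarith
    have k1 : ‖star (s i) * a * s i - a * ye n‖ ≤ 3 * (C * ε₁) :=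
      (gcsi_h1 hwn hen (hwT _ ha1).1 (hwT _ ha1).2 (hs2 i a ha1)).trans hb1
    have k2 : ‖star (s i) * star a * s i - star a * ye n‖ ≤ 3 * (C * ε₁) :=
      (gcsi_h1 hwn hen (hwT _ ha2).1 (hwT _ ha2).2 (hs2 i _ ha2)).trans hb1
    have k3 : ‖star (s i) * (star a * a) * s i - star a * a * ye n‖ ≤ 3 * (C * ε₁) :=
      (gcsi_h1 hwn hen (hwT _ ha3).1 (hwT _ ha3).2 (hs2 i _ ha3)).trans hb1
    have h4 := si_commG k0 k1 k2 k3
    have h5 : (1 + 3 * ‖a‖) * (3 * (C * ε₁)) ≤ (1 + 3 * C) * (3 * (C * ε₁)) :=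
      mul_le_mul_of_nonneg_right (by linarith [hC a ha1]) (by positivity)
    have h6 : ‖s i * a - a * s i‖ ^ 2 ≤ (ε / 8) ^ 2 := h4.trans (h5.trans e3)
    exact (abs_le_of_sq_le_sq' h6 (by positivity)).2
  refine ⟨s, hsn, fun i => ?_, fun i a ha => ?_, fun p hp => ?_⟩
  · have h4 := gcsi_h4 hwn hen ha₀n (hwT _ (hT1 a₀ ha₀S)).1 (hs1 i) h3
    linarith
  · have h4 := hcomm i a (by rw [hS₀]; exact Finset.mem_insert_of_mem ha)
    linarith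
  · have h4 := si_orthG (α p.1) (hyfp p.2.1 n₀).star_eq (hyfp p.2.1 n₀).2 (hyfp p.2.2 n₀).2
      (hs3 p.2.1) (hs3 p.2.2) (hn₃ p hp) (hsn p.2.1) (hsn p.2.2) ha₀n (hcomm p.2.2 a₀ ha₀S)
    linarith

end P095G
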