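import Vale.Agent.Lib.P095F.CBSi
import Vale.Agent.Lib.P095G.GCSi

/-!
# P095G, part GC, module SiB: orthogonal isometries from property (SI), exact version in `FA`
-/

open scoped ENNReal Topology
open Filter P101 P095E P095F

namespace P095G

universe u v

/-- **Orthogonal isometries.**

Proof: adapt the proof of `P095F.exists_s` (file `P095F/CBSi.lean`).  `xe` a lift of `e` from
`exists_posC_lift`, `ye` from `P095F.exists_rep_pos`, `htr` from `tr_small_lift`.  `a` a dense sequence of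
`E`, `a' k = a k - c_k 1 ∈ I` (`hI.unitize`): commutators with `a k` and `a' k` are equal.  `eps_test`
with `f k n s = ∑ i, ‖(star (s i) * s i - ye n) * a₀‖ + ∑ i, ‖s i * a k - a k * s i‖ + cR k s`,
`cR` from `‖star (α g (s i)) * s j * a₀‖`; hypothesis from `si_stepG` with `S` = image of `a'`.
Relations in `FA` from `toFA_eq_of_rep` with `a₀ ≠ 0` (`‖a₀‖ = 1`), `faAct_toFA`. -/
theorem exists_sG (ω : Ultrafilter ℕ) (hω : (ω : Filter ℕ) ≤ Filter.cofinite)
    {E : Type u} [CStarAlgebra E] [Nontrivial E] [TopologicalSpace.SeparableSpace E]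
    {I : Ideal E} (hI : GoodIdeal I) {a₀ a₁ : E} (hb : TrBase I a₀ a₁) (hSI : SILocalG I a₀)
    {G : Type v} [Group G] [Countable G] (α : G →* (E ≃⋆ₐ[ℂ] E)) (hα : ∀ g, ∀ a ∈ I, α g a ∈ I)
    (β : G →* (FOmega ω E ≃⋆ₐ[ℂ] FOmega ω E)) (hβ : ∀ g, Induces ω (α g) (β g))
    {e : FA ω I} (he : ∃ x, toFA ω I x = e ∧ InJG ω α a₀ x) (hep : ∃ c, e = star c * c)
    (hen : ‖e‖ ≤ 1) (R : Set (G × Fin 2 × Fin 2))
    (hf : ∀ X : Finset (G × Fin 2 × Fin 2), (X : Set (G × Fin 2 × Fin 2)) ⊆ R → ∀ ε : ℝ, 0 < ε →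
      ∃ f : Fin 2 → FA ω I, (∀ i, ∃ c, f i = star c * c) ∧ (∀ i, ‖f i‖ = 1) ∧
        ∀ p ∈ X, ‖faAct ω I α hα β hβ p.1 (f p.2.1) * f p.2.2‖ ≤ ε) :
    ∃ s : Fin 2 → FA ω I, (∀ i, star (s i) * s i = e) ∧
      ∀ p ∈ R, star (faAct ω I α hα β hβ p.1 (s p.2.1)) * s p.2.2 = 0 := by
  classical
  obtain ⟨x₀, hx₀, hJ⟩ := he
  obtain ⟨xe, hxe, hxp, hxn⟩ := exists_posC_lift ω hep hen
  obtain ⟨ye, hye, hyp, hyn⟩ := exists_rep_pos ω hxp hxn
  have hyP : ∀ n, PosC (ye n) := fun n => ⟨hyp n, hyn n⟩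
  have htr : ∀ v, InIdeal {a₀} v → ∀ η : ℝ, 0 < η →
      ∀ᶠ n in (ω : Filter ℕ), ∀ τ ∈ Tr a₀, (τ (v * ye n * v)).re ≤ η := by
    intro v hv η hη
    exact tr_small_lift ω hI hb α hα hJ (hxe.trans hx₀.symm) hye hv hη
  have ha₀ : a₀ ≠ 0 := by
    intro h
    have h1 := hb.norm0
    rw [h, norm_zero] at h1
    exact zero_ne_one h1
  let a : ℕ → E := TopologicalSpace.denseSeq E
  have hda : DenseRange a := TopologicalSpace.denseRange_denseSeq E
  choose c hc using fun k => hI.unitize (a k)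
  let a' : ℕ → E := fun k => a k - algebraMap ℂ E (c k)
  have ha' : ∀ k, a' k ∈ I := hc
  have hcomm : ∀ (s : E) (k : ℕ), s * a' k - a' k * s = s * a k - a k * s := by
    intro s k
    have h1 : algebraMap ℂ E (c k) * s = s * algebraMap ℂ E (c k) := Algebra.commutes _ _
    simp only [a', mul_sub, sub_mul, h1]
    abel
  -- coding of the triples
  obtain ⟨pi, hpi⟩ : ∃ pi : (G × Fin 2 × Fin 2) → ℕ, Function.Injective pi :=
    exists_injective_nat _
  -- the conditions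
  let dec : ℕ → Option (G × Fin 2 × Fin 2) := fun k =>
    if h : ∃ p ∈ R, pi p = k then some h.choose else none
  have hdec1 : ∀ p ∈ R, dec (pi p) = some p := by
    intro p hp
    have h : ∃ q ∈ R, pi q = pi p := ⟨p, hp, rfl⟩
    simp only [dec, dif_pos h]
    exact congrArg some (hpi h.choose_spec.2)
  have hdec2 : ∀ k p, dec k = some p → p ∈ R := by
    intro k p hk
    by_cases h : ∃ q ∈ R, pi q = k
    · simp only [dec, dif_pos h, Option.some.injEq] at hk
      rw [← hk]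
      exact h.choose_spec.1
    · simp only [dec] at hk
      rw [dif_neg h] at hk
      cases hk
  let B : Type u := {s : Fin 2 → E // ∀ i, ‖s i‖ ≤ 2}
  let cR : ℕ → B → ℝ := fun k s =>
    match dec k with
    | some p => ‖star (α p.1 (s.1 p.2.1)) * s.1 p.2.2 * a₀‖
    | none => 0
  let f : ℕ → ℕ → B → ℝ := fun k n s =>
    (∑ i, ‖(star (s.1 i) * s.1 i - ye n) * a₀‖) + (∑ i, ‖s.1 i * a k - a k * s.1 i‖) + cR k s
  have hcR0 : ∀ k s, 0 ≤ cR k s := by
    intro k s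
    simp only [cR]
    split
    · exact norm_nonneg _
    · exact le_rfl
  obtain ⟨s, hs⟩ := eps_test hω f (by
    intro m ε hε
    -- finite data
    let S : Finset E := (Finset.range (m + 1)).image a'
    have hSI' : ∀ b ∈ S, b ∈ I := by
      intro b hb'
      obtain ⟨k, _, hk⟩ := Finset.mem_image.1 hb'
      rw [← hk]
      exact ha' k
    let X : Finset (G × Fin 2 × Fin 2) := ((Finset.range (m + 1)).image dec).eraseNone
    have hX : (X : Set (G × Fin 2 × Fin 2)) ⊆ R := by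
      intro p hp
      have h1 : some p ∈ (Finset.range (m + 1)).image dec := Finset.mem_eraseNone.1 hp
      obtain ⟨k, _, hk⟩ := Finset.mem_image.1 h1
      exact hdec2 k p hk
    have hε8 : 0 < ε / 8 := by positivity
    have h1 := si_stepG ω hI hb hSI α hα β hβ hye hyP htr X (hf X hX) S hSI' hε8
    let s0 : B := ⟨fun _ => 0, fun _ => by simp⟩
    let s : ℕ → B := fun n => if h : ∃ s : Fin 2 → E, (∀ i, ‖s i‖ ≤ 2) ∧
      (∀ i, ‖(star (s i) * s i - ye n) * a₀‖ ≤ ε / 8) ∧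
      (∀ i, ∀ a ∈ S, ‖s i * a - a * s i‖ ≤ ε / 8) ∧
      ∀ p ∈ X, ‖star (α p.1 (s p.2.1)) * s p.2.2 * a₀‖ ≤ ε / 8
      then ⟨h.choose, h.choose_spec.1⟩ else s0
    refine ⟨s, fun k hk => ?_⟩
    filter_upwards [h1] with n hn
    have hsn : s n = ⟨hn.choose, hn.choose_spec.1⟩ := by
      simp only [s]
      rw [dif_pos hn]
    have h2 := hn.choose_spec
    rw [hsn]
    have b1 : (∑ i, ‖(star (hn.choose i) * hn.choose i - ye n) * a₀‖) ≤ ε / 8 + ε / 8 := by
      rw [Fin.sum_univ_two]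
      exact add_le_add (h2.2.1 0) (h2.2.1 1)
    have hkS : a' k ∈ S := Finset.mem_image_of_mem a' (Finset.mem_range.2 (by omega))
    have b2 : (∑ i, ‖hn.choose i * a k - a k * hn.choose i‖) ≤ ε / 8 + ε / 8 := by
      rw [Fin.sum_univ_two, ← hcomm, ← hcomm]
      exact add_le_add (h2.2.2.1 0 _ hkS) (h2.2.2.1 1 _ hkS)
    have b3 : cR k ⟨hn.choose, hn.choose_spec.1⟩ ≤ ε / 8 := by
      simp only [cR]
      split
      · rename_i p hp
        refine h2.2.2.2 p (Finset.mem_eraseNone.2 ?_)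
        rw [← hp]
        exact Finset.mem_image_of_mem dec (Finset.mem_range.2 (by omega))
      · exact hε8.le
    change (∑ i, ‖(star (hn.choose i) * hn.choose i - ye n) * a₀‖) +
      (∑ i, ‖hn.choose i * a k - a k * hn.choose i‖) + cR k ⟨hn.choose, hn.choose_spec.1⟩ < ε
    linarith)
  -- consequences of the epsilon test
  have hA : ∀ (i : Fin 2) (ε : ℝ), 0 < ε → ∀ᶠ n in (ω : Filter ℕ),
      ‖(star ((s n).1 i) * (s n).1 i - ye n) * a₀‖ ≤ ε := by
    intro i ε hε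
    filter_upwards [hs 0 ε hε] with n hn
    have h1 : ‖(star ((s n).1 i) * (s n).1 i - ye n) * a₀‖ ≤
        ∑ i, ‖(star ((s n).1 i) * (s n).1 i - ye n) * a₀‖ :=
      Finset.single_le_sum (f := fun i => ‖(star ((s n).1 i) * (s n).1 i - ye n) * a₀‖)
        (fun _ _ => norm_nonneg _) (Finset.mem_univ i)
    have h2 : 0 ≤ ∑ i, ‖(s n).1 i * a 0 - a 0 * (s n).1 i‖ :=
      Finset.sum_nonneg fun _ _ => norm_nonneg _
    have h3 := hcR0 0 (s n)
    change (∑ i, ‖(star ((s n).1 i) * (s n).1 i - ye n) * a₀‖) +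
      (∑ i, ‖(s n).1 i * a 0 - a 0 * (s n).1 i‖) + cR 0 (s n) < ε at hn
    linarith
  have hB : ∀ (i : Fin 2) (k : ℕ) (ε : ℝ), 0 < ε → ∀ᶠ n in (ω : Filter ℕ),
      ‖(s n).1 i * a k - a k * (s n).1 i‖ ≤ ε := by
    intro i k ε hε
    filter_upwards [hs k ε hε] with n hn
    have h1 : ‖(s n).1 i * a k - a k * (s n).1 i‖ ≤
        ∑ i, ‖(s n).1 i * a k - a k * (s n).1 i‖ :=
      Finset.single_le_sum (f := fun i => ‖(s n).1 i * a k - a k * (s n).1 i‖)
        (fun _ _ => norm_nonneg _) (Finset.mem_univ i)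
    have h2 : 0 ≤ ∑ i, ‖(star ((s n).1 i) * (s n).1 i - ye n) * a₀‖ :=
      Finset.sum_nonneg fun _ _ => norm_nonneg _
    have h3 := hcR0 k (s n)
    change (∑ i, ‖(star ((s n).1 i) * (s n).1 i - ye n) * a₀‖) +
      (∑ i, ‖(s n).1 i * a k - a k * (s n).1 i‖) + cR k (s n) < ε at hn
    linarith
  have hD : ∀ p ∈ R, ∀ (ε : ℝ), 0 < ε → ∀ᶠ n in (ω : Filter ℕ),
      ‖star (α p.1 ((s n).1 p.2.1)) * (s n).1 p.2.2 * a₀‖ ≤ ε := by
    intro p hp ε hε
    filter_upwards [hs (pi p) ε hε] with n hn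
    have h1 : 0 ≤ ∑ i, ‖(s n).1 i * a (pi p) - a (pi p) * (s n).1 i‖ :=
      Finset.sum_nonneg fun _ _ => norm_nonneg _
    have h2 : 0 ≤ ∑ i, ‖(star ((s n).1 i) * (s n).1 i - ye n) * a₀‖ :=
      Finset.sum_nonneg fun _ _ => norm_nonneg _
    have h3 : cR (pi p) (s n) = ‖star (α p.1 ((s n).1 p.2.1)) * (s n).1 p.2.2 * a₀‖ := by
      simp only [cR, hdec1 p hp]
    change (∑ i, ‖(star ((s n).1 i) * (s n).1 i - ye n) * a₀‖) +
      (∑ i, ‖(s n).1 i * a (pi p) - a (pi p) * (s n).1 i‖) + cR (pi p) (s n) < ε at hn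
    rw [h3] at hn
    linarith
  choose x y hy hx using fun i : Fin 2 => exists_of_seq ω hda (fun n => (s n).1 i) (C := 2)
    (fun n => (s n).2 i) (hB i)
  refine ⟨fun i => toFA ω I (x i), fun i => ?_, fun p hp => ?_⟩
  · rw [← hxe]
    have h0 : star (toFA ω I (x i)) * toFA ω I (x i) = toFA ω I (star (x i) * x i) := by
      rw [map_mul, map_star]
    rw [h0]
    refine toFA_eq_of_rep ω hI (y := star (y i) * y i) (y' := ye) ?_ hye hb.mem0 ha₀ ?_
    · rw [map_mul, map_star, hx]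
      rfl
    · intro ε hε
      filter_upwards [hA i ε hε] with n hn
      have h1 : (star (y i) * y i) n = star ((s n).1 i) * (s n).1 i := by
        have h2 : (star (y i) * y i) n = star (y i n) * y i n := rfl
        rw [h2, hy]
      rw [h1]
      exact hn
  · change star (faAct ω I α hα β hβ p.1 (toFA ω I (x p.2.1))) * toFA ω I (x p.2.2) = 0
    have h0 : star (faAct ω I α hα β hβ p.1 (toFA ω I (x p.2.1))) * toFA ω I (x p.2.2) =
        toFA ω I (star (β p.1 (x p.2.1)) * x p.2.2) := by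
      rw [faAct_toFA, map_mul, map_star]
    rw [h0, ← map_zero (toFA ω I)]
    refine toFA_eq_of_rep ω hI
      (y := star (lpMap (α p.1 : E →⋆ₐ[ℂ] E) (y p.2.1)) * y p.2.2) (y' := 0)
      ?_ ?_ hb.mem0 ha₀ ?_
    · rw [map_mul, map_star, ← hβ p.1 (x p.2.1) (y p.2.1) (hx _), hx]
      rfl
    · rw [map_zero]
      rfl
    · intro ε hε
      filter_upwards [hD p hp ε hε] with n hn
      have h1 : (star (lpMap (α p.1 : E →⋆ₐ[ℂ] E) (y p.2.1)) * y p.2.2) n =
          star (α p.1 ((s n).1 p.2.1)) * (s n).1 p.2.2 := by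
        have h2 : (star (lpMap (α p.1 : E →⋆ₐ[ℂ] E) (y p.2.1)) * y p.2.2) n =
            star (α p.1 (y p.2.1 n)) * y p.2.2 n := rfl
        rw [h2, hy, hy]
      have h3 : (0 : lp (fun _ : ℕ => E) ∞) n = 0 := rfl
      rw [h1, h3, sub_zero]
      exact hn

end P095G
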