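import Vale.Agent.Lib.P095F.CBf
import Vale.Agent.Lib.P095F.CBAvg
import Vale.Agent.Lib.P095G.GCCopies
import Vale.Agent.Lib.P095G.GCSiB
import Vale.Agent.Lib.P095G.GCInv

/-!
# P095G, part GCB: invariant isometries in `FA` on the image of the trace kernel ideal
-/

open scoped ENNReal Topology
open Filter P101 P095E P095F

namespace P095G

universe u v

/-- **Part GCB** -/
theorem exists_isometriesG (ω : Ultrafilter ℕ) (hω : (ω : Filter ℕ) ≤ Filter.cofinite)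
    {E : Type u} [CStarAlgebra E] [Nontrivial E] [TopologicalSpace.SeparableSpace E]
    {I : Ideal E} (hI : GoodIdeal I) {a₀ a₁ : E} (hb : TrBase I a₀ a₁) (hSI : SILocalG I a₀)
    {G : Type v} [Group G] [Countable G] (hG : FolnerGroup G)
    (α : G →* (E ≃⋆ₐ[ℂ] E)) (hα : ∀ g, ∀ a ∈ I, α g a ∈ I)
    (β : G →* (FOmega ω E ≃⋆ₐ[ℂ] FOmega ω E)) (hβ : ∀ g, Induces ω (α g) (β g))
    (hchar : IsEmpty (FA ω I →⋆ₐ[ℂ] ℂ)) (e : FA ω I)
    (he : ∃ x, toFA ω I x = e ∧ InJG ω α a₀ x) (hep : ∃ c, e = star c * c) (hen : ‖e‖ ≤ 1)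
    (hei : ∀ g, faAct ω I α hα β hβ g e = e) :
    ∃ s : Fin 2 → FA ω I, (∀ i g, faAct ω I α hα β hβ g (s i) = s i) ∧
      ∀ i j, star (s i) * s j = if i = j then e else 0 := by
  have hnt : Nontrivial (FA ω I) := fa_nontrivial ω hI
  have hc : HasIndepCopies (Set.range (faAct ω I α hα β hβ)) :=
    hasIndepCopies_FA ω hω hI α hα β hβ
  obtain ⟨s, hs1, hs2⟩ := exists_sG ω hω hI hb hSI α hα β hβ he hep hen
    {p : G × Fin 2 × Fin 2 | ¬ (faAct ω I α hα β hβ p.1 = 1 ∧ p.2.1 = p.2.2)} (by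
      classical
      intro X hX ε hε
      obtain ⟨f, hf1, hf2, hf3⟩ := exists_f_approx (faAct ω I α hα β hβ) hc hchar
        (X.image Prod.fst) hε
      exact ⟨f, hf1, hf2, fun p hp => hf3 p.1 (Finset.mem_image_of_mem _ hp) _ _ (hX hp)⟩)
  refine exists_invG ω hω hI hb.mem0 hb.norm0 α hα β hβ hen fun K₀ ε hε => ?_
  exact exists_avg hG (faAct ω I α hα β hβ) hen hei hs1 (fun g i j h => hs2 (g, i, j) h) K₀ hε

end P095G
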