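import Vale.Agent.Lib.P095G.GDefs

/-!
# P095 stage 3: a minimal projection in `I` gives a character of `FA`
-/

open scoped ENNReal Topology
open Filter P101 P095E P095F

namespace P095G

universe u v

variable {ω : Ultrafilter ℕ} {E : Type u} [CStarAlgebra E] [Nontrivial E] {I : Ideal E}

/-- the scalar by which a central sequence acts on a minimal projection -/
theorem exists_scalar {p : E} (hps : star p = p) (hpp : p * p = p) (hp0 : p ≠ 0)
    (hc : ∀ a, ∃ c : ℂ, p * a * p = c • p) (x : FOmega ω E) :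
    ∃ c : ℂ, (x : Ultrapower ω E) * ultraConst ω E p = c • ultraConst ω E p := by
  classical
  obtain ⟨y, hy⟩ := toUltrapower_surjective ω E (x : Ultrapower ω E)
  choose c hc' using fun n => hc (y n)
  have hpn : ‖p‖ = 1 := by
    have h1 : ‖p‖ * ‖p‖ = ‖p‖ := by
      rw [← CStarRing.norm_star_mul_self (x := p), hps, hpp]
    have h2 : ‖p‖ ≠ 0 := by simpa using hp0
    exact mul_right_cancel₀ h2 (by rw [h1, one_mul])
  have hcb : ∀ n, ‖c n‖ ≤ ‖y‖ := by
    intro n
    have h1 : ‖c n • p‖ ≤ ‖y‖ := by
      rw [← hc' n]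
      refine (norm_mul_le _ _).trans ?_
      rw [hpn, mul_one]
      refine (norm_mul_le _ _).trans ?_
      rw [hpn, one_mul]
      exact lp.norm_apply_le_norm (by simp) y n
    rwa [norm_smul, hpn, mul_one] at h1
  -- the limit
  obtain ⟨c0, -, hc0⟩ : ∃ c0 ∈ Metric.closedBall (0 : ℂ) ‖y‖, Tendsto c ω (𝓝 c0) := by
    have hcomp : IsCompact (Metric.closedBall (0 : ℂ) ‖y‖) := isCompact_closedBall _ _
    have hle : (↑(ω.map c) : Filter ℂ) ≤ 𝓟 (Metric.closedBall (0 : ℂ) ‖y‖) := by
      rw [Filter.le_principal_iff, Ultrafilter.coe_map, Filter.mem_map]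
      refine Filter.univ_mem' fun n => ?_
      simpa using hcb n
    obtain ⟨c0, h1, h2⟩ := hcomp.ultrafilter_le_nhds _ hle
    exact ⟨c0, h1, h2⟩
  refine ⟨c0, ?_⟩
  have hcomm := (commute_ultraConst ω x p).eq
  have hP : ultraConst ω E p * ultraConst ω E p = ultraConst ω E p := by
    rw [← map_mul, hpp]
  have h1 : (x : Ultrapower ω E) * ultraConst ω E p =
      ultraConst ω E p * (x : Ultrapower ω E) * ultraConst ω E p := by
    rw [← hcomm, mul_assoc, hP]
  rw [h1, ← hy]
  have hcst : ∀ a : E, ultraConst ω E a = toUltrapower ω E (constSeq E a) := fun _ => rfl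
  rw [hcst, ← map_mul, ← map_mul, ← map_smul, ← sub_eq_zero, ← map_sub,
    toUltrapower_eq_zero_iff]
  have h3 : ∀ n, ‖(constSeq E p * y * constSeq E p - c0 • constSeq E p) n‖ = ‖c n - c0‖ := by
    intro n
    have : (constSeq E p * y * constSeq E p - c0 • constSeq E p) n = p * y n * p - c0 • p := rfl
    rw [this, hc' n, ← sub_smul, norm_smul, hpn, mul_one]
  have h4 : Tendsto (fun n => ‖c n - c0‖) ω (𝓝 0) := by
    have := (hc0.sub_const c0).norm
    simpa using this
  exact h4.congr fun n => (h3 n).symm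

theorem ultraConst_ne_zero {p : E} (hp0 : p ≠ 0) : ultraConst ω E p ≠ 0 := by
  intro h
  have hcst : ultraConst ω E p = toUltrapower ω E (constSeq E p) := rfl
  rw [hcst, toUltrapower_eq_zero_iff] at h
  have h2 : Tendsto (fun _ : ℕ => ‖p‖) ω (𝓝 0) := h
  have h3 := tendsto_nhds_unique h2 tendsto_const_nhds
  exact hp0 (by simpa using h3.symm)

/-- if `FA` has no characters then `I` has no minimal projections -/
theorem no_minimal (hch : IsEmpty (FA ω I →⋆ₐ[ℂ] ℂ)) :
    ∀ p ∈ I, star p = p → p * p = p → p ≠ 0 → ¬ ∀ a, ∃ c : ℂ, p * a * p = c • p := by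
  intro p hpI hps hpp hp0 hc
  have hP0 : ultraConst ω E p ≠ 0 := ultraConst_ne_zero hp0
  choose χ hχ using fun x : FOmega ω E => exists_scalar (ω := ω) hps hpp hp0 hc x
  have huniq : ∀ (x : FOmega ω E) (c : ℂ),
      (x : Ultrapower ω E) * ultraConst ω E p = c • ultraConst ω E p → χ x = c := by
    intro x c h
    have h1 : (χ x - c) • ultraConst ω E p = 0 := by
      rw [sub_smul, ← hχ x, h, sub_self]
    rcases smul_eq_zero.1 h1 with h2 | h2
    · exact sub_eq_zero.1 h2
    · exact absurd h2 hP0
  have hPs : star (ultraConst ω E p) = ultraConst ω E p := by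
    rw [← map_star, hps]
  let f : FOmega ω E →⋆ₐ[ℂ] ℂ :=
    { toFun := χ
      map_one' := huniq 1 1 (by rw [one_smul]; exact one_mul _)
      map_zero' := huniq 0 0 (by rw [zero_smul]; exact zero_mul _)
      map_add' := fun x y => huniq _ _ (by
        rw [add_smul, ← hχ x, ← hχ y]
        exact add_mul _ _ _)
      map_mul' := fun x y => huniq _ _ (by
        have h1 : ((x * y : FOmega ω E) : Ultrapower ω E) * ultraConst ω E p =
            (x : Ultrapower ω E) * ((y : Ultrapower ω E) * ultraConst ω E p) := mul_assoc _ _ _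
        rw [h1, hχ y, mul_smul_comm, hχ x, smul_smul, mul_comm])
      commutes' := fun c => huniq _ _ (by
        have h1 : ((algebraMap ℂ (FOmega ω E) c : FOmega ω E) : Ultrapower ω E) =
          algebraMap ℂ (Ultrapower ω E) c := rfl
        rw [h1, ← Algebra.smul_def]
        rfl)
      map_star' := fun x => huniq _ _ (by
        have h1 := congrArg star (hχ x)
        rw [star_mul, hPs, star_smul, hPs] at h1
        have h2 := (commute_ultraConst ω (star x) p).eq
        rw [h2]
        exact h1) }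
  obtain ⟨g, -⟩ := exists_quotLift (annF ω I) f (fun x hx => huniq x 0 (by
    rw [zero_smul]
    exact hx p hpI))
  exact hch.false g

end P095G
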