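import Vale.Agent.Lib.P095G.GVa
import Vale.Agent.Lib.P095F.V3d

/-!
# P095 stage 3, part GV, module GVd: transfer (V3d) with rows in `Her v`

* `gv_kraus`.  `cp_kraus` (P095F/CACP.lean): `ψ m = ∑ p q, m p q • ∑ l, star (C l p) * C l q`.  `T : CStarMatrix (Fin k) (Fin k) E`,
  `T p q = ∑ l, star (C l p * u) * (C l q * u) = u * (∑ l, star (C l p) * C l q) * u`, `T = star D * D ≥ 0` (`D l p = C l p * u`).  All
  entries of `T` are in `Her v` (`her_mul` with `x = z = u`), so the entries of `T * R * T` are in `Her v` for every matrix `R`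
  (`her_mul`, `her_sum`).  `S = √T` (`CFC.sqrt` or `cfc Real.sqrt T`, spectral order) is the norm limit (`κ → 0`) of
  `T * cfc (fun t => √t / (t² + κ)) T * T`; entries are continuous (`CStarMatrix.norm_entry_le_norm`) and `Her v` is closed; so the
  entries of `S` are in `Her v`, and `T = star S * S`; `c l p = S l p`.
* `gv_gram`: as `gram_psi` (P095F/V2c.lean), with `Y (r, l) s = ∑ p, V r (p, s) • c l p`.
* `gv_transfer`: same proof as `V3d_main` (P095F/V3d.lean: copy it) with `u` inserted: the positive matrix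
  `[s = t] θ ψ(1) + ψ((Vᴴ V)(·s,·t)) + ψ(φ (VKer x g e' s t))` is multiplied by `u` from both sides (rows `D l s * u`); `gv_gram`
  instead of `gram_psi`; the rows of `Z` are `∑_i if g i a * h = w then x i * u else 0` (in `Her v` by `hx`) and `Y`;
  `V3d_err` for `Δ y = u * (ψ (φ y) - y) * u`; `u * e * u = e` (`hue` and its adjoint);
  the diagonal part is `δ/2 - δ/8 - θ u ψ(1) u - c u (ψ φ 1) u ≥ 0`.
-/

open scoped ENNReal Topology ComplexOrder
open Filter P101 P095E P095F

namespace P095G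

universe u

section Sqrt

variable {M : Type u} [CStarAlgebra M] [PartialOrder M] [StarOrderedRing M]

private theorem gvd_scalar {ε t : ℝ} (hε : 0 < ε) (ht : 0 ≤ t) :
    |√t - t * (√t / (t ^ 2 + ε ^ 4)) * t| ≤ ε := by
  obtain ⟨s, hs⟩ : ∃ s, s = √t := ⟨_, rfl⟩
  have hs0 : 0 ≤ s := hs ▸ Real.sqrt_nonneg t
  have hst : t = s ^ 2 := by rw [hs, Real.sq_sqrt ht]
  rw [← hs, hst]
  have hpos : 0 < (s ^ 2) ^ 2 + ε ^ 4 := by positivity
  have h1 : s - s ^ 2 * (s / ((s ^ 2) ^ 2 + ε ^ 4)) * s ^ 2 = ε ^ 4 * s / ((s ^ 2) ^ 2 + ε ^ 4) := by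
    field_simp
    ring
  rw [h1, abs_of_nonneg (by positivity), div_le_iff₀ hpos]
  rcases le_total s ε with h | h
  · have h2 : 0 ≤ ε * (s ^ 2) ^ 2 := by positivity
    nlinarith [mul_le_mul_of_nonneg_left h (by positivity : (0 : ℝ) ≤ ε ^ 4)]
  · have h3 : ε ^ 3 ≤ s ^ 3 := pow_le_pow_left₀ hε.le h 3
    have h4 : ε ^ 4 * s ≤ ε * (s ^ 2) ^ 2 := by
      have h5 : ε * (s ^ 2) ^ 2 - ε ^ 4 * s = ε * s * (s ^ 3 - ε ^ 3) := by ring
      have h6 : 0 ≤ ε * s * (s ^ 3 - ε ^ 3) := mul_nonneg (by positivity) (by linarith)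
      linarith
    have h7 : 0 ≤ ε * ε ^ 4 := by positivity
    nlinarith

private theorem gvd_sqrt (T : M) (hT : 0 ≤ T) :
    ∃ S : M, star S * S = T ∧ ∀ ε : ℝ, 0 < ε → ∃ R : M, ‖S - T * R * T‖ ≤ ε := by
  have hsa : IsSelfAdjoint T := IsSelfAdjoint.of_nonneg hT
  refine ⟨cfc Real.sqrt T, ?_, ?_⟩
  · have h1 : star (cfc Real.sqrt T) = cfc Real.sqrt T :=
      (cfc_predicate (p := IsSelfAdjoint) Real.sqrt T).star_eq
    rw [h1, ← cfc_mul Real.sqrt Real.sqrt T]
    conv_rhs => rw [← cfc_id ℝ T]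
    exact cfc_congr fun t ht => Real.mul_self_sqrt (spectrum_nonneg_of_nonneg hT ht)
  · intro ε hε
    have hc : Continuous fun t : ℝ => √t / (t ^ 2 + ε ^ 4) := by
      refine Continuous.div (by fun_prop) (by fun_prop) fun t => ?_
      positivity
    refine ⟨cfc (fun t : ℝ => √t / (t ^ 2 + ε ^ 4)) T, ?_⟩
    have h1 : T * cfc (fun t : ℝ => √t / (t ^ 2 + ε ^ 4)) T * T =
        cfc (fun t : ℝ => t * (√t / (t ^ 2 + ε ^ 4)) * t) T := by
      rw [cfc_mul (fun t : ℝ => t * (√t / (t ^ 2 + ε ^ 4))) (fun t : ℝ => t) T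
        (by fun_prop) (by fun_prop), cfc_mul (fun t : ℝ => t) (fun t : ℝ => √t / (t ^ 2 + ε ^ 4)) T
        (by fun_prop) hc.continuousOn, cfc_id' ℝ T]
    rw [h1, ← cfc_sub Real.sqrt (fun t : ℝ => t * (√t / (t ^ 2 + ε ^ 4)) * t) T
      (by fun_prop) (by fun_prop)]
    refine norm_cfc_le hε.le fun t ht => ?_
    rw [Real.norm_eq_abs]
    exact gvd_scalar hε (spectrum_nonneg_of_nonneg hT ht)

end Sqrt

variable {E : Type u} [CStarAlgebra E]

theorem gv_kraus {k : ℕ} {ψ : Matrix (Fin k) (Fin k) ℂ →ₗ[ℂ] E} (hψ : CPos ψ) {v u : E}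
    (hv : star v = v) (hu : u ∈ Her v) (hus : star u = u) :
    ∃ c : Fin k → Fin k → E, (∀ l p, c l p ∈ Her v) ∧ ∀ m : Matrix (Fin k) (Fin k) ℂ,
      u * ψ m * u = ∑ p, ∑ q, m p q • ∑ l, star (c l p) * c l q := by
  obtain ⟨C, hC⟩ := cp_kraus ψ hψ
  let _ := CStarAlgebra.spectralOrder E
  let _ := CStarAlgebra.spectralOrderedRing E
  let _ := CStarAlgebra.spectralOrder (CStarMatrix (Fin k) (Fin k) E)
  let _ := CStarAlgebra.spectralOrderedRing (CStarMatrix (Fin k) (Fin k) E)
  let D : CStarMatrix (Fin k) (Fin k) E := CStarMatrix.ofMatrix (fun l p => C l p * u)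
  obtain ⟨T, hT⟩ : ∃ T : CStarMatrix (Fin k) (Fin k) E, T = star D * D := ⟨_, rfl⟩
  have hT0 : 0 ≤ T := hT ▸ star_mul_self_nonneg D
  have hTe : ∀ p q, T p q = u * (∑ l, star (C l p) * C l q) * u := by
    intro p q
    rw [hT, CStarMatrix.mul_apply, Finset.mul_sum, Finset.sum_mul]
    refine Finset.sum_congr rfl fun l _ => ?_
    rw [CStarMatrix.star_apply]
    change star (C l p * u) * (C l q * u) = _
    rw [star_mul, hus]
    simp only [mul_assoc]
  have hTH : ∀ p q, T p q ∈ Her v := fun p q => by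
    rw [hTe]
    exact her_mul hu _ hu
  obtain ⟨S, h1, h2⟩ := gvd_sqrt T hT0
  have hSH : ∀ p q, S p q ∈ Her v := by
    intro p q
    rw [← (isClosed_Her v).closure_eq, Metric.mem_closure_iff]
    intro ε hε
    obtain ⟨R, hR⟩ := h2 (ε / 2) (half_pos hε)
    refine ⟨(T * R * T) p q, ?_, ?_⟩
    · rw [CStarMatrix.mul_apply]
      refine her_sum _ fun j _ => ?_
      rw [CStarMatrix.mul_apply, Finset.sum_mul]
      exact her_sum _ fun i _ => her_mul (hTH p i) _ (hTH j q)
    · rw [dist_eq_norm]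
      have h3 := CStarMatrix.norm_entry_le_norm (M := S - T * R * T) (i := p) (j := q)
      rw [CStarMatrix.sub_apply] at h3
      linarith [h3.trans hR]
  refine ⟨fun l p => S l p, hSH, fun m => ?_⟩
  rw [hC, Finset.mul_sum, Finset.sum_mul]
  refine Finset.sum_congr rfl fun p _ => ?_
  rw [Finset.mul_sum, Finset.sum_mul]
  refine Finset.sum_congr rfl fun q _ => ?_
  rw [mul_smul_comm, smul_mul_assoc, ← hTe, ← h1, CStarMatrix.mul_apply]
  congr 1

theorem gv_gram {k : ℕ} {ψ : Matrix (Fin k) (Fin k) ℂ →ₗ[ℂ] E} (hψ : CPos ψ) {v u : E}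
    (hv : star v = v) (hu : u ∈ Her v) (hus : star u = u) {S R : Type} [Fintype R]
    (V : R → Fin k × S → ℂ) :
    ∃ Y : R × Fin k → S → E, (∀ l s, Y l s ∈ Her v) ∧ ∀ s t,
      u * ψ (Matrix.of fun p q => ∑ r, star (V r (p, s)) * V r (q, t)) * u =
        ∑ l, star (Y l s) * Y l t := by
  obtain ⟨c, hcH, hc⟩ := gv_kraus hψ hv hu hus
  refine ⟨fun rl s => ∑ p, V rl.1 (p, s) • c rl.2 p, fun l s => her_sum _ fun p _ =>
    her_smul _ (hcH _ _), fun s t => ?_⟩
  rw [hc]
  simp only [Matrix.of_apply]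
  rw [Fintype.sum_prod_type]
  have h1 : ∀ r : R, ∑ l : Fin k, star (∑ p, V r (p, s) • c l p) * ∑ q, V r (q, t) • c l q =
      ∑ p, ∑ q, (star (V r (p, s)) * V r (q, t)) • ∑ l, star (c l p) * c l q := by
    intro r
    have h2 : ∀ l : Fin k, star (∑ p, V r (p, s) • c l p) * ∑ q, V r (q, t) • c l q =
        ∑ p, ∑ q, (star (V r (p, s)) * V r (q, t)) • (star (c l p) * c l q) := by
      intro l
      rw [star_sum, Finset.sum_mul]
      refine Finset.sum_congr rfl fun p _ => ?_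
      rw [Finset.mul_sum]
      refine Finset.sum_congr rfl fun q _ => ?_
      rw [star_smul, smul_mul_smul_comm]
    simp only [h2]
    rw [Finset.sum_comm]
    refine Finset.sum_congr rfl fun p _ => ?_
    rw [Finset.sum_comm]
    refine Finset.sum_congr rfl fun q _ => ?_
    rw [Finset.smul_sum]
  simp only [h1]
  symm
  rw [Finset.sum_comm]
  refine Finset.sum_congr rfl fun p _ => ?_
  rw [Finset.sum_comm]
  refine Finset.sum_congr rfl fun q _ => ?_
  rw [Finset.sum_smul]

private theorem gvd_sub {w : E} (hw : star w = w) {r : ℝ} (h : ‖w‖ ≤ r) :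
    ∃ c : E, (r : ℂ) • (1 : E) - w = star c * c := by
  let _ := CStarAlgebra.spectralOrder E
  let _ := CStarAlgebra.spectralOrderedRing E
  rw [real_smul_one]
  refine CStarAlgebra.nonneg_iff_eq_star_mul_self.1 (sub_nonneg.2 ?_)
  have h1 : IsSelfAdjoint w := hw
  refine h1.le_algebraMap_norm_self.trans ?_
  rcases subsingleton_or_nontrivial E with hA | hA
  · exact (Subsingleton.elim _ _).le
  · exact algebraMap_le_algebraMap.2 h

private theorem gvd_one : ‖(1 : E)‖ ≤ 1 := by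
  rcases subsingleton_or_nontrivial E with h | h
  · rw [Subsingleton.elim (1 : E) 0, norm_zero]
    exact zero_le_one
  · exact CStarRing.norm_one.le

private theorem gvd_VKer {G : Type} [Group G] [DecidableEq G] {N m : ℕ} (x : Fin N → E)
    (g : Fin N → Fin m → G) (e' : E) (s t : Fin m × G) :
    VKer x g e' s t =
      (∑ i, ∑ j, if g i s.1 * s.2 = g j t.1 * t.2 then star (x i) * x j else 0) -
        if s = t then e' else 0 := by
  unfold VKer
  congr!

private theorem gvd_conj {S : Type} {T : S → S → E} (h : PosM T) {u : E} (hus : star u = u) :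
    PosM (fun s t => u * T s t * u) := by
  obtain ⟨N, D, hD⟩ := h
  refine ⟨N, fun l s => D l s * u, fun s t => ?_⟩
  change u * T s t * u = ∑ l, star (D l s * u) * (D l t * u)
  rw [hD, Finset.mul_sum, Finset.sum_mul]
  refine Finset.sum_congr rfl fun l _ => ?_
  rw [star_mul, hus]
  simp only [mul_assoc]

private theorem gvd_norm {u : E} (hu1 : ‖u‖ ≤ 1) (y : E) : ‖u * y * u‖ ≤ ‖y‖ := by
  calc ‖u * y * u‖ ≤ ‖u * y‖ * ‖u‖ := norm_mul_le _ _
    _ ≤ ‖u‖ * ‖y‖ * ‖u‖ := mul_le_mul_of_nonneg_right (norm_mul_le _ _) (norm_nonneg _)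
    _ ≤ 1 * ‖y‖ * 1 := by gcongr
    _ = ‖y‖ := by ring

theorem gv_transfer (hE : CPAP E) {v u : E} (hv : star v = v) (hu : u ∈ Her v)
    (hus : star u = u) (hu1 : ‖u‖ ≤ 1) {N m : ℕ} (x : Fin N → E) (hx : ∀ i, x i * u ∈ Her v)
    (e : E) (he : star e = e) (hue : u * e = e) {δ c : ℝ} (hδ : 0 < δ) (hc0 : 0 ≤ c)
    (hc : c ≤ δ / 8)
    (hpos : ∀ H : Finset (FreeGroup (Fin N × Fin m)), PosM (fun s t : Fin m × ↥H =>
      VKer x (gen N m) (e - (c : ℂ) • 1) (s.1, (s.2 : FreeGroup (Fin N × Fin m)))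
        (t.1, (t.2 : FreeGroup (Fin N × Fin m))))) :
    ∃ (n : ℕ) (S : Type) (_ : Fintype S) (_ : DecidableEq S) (Z : Fin (2 * n) → S → E),
      1 ≤ n ∧ Fintype.card S = n * m ∧ (∀ l s, Z l s ∈ Her v) ∧
      PosM (fun s t => (∑ l, star (Z l s) * Z l t) +
        if s = t then (((δ / 2 : ℝ) : ℂ) • (1 : E) - e) else 0) := by
  classical
  have heu : e * u = e := by
    have h := congrArg star hue
    rwa [star_mul, he, hus] at h
  have hueu : u * e * u = e := by rw [hue, heu]
  have hNm : (0 : ℝ) < 1 + N ^ 2 * m := by positivity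
  set d2 : ℝ := min 1 (δ / (8 * (1 + N ^ 2 * m))) with hd2
  have hd20 : 0 < d2 := lt_min one_pos (by positivity)
  have hd21 : d2 ≤ 1 := min_le_left _ _
  have hd22 : d2 * (1 + N ^ 2 * m) ≤ δ / 8 := by
    have h1 : d2 ≤ δ / (8 * (1 + N ^ 2 * m)) := min_le_right _ _
    calc d2 * (1 + N ^ 2 * m) ≤ δ / (8 * (1 + N ^ 2 * m)) * (1 + N ^ 2 * m) :=
          mul_le_mul_of_nonneg_right h1 hNm.le
      _ = δ / 8 := by field_simp
  obtain ⟨k, φ, ψ, hφ, hψ, happ⟩ := hE (insert 1 (insert e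
    (Finset.univ.image fun ij : Fin N × Fin N => star (x ij.1) * x ij.2))) d2 hd20
  have ha1 : ‖ψ (φ 1) - 1‖ ≤ d2 := happ 1 (Finset.mem_insert_self _ _)
  have hae : ‖ψ (φ e) - e‖ ≤ d2 :=
    happ e (Finset.mem_insert_of_mem (Finset.mem_insert_self _ _))
  have hax : ∀ i j, ‖ψ (φ (star (x i) * x j)) - star (x i) * x j‖ ≤ d2 := fun i j =>
    happ _ (Finset.mem_insert_of_mem (Finset.mem_insert_of_mem
      (Finset.mem_image.2 ⟨(i, j), Finset.mem_univ _, rfl⟩)))
  set θ : ℝ := δ / (8 * (‖ψ 1‖ + 1)) with hθ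
  have hψ0 : 0 ≤ ‖ψ 1‖ := norm_nonneg _
  have hθ0 : 0 < θ := by positivity
  have hθ1 : θ * ‖ψ 1‖ ≤ δ / 8 := by
    have h1 : θ * (‖ψ 1‖ + 1) = δ / 8 := by
      rw [hθ]
      field_simp
    nlinarith
  have he' : star (e - (c : ℂ) • (1 : E)) = e - (c : ℂ) • (1 : E) := by
    rw [star_sub, he, star_smul, star_one, Complex.star_def, Complex.conj_ofReal]
  have hκ : (0 : ℝ) < 1 / (k + 1) := by positivity
  obtain ⟨Q, i1, i2, i3, π, ρ, V, hρ, hV⟩ := V3b_main
    (G := FreeGroup (Fin N × Fin m)) (K := Fin k × Fin m) (fun F => V3a_finset F)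
    (opT φ x (e - (c : ℂ) • 1)) (opT_herm hφ m x he') (opT_neg hφ x _ hpos) hθ0 hκ
  set g : Fin N → Fin m → Q := fun i a => π (gen N m i a) with hg
  set f : Fin k × (Fin m × Q) → (Fin k × Fin m) × Q := fun y => ((y.1, y.2.1), y.2.2) with hf
  have hX := hV.submatrix f
  have hP := gvd_conj (posM_psi hψ hX) hus
  obtain ⟨Y, hYH, hY⟩ := gv_gram hψ hv hu hus (S := Fin m × Q) (fun (r : Fin ρ) y => V r (f y))
  have hPeq : ∀ s t : Fin m × Q, u * ψ (Matrix.of fun p q => ((θ : ℂ) • 1 +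
      V.conjTranspose * V -
      Matrix.of (kerM (pushM π (opT φ x (e - (c : ℂ) • 1))))).submatrix f f (p, s) (q, t)) * u =
      (if s = t then (θ : ℂ) • (u * ψ 1 * u) else 0) + (∑ l, star (Y l s) * Y l t) +
        u * ψ (φ (VKer x g (e - (c : ℂ) • 1) s t)) * u := by
    intro s t
    have h1 : (Matrix.of fun p q => ((θ : ℂ) • 1 + V.conjTranspose * V -
      Matrix.of (kerM (pushM π (opT φ x (e - (c : ℂ) • 1))))).submatrix f f (p, s) (q, t)) =
      (if s = t then (θ : ℂ) • (1 : Matrix (Fin k) (Fin k) ℂ) else 0) +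
        (Matrix.of fun p q => ∑ r, star (V r (f (p, s))) * V r (f (q, t))) +
        φ (VKer x g (e - (c : ℂ) • 1) s t) := by
      ext p q
      rw [Matrix.add_apply, Matrix.add_apply, Matrix.of_apply, Matrix.of_apply,
        Matrix.submatrix_apply, Matrix.sub_apply, Matrix.add_apply, Matrix.of_apply,
        kerM_opT, sub_neg_eq_add, Matrix.mul_apply]
      congr 1
      congr 1
      rw [Matrix.smul_apply, Matrix.one_apply]
      by_cases hst : s = t
      · rw [if_pos hst, Matrix.smul_apply, Matrix.one_apply]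
        congr 1
        by_cases hpq : p = q
        · rw [if_pos hpq, if_pos (by rw [hpq, hst])]
        · rw [if_neg hpq, if_neg fun h => hpq (congrArg (fun y => y.1.1) h)]
      · rw [if_neg hst, if_neg fun h => hst ?_, smul_zero, Matrix.zero_apply]
        exact Prod.ext (congrArg (fun y => y.1.2) h) (congrArg (fun y => y.2) h)
    rw [h1, map_add, map_add, mul_add, mul_add, add_mul, add_mul, hY]
    congr 2
    split_ifs
    · rw [map_smul, mul_smul_comm, smul_mul_assoc]
    · rw [map_zero, mul_zero, zero_mul]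
  have hΔ : ∀ y, u * (ψ (φ (star y)) - star y) * u = star (u * (ψ (φ y) - y) * u) := by
    intro y
    rw [star_mul, star_mul, hus, star_sub, cpos_star hφ, cpos_star' hψ, mul_assoc]
  have hE' := V3d_err x g e he (fun y => u * (ψ (φ y) - y) * u) hΔ hd20.le
    ((gvd_norm hu1 _).trans hae) (fun i j => (gvd_norm hu1 _).trans (hax i j)) hd22
  have hψ1 : star (ψ 1) = ψ 1 := by
    rw [← cpos_star' hψ, Matrix.conjTranspose_one]
  have hψφ1 : star (ψ (φ 1)) = ψ (φ 1) := by
    rw [← cpos_star' hψ, ← cpos_star hφ, star_one]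
  have hD : ∃ b : E, ((3 * δ / 8 : ℝ) : ℂ) • (1 : E) -
      ((θ : ℂ) • (u * ψ 1 * u) + (c : ℂ) • (u * ψ (φ 1) * u)) = star b * b := by
    apply gvd_sub
    · rw [star_add, star_smul, star_smul, star_mul, star_mul, star_mul, star_mul, hψ1, hψφ1, hus]
      simp only [Complex.star_def, Complex.conj_ofReal, mul_assoc]
    · have h1 : ‖u * ψ (φ 1) * u‖ ≤ 2 := by
        refine (gvd_norm hu1 _).trans ?_
        calc ‖ψ (φ 1)‖ = ‖(ψ (φ 1) - 1) + 1‖ := by rw [sub_add_cancel]
          _ ≤ ‖ψ (φ 1) - 1‖ + ‖(1 : E)‖ := norm_add_le _ _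
          _ ≤ 1 + 1 := add_le_add (ha1.trans hd21) gvd_one
          _ = 2 := by norm_num
      have h2 : ‖u * ψ 1 * u‖ ≤ ‖ψ 1‖ := gvd_norm hu1 _
      refine (norm_add_le _ _).trans ?_
      rw [norm_smul, norm_smul, Complex.norm_real, Complex.norm_real, Real.norm_of_nonneg hθ0.le,
        Real.norm_of_nonneg hc0]
      have h3 : θ * ‖u * ψ 1 * u‖ ≤ δ / 8 := (mul_le_mul_of_nonneg_left h2 hθ0.le).trans hθ1
      nlinarith
  have hDiag := posM_diag (S := Fin m × Q) hD
  -- the rows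
  have hcard : Fintype.card (Q ⊕ (Fin ρ × Fin k)) ≤ 2 * Fintype.card Q := by
    rw [Fintype.card_sum, Fintype.card_prod, Fintype.card_fin, Fintype.card_fin]
    have h1 : (ρ : ℝ) * (k + 1) ≤ Fintype.card Q := by
      have h2 : (0 : ℝ) < k + 1 := by positivity
      calc (ρ : ℝ) * (k + 1) ≤ 1 / (k + 1) * Fintype.card Q * (k + 1) :=
            mul_le_mul_of_nonneg_right hρ h2.le
        _ = Fintype.card Q := by field_simp
    have h3 : ρ * (k + 1) ≤ Fintype.card Q := by exact_mod_cast h1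
    nlinarith
  -- padding, keeping the rows in `Her v`
  obtain ⟨emb⟩ : Nonempty ((Q ⊕ (Fin ρ × Fin k)) ↪ Fin (2 * Fintype.card Q)) := by
    rw [Function.Embedding.nonempty_iff_card_le, Fintype.card_fin]
    exact hcard
  let W : Q ⊕ (Fin ρ × Fin k) → Fin m × Q → E := fun l s =>
    Sum.elim (fun w : Q => ∑ i, if g i s.1 * s.2 = w then x i * u else 0) (fun l => Y l s) l
  have hWH : ∀ l s, W l s ∈ Her v := by
    rintro (w | l) s
    · change (∑ i, if g i s.1 * s.2 = w then x i * u else 0) ∈ Her v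
      refine her_sum _ fun i _ => ?_
      split_ifs
      · exact hx i
      · exact her_zero v
    · exact hYH l s
  let Z : Fin (2 * Fintype.card Q) → Fin m × Q → E := fun l s =>
    ∑ r, if emb r = l then W r s else 0
  have hZ1 : ∀ r s, Z (emb r) s = W r s := by
    intro r s
    change (∑ r', if emb r' = emb r then W r' s else 0) = W r s
    rw [Finset.sum_eq_single r]
    · rw [if_pos rfl]
    · intro r' _ hr
      exact if_neg fun h => hr (emb.injective h)
    · intro h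
      exact absurd (Finset.mem_univ _) h
  have hZ0 : ∀ l, l ∉ Set.range emb → ∀ s, Z l s = 0 := by
    intro l hl s
    exact Finset.sum_eq_zero fun r _ => if_neg fun h => hl ⟨r, h⟩
  have hZ : ∀ s t, ∑ l, star (Z l s) * Z l t = ∑ l, star (W l s) * W l t := by
    intro s t
    have h1 : ∑ l, star (W l s) * W l t = ∑ l ∈ Finset.univ.map emb, star (Z l s) * Z l t := by
      rw [Finset.sum_map]
      exact Finset.sum_congr rfl fun r _ => by rw [hZ1, hZ1]
    rw [h1]
    symm
    refine Finset.sum_subset (Finset.subset_univ _) fun l _ hl => ?_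
    rw [hZ0 l, star_zero, zero_mul]
    rintro ⟨r, rfl⟩
    exact hl (Finset.mem_map_of_mem _ (Finset.mem_univ _))
  have hZH : ∀ l s, Z l s ∈ Her v := by
    intro l s
    refine her_sum _ fun r _ => ?_
    split_ifs
    · exact hWH r s
    · exact her_zero v
  refine ⟨Fintype.card Q, Fin m × Q, inferInstance, inferInstance, Z, Fintype.card_pos, ?_, hZH,
    ?_⟩
  · rw [Fintype.card_prod, Fintype.card_fin, mul_comm]
  · have hsum := posM_add (posM_add hP hE') hDiag
    convert hsum using 3 with s t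
    rw [hPeq, hZ, Fintype.sum_sum_type]
    have hW1 : ∀ (w : Q) (s : Fin m × Q), W (Sum.inl w) s =
        ∑ i, if g i s.1 * s.2 = w then x i * u else 0 := fun _ _ => rfl
    have hW2 : ∀ l (s : Fin m × Q), W (Sum.inr l) s = Y l s := fun _ _ => rfl
    simp only [hW1, hW2]
    rw [← V3d_gram (fun i => x i * u) g s t, gvd_VKer]
    have hxu : ∀ i j, star (x i * u) * (x j * u) = u * (star (x i) * x j) * u := by
      intro i j
      rw [star_mul, hus]
      simp only [mul_assoc]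
    have hlin : u * ψ (φ ((∑ i, ∑ j, if g i s.1 * s.2 = g j t.1 * t.2 then
        star (x i) * x j else 0) - if s = t then e - (c : ℂ) • 1 else 0)) * u =
        (∑ i, ∑ j, if g i s.1 * s.2 = g j t.1 * t.2 then star (x i * u) * (x j * u) else 0) +
        (∑ i, ∑ j, if g i s.1 * s.2 = g j t.1 * t.2 then
          u * (ψ (φ (star (x i) * x j)) - star (x i) * x j) * u else 0) -
        (if s = t then u * ψ (φ e) * u - (c : ℂ) • (u * ψ (φ 1) * u) else 0) := by
      rw [map_sub, map_sub, mul_sub, sub_mul]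
      congr 1
      · rw [map_sum, map_sum, ← Finset.sum_add_distrib, Finset.mul_sum, Finset.sum_mul]
        refine Finset.sum_congr rfl fun i _ => ?_
        rw [map_sum, map_sum, ← Finset.sum_add_distrib, Finset.mul_sum, Finset.sum_mul]
        refine Finset.sum_congr rfl fun j _ => ?_
        split_ifs
        · rw [hxu, mul_sub, sub_mul, add_sub_cancel]
        · rw [map_zero, map_zero, add_zero, mul_zero, zero_mul]
      · split_ifs
        · rw [map_sub, map_sub, map_smul, map_smul, mul_sub, sub_mul, mul_smul_comm,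
            smul_mul_assoc]
        · rw [map_zero, map_zero, mul_zero, zero_mul]
    rw [hlin]
    by_cases hst : s = t
    · simp only [if_pos hst]
      have e1 : ((δ / 2 : ℝ) : ℂ) • (1 : E) =
          ((3 * δ / 8 : ℝ) : ℂ) • (1 : E) + ((δ / 8 : ℝ) : ℂ) • (1 : E) := by
        rw [← add_smul, ← Complex.ofReal_add]
        congr 2
        ring
      have e2 : u * (ψ (φ e) - e) * u = u * ψ (φ e) * u - e := by
        rw [mul_sub, sub_mul, hueu]
      rw [e1, e2]
      abel
    · simp only [if_neg hst]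
      abel

end P095G
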