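import Vale.Agent.Lib.P095F.V5a

/-!
# P095 stage 3, part GV, module GVe: the cut down with explicit coefficients

Same proofs as `V5a_scalar` and `V5a_main` (P095F/V5a.lean: copy them); `V5a_cut` can be used.
* `gv_scalar`: `g = cfc (fun t => √(max (t - δ) 0)) e`, `b = cfc (fun t => max (t - δ) 0 / max t (δ/2)) e`, `g * g = e * b`.
* `gv_cut`: `D` is the matrix of `V5a_cut`; `Y l s = ∑ s', Z l s' * D s' s`.
-/

open scoped Topology

namespace P095G

open P095F

universe u

variable {A : Type u} [CStarAlgebra A]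

theorem gv_scalar (e : A) (he : ∃ c, e = star c * c) (he1 : ‖e‖ ≤ 1) {δ : ℝ} (hδ : 0 < δ) :
    ∃ g b : A, star g = g ∧ ‖g * g - e‖ ≤ δ ∧ g * g = e * b ∧
      ∃ c, g * e * g - (δ : ℂ) • (g * g) = star c * c := by
  let _ := CStarAlgebra.spectralOrder A
  let _ := CStarAlgebra.spectralOrderedRing A
  have he0 : 0 ≤ e := CStarAlgebra.nonneg_iff_eq_star_mul_self.2 he
  have hes : IsSelfAdjoint e := IsSelfAdjoint.of_nonneg he0
  have hgg : cfc (fun t : ℝ => √(max (t - δ) 0)) e * cfc (fun t : ℝ => √(max (t - δ) 0)) e =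
      cfc (fun t : ℝ => max (t - δ) 0) e := by
    rw [← cfc_mul (fun t : ℝ => √(max (t - δ) 0)) (fun t : ℝ => √(max (t - δ) 0)) e
      (by fun_prop) (by fun_prop)]
    refine cfc_congr fun t _ => ?_
    exact Real.mul_self_sqrt (le_max_right _ _)
  have hcb : Continuous (fun t : ℝ => max (t - δ) 0 / max t (δ / 2)) := by
    refine Continuous.div (by fun_prop) (by fun_prop) fun t => ?_
    have h1 : δ / 2 ≤ max t (δ / 2) := le_max_right _ _
    have h2 : 0 < δ / 2 := by positivity
    exact (h2.trans_le h1).ne'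
  refine ⟨cfc (fun t : ℝ => √(max (t - δ) 0)) e,
    cfc (fun t : ℝ => max (t - δ) 0 / max t (δ / 2)) e, ?_, ?_, ?_,
    cfc (fun t : ℝ => max (t - δ) 0) e, ?_⟩
  · exact (cfc_predicate (fun t : ℝ => √(max (t - δ) 0)) e : IsSelfAdjoint _)
  · rw [hgg]
    have h1 : cfc (fun t : ℝ => max (t - δ) 0) e - e = cfc (fun t : ℝ => max (t - δ) 0 - t) e := by
      rw [cfc_sub (fun t : ℝ => max (t - δ) 0) (fun t : ℝ => t) e (by fun_prop) (by fun_prop),
        cfc_id' ℝ e]
    rw [h1]
    refine norm_cfc_le hδ.le fun t ht => ?_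
    have ht0 : 0 ≤ t := spectrum_nonneg_of_nonneg he0 ht
    rw [Real.norm_eq_abs, abs_le]
    rcases le_total (t - δ) 0 with h | h
    · rw [max_eq_right h]; constructor <;> linarith
    · rw [max_eq_left h]; constructor <;> linarith
  · rw [hgg]
    have h1 : e * cfc (fun t : ℝ => max (t - δ) 0 / max t (δ / 2)) e =
        cfc (fun t : ℝ => t * (max (t - δ) 0 / max t (δ / 2))) e := by
      rw [cfc_mul (fun t : ℝ => t) (fun t : ℝ => max (t - δ) 0 / max t (δ / 2)) e
        continuous_id.continuousOn hcb.continuousOn, cfc_id' ℝ e]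
    rw [h1]
    refine cfc_congr fun t ht => ?_
    show max (t - δ) 0 = t * (max (t - δ) 0 / max t (δ / 2))
    rcases le_total (t - δ) 0 with h | h
    · rw [max_eq_right h, zero_div, mul_zero]
    · have h2 : δ / 2 ≤ t := by linarith
      have h3 : 0 < t := by linarith
      rw [max_eq_left h, max_eq_left h2]
      field_simp
  · have hs : star (cfc (fun t : ℝ => max (t - δ) 0) e) = cfc (fun t : ℝ => max (t - δ) 0) e :=
      (cfc_predicate (fun t : ℝ => max (t - δ) 0) e : IsSelfAdjoint _)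
    rw [hs, hgg, Complex.coe_smul]
    have h1 : cfc (fun t : ℝ => √(max (t - δ) 0)) e * e * cfc (fun t : ℝ => √(max (t - δ) 0)) e =
        cfc (fun t : ℝ => √(max (t - δ) 0) * t * √(max (t - δ) 0)) e := by
      rw [cfc_mul (fun t : ℝ => √(max (t - δ) 0) * t) (fun t : ℝ => √(max (t - δ) 0)) e
        (by fun_prop) (by fun_prop),
        cfc_mul (fun t : ℝ => √(max (t - δ) 0)) (fun t : ℝ => t) e
        (by fun_prop) (by fun_prop), cfc_id' ℝ e]
    rw [h1, ← cfc_const_mul δ (fun t : ℝ => max (t - δ) 0) e (by fun_prop),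
      ← cfc_sub (fun t : ℝ => √(max (t - δ) 0) * t * √(max (t - δ) 0))
        (fun t : ℝ => δ * max (t - δ) 0) e (by fun_prop) (by fun_prop),
      ← cfc_mul (fun t : ℝ => max (t - δ) 0) (fun t : ℝ => max (t - δ) 0) e
        (by fun_prop) (by fun_prop)]
    refine cfc_congr fun t _ => ?_
    rw [mul_right_comm, Real.mul_self_sqrt (le_max_right _ _)]
    rcases le_total (t - δ) 0 with h | h
    · rw [max_eq_right h]; ring
    · rw [max_eq_left h]; ring

private def GVeDg (S : Type) [DecidableEq S] (x : A) : CStarMatrix S S A :=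
  CStarMatrix.ofMatrix (Matrix.of fun s t => if s = t then x else 0)

private theorem GVeDg_apply {S : Type} [DecidableEq S] (x : A) (s t : S) :
    GVeDg S x s t = if s = t then x else 0 := rfl

private theorem GVeDg_mul {S : Type} [Fintype S] [DecidableEq S] (x y : A) :
    GVeDg S x * GVeDg S y = GVeDg S (x * y) := by
  refine CStarMatrix.ext fun s t => ?_
  rw [CStarMatrix.mul_apply, Finset.sum_eq_single s]
  · simp only [GVeDg_apply]
    split_ifs <;> simp
  · intro j _ hj
    simp only [GVeDg_apply]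
    rw [if_neg (Ne.symm hj), zero_mul]
  · intro h; exact absurd (Finset.mem_univ _) h

private theorem GVeDg_star {S : Type} [DecidableEq S] (x : A) :
    star (GVeDg S x) = GVeDg S (star x) := by
  refine CStarMatrix.ext fun s t => ?_
  rw [CStarMatrix.star_apply]
  simp only [GVeDg_apply]
  by_cases h : s = t
  · rw [if_pos h, if_pos h.symm]
  · rw [if_neg h, if_neg (Ne.symm h), star_zero]

private theorem GVeDg_add {S : Type} [DecidableEq S] (x y : A) :
    GVeDg S (x + y) = GVeDg S x + GVeDg S y := by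
  refine CStarMatrix.ext fun s t => ?_
  rw [CStarMatrix.add_apply]
  simp only [GVeDg_apply]
  split_ifs <;> simp

private theorem GVeDg_sub {S : Type} [DecidableEq S] (x y : A) :
    GVeDg S (x - y) = GVeDg S x - GVeDg S y := by
  refine CStarMatrix.ext fun s t => ?_
  rw [CStarMatrix.sub_apply]
  simp only [GVeDg_apply]
  split_ifs <;> simp

private theorem GVeDg_smul {S : Type} [DecidableEq S] (c : ℂ) (x : A) :
    GVeDg S (c • x) = c • GVeDg S x := by
  refine CStarMatrix.ext fun s t => ?_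
  rw [CStarMatrix.smul_apply]
  simp only [GVeDg_apply]
  split_ifs <;> simp

private theorem GVeDg_one {S : Type} [DecidableEq S] :
    GVeDg S (1 : A) = 1 := by
  refine CStarMatrix.ext fun s t => ?_
  rw [CStarMatrix.one_apply]
  rfl

private theorem GVe_add {x y : A} (hx : ∃ c : A, x = star c * c) (hy : ∃ c : A, y = star c * c) :
    ∃ c : A, x + y = star c * c := by
  let _ := CStarAlgebra.spectralOrder A
  let _ := CStarAlgebra.spectralOrderedRing A
  exact CStarAlgebra.nonneg_iff_eq_star_mul_self.1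
    (add_nonneg (CStarAlgebra.nonneg_iff_eq_star_mul_self.2 hx)
      (CStarAlgebra.nonneg_iff_eq_star_mul_self.2 hy))

/-- a self-adjoint element of norm at most `κ` -/
private theorem GVe_sa {M : Type u} [CStarAlgebra M] (x : M) (hx : star x = x) {κ : ℝ}
    (h : ‖x‖ ≤ κ) :
    (∃ c : M, (κ : ℂ) • (1 : M) + x = star c * c) ∧
      ∃ c : M, (κ : ℂ) • (1 : M) - x = star c * c := by
  let _ := CStarAlgebra.spectralOrder M
  let _ := CStarAlgebra.spectralOrderedRing M
  have hs : IsSelfAdjoint x := hx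
  have h1 := hs.neg_algebraMap_norm_le_self
  have h2 := hs.le_algebraMap_norm_self
  have h3 : algebraMap ℝ M ‖x‖ ≤ algebraMap ℝ M κ := algebraMap_mono M h
  rw [real_smul_one]
  refine ⟨CStarAlgebra.nonneg_iff_eq_star_mul_self.1 ?_,
    CStarAlgebra.nonneg_iff_eq_star_mul_self.1 ?_⟩
  · have h4 : -(algebraMap ℝ M κ) ≤ x := (neg_le_neg h3).trans h1
    have := neg_le_iff_add_nonneg.1 h4
    rwa [add_comm] at this
  · exact sub_nonneg.2 (h2.trans h3)

theorem gv_cut (e : A) (he : ∃ c, e = star c * c) (he1 : ‖e‖ ≤ 1) {δ : ℝ} (hδ : 0 < δ) :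
    ∃ a b : A, ‖a - e‖ ≤ δ ∧ a = e * b ∧ ∀ {S : Type} [Fintype S] [DecidableEq S] {R : ℕ}
      (Z : Fin R → S → A),
      PosM (fun s t => (∑ l, star (Z l s) * Z l t) +
        if s = t then (((δ / 2 : ℝ) : ℂ) • (1 : A) - e) else 0) →
      ∀ κ : ℝ, 0 < κ → ∃ D : S → S → A,
        PosM (fun s t => (if s = t then (κ : ℂ) • (1 : A) else 0) +
          ((∑ l, star (∑ s', Z l s' * D s' s) * (∑ s', Z l s' * D s' t)) -
            if s = t then a else 0)) ∧
        PosM (fun s t => (if s = t then (κ : ℂ) • (1 : A) else 0) -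
          ((∑ l, star (∑ s', Z l s' * D s' s) * (∑ s', Z l s' * D s' t)) -
            if s = t then a else 0)) := by
  obtain ⟨g, b₀, hg, hge, hgb, b, hb⟩ := gv_scalar e he he1 hδ
  refine ⟨g * g, b₀, hge, hgb, ?_⟩
  intro S _ _ R Z hZ κ hκ
  let _ := CStarAlgebra.spectralOrder A
  let _ := CStarAlgebra.spectralOrderedRing A
  obtain ⟨P, hPd⟩ : ∃ P : CStarMatrix S S A,
    P = CStarMatrix.ofMatrix (Matrix.of fun s t => ∑ l, star (Z l s) * Z l t) := ⟨_, rfl⟩
  have hP : ∃ c, P = star c * c := by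
    rw [hPd]
    exact (posM_iff_matrix _).1 (posM_gram Z)
  have hH : ∃ C : CStarMatrix S S A, P + GVeDg S (((δ / 2 : ℝ) : ℂ) • (1 : A) - e) = star C * C := by
    obtain ⟨C, hC⟩ := (posM_iff_matrix _).1 hZ
    refine ⟨C, ?_⟩
    rw [← hC, hPd]
    rfl
  have hGs : star (GVeDg S g) = GVeDg S g := by rw [GVeDg_star, hg]
  have hcut : ∃ c : CStarMatrix S S A, GVeDg S g * P * GVeDg S g -
      (((δ / 2 : ℝ)) : ℂ) • (GVeDg S g * GVeDg S g) = star c * c := by
    obtain ⟨C, hC⟩ := hH
    have h1 : GVeDg S g * P * GVeDg S g - (((δ / 2 : ℝ)) : ℂ) • (GVeDg S g * GVeDg S g) =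
        star (C * GVeDg S g) * (C * GVeDg S g) + star (GVeDg S b) * GVeDg S b := by
      have e1 : star (C * GVeDg S g) * (C * GVeDg S g) =
          GVeDg S g * (P + GVeDg S (((δ / 2 : ℝ) : ℂ) • (1 : A) - e)) * GVeDg S g := by
        rw [star_mul, hGs, hC]
        simp only [mul_assoc]
      have e2 : star (GVeDg S b) * GVeDg S b = GVeDg S (g * e * g - (δ : ℂ) • (g * g)) := by
        rw [GVeDg_star, GVeDg_mul, hb]
      rw [e1, e2, mul_add, add_mul, GVeDg_mul, GVeDg_mul, GVeDg_mul, ← GVeDg_smul, add_assoc,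
        ← GVeDg_add, sub_eq_add_neg]
      congr 1
      have e3 : g * (((δ / 2 : ℝ) : ℂ) • (1 : A) - e) * g + (g * e * g - (δ : ℂ) • (g * g)) =
          (-1 : ℂ) • ((((δ / 2 : ℝ)) : ℂ) • (g * g)) := by
        have e4 : (δ : ℂ) • (g * g) = (((δ / 2 : ℝ)) : ℂ) • (g * g) + (((δ / 2 : ℝ)) : ℂ) • (g * g) := by
          rw [← add_smul]
          congr 1
          push_cast
          ring
        rw [e4, mul_sub, sub_mul, mul_smul_comm, smul_mul_assoc, mul_one, neg_one_smul]
        abel
      rw [e3, GVeDg_smul (-1 : ℂ), neg_one_smul]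
    rw [h1]
    exact GVe_add ⟨_, rfl⟩ ⟨_, rfl⟩
  obtain ⟨D, hD⟩ := V5a_cut P (GVeDg S g) hP hGs (half_pos hδ) hcut hκ
  have hX : star (star D * P * D - GVeDg S g * GVeDg S g) =
      star D * P * D - GVeDg S g * GVeDg S g := by
    obtain ⟨c, hc⟩ := hP
    rw [star_sub, star_mul, star_mul, star_mul, hGs, star_star, hc, star_mul, star_star]
    simp only [mul_assoc]
  obtain ⟨hX1, hX2⟩ := GVe_sa _ hX hD
  have hY : ∀ s t, (star D * P * D) s t =
      ∑ l, star (∑ s', Z l s' * D s' s) * (∑ t', Z l t' * D t' t) := by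
    intro s t
    rw [CStarMatrix.mul_apply]
    have e1 : ∀ j, (star D * P) s j = ∑ l, star (∑ s', Z l s' * D s' s) * Z l j := by
      intro j
      rw [CStarMatrix.mul_apply]
      have e2 : ∀ i, star D s i * P i j = ∑ l, star (Z l i * D i s) * Z l j := by
        intro i
        have e3 : P i j = ∑ l, star (Z l i) * Z l j := by rw [hPd]; rfl
        rw [CStarMatrix.star_apply, e3, Finset.mul_sum]
        refine Finset.sum_congr rfl fun l _ => ?_
        rw [star_mul, mul_assoc]
      simp only [e2]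
      rw [Finset.sum_comm]
      refine Finset.sum_congr rfl fun l _ => ?_
      rw [star_sum, Finset.sum_mul]
    simp only [e1]
    simp only [Finset.sum_mul]
    rw [Finset.sum_comm]
    refine Finset.sum_congr rfl fun l _ => ?_
    rw [Finset.mul_sum]
    refine Finset.sum_congr rfl fun j _ => ?_
    rw [mul_assoc]
  have hone : ∀ s t, ((κ : ℂ) • (1 : CStarMatrix S S A)) s t =
      if s = t then (κ : ℂ) • (1 : A) else 0 := by
    intro s t
    rw [CStarMatrix.smul_apply, CStarMatrix.one_apply]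
    split_ifs <;> simp
  have hgg : ∀ s t, (GVeDg S g * GVeDg S g) s t = if s = t then g * g else 0 := by
    intro s t
    rw [GVeDg_mul]
    rfl
  refine ⟨fun s' s => D s' s, ?_, ?_⟩
  · refine (posM_iff_matrix _).2 ?_
    obtain ⟨c, hc⟩ := hX1
    refine ⟨c, ?_⟩
    rw [← hc]
    refine CStarMatrix.ext fun s t => ?_
    rw [CStarMatrix.add_apply, CStarMatrix.sub_apply, hY, hone, hgg]
    rfl
  · refine (posM_iff_matrix _).2 ?_
    obtain ⟨c, hc⟩ := hX2
    refine ⟨c, ?_⟩
    rw [← hc]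
    refine CStarMatrix.ext fun s t => ?_
    rw [CStarMatrix.sub_apply, CStarMatrix.sub_apply, hY, hone, hgg]
    rfl

end P095G
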