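import Vale.Agent.Lib.P095G.GVDefs

/-!
# P095 stage 3, part GV, module GVa: hereditary subalgebras

`v` positive (`v = star c * c`), `Her v = closure {v y v}`.

* `her_zero`, `her_add`, `her_smul`, `her_sum`: `map_mem_closure`, `map_mem_closure₂`.
* `her_mul` (`x y z ∈ Her v` for `x, z ∈ Her v`, `y` arbitrary): `map_mem_closure₂` for `(x, z) ↦ x * y * z`.
* `her_mul2`: two factors (`y = 1`).
* `her_star`: `star (v y v) = v (star y) v`.
* `her_of_le`: with the spectral order, `0 ≤ x ≤ v`; `f = v² (v² + κ)⁻¹` (`cfc`); `x = star d * d`,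
  `‖d (1 - f)‖² = ‖(1 - f) x (1 - f)‖ ≤ ‖(1 - f) v (1 - f)‖ = sup κ² t / (t² + κ)² → 0` (`κ → 0`; e.g. `κ² t / (t² + κ)² ≤ κ t / (t² + κ) ≤ √κ`),
  so `f x f → x` and `f x f = v (g x g) v`, `g = v (v² + κ)⁻¹`.
* `her_mem_ideal`: `v y v ∈ I`, `I` closed.
* `her_sub_nrm`: `her_mul2`, `her_star`.
* `nrm_mul`: definition of `Nrm`.
* `her_sqrt`: `h = star c * c ∈ Her v`: the square root `s` (`CFC.sqrt h`, or `cfc Real.sqrt h`) is the limit of
  `h * cfc (fun t => √t / (t² + κ)) h * h` (`t² √t / (t² + κ) → √t` uniformly on `[0, ‖h‖]`: the difference is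
  `κ √t / (t² + κ)`, `≤ κ √t / (2 t √κ)` etc.; any estimate), which are in `Her v` by `her_mul`.
* `her_unit`: `w = v (v + κ)⁻¹` for small `κ`: `w v → v`; `v y v` dense.  `w ∈ Her v` by `her_of_le`-type argument or:
  `w` is the limit of `v * cfc (fun t => 1 / ((t + κ) * (t + κ'))) v * v` ... (not needed).
-/

open scoped ENNReal Topology
open Filter P101 P095E P095F

namespace P095G

universe u

variable {E : Type u} [CStarAlgebra E]

/-! ### auxiliary facts on the functional calculus -/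

private theorem GVa_sa {v : E} (hv : ∃ c, v = star c * c) : IsSelfAdjoint v := by
  obtain ⟨c, rfl⟩ := hv
  exact IsSelfAdjoint.star_mul_self c

private theorem GVa_spec {v : E} (hv : ∃ c, v = star c * c) : ∀ t ∈ spectrum ℝ v, 0 ≤ t := by
  obtain ⟨c, rfl⟩ := hv
  let := CStarAlgebra.spectralOrder E
  have := CStarAlgebra.spectralOrderedRing E
  intro t ht
  exact spectrum_nonneg_of_nonneg (star_mul_self_nonneg c) ht

/-- `w κ = v (v + κ)⁻¹` -/
private noncomputable def GVa_w (v : E) (κ : ℝ) : E := cfc (fun t : ℝ => t / (t + κ)) v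

private theorem GVa_cont {v : E} (hv : ∃ c, v = star c * c) {κ : ℝ} (hκ : 0 < κ) {f : ℝ → ℝ}
    (hf : Continuous f) : ContinuousOn (fun t : ℝ => f t / (t + κ)) (spectrum ℝ v) := by
  refine ContinuousOn.div hf.continuousOn (by fun_prop) fun t ht => ?_
  have := GVa_spec hv t ht
  positivity

private theorem GVa_one_sub {v : E} (hv : ∃ c, v = star c * c) {κ : ℝ} (hκ : 0 < κ) :
    1 - GVa_w v κ = cfc (fun t : ℝ => κ / (t + κ)) v := by
  have hsa := GVa_sa hv
  have h1 : (1 : E) = cfc (fun _ : ℝ => (1 : ℝ)) v := (cfc_const_one ℝ v).symm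
  unfold GVa_w
  rw [h1, ← cfc_sub (fun _ : ℝ => (1 : ℝ)) (fun t : ℝ => t / (t + κ)) v continuousOn_const
    (GVa_cont hv hκ continuous_id)]
  refine cfc_congr fun t ht => ?_
  have h2 := GVa_spec hv t ht
  have h3 : t + κ ≠ 0 := by positivity
  field_simp
  ring

private theorem GVa_norm_one_sub {v : E} (hv : ∃ c, v = star c * c) {κ : ℝ} (hκ : 0 < κ) :
    ‖1 - GVa_w v κ‖ ≤ 1 := by
  rw [GVa_one_sub hv hκ]
  refine norm_cfc_le zero_le_one fun t ht => ?_
  have h2 := GVa_spec hv t ht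
  rw [Real.norm_of_nonneg (by positivity)]
  exact div_le_one_of_le₀ (by linarith) (by linarith)

private theorem GVa_sa_one_sub {v : E} (hv : ∃ c, v = star c * c) {κ : ℝ} (hκ : 0 < κ) :
    star (1 - GVa_w v κ) = 1 - GVa_w v κ := by
  rw [GVa_one_sub hv hκ]
  exact (cfc_predicate (fun t : ℝ => κ / (t + κ)) v : IsSelfAdjoint _)

private theorem GVa_norm_mul {v : E} (hv : ∃ c, v = star c * c) {κ : ℝ} (hκ : 0 < κ) :
    ‖(1 - GVa_w v κ) * v‖ ≤ κ := by
  have hsa := GVa_sa hv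
  have h1 : (1 - GVa_w v κ) * v = cfc (fun t : ℝ => κ / (t + κ) * t) v := by
    rw [GVa_one_sub hv hκ, cfc_mul (fun t : ℝ => κ / (t + κ)) (fun t : ℝ => t) v
      (GVa_cont hv hκ continuous_const) continuousOn_id, cfc_id' ℝ v]
  rw [h1]
  refine norm_cfc_le hκ.le fun t ht => ?_
  have h2 := GVa_spec hv t ht
  rw [Real.norm_of_nonneg (by positivity), div_mul_eq_mul_div]
  refine (div_le_iff₀ (by positivity)).2 ?_
  nlinarith

private theorem GVa_norm_mul_mul {v : E} (hv : ∃ c, v = star c * c) {κ : ℝ} (hκ : 0 < κ) :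
    ‖(1 - GVa_w v κ) * v * (1 - GVa_w v κ)‖ ≤ κ := by
  calc ‖(1 - GVa_w v κ) * v * (1 - GVa_w v κ)‖
      ≤ ‖(1 - GVa_w v κ) * v‖ * ‖1 - GVa_w v κ‖ := norm_mul_le _ _
    _ ≤ κ * 1 := mul_le_mul (GVa_norm_mul hv hκ) (GVa_norm_one_sub hv hκ) (norm_nonneg _) hκ.le
    _ = κ := mul_one κ

private theorem GVa_w_eq {v : E} (hv : ∃ c, v = star c * c) {κ : ℝ} (hκ : 0 < κ) :
    ∃ g : E, v * g = GVa_w v κ ∧ g * v = GVa_w v κ := by
  have hsa := GVa_sa hv
  refine ⟨cfc (fun t : ℝ => 1 / (t + κ)) v, ?_, ?_⟩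
  · have h1 : v * cfc (fun t : ℝ => 1 / (t + κ)) v = cfc (fun t : ℝ => t * (1 / (t + κ))) v := by
      rw [cfc_mul (fun t : ℝ => t) (fun t : ℝ => 1 / (t + κ)) v continuousOn_id
        (GVa_cont hv hκ continuous_const), cfc_id' ℝ v]
    rw [h1]
    unfold GVa_w
    refine cfc_congr fun t _ => ?_
    ring
  · have h1 : cfc (fun t : ℝ => 1 / (t + κ)) v * v = cfc (fun t : ℝ => (1 / (t + κ)) * t) v := by
      rw [cfc_mul (fun t : ℝ => 1 / (t + κ)) (fun t : ℝ => t) v
        (GVa_cont hv hκ continuous_const) continuousOn_id, cfc_id' ℝ v]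
    rw [h1]
    unfold GVa_w
    refine cfc_congr fun t _ => ?_
    ring

private theorem GVa_w_sandwich {v : E} (hv : ∃ c, v = star c * c) {κ : ℝ} (hκ : 0 < κ) :
    ∃ g : E, star g = g ∧ g * v * g = GVa_w v κ := by
  have hsa := GVa_sa hv
  have hc : ContinuousOn (fun t : ℝ => 1 / √(t + κ)) (spectrum ℝ v) := by
    refine ContinuousOn.div continuousOn_const (by fun_prop) fun t ht => ?_
    have := GVa_spec hv t ht
    positivity
  refine ⟨cfc (fun t : ℝ => 1 / √(t + κ)) v, ?_, ?_⟩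
  · exact (cfc_predicate (fun t : ℝ => 1 / √(t + κ)) v : IsSelfAdjoint _)
  · have h1 : cfc (fun t : ℝ => 1 / √(t + κ)) v * v = cfc (fun t : ℝ => (1 / √(t + κ)) * t) v := by
      rw [cfc_mul (fun t : ℝ => 1 / √(t + κ)) (fun t : ℝ => t) v hc continuousOn_id,
        cfc_id' ℝ v]
    rw [h1, ← cfc_mul (fun t : ℝ => (1 / √(t + κ)) * t) (fun t : ℝ => 1 / √(t + κ)) v
      (hc.mul continuousOn_id) hc]
    unfold GVa_w
    refine cfc_congr fun t ht => ?_
    have h2 := GVa_spec hv t ht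
    have h3 : 0 < t + κ := by positivity
    have h4 : √(t + κ) * √(t + κ) = t + κ := Real.mul_self_sqrt h3.le
    have h5 : √(t + κ) ≠ 0 := by positivity
    rw [div_mul_eq_mul_div, one_mul, div_mul_div_comm, mul_one, h4]

theorem her_zero (v : E) : (0 : E) ∈ Her v :=
  subset_closure ⟨0, by simp⟩

theorem her_add {v x y : E} (hx : x ∈ Her v) (hy : y ∈ Her v) : x + y ∈ Her v := by
  refine map_mem_closure₂ continuous_add hx hy ?_
  rintro _ ⟨y, rfl⟩ _ ⟨z, rfl⟩
  exact ⟨y + z, by simp only [mul_add, add_mul]⟩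

theorem her_smul {v x : E} (c : ℂ) (hx : x ∈ Her v) : c • x ∈ Her v := by
  refine map_mem_closure (continuous_const_smul c) hx ?_
  rintro _ ⟨y, rfl⟩
  exact ⟨c • y, by simp only [mul_smul_comm, smul_mul_assoc]⟩

theorem her_sum {ι : Type*} (s : Finset ι) {v : E} {x : ι → E} (hx : ∀ i ∈ s, x i ∈ Her v) :
    ∑ i ∈ s, x i ∈ Her v := by
  classical
  induction s using Finset.induction_on with
  | empty => simpa using her_zero v
  | insert a s ha ih =>
    rw [Finset.sum_insert ha]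
    exact her_add (hx a (Finset.mem_insert_self a s))
      (ih fun i hi => hx i (Finset.mem_insert_of_mem hi))

theorem her_mul {v x z : E} (hx : x ∈ Her v) (y : E) (hz : z ∈ Her v) : x * y * z ∈ Her v := by
  have hc : Continuous (Function.uncurry fun x z : E => x * y * z) := by
    simp only [Function.uncurry_def]
    fun_prop
  refine map_mem_closure₂ (f := fun x z : E => x * y * z) hc hx hz ?_
  rintro _ ⟨a, rfl⟩ _ ⟨b, rfl⟩
  exact ⟨a * v * y * v * b, by simp only [mul_assoc]⟩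

theorem her_mul2 {v x z : E} (hx : x ∈ Her v) (hz : z ∈ Her v) : x * z ∈ Her v := by
  have h := her_mul hx 1 hz
  rwa [mul_one] at h

theorem her_star {v x : E} (hv : star v = v) (hx : x ∈ Her v) : star x ∈ Her v := by
  refine map_mem_closure continuous_star hx ?_
  rintro _ ⟨y, rfl⟩
  exact ⟨star y, by simp only [star_mul, hv, mul_assoc]⟩

theorem her_of_le {v x : E} (hx : ∃ c, x = star c * c) (hxv : ∃ c, v - x = star c * c) :
    x ∈ Her v := by
  let := CStarAlgebra.spectralOrder E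
  have := CStarAlgebra.spectralOrderedRing E
  obtain ⟨d, hd⟩ := hx
  have hx0 : 0 ≤ x := by
    rw [hd]
    exact star_mul_self_nonneg d
  have hle : x ≤ v := by
    obtain ⟨c, hc⟩ := hxv
    rw [← sub_nonneg, hc]
    exact star_mul_self_nonneg c
  have hv : ∃ c, v = star c * c := by
    obtain ⟨s, hs⟩ := CStarAlgebra.nonneg_iff_eq_star_mul_self.1 (hx0.trans hle)
    exact ⟨s, hs⟩
  refine Metric.mem_closure_iff.2 fun ε hε => ?_
  set δ : ℝ := ε / (2 * ‖d‖ + 1) with hδ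
  have hdn := norm_nonneg d
  have hδ0 : 0 < δ := by positivity
  have hκ : 0 < δ ^ 2 := by positivity
  obtain ⟨g, hg1, hg2⟩ := GVa_w_eq hv hκ
  set f : E := GVa_w v (δ ^ 2) with hf
  have hsf : star (1 - f) = 1 - f := GVa_sa_one_sub hv hκ
  have h1 : ‖d * (1 - f)‖ ≤ δ := by
    have h2 : ‖d * (1 - f)‖ * ‖d * (1 - f)‖ = ‖(1 - f) * x * (1 - f)‖ := by
      rw [← CStarRing.norm_star_mul_self, star_mul, hsf, hd]
      simp only [mul_assoc]
    have h3 : ‖(1 - f) * x * (1 - f)‖ ≤ ‖(1 - f) * v * (1 - f)‖ := by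
      have h4 := star_left_conjugate_le_conjugate hle (1 - f)
      have h5 := star_left_conjugate_nonneg hx0 (1 - f)
      rw [hsf] at h4 h5
      exact CStarAlgebra.norm_le_norm_of_nonneg_of_le h5 h4
    have h6 := GVa_norm_mul_mul hv hκ
    rw [← hf] at h6
    nlinarith [norm_nonneg (d * (1 - f))]
  refine ⟨v * (g * x * g) * v, ⟨g * x * g, rfl⟩, ?_⟩
  have h7 : v * (g * x * g) * v = f * x * f := by
    rw [show f * x * f = (v * g) * x * (g * v) by rw [hg1, hg2]]
    simp only [mul_assoc]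
  rw [h7, dist_eq_norm]
  have h8 : x - f * x * f = star (d * (1 - f)) * d + f * (star d * (d * (1 - f))) := by
    rw [star_mul, hsf, hd]
    noncomm_ring
  have hfn : ‖f‖ ≤ 1 := by
    rw [hf]
    unfold GVa_w
    refine norm_cfc_le zero_le_one fun t ht => ?_
    have h2 := GVa_spec hv t ht
    rw [Real.norm_of_nonneg (by positivity)]
    exact div_le_one_of_le₀ (by linarith) (by positivity)
  rw [h8]
  calc ‖star (d * (1 - f)) * d + f * (star d * (d * (1 - f)))‖
      ≤ ‖star (d * (1 - f)) * d‖ + ‖f * (star d * (d * (1 - f)))‖ := norm_add_le _ _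
    _ ≤ ‖d * (1 - f)‖ * ‖d‖ + 1 * (‖d‖ * ‖d * (1 - f)‖) := by
        refine add_le_add ?_ ?_
        · exact (norm_mul_le _ _).trans (by rw [norm_star])
        · refine (norm_mul_le _ _).trans (mul_le_mul hfn ?_ (norm_nonneg _) zero_le_one)
          exact (norm_mul_le _ _).trans (by rw [norm_star])
    _ ≤ 2 * ‖d‖ * δ := by nlinarith
    _ < (2 * ‖d‖ + 1) * δ := by nlinarith
    _ = ε := by
        rw [hδ]
        field_simp

theorem her_self {v : E} (hv : ∃ c, v = star c * c) : v ∈ Her v :=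
  her_of_le hv ⟨0, by simp⟩

theorem her_mem_ideal {I : Ideal E} (hI : GoodIdeal I) {v x : E} (hv : v ∈ I) (hx : x ∈ Her v) :
    x ∈ I := by
  have h1 : Her v ⊆ (I : Set E) := by
    refine closure_minimal ?_ hI.closed
    rintro _ ⟨y, rfl⟩
    exact I.mul_mem_left (v * y) hv
  exact h1 hx

theorem her_sub_nrm {v x : E} (hv : star v = v) (hx : x ∈ Her v) : x ∈ Nrm v := by
  intro h hh
  exact ⟨her_mul2 hx hh, her_mul2 hh hx, her_mul2 (her_star hv hx) hh,
    her_mul2 hh (her_star hv hx)⟩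

theorem nrm_mul {v x h : E} (hx : x ∈ Nrm v) (hh : h ∈ Her v) : x * h ∈ Her v :=
  (hx h hh).1

theorem her_sqrt {v h : E} (hv : star v = v) (hh : h ∈ Her v) (hp : ∃ c, h = star c * c) :
    ∃ s ∈ Her v, star s = s ∧ h = s * s := by
  have hsa := GVa_sa hp
  have hsp := GVa_spec hp
  have hc : ContinuousOn (fun t : ℝ => √t) (spectrum ℝ h) := by fun_prop
  refine ⟨cfc (fun t : ℝ => √t) h, ?_, ?_, ?_⟩
  · refine Metric.mem_closure_iff.2 fun ε hε => ?_
    set r : ℝ := ε / 2 with hr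
    have hr0 : 0 < r := by positivity
    have hcq : ContinuousOn (fun t : ℝ => √t / (t ^ 2 + r ^ 4)) (spectrum ℝ h) := by
      refine ContinuousOn.div hc (by fun_prop) fun t _ => ?_
      positivity
    have hmem : h * cfc (fun t : ℝ => √t / (t ^ 2 + r ^ 4)) h * h ∈ Her v := her_mul hh _ hh
    obtain ⟨b, hb, hbd⟩ := Metric.mem_closure_iff.1 hmem r hr0
    refine ⟨b, hb, ?_⟩
    have h1 : h * cfc (fun t : ℝ => √t / (t ^ 2 + r ^ 4)) h * h =
        cfc (fun t : ℝ => t * (√t / (t ^ 2 + r ^ 4)) * t) h := by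
      rw [cfc_mul (fun t : ℝ => t * (√t / (t ^ 2 + r ^ 4))) (fun t : ℝ => t) h
        (continuousOn_id.mul hcq) continuousOn_id,
        cfc_mul (fun t : ℝ => t) (fun t : ℝ => √t / (t ^ 2 + r ^ 4)) h continuousOn_id hcq,
        cfc_id' ℝ h]
    have h2 : dist (cfc (fun t : ℝ => √t) h)
        (h * cfc (fun t : ℝ => √t / (t ^ 2 + r ^ 4)) h * h) ≤ r := by
      rw [dist_eq_norm, h1, ← cfc_sub (fun t : ℝ => √t)
        (fun t : ℝ => t * (√t / (t ^ 2 + r ^ 4)) * t) h hc
        ((continuousOn_id.mul hcq).mul continuousOn_id)]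
      refine norm_cfc_le hr0.le fun t ht => ?_
      have ht0 := hsp t ht
      set u := √t with hu
      have hu0 : 0 ≤ u := Real.sqrt_nonneg t
      have htu : t = u ^ 2 := (Real.sq_sqrt ht0).symm
      have h3 : u - t * (u / (t ^ 2 + r ^ 4)) * t = r ^ 4 * u / (u ^ 4 + r ^ 4) := by
        rw [htu]
        have : (u ^ 2) ^ 2 + r ^ 4 ≠ 0 := by positivity
        have : u ^ 4 + r ^ 4 ≠ 0 := by positivity
        field_simp
        ring
      rw [h3, Real.norm_of_nonneg (by positivity)]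
      refine (div_le_iff₀ (by positivity)).2 ?_
      have h4 : r ^ 3 * u ≤ u ^ 4 + r ^ 4 := by
        rcases le_total u r with hur | hur
        · have : r ^ 3 * u ≤ r ^ 3 * r := mul_le_mul_of_nonneg_left hur (by positivity)
          nlinarith [pow_nonneg hu0 4]
        · have : r ^ 3 * u ≤ u ^ 3 * u :=
            mul_le_mul_of_nonneg_right (pow_le_pow_left₀ hr0.le hur 3) hu0
          nlinarith [pow_nonneg hr0.le 4]
      nlinarith
    calc dist (cfc (fun t : ℝ => √t) h) b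
        ≤ dist (cfc (fun t : ℝ => √t) h)
            (h * cfc (fun t : ℝ => √t / (t ^ 2 + r ^ 4)) h * h) +
          dist (h * cfc (fun t : ℝ => √t / (t ^ 2 + r ^ 4)) h * h) b := dist_triangle _ _ _
      _ < r + r := add_lt_add_of_le_of_lt h2 hbd
      _ = ε := by rw [hr]; ring
  · exact (cfc_predicate (fun t : ℝ => √t) h : IsSelfAdjoint _)
  · rw [← cfc_mul (fun t : ℝ => √t) (fun t : ℝ => √t) h hc hc]
    conv_lhs => rw [← cfc_id' ℝ h]
    refine cfc_congr fun t ht => ?_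
    exact (Real.mul_self_sqrt (hsp t ht)).symm

/-- approximate units of `Her v` of the form `v (v + κ)⁻¹ = g v g` -/
theorem her_unit {v : E} (hv : ∃ c, v = star c * c) (T : Finset E) (hT : ∀ x ∈ T, x ∈ Her v)
    {ε : ℝ} (hε : 0 < ε) : ∃ g : E, star g = g ∧ ‖g * v * g‖ ≤ 1 ∧
      ∀ x ∈ T, ‖g * v * g * x - x‖ ≤ ε := by
  have h1 : ∀ x ∈ T, ∀ᶠ κ in 𝓝[>] (0 : ℝ), ‖GVa_w v κ * x - x‖ ≤ ε := by
    intro x hx
    obtain ⟨b, ⟨y, rfl⟩, hb⟩ := Metric.mem_closure_iff.1 (hT x hx) (ε / 2) (by positivity)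
    have hκ₀ : 0 < ε / (2 * (‖y‖ * ‖v‖ + 1)) := by positivity
    filter_upwards [Ioo_mem_nhdsGT hκ₀] with κ hκ
    have h2 : GVa_w v κ * x - x = -((1 - GVa_w v κ) * (x - v * y * v) +
        (1 - GVa_w v κ) * v * (y * v)) := by noncomm_ring
    have h3 := GVa_norm_one_sub hv hκ.1
    have h4 := GVa_norm_mul hv hκ.1
    rw [dist_eq_norm] at hb
    have h5 : ‖(1 - GVa_w v κ) * (x - v * y * v)‖ ≤ 1 * (ε / 2) :=
      (norm_mul_le _ _).trans (mul_le_mul h3 hb.le (norm_nonneg _) zero_le_one)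
    have h6 : ‖(1 - GVa_w v κ) * v * (y * v)‖ ≤ κ * (‖y‖ * ‖v‖) :=
      (norm_mul_le _ _).trans (mul_le_mul h4 (norm_mul_le _ _) (norm_nonneg _) hκ.1.le)
    have h7 : κ * (‖y‖ * ‖v‖) ≤ ε / 2 := by
      have h8 := hκ.2.le
      rw [le_div_iff₀ (by positivity)] at h8
      nlinarith [hκ.1]
    rw [h2, norm_neg]
    refine (norm_add_le _ _).trans ?_
    linarith
  obtain ⟨κ, hκ, hκ0⟩ := (((Filter.eventually_all_finset T).2 h1).and
    (self_mem_nhdsWithin : Set.Ioi (0 : ℝ) ∈ 𝓝[>] (0 : ℝ))).exists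
  obtain ⟨g, hg1, hg2⟩ := GVa_w_sandwich hv hκ0
  refine ⟨g, hg1, ?_, ?_⟩
  · rw [hg2]
    unfold GVa_w
    refine norm_cfc_le zero_le_one fun t ht => ?_
    have h2 := GVa_spec hv t ht
    have h3 : (0 : ℝ) < κ := hκ0
    rw [Real.norm_of_nonneg (by positivity)]
    exact div_le_one_of_le₀ (by linarith) (by positivity)
  · intro x hx
    rw [hg2]
    exact hκ x hx

end P095G
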