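import Mathlib.Data.Int.Star
import Vale.Agent.Lib.P095G.GVa
import Vale.Agent.Lib.P095F.V2b

/-!
# P095 stage 3, part GV, module GVf: rows

* `gv_close`: if `F s t = T' s t - T s t` has `star (F s t) = F t s` (both are hermitian) and row sums `≤ κ'' = κ' - κ`, then
  `κ' + T' = (κ + T) + (κ'' + F)` and `κ' - T' = (κ - T) + (κ'' - F)` are positive (`posM_schur` for `F` and `-F`, `posM_add`).
* `gv_rows`.  `Y l s = ∑ s', Z l s' * D s' s`.  The hypothesis `hL` for the finite set of all `Z l s'` and `ε > 0`: `r : Fin L → E` with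
  `‖(g - 1) Z l s'‖ ≤ ε`, `g = ∑ k, star (r k) * f * r k`.  `T s t = ∑ l, star (Y l s) * Y l t - [s = t] a`,
  `T' s t = ∑ l, star (Y l s) * g * Y l t - [s = t] a`; `‖T' s t - T s t‖ ≤ ∑ l, ‖Y l s‖ ∑ s', ‖(g - 1) Z l s'‖ ‖D s' t‖`, which is as
  small as we want (`ε` is chosen after `Z`, `D`), `star f = f`.  `gv_close`.  Then
  `star (Y l s) * g * Y l t = ∑ k, star (r k * Y l s) * f * (r k * Y l t)`; the rows `B (l, k) s = r k * Y l s` are reindexed by
  `Fin (2 n L)` and the columns restricted along an injection `Fin (2 n L + 1) → S`, as in `V5b_rows` (P095F/V5b.lean).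
-/

open scoped ENNReal Topology
open Filter P101 P095E P095F

namespace P095G

universe u

variable {E : Type u} [CStarAlgebra E]

theorem gv_close {S : Type} [Fintype S] [DecidableEq S] {T T' : S → S → E}
    (hT : ∀ s t, star (T s t) = T t s) (hT' : ∀ s t, star (T' s t) = T' t s) {κ κ' : ℝ}
    (h : ∀ s, ∑ t, ‖T' s t - T s t‖ ≤ κ' - κ)
    (hp : PosM (fun s t => (if s = t then (κ : ℂ) • (1 : E) else 0) + T s t))
    (hm : PosM (fun s t => (if s = t then (κ : ℂ) • (1 : E) else 0) - T s t)) :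
    PosM (fun s t => (if s = t then (κ' : ℂ) • (1 : E) else 0) + T' s t) ∧
      PosM (fun s t => (if s = t then (κ' : ℂ) • (1 : E) else 0) - T' s t) := by
  constructor
  · have h1 : PosM (fun s t => (T' s t - T s t) +
        if s = t then (((κ' - κ : ℝ) : ℂ) • (1 : E)) else 0) :=
      posM_schur (fun s t => by rw [star_sub, hT', hT]) h
    have h2 := posM_add hp h1
    have h3 : (fun s t => (if s = t then (κ' : ℂ) • (1 : E) else 0) + T' s t) =
        fun s t => ((if s = t then (κ : ℂ) • (1 : E) else 0) + T s t) +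
          ((T' s t - T s t) + if s = t then (((κ' - κ : ℝ) : ℂ) • (1 : E)) else 0) := by
      funext s t
      by_cases hst : s = t
      · rw [if_pos hst, if_pos hst, if_pos hst, Complex.ofReal_sub, sub_smul]
        abel
      · rw [if_neg hst, if_neg hst, if_neg hst]
        abel
    rw [h3]
    exact h2
  · have h0 : ∀ s, ∑ t, ‖T s t - T' s t‖ ≤ κ' - κ := by
      intro s
      refine le_trans (le_of_eq (Finset.sum_congr rfl fun t _ => norm_sub_rev _ _)) (h s)
    have h1 : PosM (fun s t => (T s t - T' s t) +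
        if s = t then (((κ' - κ : ℝ) : ℂ) • (1 : E)) else 0) :=
      posM_schur (fun s t => by rw [star_sub, hT', hT]) h0
    have h2 := posM_add hm h1
    have h3 : (fun s t => (if s = t then (κ' : ℂ) • (1 : E) else 0) - T' s t) =
        fun s t => ((if s = t then (κ : ℂ) • (1 : E) else 0) - T s t) +
          ((T s t - T' s t) + if s = t then (((κ' - κ : ℝ) : ℂ) • (1 : E)) else 0) := by
      funext s t
      by_cases hst : s = t
      · rw [if_pos hst, if_pos hst, if_pos hst, Complex.ofReal_sub, sub_smul]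
        abel
      · rw [if_neg hst, if_neg hst, if_neg hst]
        abel
    rw [h3]
    exact h2

private theorem GVf_bound {g : E} {S : Type} [Fintype S] {m : ℕ} (Z : Fin m → S → E)
    (D : S → S → E) {ε : ℝ} (hε : 0 ≤ ε) (hg : ∀ l s, ‖g * Z l s - Z l s‖ ≤ ε) (s : S) :
    ∑ t, ‖(∑ l, star (∑ s', Z l s' * D s' s) * g * (∑ s', Z l s' * D s' t)) -
        ∑ l, star (∑ s', Z l s' * D s' s) * (∑ s', Z l s' * D s' t)‖ ≤
      ε * ((∑ s, ∑ l, ‖∑ s', Z l s' * D s' s‖) * ∑ t, ∑ s', ‖D s' t‖) := by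
  have h1 : ∀ l t, ‖g * (∑ s', Z l s' * D s' t) - ∑ s', Z l s' * D s' t‖ ≤
      ε * ∑ s', ‖D s' t‖ := by
    intro l t
    have e : g * (∑ s', Z l s' * D s' t) - ∑ s', Z l s' * D s' t =
        ∑ s', (g * Z l s' - Z l s') * D s' t := by
      rw [Finset.mul_sum, ← Finset.sum_sub_distrib]
      refine Finset.sum_congr rfl fun s' _ => ?_
      rw [sub_mul, mul_assoc]
    rw [e, Finset.mul_sum]
    refine (norm_sum_le _ _).trans (Finset.sum_le_sum fun s' _ => ?_)
    exact (norm_mul_le _ _).trans (mul_le_mul_of_nonneg_right (hg l s') (norm_nonneg _))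
  have h2 : ∀ t, ‖(∑ l, star (∑ s', Z l s' * D s' s) * g * (∑ s', Z l s' * D s' t)) -
        ∑ l, star (∑ s', Z l s' * D s' s) * (∑ s', Z l s' * D s' t)‖ ≤
      (∑ l, ‖∑ s', Z l s' * D s' s‖) * (ε * ∑ s', ‖D s' t‖) := by
    intro t
    rw [← Finset.sum_sub_distrib, Finset.sum_mul]
    refine (norm_sum_le _ _).trans (Finset.sum_le_sum fun l _ => ?_)
    have e : star (∑ s', Z l s' * D s' s) * g * (∑ s', Z l s' * D s' t) -
        star (∑ s', Z l s' * D s' s) * (∑ s', Z l s' * D s' t) =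
        star (∑ s', Z l s' * D s' s) *
          (g * (∑ s', Z l s' * D s' t) - ∑ s', Z l s' * D s' t) := by
      rw [mul_sub, mul_assoc]
    rw [e]
    refine (norm_mul_le _ _).trans ?_
    rw [norm_star]
    exact mul_le_mul_of_nonneg_left (h1 l t) (norm_nonneg _)
  refine (Finset.sum_le_sum fun t _ => h2 t).trans ?_
  rw [← Finset.mul_sum, ← Finset.mul_sum]
  have h3 : (∑ l, ‖∑ s', Z l s' * D s' s‖) ≤ ∑ s, ∑ l, ‖∑ s', Z l s' * D s' s‖ :=
    Finset.single_le_sum (f := fun s => ∑ l, ‖∑ s', Z l s' * D s' s‖)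
      (fun s _ => Finset.sum_nonneg fun l _ => norm_nonneg _) (Finset.mem_univ s)
  have h4 : 0 ≤ ε * ∑ t, ∑ s', ‖D s' t‖ :=
    mul_nonneg hε (Finset.sum_nonneg fun t _ => Finset.sum_nonneg fun s' _ => norm_nonneg _)
  calc (∑ l, ‖∑ s', Z l s' * D s' s‖) * (ε * ∑ t, ∑ s', ‖D s' t‖)
      ≤ (∑ s, ∑ l, ‖∑ s', Z l s' * D s' s‖) * (ε * ∑ t, ∑ s', ‖D s' t‖) :=
        mul_le_mul_of_nonneg_right h3 h4
    _ = ε * ((∑ s, ∑ l, ‖∑ s', Z l s' * D s' s‖) * ∑ t, ∑ s', ‖D s' t‖) := by ring

private theorem GVf_reindex {f : E} {L : ℕ} (r : Fin L → E) {n : ℕ}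
    (hn : 1 ≤ n) {S : Type} [Fintype S] [DecidableEq S] (hS : Fintype.card S = n * (2 * L + 1))
    (Y : Fin (2 * n) → S → E) (a : E) {κ : ℝ}
    (hp : PosM (fun s t => (if s = t then (κ : ℂ) • (1 : E) else 0) +
      ((∑ l, star (Y l s) * (∑ k, star (r k) * f * r k) * Y l t) - if s = t then a else 0)))
    (hm : PosM (fun s t => (if s = t then (κ : ℂ) • (1 : E) else 0) -
      ((∑ l, star (Y l s) * (∑ k, star (r k) * f * r k) * Y l t) - if s = t then a else 0))) :
    ∃ B : Fin (2 * n * L) → Fin (2 * n * L + 1) → E,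
      PosM (fun s t => (if s = t then (κ : ℂ) • (1 : E) else 0) +
        ((∑ i, star (B i s) * f * B i t) - if s = t then a else 0)) ∧
      PosM (fun s t => (if s = t then (κ : ℂ) • (1 : E) else 0) -
        ((∑ i, star (B i s) * f * B i t) - if s = t then a else 0)) := by
  classical
  have hcard : 2 * n * L + 1 ≤ Fintype.card S := by
    rw [hS]
    nlinarith
  obtain ⟨ι⟩ : Nonempty (Fin (2 * n * L + 1) ↪ S) :=
    Function.Embedding.nonempty_of_card_le (by rwa [Fintype.card_fin])
  have key : ∀ s t : Fin (2 * n * L + 1),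
      ∑ i : Fin (2 * n * L), star (r (finProdFinEquiv.symm i).2 * Y (finProdFinEquiv.symm i).1 (ι s)) *
        f * (r (finProdFinEquiv.symm i).2 * Y (finProdFinEquiv.symm i).1 (ι t)) =
      ∑ l, star (Y l (ι s)) * (∑ k, star (r k) * f * r k) * Y l (ι t) := by
    intro s t
    rw [Equiv.sum_comp finProdFinEquiv.symm (fun p : Fin (2 * n) × Fin L =>
      star (r p.2 * Y p.1 (ι s)) * f * (r p.2 * Y p.1 (ι t))), Fintype.sum_prod_type]
    refine Finset.sum_congr rfl fun l _ => ?_
    rw [Finset.mul_sum, Finset.sum_mul]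
    refine Finset.sum_congr rfl fun k _ => ?_
    rw [star_mul]
    simp only [mul_assoc]
  have hif : ∀ (b : E) (s t : Fin (2 * n * L + 1)),
      (if ι s = ι t then b else 0) = if s = t then b else 0 := by
    intro b s t
    by_cases h : s = t
    · rw [if_pos h, if_pos (by rw [h])]
    · rw [if_neg h, if_neg fun h' => h (ι.injective h')]
  refine ⟨fun i s => r (finProdFinEquiv.symm i).2 * Y (finProdFinEquiv.symm i).1 (ι s), ?_, ?_⟩
  · have h1 := posM_comp hp ι
    have h2 : (fun s t : Fin (2 * n * L + 1) => (if s = t then (κ : ℂ) • (1 : E) else 0) +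
        ((∑ i : Fin (2 * n * L),
          star (r (finProdFinEquiv.symm i).2 * Y (finProdFinEquiv.symm i).1 (ι s)) *
          f * (r (finProdFinEquiv.symm i).2 * Y (finProdFinEquiv.symm i).1 (ι t))) -
          if s = t then a else 0)) =
        fun s t => (if ι s = ι t then (κ : ℂ) • (1 : E) else 0) +
          ((∑ l, star (Y l (ι s)) * (∑ k, star (r k) * f * r k) * Y l (ι t)) -
            if ι s = ι t then a else 0) := by
      funext s t
      rw [key, hif, hif]
    rw [h2]
    exact h1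
  · have h1 := posM_comp hm ι
    have h2 : (fun s t : Fin (2 * n * L + 1) => (if s = t then (κ : ℂ) • (1 : E) else 0) -
        ((∑ i : Fin (2 * n * L),
          star (r (finProdFinEquiv.symm i).2 * Y (finProdFinEquiv.symm i).1 (ι s)) *
          f * (r (finProdFinEquiv.symm i).2 * Y (finProdFinEquiv.symm i).1 (ι t))) -
          if s = t then a else 0)) =
        fun s t => (if ι s = ι t then (κ : ℂ) • (1 : E) else 0) -
          ((∑ l, star (Y l (ι s)) * (∑ k, star (r k) * f * r k) * Y l (ι t)) -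
            if ι s = ι t then a else 0) := by
      funext s t
      rw [key, hif, hif]
    rw [h2]
    exact h1

theorem gv_rows {v f : E} (hf : star f = f) {L : ℕ}
    (hL : ∀ T : Finset E, (∀ x ∈ T, x ∈ Her v) → ∀ ε : ℝ, 0 < ε →
      ∃ r : Fin L → E, ∀ x ∈ T, ‖(∑ k, star (r k) * f * r k) * x - x‖ ≤ ε) {n : ℕ}
    (hn : 1 ≤ n) {S : Type} [Fintype S] [DecidableEq S] (hS : Fintype.card S = n * (2 * L + 1))
    (Z : Fin (2 * n) → S → E) (hZ : ∀ l s, Z l s ∈ Her v) (D : S → S → E) (a : E)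
    (ha : star a = a) {κ κ' : ℝ} (hκ : κ < κ')
    (hp : PosM (fun s t => (if s = t then (κ : ℂ) • (1 : E) else 0) +
      ((∑ l, star (∑ s', Z l s' * D s' s) * (∑ s', Z l s' * D s' t)) - if s = t then a else 0)))
    (hm : PosM (fun s t => (if s = t then (κ : ℂ) • (1 : E) else 0) -
      ((∑ l, star (∑ s', Z l s' * D s' s) * (∑ s', Z l s' * D s' t)) -
        if s = t then a else 0))) :
    ∃ B : Fin (2 * n * L) → Fin (2 * n * L + 1) → E,
      PosM (fun s t => (if s = t then (κ' : ℂ) • (1 : E) else 0) +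
        ((∑ i, star (B i s) * f * B i t) - if s = t then a else 0)) ∧
      PosM (fun s t => (if s = t then (κ' : ℂ) • (1 : E) else 0) -
        ((∑ i, star (B i s) * f * B i t) - if s = t then a else 0)) := by
  classical
  set C : ℝ := (∑ s, ∑ l, ‖∑ s', Z l s' * D s' s‖) * ∑ t, ∑ s', ‖D s' t‖ with hC
  have hC0 : 0 ≤ C :=
    mul_nonneg (Finset.sum_nonneg fun s _ => Finset.sum_nonneg fun l _ => norm_nonneg _)
      (Finset.sum_nonneg fun t _ => Finset.sum_nonneg fun s' _ => norm_nonneg _)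
  have hε : 0 < (κ' - κ) / (C + 1) := div_pos (sub_pos.2 hκ) (by linarith)
  obtain ⟨r, hr⟩ := hL ((Finset.univ : Finset (Fin (2 * n) × S)).image fun p => Z p.1 p.2)
    (by
      intro x hx
      obtain ⟨p, _, rfl⟩ := Finset.mem_image.1 hx
      exact hZ p.1 p.2) _ hε
  have hr' : ∀ l s, ‖(∑ k, star (r k) * f * r k) * Z l s - Z l s‖ ≤ (κ' - κ) / (C + 1) :=
    fun l s => hr _ (Finset.mem_image.2 ⟨(l, s), Finset.mem_univ _, rfl⟩)
  have hgs : star (∑ k, star (r k) * f * r k) = ∑ k, star (r k) * f * r k := by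
    rw [star_sum]
    refine Finset.sum_congr rfl fun k _ => ?_
    rw [star_mul, star_mul, star_star, hf, mul_assoc]
  have hif : ∀ s t : S, star (if s = t then a else 0) = if t = s then a else (0 : E) := by
    intro s t
    by_cases h : s = t
    · rw [if_pos h, if_pos h.symm, ha]
    · rw [if_neg h, if_neg (Ne.symm h), star_zero]
  have hT : ∀ s t : S, star ((∑ l, star (∑ s', Z l s' * D s' s) * (∑ s', Z l s' * D s' t)) -
      if s = t then a else 0) =
      (∑ l, star (∑ s', Z l s' * D s' t) * (∑ s', Z l s' * D s' s)) -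
        if t = s then a else 0 := by
    intro s t
    rw [star_sub, hif, star_sum]
    congr 1
    refine Finset.sum_congr rfl fun l _ => ?_
    rw [star_mul, star_star]
  have hT' : ∀ s t : S, star ((∑ l, star (∑ s', Z l s' * D s' s) *
      (∑ k, star (r k) * f * r k) * (∑ s', Z l s' * D s' t)) - if s = t then a else 0) =
      (∑ l, star (∑ s', Z l s' * D s' t) * (∑ k, star (r k) * f * r k) *
        (∑ s', Z l s' * D s' s)) - if t = s then a else 0 := by
    intro s t
    rw [star_sub, hif, star_sum]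
    congr 1
    refine Finset.sum_congr rfl fun l _ => ?_
    rw [star_mul, star_mul, star_star, hgs, mul_assoc]
  have hb : ∀ s : S, ∑ t, ‖((∑ l, star (∑ s', Z l s' * D s' s) *
      (∑ k, star (r k) * f * r k) * (∑ s', Z l s' * D s' t)) - if s = t then a else 0) -
      ((∑ l, star (∑ s', Z l s' * D s' s) * (∑ s', Z l s' * D s' t)) -
        if s = t then a else 0)‖ ≤ κ' - κ := by
    intro s
    simp only [sub_sub_sub_cancel_right]
    refine (GVf_bound Z D hε.le hr' s).trans ?_
    rw [← hC, div_mul_eq_mul_div, div_le_iff₀ (by linarith)]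
    exact mul_le_mul_of_nonneg_left (by linarith) (sub_pos.2 hκ).le
  obtain ⟨hp', hm'⟩ := gv_close hT hT' hb hp hm
  exact GVf_reindex r hn hS (fun l s => ∑ s', Z l s' * D s' s) a hp' hm'

end P095G
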