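import Vale.Agent.Lib.P095G.GTr
import Vale.Agent.Lib.P095G.GCNorm

/-!
# P095 stage 3, part GV, module GVg: the C*-algebra generated by `E` and `FA`

`gv_quot`.  `U = Ultrapower ω E`, `uc = ultraConst ω E`.  `N = {x : U | ∀ a ∈ I, x * uc a = 0 ∧ uc a * x = 0}`.
`D = {d : U | ∀ n ∈ N, d * n ∈ N ∧ n * d ∈ N ∧ star d * n ∈ N ∧ n * star d ∈ N}`: a closed StarSubalgebra of `U` (compare `Nrm` in GVDefs.lean); it contains
`uc b` (`b : E`): `uc b * n * uc a = 0`, `uc a * uc b * n = uc (a * b) * n = 0` (`a * b ∈ I`), etc., and the elements `x` of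
`FOmega ω E`, which commute with all `uc a` (`commute_ultraConst`): `x * n * uc a = 0`, `uc a * x * n = x * uc a * n = 0`.
`N' = {d : D | (d : U) ∈ N}` is a closed two-sided ideal of `D` (`N` is closed under addition, `D N ⊆ N`, `N D ⊆ N`).
`U' = D ⧸ N'` with `quotCStarAlgebra`, `quotMk` (P101/Quot.lean).  `jE b = quotMk (uc b)`.  `jF`: the map
`FOmega ω E → D → U'` kills `annF ω I` (if `x * uc a = 0` for all `a ∈ I` then also `uc a * x = 0`), so it factors through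
`FA ω I` (`exists_quotLift`, used in GMin.lean; `toFA_surjective`).  They commute.
For `r : U'` take a lift `d : D`, `r' = (d : U)`: for `w ∈ I`, `‖w‖ ≤ 1`, and `y : D`: `‖uc w * y * uc w‖ ≤ ‖quotMk y‖`, because
`uc w * y * uc w = uc w * (y + n) * uc w` for `n ∈ N'` and the quotient norm is an infimum (`quot_exists_lift`: for `δ > 0` there
is `y'` with the same class and `‖y'‖ < ‖quotMk y‖ + δ`; `y - y' ∈ N'`).  Apply it to
`y = star d * uc f * d - uc a`.
-/

open scoped ENNReal Topology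
open Filter P101 P095E P095F

namespace P095G

universe u v w

section Abs

variable {E : Type v} {U : Type u} [CStarAlgebra E] [CStarAlgebra U] (c : E →⋆ₐ[ℂ] U)
  (I : Ideal E)

/-- the two-sided annihilator of `c I` -/
def GVg_N : Set U := {x | ∀ a ∈ I, x * c a = 0 ∧ c a * x = 0}

theorem GVg_N_add {x y : U} (hx : x ∈ GVg_N c I) (hy : y ∈ GVg_N c I) : x + y ∈ GVg_N c I := by
  intro a ha
  rw [add_mul, mul_add, (hx a ha).1, (hx a ha).2, (hy a ha).1, (hy a ha).2, add_zero]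
  exact ⟨rfl, rfl⟩

theorem GVg_N_smul {x : U} (hx : x ∈ GVg_N c I) (t : ℂ) : t • x ∈ GVg_N c I := by
  intro a ha
  rw [smul_mul_assoc, mul_smul_comm, (hx a ha).1, (hx a ha).2, smul_zero]
  exact ⟨rfl, rfl⟩

theorem GVg_N_closed : IsClosed (GVg_N c I) := by
  have h : GVg_N c I = ⋂ a ∈ I, ({x : U | x * c a = 0} ∩ {x : U | c a * x = 0}) := by
    ext x
    simp only [Set.mem_iInter, Set.mem_inter_iff, Set.mem_ofPred_eq, GVg_N]
  rw [h]
  refine isClosed_biInter fun a _ => IsClosed.inter ?_ ?_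
  · exact isClosed_eq (by fun_prop) continuous_const
  · exact isClosed_eq (by fun_prop) continuous_const

/-- the idealizer of `GVg_N` -/
def GVg_D : StarSubalgebra ℂ U where
  carrier := {x | ∀ h ∈ GVg_N c I, x * h ∈ GVg_N c I ∧ h * x ∈ GVg_N c I ∧
    star x * h ∈ GVg_N c I ∧ h * star x ∈ GVg_N c I}
  mul_mem' := by
    intro x y hx hy h hh
    refine ⟨?_, ?_, ?_, ?_⟩
    · rw [mul_assoc]
      exact (hx _ (hy h hh).1).1
    · rw [← mul_assoc]
      exact (hy _ (hx h hh).2.1).2.1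
    · rw [star_mul, mul_assoc]
      exact (hy _ (hx h hh).2.2.1).2.2.1
    · rw [star_mul, ← mul_assoc]
      exact (hx _ (hy h hh).2.2.2).2.2.2
  add_mem' := by
    intro x y hx hy h hh
    refine ⟨?_, ?_, ?_, ?_⟩
    · rw [add_mul]
      exact GVg_N_add c I (hx h hh).1 (hy h hh).1
    · rw [mul_add]
      exact GVg_N_add c I (hx h hh).2.1 (hy h hh).2.1
    · rw [star_add, add_mul]
      exact GVg_N_add c I (hx h hh).2.2.1 (hy h hh).2.2.1
    · rw [star_add, mul_add]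
      exact GVg_N_add c I (hx h hh).2.2.2 (hy h hh).2.2.2
  algebraMap_mem' := by
    intro t h hh
    simp only [Algebra.algebraMap_eq_smul_one, star_smul, star_one, smul_mul_assoc, one_mul,
      mul_smul_comm, mul_one]
    exact ⟨GVg_N_smul c I hh _, GVg_N_smul c I hh _, GVg_N_smul c I hh _, GVg_N_smul c I hh _⟩
  star_mem' := by
    intro x hx h hh
    refine ⟨(hx h hh).2.2.1, (hx h hh).2.2.2, ?_, ?_⟩
    · rw [star_star]
      exact (hx h hh).1
    · rw [star_star]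
      exact (hx h hh).2.1

instance GVg_D_closed : IsClosed (GVg_D c I : Set U) := by
  have h : (GVg_D c I : Set U) = ⋂ h ∈ GVg_N c I, ({x | x * h ∈ GVg_N c I} ∩
      {x | h * x ∈ GVg_N c I} ∩
      {x | star x * h ∈ GVg_N c I} ∩ {x | h * star x ∈ GVg_N c I}) := by
    ext x
    simp only [Set.mem_iInter, Set.mem_inter_iff, Set.mem_ofPred_eq, and_assoc]
    rfl
  rw [h]
  refine isClosed_biInter fun h _ => ?_
  refine IsClosed.inter (IsClosed.inter (IsClosed.inter ?_ ?_) ?_) ?_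
  · exact (GVg_N_closed c I).preimage (by fun_prop)
  · exact (GVg_N_closed c I).preimage (by fun_prop)
  · exact (GVg_N_closed c I).preimage (by fun_prop)
  · exact (GVg_N_closed c I).preimage (by fun_prop)

/-- the annihilator as an ideal of `GVg_D` -/
def GVg_J : Ideal (GVg_D c I) where
  carrier := {d | (d : U) ∈ GVg_N c I}
  add_mem' := fun hx hy => GVg_N_add c I hx hy
  zero_mem' := by
    intro a _
    change (0 : U) * c a = 0 ∧ c a * (0 : U) = 0
    rw [zero_mul, mul_zero]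
    exact ⟨rfl, rfl⟩
  smul_mem' := by
    intro d x hx
    exact (d.2 _ hx).1

instance GVg_J_two : (GVg_J c I).IsTwoSided where
  mul_mem_of_left := by
    intro x d hx
    exact (d.2 _ hx).2.1

instance GVg_J_closed : IsClosed (GVg_J c I : Set (GVg_D c I)) :=
  (GVg_N_closed c I).preimage continuous_subtype_val

variable {c I}

theorem GVg_star_N (hs : ∀ a ∈ I, star a ∈ I) {x : U} (hx : x ∈ GVg_N c I) :
    star x ∈ GVg_N c I := by
  intro a ha
  have h1 := hx (star a) (hs a ha)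
  constructor
  · have h2 := congrArg star h1.2
    rwa [star_mul, map_star, star_star, star_zero] at h2
  · have h2 := congrArg star h1.1
    rwa [star_mul, map_star, star_star, star_zero] at h2

theorem GVg_mem_D_c [I.IsTwoSided] (b : E) : c b ∈ GVg_D c I := by
  have key : ∀ b : E, ∀ h ∈ GVg_N c I, c b * h ∈ GVg_N c I ∧ h * c b ∈ GVg_N c I := by
    intro b h hh
    refine ⟨fun a ha => ⟨?_, ?_⟩, fun a ha => ⟨?_, ?_⟩⟩
    · rw [mul_assoc, (hh a ha).1, mul_zero]
    · rw [← mul_assoc, ← map_mul]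
      exact (hh (a * b) (I.mul_mem_right b ha)).2
    · rw [mul_assoc, ← map_mul]
      exact (hh (b * a) (I.mul_mem_left b ha)).1
    · rw [← mul_assoc, (hh a ha).2, zero_mul]
  intro h hh
  rw [← map_star]
  exact ⟨(key b h hh).1, (key b h hh).2, (key (star b) h hh).1, (key (star b) h hh).2⟩

theorem GVg_mem_D_j {x : U} (hx : ∀ a : E, Commute (c a) x) : x ∈ GVg_D c I := by
  have key : ∀ x : U, (∀ a : E, Commute (c a) x) → ∀ h ∈ GVg_N c I,
      x * h ∈ GVg_N c I ∧ h * x ∈ GVg_N c I := by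
    intro x hx h hh
    refine ⟨fun a ha => ⟨?_, ?_⟩, fun a ha => ⟨?_, ?_⟩⟩
    · rw [mul_assoc, (hh a ha).1, mul_zero]
    · rw [← mul_assoc, (hx a).eq, mul_assoc, (hh a ha).2, mul_zero]
    · rw [mul_assoc, ← (hx a).eq, ← mul_assoc, (hh a ha).1, zero_mul]
    · rw [← mul_assoc, (hh a ha).2, zero_mul]
  have hx' : ∀ a : E, Commute (c a) (star x) := by
    intro a
    have h1 := (hx (star a)).star_star
    rw [map_star, star_star] at h1
    exact h1
  intro h hh
  exact ⟨(key x hx h hh).1, (key x hx h hh).2, (key _ hx' h hh).1, (key _ hx' h hh).2⟩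

theorem GVg_norm_le {w : E} (hw : w ∈ I) (hw1 : ‖w‖ ≤ 1) (y : GVg_D c I) :
    ‖c w * (y : U) * c w‖ ≤ ‖quotMk (GVg_J c I) y‖ := by
  refine le_of_forall_pos_le_add fun ε hε => ?_
  obtain ⟨y', h1, h2⟩ := quot_exists_lift (GVg_J c I) (quotMk (GVg_J c I) y) hε
  have h3 : y - y' ∈ GVg_J c I := by
    rw [← quotMk_eq_zero_iff, map_sub, sub_eq_zero]
    exact h1.symm
  have h4 : (((y - y' : GVg_D c I) : U)) ∈ GVg_N c I := h3
  have h5 : c w * (y : U) = c w * (y' : U) := by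
    have h6 := (h4 w hw).2
    change c w * ((y : U) - (y' : U)) = 0 at h6
    rwa [mul_sub, sub_eq_zero] at h6
  have hcw : ‖c w‖ ≤ 1 := (NonUnitalStarAlgHom.norm_apply_le c w).trans hw1
  rw [h5]
  calc ‖c w * (y' : U) * c w‖ ≤ ‖c w * (y' : U)‖ * ‖c w‖ := norm_mul_le _ _
    _ ≤ ‖c w * (y' : U)‖ := mul_le_of_le_one_right (norm_nonneg _) hcw
    _ ≤ ‖c w‖ * ‖(y' : U)‖ := norm_mul_le _ _
    _ ≤ ‖(y' : U)‖ := mul_le_of_le_one_left (norm_nonneg _) hcw
    _ ≤ _ := h2.le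

/-- the abstract form -/
theorem GVg_abs {F : Type w} [CStarAlgebra F] (j : F →⋆ₐ[ℂ] U)
    (hcomm : ∀ a x, Commute (c a) (j x)) [I.IsTwoSided] :
    ∃ (U' : Type u) (_ : CStarAlgebra U') (jE : E →⋆ₐ[ℂ] U') (jF : F →⋆ₐ[ℂ] U'),
      (∀ a x, Commute (jE a) (jF x)) ∧ (∀ x, (∀ a ∈ I, j x * c a = 0) → jF x = 0) ∧
      ∀ r : U', ∃ r' : U, ∀ f a : E, ∀ w ∈ I, ‖w‖ ≤ 1 →
        ‖c w * (star r' * c f * r' - c a) * c w‖ ≤ ‖star r * jE f * r - jE a‖ := by
  let cD : E →⋆ₐ[ℂ] GVg_D c I := c.codRestrict (GVg_D c I) fun b => GVg_mem_D_c b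
  let jD : F →⋆ₐ[ℂ] GVg_D c I := j.codRestrict (GVg_D c I) fun x => GVg_mem_D_j fun a => hcomm a x
  refine ⟨GVg_D c I ⧸ GVg_J c I, quotCStarAlgebra (GVg_J c I), (quotMk (GVg_J c I)).comp cD,
    (quotMk (GVg_J c I)).comp jD, ?_, ?_, ?_⟩
  · intro a x
    have h1 : Commute (cD a) (jD x) := Subtype.ext (hcomm a x).eq
    exact h1.map (quotMk (GVg_J c I))
  · intro x hx
    refine (quotMk_eq_zero_iff (GVg_J c I) (jD x)).2 fun a ha => ⟨hx a ha, ?_⟩
    exact ((hcomm a x).eq).trans (hx a ha)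
  · intro r
    obtain ⟨d, rfl⟩ := quotMk_surjective (GVg_J c I) r
    refine ⟨(d : U), fun f a w hw hw1 => ?_⟩
    have h1 := GVg_norm_le hw hw1 (star d * cD f * d - cD a)
    rw [map_sub, map_mul, map_mul, map_star] at h1
    exact h1

end Abs

variable {ω : Ultrafilter ℕ} {E : Type u} [CStarAlgebra E] [Nontrivial E] {I : Ideal E}

theorem gv_quot (hI : GoodIdeal I) : ∃ (U' : Type u) (_ : CStarAlgebra U')
    (jE : E →⋆ₐ[ℂ] U') (jF : FA ω I →⋆ₐ[ℂ] U'), (∀ a x, Commute (jE a) (jF x)) ∧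
      ∀ r : U', ∃ r' : Ultrapower ω E, ∀ f a : E, ∀ w ∈ I, ‖w‖ ≤ 1 →
        ‖ultraConst ω E w * (star r' * ultraConst ω E f * r' - ultraConst ω E a) *
          ultraConst ω E w‖ ≤ ‖star r * jE f * r - jE a‖ := by
  have := hI.two
  obtain ⟨U', hU', jE, jF, h1, h2, h3⟩ := GVg_abs (c := ultraConst ω E) (I := I)
    (centralSeq ω E).subtype (fun a x => (commute_ultraConst ω x a).symm)
  obtain ⟨g, hg⟩ : ∃ g : FA ω I →⋆ₐ[ℂ] U', ∀ x, g (toFA ω I x) = jF x :=
    exists_quotLift (annF ω I) jF fun x hx => h2 x hx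
  refine ⟨U', hU', jE, g, fun a x => ?_, h3⟩
  obtain ⟨x, rfl⟩ := toFA_surjective ω I x
  rw [hg x]
  exact h1 a x

end P095G
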