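import Vale.Agent.Lib.P095F.V4a
import Vale.Agent.Lib.P095G.GVg
import Vale.Agent.Lib.P095G.G1Unit
import Vale.Agent.Lib.P101.Final
import Vale.Agent.Lib.P101.Reduce
import Vale.Agent.Lib.P101.Chars

/-!
# P095 stage 3, part GV, module GVh: the dimension drop comparison with relations in `FA`

`gv_V4`.  `FA ω I` is nontrivial: otherwise `toFA 1 = 0`, `uc a = 0` for `a ∈ I`, but `I ≠ 0` (`gcnorm_ultraConst`).
`P101.inIdeal_one_of_no_characters`, `exists_one_full`, `exists_comparison` (with `n = q`) give `ψ0 : OZ (Fin q) (FA ω I)`, `r1`.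
`V4a_main` for `j = jE`, `ψ = ψ0.comp jF`, `r0 = jF r1`, `δ = (ε' - ε) / 4` gives `r : U'`, `‖star r * jE f * r - jE a‖ ≤ ε + δ`;
`r'` from `gv_quot`.  Choose `w ∈ I`, `PosC w` (or `star w = w`, `‖w‖ ≤ 1`) with `‖w * a * w - a‖ ≤ δ` (`a ∈ I`; `exists_approx` in
P101/Quot.lean or `gca_exists_unit`-like; e.g. `w = t (t + κ)⁻¹` of `a * star a + star a * a`).
`‖uc w * (star r' * uc f * r' - uc a) * uc w‖ ≤ ε + δ`, so `r'' = r' * uc w` satisfies `‖star r'' * uc f * r'' - uc a‖ ≤ ε + 2 δ < ε'`.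
`r'' = toUltrapower ω E y`; `P101.eventually_norm_lt` (P101/CopiesA.lean) as in P095F/V4b.lean.
-/

open scoped ENNReal Topology
open Filter P101 P095E P095F

namespace P095G

universe u

variable {ω : Ultrafilter ℕ} {E : Type u} [CStarAlgebra E] [Nontrivial E] {I : Ideal E}

theorem gv_V4 (hI : GoodIdeal I) (hC : HasCopies (FA ω I)) (hF : IsEmpty (FA ω I →⋆ₐ[ℂ] ℂ))
    {q : ℕ} (hq : 1 ≤ q) {a : E} (ha : a ∈ I) (f : E) (B : Fin q → Fin (q + 1) → E) {ε ε' : ℝ}
    (hε : 0 ≤ ε) (hε' : ε < ε')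
    (hp : PosM (fun s t => (if s = t then (ε : ℂ) • (1 : E) else 0) +
      ((∑ i, star (B i s) * f * B i t) - if s = t then a else 0)))
    (hm : PosM (fun s t => (if s = t then (ε : ℂ) • (1 : E) else 0) -
      ((∑ i, star (B i s) * f * B i t) - if s = t then a else 0))) :
    ∃ r : E, ‖star r * f * r - a‖ ≤ ε' := by
  classical
  have hq0 : NeZero q := ⟨by omega⟩
  have hnt : Nontrivial (FA ω I) := fa_nontrivial ω hI
  obtain ⟨φ, hφ⟩ := exists_one_full hC (inIdeal_one_of_no_characters hF)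
  obtain ⟨ψ0, r1, h1, h2⟩ := exists_comparison hC φ hφ q
  obtain ⟨U', instU, jE, jF, hcomm, hlift⟩ := gv_quot (ω := ω) hI
  obtain ⟨δ, hδe⟩ : ∃ δ : ℝ, δ = (ε' - ε) / 4 := ⟨_, rfl⟩
  have hδ : 0 < δ := by rw [hδe]; linarith
  obtain ⟨r, hr⟩ := V4a_main jE (ψ0.comp jF) (jF r1)
    (by
      have h3 := congrArg jF h1
      rw [_root_.map_mul, map_star, map_sub, map_one] at h3
      exact h3)
    (by
      have h3 := congrArg jF h2
      rw [_root_.map_mul] at h3
      exact h3)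
    (fun b m => hcomm b (ψ0.map m)) (fun b => hcomm b r1) a f B hε hp hm hδ
  obtain ⟨r', hr'⟩ := hlift r
  obtain ⟨w, hwI, hw, -, hwa⟩ := exists_unit_fin hI {a} (by
    intro y hy
    rw [Finset.mem_singleton] at hy
    rw [hy]
    exact ha) (half_pos hδ)
  obtain ⟨hwa1, hwa2⟩ := hwa a (Finset.mem_singleton_self a)
  obtain ⟨⟨c, hc⟩, hw1⟩ := hw
  have hws : star w = w := by
    rw [hc, star_mul, star_star]
  have hwaw : ‖w * a * w - a‖ ≤ δ := by
    have e1 : w * a * w - a = w * (a * w - a) + (w * a - a) := by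
      rw [mul_sub, mul_assoc]
      abel
    rw [e1]
    have e2 : ‖w * (a * w - a)‖ ≤ δ / 2 := by
      refine (norm_mul_le _ _).trans ?_
      calc ‖w‖ * ‖a * w - a‖ ≤ 1 * (δ / 2) :=
            mul_le_mul hw1 hwa2 (norm_nonneg _) zero_le_one
        _ = δ / 2 := one_mul _
    refine (norm_add_le _ _).trans ?_
    linarith
  have h5 := (hr' f a w hwI hw1).trans hr
  obtain ⟨uc, huc⟩ : ∃ uc : E →⋆ₐ[ℂ] Ultrapower ω E, uc = ultraConst ω E := ⟨_, rfl⟩
  rw [← huc] at h5
  have h6 : ‖star (r' * uc w) * uc f * (r' * uc w) - uc a‖ < ε' := by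
    have e1 : star (r' * uc w) * uc f * (r' * uc w) - uc a =
        uc w * (star r' * uc f * r' - uc a) * uc w + uc (w * a * w - a) := by
      rw [star_mul, ← map_star, hws, map_sub, _root_.map_mul, _root_.map_mul]
      noncomm_ring
    rw [e1]
    refine (norm_add_le _ _).trans_lt ?_
    have e2 : ‖uc (w * a * w - a)‖ ≤ δ := (NonUnitalStarAlgHom.norm_apply_le uc _).trans hwaw
    have e3 : ε + δ + δ < ε' := by rw [hδe]; linarith
    linarith
  obtain ⟨y, hy⟩ : ∃ y, toUltrapower ω E y = r' * uc w := quotMk_surjective (cNull ω E) _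
  have hlt : ‖toUltrapower ω E (star y * constSeq E f * y - constSeq E a)‖ < ε' := by
    have he : toUltrapower ω E (star y * constSeq E f * y - constSeq E a) =
        star (r' * uc w) * uc f * (r' * uc w) - uc a := by
      rw [map_sub, _root_.map_mul, _root_.map_mul, map_star, hy, huc]
      rfl
    rw [he]
    exact h6
  obtain ⟨n, hn⟩ := (eventually_norm_lt ω E _ hlt).exists
  exact ⟨y n, hn.le⟩

end P095G
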