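import Vale.Agent.Lib.P095G.GVc3
import Vale.Agent.Lib.P095F.V5b

/-!
# P095 stage 3, part GV, module GVx: Cuntz-Pedersen in the idealizer of `Her (u + a₀)`

* `gv_props`: `u = star c * c`, `a₀ = star d * d` (`PosC`); the sum of two positive elements is positive (spectral order,
  `CStarAlgebra.nonneg_iff_eq_star_mul_self`); if `u + a₀ = 0` then `a₀ = 0` (both are `≥ 0`), contradicting `‖a₀‖ = 1`; `u ∈ Her (u + a₀)` by
  `her_of_le`; `u ∈ I` by `gca_mem_of_inIdeal` (GCAId.lean); `InIdeal.add`, `InIdeal.of_mem`.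
* `gv_split`: `v = u + a₀`.  `e = u * e * u ∈ Her v` (`star` of `u * e = e`; `her_mul`), `InIdeal {a₀} e` (`e = u * e`,
  `InIdeal.mul_right`); `e = s * s`, `s ∈ Her v` (`her_sqrt`), so `⟨e, _⟩ = star ⟨s, _⟩ * ⟨s, _⟩` in `Nrm v` (`her_sub_nrm`).
  `V5b_split` (P095F/V5b.lean) for the C*-algebra `↥(Nrm v)` and `⟨e, _⟩`; its hypothesis on traces is `gv_trace`.  It gives
  `x' : Fin N → ↥(Nrm v)`; `x i = x' i * u ∈ Her v` (`nrm_mul`).  `∑ star (x i) * x i - e = u * (∑ star (x' i) * x' i - e) * u`,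
  `‖x i‖ ≤ ‖x' i‖`, `∑ x i * star (x i) = ∑ x' i * (u * u) * star (x' i) ≤ ∑ x' i * star (x' i)`.
-/

open scoped ENNReal Topology
open Filter P101 P095E P095F

namespace P095G

universe u

variable {E : Type u} [CStarAlgebra E]

section

attribute [local instance] CStarAlgebra.spectralOrder CStarAlgebra.spectralOrderedRing

private theorem GVx_add {x y : E} (hx : ∃ c, x = star c * c) (hy : ∃ c, y = star c * c) :
    ∃ c, x + y = star c * c := by
  have h1 : 0 ≤ x := CStarAlgebra.nonneg_iff_eq_star_mul_self.2 hx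
  have h2 : 0 ≤ y := CStarAlgebra.nonneg_iff_eq_star_mul_self.2 hy
  exact CStarAlgebra.nonneg_iff_eq_star_mul_self.1 (add_nonneg h1 h2)

private theorem GVx_zero {x y : E} (hx : ∃ c, x = star c * c) (hy : ∃ c, y = star c * c)
    (h : x + y = 0) : y = 0 := by
  have h1 : 0 ≤ x := CStarAlgebra.nonneg_iff_eq_star_mul_self.2 hx
  have h2 : 0 ≤ y := CStarAlgebra.nonneg_iff_eq_star_mul_self.2 hy
  have h3 : y ≤ 0 := by
    rw [← h]
    exact le_add_of_nonneg_left h1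
  exact le_antisymm h3 h2

private theorem GVx_norm {N : ℕ} (y : Fin N → E) {u : E} (hus : star u = u) (hu1 : ‖u‖ ≤ 1) :
    ‖∑ i, y i * u * star (y i * u)‖ ≤ ‖∑ i, y i * star (y i)‖ := by
  have h0 : ‖star u * u‖ ≤ 1 := by
    rw [CStarRing.norm_star_mul_self]
    exact mul_le_one₀ hu1 (norm_nonneg _) hu1
  have h1 : star u * u ≤ 1 :=
    (CStarAlgebra.norm_le_one_iff_of_nonneg _ (star_mul_self_nonneg u)).1 h0
  have h2 : ∀ i, y i * u * star (y i * u) ≤ y i * star (y i) := by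
    intro i
    have h3 := star_right_conjugate_le_conjugate h1 (y i)
    rw [mul_one] at h3
    have h4 : y i * u * star (y i * u) = y i * (star u * u) * star (y i) := by
      rw [star_mul, hus]
      simp only [mul_assoc]
    rw [h4]
    exact h3
  exact CStarAlgebra.norm_le_norm_of_nonneg_of_le
    (Finset.sum_nonneg fun i _ => mul_star_self_nonneg _) (Finset.sum_le_sum fun i _ => h2 i)

end

theorem gv_props {I : Ideal E} (hI : GoodIdeal I) {a₀ a₁ : E} (hT : TrBase I a₀ a₁) {u : E}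
    (huP : InIdeal {a₀} u) (hu : PosC u) :
    (∃ c, u + a₀ = star c * c) ∧ (∃ c, u + a₀ - a₀ = star c * c) ∧ u + a₀ ≠ 0 ∧
      star (u + a₀) = u + a₀ ∧ u + a₀ ∈ I ∧ u ∈ Her (u + a₀) ∧ InIdeal {a₀} (u + a₀) := by
  have hv : ∃ c, u + a₀ = star c * c := GVx_add hu.1 hT.pos0.1
  refine ⟨hv, ?_, ?_, ?_, ?_, ?_, ?_⟩
  · rw [add_sub_cancel_right]
    exact hu.1
  · intro h
    have h1 : a₀ = 0 := GVx_zero hu.1 hT.pos0.1 h
    have h2 := hT.norm0
    rw [h1, norm_zero] at h2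
    exact zero_ne_one h2
  · obtain ⟨c, hc⟩ := hv
    rw [hc, star_mul, star_star]
  · exact I.add_mem (gca_mem_of_inIdeal hI hT.mem0 huP) hT.mem0
  · refine her_of_le hu.1 ?_
    rw [add_sub_cancel_left]
    exact hT.pos0.1
  · exact huP.add (InIdeal.of_mem rfl)

theorem gv_split {I : Ideal E} (hI : GoodIdeal I) {a₀ a₁ : E} (hT : TrBase I a₀ a₁) {u : E}
    (huP : InIdeal {a₀} u) (hu : PosC u) {η0 : ℝ} (hη0 : 0 < η0) {e : E} (he : PosC e)
    (hue : u * e = e) (hτ : ∀ τ ∈ Tr a₀, (τ e).re ≤ η0) {d1 : ℝ} (hd1 : 0 < d1) :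
    ∃ (N : ℕ) (x : Fin N → E), (∀ i, x i ∈ Her (u + a₀)) ∧
      ‖∑ i, star (x i) * x i - e‖ ≤ d1 ∧ (∀ i, ‖x i‖ ^ 2 ≤ d1) ∧
      ‖∑ i, x i * star (x i)‖ ≤ 2 * η0 := by
  obtain ⟨hv, hva, hv0, hvs, hvI, huv, hvP⟩ := gv_props hI hT huP hu
  have hus : star u = u := by
    obtain ⟨c, hc⟩ := hu.1
    rw [hc, star_mul, star_star]
  have hes : star e = e := by
    obtain ⟨c, hc⟩ := he.1
    rw [hc, star_mul, star_star]
  have heu : e * u = e := by
    have h := congrArg star hue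
    rwa [star_mul, hes, hus] at h
  have hev : e ∈ Her (u + a₀) := by
    have h := her_mul huv e huv
    rwa [hue, heu] at h
  have heP : InIdeal {a₀} e := by
    rw [← hue]
    exact huP.mul_right e
  obtain ⟨s, hs, hss, hse⟩ := her_sqrt hvs hev he.1
  have hsN : s ∈ Nrm (u + a₀) := her_sub_nrm hvs hs
  have heN : e ∈ Nrm (u + a₀) := her_sub_nrm hvs hev
  have hpos : ∃ c : ↥(Nrm (u + a₀)), (⟨e, heN⟩ : ↥(Nrm (u + a₀))) = star c * c := by
    refine ⟨⟨s, hsN⟩, Subtype.ext ?_⟩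
    change e = star s * s
    rw [hss]
    exact hse
  obtain ⟨N, x', h1, h2, h3⟩ := V5b_split (⟨e, heN⟩ : ↥(Nrm (u + a₀))) hpos hη0
    (fun τ hτ' => gv_trace hI hT hvI hv hva τ hτ' hη0.le ⟨e, heN⟩ hev heP he.1 hτ) hd1
  have c1 : ((∑ i, star (x' i) * x' i - ⟨e, heN⟩ : ↥(Nrm (u + a₀))) : E) =
      ∑ i, star (x' i : E) * (x' i : E) - e := by
    rw [AddSubgroupClass.coe_sub, AddSubmonoidClass.coe_finsetSum]
    rfl
  have c3 : ((∑ i, x' i * star (x' i) : ↥(Nrm (u + a₀))) : E) =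
      ∑ i, (x' i : E) * star (x' i : E) := by
    rw [AddSubmonoidClass.coe_finsetSum]
    rfl
  have h1' : ‖∑ i, star (x' i : E) * (x' i : E) - e‖ ≤ d1 := by
    rw [← c1]
    exact h1
  have h3' : ‖∑ i, (x' i : E) * star (x' i : E)‖ ≤ 2 * η0 := by
    rw [← c3]
    exact h3
  have hu1 : ‖u‖ ≤ 1 := hu.2
  refine ⟨N, fun i => (x' i : E) * u, fun i => nrm_mul (x' i).2 huv, ?_, fun i => ?_, ?_⟩
  · have e1 : ∑ i, star ((x' i : E) * u) * ((x' i : E) * u) - e =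
        u * (∑ i, star (x' i : E) * (x' i : E) - e) * u := by
      rw [mul_sub, sub_mul, hue, heu, Finset.mul_sum, Finset.sum_mul]
      congr 1
      refine Finset.sum_congr rfl fun i _ => ?_
      rw [star_mul, hus]
      simp only [mul_assoc]
    rw [e1]
    calc ‖u * (∑ i, star (x' i : E) * (x' i : E) - e) * u‖
        ≤ ‖u * (∑ i, star (x' i : E) * (x' i : E) - e)‖ * ‖u‖ := norm_mul_le _ _
      _ ≤ ‖u * (∑ i, star (x' i : E) * (x' i : E) - e)‖ * 1 :=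
          mul_le_mul_of_nonneg_left hu1 (norm_nonneg _)
      _ = ‖u * (∑ i, star (x' i : E) * (x' i : E) - e)‖ := mul_one _
      _ ≤ ‖u‖ * ‖∑ i, star (x' i : E) * (x' i : E) - e‖ := norm_mul_le _ _
      _ ≤ 1 * ‖∑ i, star (x' i : E) * (x' i : E) - e‖ :=
          mul_le_mul_of_nonneg_right hu1 (norm_nonneg _)
      _ = ‖∑ i, star (x' i : E) * (x' i : E) - e‖ := one_mul _
      _ ≤ d1 := h1'
  · have h4 : ‖(x' i : E) * u‖ ≤ ‖x' i‖ := by
      calc ‖(x' i : E) * u‖ ≤ ‖(x' i : E)‖ * ‖u‖ := norm_mul_le _ _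
        _ ≤ ‖(x' i : E)‖ * 1 := mul_le_mul_of_nonneg_left hu1 (norm_nonneg _)
        _ = ‖x' i‖ := mul_one _
    exact (pow_le_pow_left₀ (norm_nonneg _) h4 2).trans (h2 i)
  · exact (GVx_norm (fun i => (x' i : E)) hus hu1).trans h3'

end P095G
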