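import Vale.Agent.Lib.P095F.V2f
import Vale.Agent.Lib.P095G.GVd
import Vale.Agent.Lib.P095G.GVe
import Vale.Agent.Lib.P095G.GVf
import Vale.Agent.Lib.P095G.GVh
import Vale.Agent.Lib.P095G.GVx

/-!
# P095 stage 3, part GV: very weak comparison for the ideal `I`
-/

open scoped ENNReal Topology
open Filter P101 P095E P095F

namespace P095G

universe u

variable {ω : Ultrafilter ℕ} {E : Type u} [CStarAlgebra E] [Nontrivial E] {I : Ideal E}

theorem vwcG (hI : GoodIdeal I) (hE : CPAP E) {a₀ a₁ : E} (hT : TrBase I a₀ a₁)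
    (hC : HasCopies (FA ω I)) (hF : IsEmpty (FA ω I →⋆ₐ[ℂ] ℂ)) : VWCG I a₀ := by
  intro u huP hu y hy hy0 ε hε
  obtain ⟨hv, hva, hv0, hvs, hvI, huH, hvP⟩ := gv_props hI hT huP hu
  obtain ⟨L, hL1, hL⟩ := gv_rank hI hT hvP hv hv0 hy hy0
  set δ : ℝ := min 1 (ε / 4) with hδdef
  have hδ : 0 < δ := by positivity
  have hδ1 : δ ≤ 1 := min_le_left _ _
  have hδε : δ ≤ ε / 4 := min_le_right _ _
  set m : ℕ := 2 * L + 1 with hm
  have hm0 : (0 : ℝ) < (m : ℝ) := by
    rw [hm]
    positivity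
  set η0 : ℝ := δ ^ 2 / (4096 * m) with hη0def
  have hη0 : 0 < η0 := by positivity
  refine ⟨η0, hη0, fun e he hue hτ => ?_⟩
  obtain ⟨N, z, hz, h1, h2, h3⟩ := gv_split hI hT huP hu hη0 he hue hτ (d1 := δ / 64)
    (by positivity)
  have hus : star u = u := by
    obtain ⟨⟨c, hc⟩, -⟩ := hu
    rw [hc, star_mul, star_star]
  have hes : star e = e := by
    obtain ⟨⟨c, hc⟩, -⟩ := he
    rw [hc, star_mul, star_star]
  have hc : 2 * (δ / 64) + δ / 32 + m * (2 * η0) / (δ / 32) ≤ δ / 8 := by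
    have h4 : m * (2 * η0) / (δ / 32) = δ / 64 := by
      rw [hη0def]
      field_simp
      ring
    rw [h4]
    linarith
  have hpos := V2_main (m := m) z e he.1 he.2 h1 h2 h3 (t := δ / 32) (by positivity)
    (by linarith) hc
  obtain ⟨n, S, hS1, hS2, Z, hn, hcard, hZH, hZ⟩ := gv_transfer hE hvs huH hus hu.2 z
    (fun i => her_mul2 (hz i) huH) e hes hue hδ (c := δ / 8) (by positivity) le_rfl hpos
  obtain ⟨a, b, ha, hab, hcut⟩ := gv_cut e he.1 he.2 hδ
  obtain ⟨D, hY1, hY2⟩ := hcut Z hZ (ε / 8) (by positivity)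
  have haI : a ∈ I := by
    rw [hab]
    have h5 : e ∈ I := by
      rw [← hue]
      have := hI.two
      exact I.mul_mem_right _ (her_mem_ideal hI hvI huH)
    have := hI.two
    exact I.mul_mem_right _ h5
  have hn0 : 0 < n := hn
  have has : star a = a := by
    have hne : Nonempty S := by
      rw [← Fintype.card_pos_iff, hcard]
      positivity
    obtain ⟨s⟩ := hne
    have h6 := posM_herm hY1 s s
    simp only [if_true] at h6
    rw [star_add, star_sub, star_sum, star_smul, star_one] at h6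
    have h7 : ∀ l, star (star (∑ s', Z l s' * D s' s) * ∑ s', Z l s' * D s' s) =
        star (∑ s', Z l s' * D s' s) * ∑ s', Z l s' * D s' s := by
      intro l
      rw [star_mul, star_star]
    simp only [h7] at h6
    have h8 : star (((ε / 8 : ℝ) : ℂ)) = ((ε / 8 : ℝ) : ℂ) := Complex.conj_ofReal _
    rw [h8] at h6
    have h9 := add_left_cancel h6
    exact sub_right_injective h9
  obtain ⟨B, hB1, hB2⟩ := gv_rows (f := star y * y) (by rw [star_mul, star_star]) hL hn hcard Z
    hZH D a has (κ := ε / 8) (κ' := ε / 4) (by linarith) hY1 hY2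
  have hq : 1 ≤ 2 * n * L := Nat.one_le_iff_ne_zero.2 (by positivity)
  obtain ⟨s, hs⟩ := gv_V4 (ω := ω) hI hC hF hq haI (star y * y) B (ε := ε / 4) (ε' := ε / 2)
    (by positivity) (by linarith) hB1 hB2
  refine ⟨s, ?_⟩
  have h5 : star s * (star y * y) * s - e = (star s * (star y * y) * s - a) + (a - e) := by abel
  rw [h5]
  refine (norm_add_le _ _).trans ?_
  linarith

end P095G
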