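import Vale.Agent.Lib.P095G.GL
import Vale.Agent.Lib.P095G.GMin
import Vale.Agent.Lib.P095G.G1Main
import Vale.Agent.Lib.P095G.GBB
import Vale.Agent.Lib.P095G.GV
import Vale.Agent.Lib.P095G.GCAFinal
import Vale.Agent.Lib.P095G.GCB

/-!
# P095 stage 3: assembly of the homomorphisms into the fixed point algebra of `FA`
-/

open scoped ENNReal Topology TensorProduct
open Filter P101 P095E P095F

namespace P095G

universe u v

/-- images of ideals under surjective homomorphisms -/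
theorem exists_ideal_image {F : Type u} {Q : Type v} [Ring F] [Ring Q] (q : F →+* Q)
    (hq : Function.Surjective q) (J : Ideal F) [J.IsTwoSided] :
    ∃ J' : Ideal Q, J'.IsTwoSided ∧ ∀ y, y ∈ J' ↔ ∃ x, q x = y ∧ x ∈ J := by
  refine ⟨{ carrier := {y | ∃ x, q x = y ∧ x ∈ J}
            add_mem' := ?_
            zero_mem' := ?_
            smul_mem' := ?_ }, ⟨?_⟩, fun y => Iff.rfl⟩
  · rintro _ _ ⟨x, rfl, hx⟩ ⟨y, rfl, hy⟩
    exact ⟨x + y, map_add q x y, J.add_mem hx hy⟩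
  · exact ⟨0, map_zero q, J.zero_mem⟩
  · rintro c _ ⟨x, rfl, hx⟩
    obtain ⟨c', rfl⟩ := hq c
    exact ⟨c' * x, map_mul q c' x, J.mul_mem_left c' hx⟩
  · rintro _ c ⟨x, rfl, hx⟩
    obtain ⟨c', rfl⟩ := hq c
    exact ⟨x * c', map_mul q x c', Ideal.IsTwoSided.mul_mem_of_left c' hx⟩

/-- the tracial part, as an assumption -/
def TracialPart (ω : Ultrafilter ℕ) {E : Type u} [CStarAlgebra E] [Nontrivial E] (I : Ideal E)
    {G : Type v} [Group G] (α : G →* (E ≃⋆ₐ[ℂ] E))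
    (β : G →* (FOmega ω E ≃⋆ₐ[ℂ] FOmega ω E)) : Prop :=
  ∀ a₀ a₁ : E, TrBase I a₀ a₁ →
    (∀ n, 1 ≤ n → Nonempty (dimDrop n (n + 1) →⋆ₐ[ℂ] FA ω I)) →
    ∃ J : Ideal (FOmega ω E), J.IsTwoSided ∧ (∀ x, x ∈ J ↔ InJG ω α a₀ x) ∧
      ∃ v : FOmega ω E, (∀ g, β g v = v) ∧ v * v ∈ J ∧ star v * v + v * star v - 1 ∈ J

/-- everything except the tracial part -/
theorem exists_homs_of (ω : Ultrafilter ℕ) (hω : (ω : Filter ℕ) ≤ Filter.cofinite)
    {E Z B : Type u} [CStarAlgebra E] [Nontrivial E] [CStarAlgebra Z] [CStarAlgebra B]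
    [TopologicalSpace.SeparableSpace E] [TopologicalSpace.SeparableSpace Z] {I : Ideal E}
    (hI : GoodIdeal I) (hcp : CPAP E) (hself : SelfAbsorbing Z) [IsSimpleRing Z]
    (hinf : ¬ FiniteDimensional ℂ Z) (i : E →⋆ₐ[ℂ] B) (j : Z →⋆ₐ[ℂ] B)
    (hij : ∀ a z, Commute (i a) (j z)) (e : E →⋆ₐ[ℂ] B) (he : ∀ x ∈ I, e x = 0 → x = 0)
    (hrange : ∀ x : B, (∃ a ∈ I, e a = x) ↔
      x ∈ closure (Submodule.span ℂ {y : B | ∃ a ∈ I, ∃ z, y = i a * j z} : Set B))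
    {G : Type v} [Group G] [Countable G] (hG : FolnerGroup G) (α : G →* (E ≃⋆ₐ[ℂ] E))
    (hα : ∀ g, ∀ a ∈ I, α g a ∈ I)
    (β : G →* (FOmega ω E ≃⋆ₐ[ℂ] FOmega ω E)) (hβ : ∀ g, Induces ω (α g) (β g))
    (hM : TracialPart ω I α β) :
    ∀ p q : ℕ, 1 ≤ p → 1 ≤ q → Nat.Coprime p q →
      ∃ f : dimDrop p q →⋆ₐ[ℂ] FA ω I, ∀ g x, faAct ω I α hα β hβ g (f x) = f x := by
  classical
  have hch : IsEmpty (FA ω I →⋆ₐ[ℂ] ℂ) :=
    isEmpty_char_FA hω hI hself hinf i j hij e he hrange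
  have hnt : Nontrivial (FA ω I) := fa_nontrivial ω hI
  have hE : HasEquivCopies (Set.range (faAct ω I α hα β hβ)) :=
    hasEquivCopies_FA ω hω hI α hα β hβ
  have hC : HasCopies (FA ω I) := by
    intro D hcl hsep
    obtain ⟨θ, h1, -⟩ := hasIndepCopies_FA ω hω hI α hα β hβ D hcl hsep
    exact ⟨θ, h1⟩
  obtain ⟨a₀, a₁, hT⟩ := exists_trBase hI
  have hvw : VWCG I a₀ := vwcG hI hcp hT hC hch
  have hSI : SILocalG I a₀ := si_localG hI hcp hT hvw (no_minimal hch)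
  have hZ' : ∀ n, 1 ≤ n → Nonempty (dimDrop n (n + 1) →⋆ₐ[ℂ] FA ω I) := by
    intro n hn
    have : NeZero n := ⟨by omega⟩
    exact exists_hom_of_no_characters hC hch n
  obtain ⟨J, hJ2, hJ, v, hv1, hv2, hv3⟩ := hM a₀ a₁ hT hZ'
  obtain ⟨J', hJ'2, hJ'⟩ := exists_ideal_image (toFA ω I : FOmega ω E →+* FA ω I)
    (toFA_surjective ω I) J
  intro p q hp hq hpq
  obtain ⟨f, hf⟩ := exists_fix_hom_of_parts (Set.range (faAct ω I α hα β hβ)) hE J' (by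
      refine ⟨toFA ω I v, ?_, (hJ' _).2 ⟨v * v, map_mul _ _ _, hv2⟩, (hJ' _).2
        ⟨star v * v + v * star v - 1, ?_, hv3⟩⟩
      · rintro _ ⟨g, rfl⟩
        rw [faAct_toFA, hv1]
      · change toFA ω I (star v * v + v * star v - 1) = _
        rw [map_sub, map_add, map_mul, map_mul, map_star, map_one])
    (by
      intro x hx hfix hc hn
      obtain ⟨y, hy, hyJ⟩ := (hJ' x).1 hx
      obtain ⟨s, hs1, hs2⟩ := exists_isometriesG ω hω hI hT hSI hG α hα β hβ hch x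
        ⟨y, hy, (hJ y).1 hyJ⟩ hc hn (fun g => hfix _ ⟨g, rfl⟩)
      refine ⟨s, ?_, hs2⟩
      rintro k _ ⟨g, rfl⟩
      exact hs1 k g) p q hp hq hpq
  exact ⟨f, fun g x => hf _ ⟨g, rfl⟩ x⟩

end P095G
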