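import Vale.Agent.Lib.P095G.GTr

/-!
# P095G, GBA: functional calculus and closed ideals

`gb_cfc_mem`: the quotient map `quotMk I : E →⋆ₐ[ℂ] E ⧸ I` (Vale/Agent/Lib/P095F/QuotAct.lean,
`quotCStarAlgebra`, used in GDefs.lean; it is continuous) satisfies
`quotMk I (cfc f h) = cfc f (quotMk I h) = cfc f 0 = f 0 = 0` (`StarAlgHomClass.map_cfc`, `cfc_apply_zero`).

`gb_cfc_unit`: `b₁ b = b` and `b` self-adjoint.  `f t` is the uniform limit on the spectrum of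
`t * (t f(t)/(t² + κ))` (`f` continuous, `f 0 = 0`), so `cfc f b` is a limit of elements `b * y`, and
`(b₁ - 1) b y = 0`.
-/

open scoped ENNReal Topology
open Filter P101 P095E P095F

namespace P095G

universe u

variable {E : Type u} [CStarAlgebra E] {I : Ideal E}

theorem gb_cfc_lim {b : E} (hb : IsSelfAdjoint b) (f : ℝ → ℝ) (hf : Continuous f) (h0 : f 0 = 0)
    {ε : ℝ} (hε : 0 < ε) : ∃ y : E, ‖cfc f b - b * y‖ ≤ ε := by
  have hK : IsCompact (spectrum ℝ b) := ContinuousFunctionalCalculus.isCompact_spectrum b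
  obtain ⟨M, hM⟩ := hK.exists_bound_of_continuousOn (f := f) hf.continuousOn
  have hM' : ∀ t ∈ spectrum ℝ b, |f t| ≤ |M| := fun t ht => by
    have h1 := hM t ht
    rw [Real.norm_eq_abs] at h1
    exact h1.trans (le_abs_self M)
  obtain ⟨δ, hδ, hfδ⟩ : ∃ δ : ℝ, 0 < δ ∧ ∀ t, |t| < δ → |f t| < ε := by
    have h1 := Metric.continuousAt_iff.1 (hf.continuousAt (x := (0 : ℝ))) ε hε
    obtain ⟨δ, hδ, h2⟩ := h1
    refine ⟨δ, hδ, fun t ht => ?_⟩
    have h3 := h2 (x := t) (by rwa [Real.dist_eq, sub_zero])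
    rwa [h0, Real.dist_eq, sub_zero] at h3
  obtain ⟨κ, hκ, hκM⟩ : ∃ κ : ℝ, 0 < κ ∧ κ * |M| ≤ ε * δ ^ 2 := by
    refine ⟨ε * δ ^ 2 / (|M| + 1), by positivity, ?_⟩
    have h1 : (0 : ℝ) < |M| + 1 := by positivity
    rw [div_mul_eq_mul_div, div_le_iff₀ h1]
    have h2 : 0 < ε * δ ^ 2 := by positivity
    nlinarith
  have hden : ∀ t : ℝ, 0 < t ^ 2 + κ := fun t => by positivity
  have hg : Continuous fun t : ℝ => t * f t / (t ^ 2 + κ) :=
    (continuous_id.mul hf).div (by fun_prop) fun t => (hden t).ne'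
  refine ⟨cfc (fun t : ℝ => t * f t / (t ^ 2 + κ)) b, ?_⟩
  have h1 : b * cfc (fun t : ℝ => t * f t / (t ^ 2 + κ)) b =
      cfc (fun t : ℝ => t * (t * f t / (t ^ 2 + κ))) b := by
    rw [cfc_mul (fun t : ℝ => t) (fun t : ℝ => t * f t / (t ^ 2 + κ)) b continuousOn_id
      hg.continuousOn, cfc_id' ℝ b hb]
  rw [h1, ← cfc_sub (fun t => f t) (fun t : ℝ => t * (t * f t / (t ^ 2 + κ))) b hf.continuousOn
    (continuous_id.mul hg).continuousOn]
  refine norm_cfc_le hε.le fun t ht => ?_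
  rw [Real.norm_eq_abs]
  have h2 : f t - t * (t * f t / (t ^ 2 + κ)) = κ * f t / (t ^ 2 + κ) := by
    have := (hden t).ne'
    field_simp
    ring
  rw [h2, abs_div, abs_mul, abs_of_pos hκ, abs_of_pos (hden t), div_le_iff₀ (hden t)]
  rcases lt_or_ge |t| δ with h3 | h3
  · have h4 := hfδ t h3
    have h5 : 0 ≤ t ^ 2 := sq_nonneg t
    nlinarith [abs_nonneg (f t)]
  · have h4 := hM' t ht
    have h5 : δ ^ 2 ≤ t ^ 2 := by
      rw [← sq_abs t]
      exact pow_le_pow_left₀ hδ.le h3 2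
    have h6 : κ * |f t| ≤ κ * |M| := mul_le_mul_of_nonneg_left h4 hκ.le
    have h7 : ε * δ ^ 2 ≤ ε * t ^ 2 := mul_le_mul_of_nonneg_left h5 hε.le
    nlinarith [mul_pos hε hκ]

theorem gb_cfc_mem (hI : GoodIdeal I) {h : E} (hh : h ∈ I) (hs : IsSelfAdjoint h) (f : ℝ → ℝ)
    (hf : Continuous f) (h0 : f 0 = 0) : cfc f h ∈ I := by
  have _ := hI.two
  have h1 : cfc f h ∈ closure (I : Set E) := by
    rw [Metric.mem_closure_iff]
    intro ε hε
    obtain ⟨y, hy⟩ := gb_cfc_lim hs f hf h0 (half_pos hε)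
    refine ⟨h * y, I.mul_mem_right y hh, ?_⟩
    rw [dist_eq_norm]
    linarith
  rwa [hI.closed.closure_eq] at h1

theorem gb_cfc_unit {b b₁ : E} (hb : IsSelfAdjoint b) (h : b₁ * b = b) (f : ℝ → ℝ)
    (hf : Continuous f) (h0 : f 0 = 0) : b₁ * cfc f b = cfc f b := by
  rw [← sub_eq_zero, ← norm_le_zero_iff]
  refine le_of_forall_pos_le_add fun ε hε => ?_
  rw [zero_add]
  have h1 : (0 : ℝ) < ‖b₁ - 1‖ + 1 := by positivity
  obtain ⟨y, hy⟩ := gb_cfc_lim hb f hf h0 (div_pos hε h1)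
  have h2 : b₁ * cfc f b - cfc f b = (b₁ - 1) * (cfc f b - b * y) := by
    have h3 : b₁ * (b * y) = b * y := by rw [← mul_assoc, h]
    rw [sub_mul, one_mul, mul_sub, h3]
    abel
  rw [h2]
  refine (norm_mul_le _ _).trans ?_
  calc ‖b₁ - 1‖ * ‖cfc f b - b * y‖ ≤ (‖b₁ - 1‖ + 1) * (ε / (‖b₁ - 1‖ + 1)) :=
        mul_le_mul (by linarith) hy (norm_nonneg _) h1.le
    _ = ε := by field_simp

/-- `PosC` in terms of the functional calculus: `0 ≤ f ≤ 1` on `[0, 1]` -/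
theorem gb_cfc_posC {h : E} (hh : PosC h) (f : ℝ → ℝ) (hf : Continuous f)
    (h01 : ∀ t, 0 ≤ t → t ≤ 1 → 0 ≤ f t ∧ f t ≤ 1) : PosC (cfc f h) := by
  obtain ⟨⟨c, hc⟩, hn⟩ := hh
  have hsa : IsSelfAdjoint h := by
    rw [hc]
    exact IsSelfAdjoint.star_mul_self c
  have hsp : ∀ t ∈ spectrum ℝ h, 0 ≤ t ∧ t ≤ 1 := by
    intro t ht
    refine ⟨?_, ?_⟩
    · rw [hc] at ht
      exact spectrum_star_mul_self_nonneg t ht
    · have h1 := norm_apply_le_norm_cfc (fun s : ℝ => s) h ht continuousOn_id hsa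
      rw [cfc_id' ℝ h hsa, Real.norm_eq_abs] at h1
      exact (le_abs_self t).trans (h1.trans hn)
  refine ⟨⟨cfc (fun t => Real.sqrt (f t)) h, ?_⟩, ?_⟩
  · have hs : IsSelfAdjoint (cfc (fun t => Real.sqrt (f t)) h) := cfc_predicate _ h
    have hsq : Continuous fun t => Real.sqrt (f t) := Real.continuous_sqrt.comp hf
    rw [hs.star_eq, ← cfc_mul (fun t => Real.sqrt (f t)) (fun t => Real.sqrt (f t)) h
      hsq.continuousOn hsq.continuousOn]
    refine cfc_congr fun t ht => ?_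
    obtain ⟨h1, h2⟩ := hsp t ht
    exact (Real.mul_self_sqrt (h01 t h1 h2).1).symm
  · refine norm_cfc_le zero_le_one fun t ht => ?_
    obtain ⟨h1, h2⟩ := hsp t ht
    rw [Real.norm_eq_abs, abs_of_nonneg (h01 t h1 h2).1]
    exact (h01 t h1 h2).2

theorem PosC.isSelfAdjoint {h : E} (hh : PosC h) : IsSelfAdjoint h := by
  obtain ⟨⟨c, rfl⟩, -⟩ := hh
  exact IsSelfAdjoint.star_mul_self c

end P095G
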