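import Vale.Agent.Lib.P095G.GBB

/-!
# P095G, GBC: consequences of GB.1

`gb_root`: `c = cfc (fun t => √(max 0 t)) b` (continuous, zero at zero), `c * c = b`, `b₁ c = c` (`gb_cfc_unit`),
`c ∈ P` (`gb_mem`).

`gb_aut_mem`: `σ(∑ x a₀ y) = ∑ σ x (σ a₀) σ y` and `σ a₀ ∈ P` by `gb_mem` with the unit `σ a₁ ∈ I`.

`gb_cfc_P`: the unit is `cfc f₁ h` with `f₁ t = min 1 (max 0 (t/κ))`, `f₁ * f = f` on `[0, ∞)`.
-/

open scoped ENNReal Topology
open Filter P101 P095E P095F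

namespace P095G

universe u

variable {E : Type u} [CStarAlgebra E] {I : Ideal E} {a₀ a₁ : E}

theorem GBC_nonneg {h : E} (hp : PosC h) :
    letI := CStarAlgebra.spectralOrder E
    0 ≤ h := by
  let _ := CStarAlgebra.spectralOrder E
  let _ := CStarAlgebra.spectralOrderedRing E
  obtain ⟨⟨c, rfl⟩, -⟩ := hp
  exact star_mul_self_nonneg c

theorem GBC_spec {h : E} (hp : PosC h) {t : ℝ} (ht : t ∈ spectrum ℝ h) : 0 ≤ t ∧ t ≤ 1 := by
  let _ := CStarAlgebra.spectralOrder E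
  let _ := CStarAlgebra.spectralOrderedRing E
  refine ⟨spectrum_nonneg_of_nonneg (GBC_nonneg hp) ht, ?_⟩
  rcases subsingleton_or_nontrivial E with hE | hE
  · rw [spectrum.of_subsingleton] at ht
    exact ht.elim
  · have h1 : ‖t‖ ≤ ‖h‖ := spectrum.norm_le_norm_of_mem ht
    exact ((le_abs_self t).trans h1).trans hp.2

theorem GBC_star {h : E} (hp : PosC h) : star h = h := hp.isSelfAdjoint.star_eq

theorem GBC_comm {b b₁ : E} (hb : star b = b) (h1 : star b₁ = b₁) (h : b₁ * b = b) :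
    b * b₁ = b := by
  calc b * b₁ = star (b₁ * b) := by rw [star_mul, hb, h1]
    _ = b := by rw [h, hb]

/-- square roots of elements with a unit -/
theorem gb_root (hI : GoodIdeal I) (hT : TrBase I a₀ a₁) {b b₁ : E} (hb : PosC b) (h1 : b₁ ∈ I)
    (hp : PosC b₁) (h : b₁ * b = b) :
    ∃ c : E, star c = c ∧ PosC c ∧ c * c = b ∧ InIdeal {a₀} c ∧ b₁ * c = c ∧ c * b₁ = c := by
  have hsa := hb.isSelfAdjoint
  have hcp : PosC (cfc Real.sqrt b) := by
    refine gb_cfc_posC hb Real.sqrt Real.continuous_sqrt fun t h0 h1 => ⟨Real.sqrt_nonneg t, ?_⟩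
    exact Real.sqrt_le_one.2 h1
  have h2 : b₁ * cfc Real.sqrt b = cfc Real.sqrt b :=
    gb_cfc_unit hsa h Real.sqrt Real.continuous_sqrt Real.sqrt_zero
  refine ⟨cfc Real.sqrt b, GBC_star hcp, hcp, ?_, gb_mem hI hT h1 hp h2, h2,
    GBC_comm (GBC_star hcp) (GBC_star hp) h2⟩
  rw [← cfc_mul Real.sqrt Real.sqrt b Real.continuous_sqrt.continuousOn
    Real.continuous_sqrt.continuousOn]
  conv_rhs => rw [← cfc_id ℝ b hsa]
  exact cfc_congr fun t ht => Real.mul_self_sqrt (GBC_spec hb ht).1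

theorem gb_trBase_aut (hI : GoodIdeal I) (hT : TrBase I a₀ a₁) {σ : E ≃⋆ₐ[ℂ] E}
    (hσ : ∀ a ∈ I, σ a ∈ I) : TrBase I (σ a₀) (σ a₁) where
  mem0 := hσ _ hT.mem0
  mem1 := hσ _ hT.mem1
  pos0 := by
    obtain ⟨⟨c, hc⟩, h1⟩ := hT.pos0
    exact ⟨⟨σ c, by rw [← map_star, ← map_mul, ← hc]⟩, by rw [norm_aut]; exact h1⟩
  pos1 := by
    obtain ⟨⟨c, hc⟩, h1⟩ := hT.pos1
    exact ⟨⟨σ c, by rw [← map_star, ← map_mul, ← hc]⟩, by rw [norm_aut]; exact h1⟩
  norm0 := by rw [norm_aut]; exact hT.norm0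
  mul := by rw [← map_mul, hT.mul]

/-- automorphisms preserve the Pedersen ideal -/
theorem gb_aut_mem (hI : GoodIdeal I) (hT : TrBase I a₀ a₁) {σ : E ≃⋆ₐ[ℂ] E}
    (hσ : ∀ a ∈ I, σ a ∈ I) {p : E} (hp : InIdeal {a₀} p) : InIdeal {a₀} (σ p) := by
  have hT' := gb_trBase_aut hI hT hσ
  obtain ⟨m, a, y, b, hy, rfl⟩ := hp
  rw [map_sum]
  refine InIdeal.sum _ _ fun l _ => ?_
  rw [map_mul, map_mul, Set.mem_singleton_iff.1 (hy l)]
  exact ((gb_mem hI hT hT'.mem1 hT'.pos1 hT'.mul).mul_left _).mul_right _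

/-- functions vanishing near zero -/
theorem gb_cfc_P (hI : GoodIdeal I) (hT : TrBase I a₀ a₁) {h : E} (hh : h ∈ I) (hp : PosC h)
    (f : ℝ → ℝ) (hf : Continuous f) {κ : ℝ} (hκ : 0 < κ) (h0 : ∀ t, 0 ≤ t → t ≤ κ → f t = 0) :
    InIdeal {a₀} (cfc f h) := by
  set f₁ : ℝ → ℝ := fun t => min 1 (max 0 (t / κ)) with hf₁
  have hf₁c : Continuous f₁ := by fun_prop
  have hf₁0 : f₁ 0 = 0 := by simp [hf₁]
  have hu : cfc f₁ h ∈ I := gb_cfc_mem hI hh hp.isSelfAdjoint f₁ hf₁c hf₁0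
  have hup : PosC (cfc f₁ h) := gb_cfc_posC hp f₁ hf₁c fun t _ _ =>
    ⟨le_min zero_le_one (le_max_left _ _), min_le_left _ _⟩
  refine gb_mem hI hT hu hup ?_
  rw [← cfc_mul f₁ f h hf₁c.continuousOn hf.continuousOn]
  refine cfc_congr fun t ht => ?_
  have ht0 := (GBC_spec hp ht).1
  rcases le_or_gt t κ with h1 | h1
  · simp only [h0 t ht0 h1, mul_zero]
  · have h2 : f₁ t = 1 := by
      have h3 : 1 ≤ t / κ := (one_le_div hκ).2 h1.le
      simp only [hf₁]
      rw [max_eq_right (by positivity), min_eq_left h3]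
    simp only [h2, one_mul]

theorem GBC_norm_le {x z : E} {c : E} {D : ℝ} (hz : PosC z)
    (hxz : letI := CStarAlgebra.spectralOrder E; x * star x ≤ D • z) (hD : 0 ≤ D)
    {κ : ℝ} (hκ : 0 ≤ κ) {f : ℝ → ℝ} (hf : Continuous f) (hc : c = cfc f z)
    (hfz : ∀ t, 0 ≤ t → t * (1 - f t) ^ 2 ≤ κ) : ‖c * x - x‖ ^ 2 ≤ D * κ := by
  let _ := CStarAlgebra.spectralOrder E
  let _ := CStarAlgebra.spectralOrderedRing E
  have hsa := hz.isSelfAdjoint
  have hcs : IsSelfAdjoint c := by rw [hc]; exact cfc_predicate f z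
  have hws : star (c - 1) = c - 1 := by rw [star_sub, hcs.star_eq, star_one]
  have h1 : ‖c * x - x‖ ^ 2 = ‖(c - 1) * (x * star x) * (c - 1)‖ := by
    have h2 : c * x - x = (c - 1) * x := by rw [sub_mul, one_mul]
    rw [h2, pow_two, ← CStarRing.norm_self_mul_star, star_mul, hws]
    simp only [mul_assoc]
  have h2 : (c - 1) * (x * star x) * (c - 1) ≤ (c - 1) * (D • z) * (c - 1) := by
    have h3 := star_left_conjugate_le_conjugate hxz (c - 1)
    rwa [hws] at h3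
  have h3 : 0 ≤ (c - 1) * (x * star x) * (c - 1) := by
    have h4 : (c - 1) * (x * star x) * (c - 1) = ((c - 1) * x) * star ((c - 1) * x) := by
      rw [star_mul, hws]
      simp only [mul_assoc]
    rw [h4]
    exact mul_star_self_nonneg _
  have h4 : (c - 1) * (D • z) * (c - 1) = D • cfc (fun t => t * (1 - f t) ^ 2) z := by
    have h5 : c - 1 = cfc (fun t => f t - 1) z := by
      rw [cfc_sub f (fun _ => 1) z hf.continuousOn continuousOn_const, cfc_const_one ℝ z, hc]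
    have h6 : (c - 1) * z * (c - 1) = cfc (fun t => t * (1 - f t) ^ 2) z := by
      have h7 : cfc (fun t => f t - 1) z * z = cfc (fun t => (f t - 1) * t) z := by
        rw [cfc_mul (fun t => f t - 1) (fun t => t) z (by fun_prop) (by fun_prop), cfc_id' ℝ z]
      rw [h5, h7, ← cfc_mul (fun t => (f t - 1) * t) (fun t => f t - 1) z (by fun_prop)
        (by fun_prop)]
      exact cfc_congr fun t _ => by ring
    rw [mul_smul_comm, smul_mul_assoc, h6]
  have h5 : ‖cfc (fun t => t * (1 - f t) ^ 2) z‖ ≤ κ := by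
    refine norm_cfc_le hκ fun t ht => ?_
    have ht0 := (GBC_spec hz ht).1
    rw [Real.norm_eq_abs, abs_of_nonneg (by positivity)]
    exact hfz t ht0
  rw [h1]
  refine (CStarAlgebra.norm_le_norm_of_nonneg_of_le h3 h2).trans ?_
  rw [h4, norm_smul, Real.norm_of_nonneg hD]
  exact mul_le_mul_of_nonneg_left h5 hD

/-- density: the Pedersen ideal contains approximate units: for finitely many elements of `I` there is
`u` in the Pedersen ideal, `PosC u`, with a unit `u₁` in the Pedersen ideal, and `u y ≈ y ≈ y u`.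
(`h = ∑ y y* + y* y` scaled to norm `≤ 1`, `u = cfc f h`, `f = 0` on `[0, κ]`, `f = 1` on `[2κ, 1]`; `u₁ = cfc f₁ h`,
`f₁ = 0` on `[0, κ/2]`, `f₁ = 1` on `[κ, 1]`; `‖(1-u) y‖² = ‖(1-u) y y* (1-u)‖ ≤ ‖(1-u) C h (1-u)‖ ≤ 2 C κ`.) -/
theorem gb_approx_unit (hI : GoodIdeal I) (hT : TrBase I a₀ a₁) (Y : Finset E)
    (hY : ∀ y ∈ Y, y ∈ I) {ε : ℝ} (hε : 0 < ε) :
    ∃ u u₁ : E, PosC u ∧ PosC u₁ ∧ InIdeal {a₀} u ∧ InIdeal {a₀} u₁ ∧ u₁ * u = u ∧ u * u₁ = u ∧
      ∀ y ∈ Y, ‖u * y - y‖ ≤ ε ∧ ‖y * u - y‖ ≤ ε := by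
  let _ := CStarAlgebra.spectralOrder E
  let _ := CStarAlgebra.spectralOrderedRing E
  have := hI.two
  set h0 : E := ∑ y ∈ Y, (y * star y + star y * y) with hh0
  have hterm : ∀ y : E, 0 ≤ y * star y + star y * y := fun y =>
    add_nonneg (mul_star_self_nonneg y) (star_mul_self_nonneg y)
  have h0n : 0 ≤ h0 := Finset.sum_nonneg fun y _ => hterm y
  set D : ℝ := ‖h0‖ + 1 with hD
  have hDp : 0 < D := by rw [hD]; positivity
  set z : E := D⁻¹ • h0 with hz
  have hzn : 0 ≤ z := smul_nonneg (inv_pos.2 hDp).le h0n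
  have hzD : D • z = h0 := by rw [hz, smul_smul, mul_inv_cancel₀ hDp.ne', one_smul]
  have hzp : PosC z := by
    refine ⟨?_, ?_⟩
    · obtain ⟨c, hc⟩ := CStarAlgebra.nonneg_iff_eq_star_mul_self.1 hzn
      exact ⟨c, hc⟩
    · rw [hz, norm_smul, norm_inv, Real.norm_of_nonneg hDp.le, inv_mul_le_iff₀ hDp, mul_one, hD]
      linarith
  have hzI : z ∈ I := by
    have h1 : h0 ∈ I := I.sum_mem fun y hy =>
      I.add_mem (I.mul_mem_right _ (hY y hy)) (I.mul_mem_left _ (hY y hy))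
    have h2 : z = algebraMap ℝ E D⁻¹ * h0 := by rw [hz, Algebra.smul_def]
    rw [h2]
    exact I.mul_mem_left _ h1
  set κ : ℝ := ε ^ 2 / (2 * D) with hκ
  have hκp : 0 < κ := by rw [hκ]; positivity
  set f : ℝ → ℝ := fun t => min 1 (max 0 ((t - κ) / κ)) with hf
  set f₁ : ℝ → ℝ := fun t => min 1 (max 0 ((t - κ / 2) / (κ / 2))) with hf₁
  have hfc : Continuous f := by fun_prop
  have hf₁c : Continuous f₁ := by fun_prop
  have hf01 : ∀ t, 0 ≤ f t ∧ f t ≤ 1 := fun t =>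
    ⟨le_min zero_le_one (le_max_left _ _), min_le_left _ _⟩
  have hf₁01 : ∀ t, 0 ≤ f₁ t ∧ f₁ t ≤ 1 := fun t =>
    ⟨le_min zero_le_one (le_max_left _ _), min_le_left _ _⟩
  have hf0 : ∀ t, t ≤ κ → f t = 0 := by
    intro t ht
    have h1 : (t - κ) / κ ≤ 0 := div_nonpos_of_nonpos_of_nonneg (by linarith) hκp.le
    simp only [hf]
    rw [max_eq_left h1, min_eq_right zero_le_one]
  have hf₁0 : ∀ t, t ≤ κ / 2 → f₁ t = 0 := by
    intro t ht
    have h1 : (t - κ / 2) / (κ / 2) ≤ 0 := div_nonpos_of_nonpos_of_nonneg (by linarith)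
      (by linarith)
    simp only [hf₁]
    rw [max_eq_left h1, min_eq_right zero_le_one]
  have hf₁1 : ∀ t, κ ≤ t → f₁ t = 1 := by
    intro t ht
    have h1 : 1 ≤ (t - κ / 2) / (κ / 2) := (one_le_div (by linarith)).2 (by linarith)
    simp only [hf₁]
    rw [max_eq_right (by linarith), min_eq_left h1]
  have hf1 : ∀ t, 2 * κ ≤ t → f t = 1 := by
    intro t ht
    have h1 : 1 ≤ (t - κ) / κ := (one_le_div hκp).2 (by linarith)
    simp only [hf]
    rw [max_eq_right (by linarith), min_eq_left h1]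
  have hup : PosC (cfc f z) := gb_cfc_posC hzp f hfc fun t _ _ => hf01 t
  have hu₁p : PosC (cfc f₁ z) := gb_cfc_posC hzp f₁ hf₁c fun t _ _ => hf₁01 t
  have huP : InIdeal {a₀} (cfc f z) := gb_cfc_P hI hT hzI hzp f hfc hκp fun t _ h1 => hf0 t h1
  have hu₁P : InIdeal {a₀} (cfc f₁ z) :=
    gb_cfc_P hI hT hzI hzp f₁ hf₁c (show 0 < κ / 2 by linarith) fun t _ h1 => hf₁0 t h1
  have huu : cfc f₁ z * cfc f z = cfc f z := by
    rw [← cfc_mul f₁ f z hf₁c.continuousOn hfc.continuousOn]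
    refine cfc_congr fun t _ => ?_
    rcases le_or_gt t κ with h1 | h1
    · simp only [hf0 t h1, mul_zero]
    · simp only [hf₁1 t h1.le, one_mul]
  have hfz : ∀ t, 0 ≤ t → t * (1 - f t) ^ 2 ≤ 2 * κ := by
    intro t ht
    rcases le_or_gt (2 * κ) t with h1 | h1
    · rw [hf1 t h1]
      simp only [sub_self]
      have : (0 : ℝ) ^ 2 = 0 := by norm_num
      rw [this, mul_zero]
      linarith
    · have h2 := hf01 t
      have h3 : (1 - f t) ^ 2 ≤ 1 := by nlinarith [h2.1, h2.2]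
      calc t * (1 - f t) ^ 2 ≤ t * 1 := mul_le_mul_of_nonneg_left h3 ht
        _ ≤ 2 * κ := by linarith
  have hDκ : D * (2 * κ) = ε ^ 2 := by rw [hκ]; field_simp
  have hle : ∀ y ∈ Y, y * star y + star y * y ≤ h0 := fun y hy =>
    Finset.single_le_sum (f := fun y => y * star y + star y * y) (fun w _ => hterm w) hy
  refine ⟨cfc f z, cfc f₁ z, hup, hu₁p, huP, hu₁P, huu,
    GBC_comm (GBC_star hup) (GBC_star hu₁p) huu, fun y hy => ⟨?_, ?_⟩⟩
  · have h1 : y * star y ≤ D • z := by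
      rw [hzD]
      exact le_trans (le_add_of_nonneg_right (star_mul_self_nonneg y)) (hle y hy)
    have h2 := GBC_norm_le hzp h1 hDp.le (show 0 ≤ 2 * κ by linarith) hfc rfl hfz
    rw [hDκ] at h2
    exact (pow_le_pow_iff_left₀ (norm_nonneg _) hε.le two_ne_zero).1 h2
  · have h1 : star y * star (star y) ≤ D • z := by
      rw [hzD, star_star]
      exact le_trans (le_add_of_nonneg_left (mul_star_self_nonneg y)) (hle y hy)
    have h2 := GBC_norm_le hzp h1 hDp.le (show 0 ≤ 2 * κ by linarith) hfc rfl hfz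
    rw [hDκ] at h2
    have h3 : ‖y * cfc f z - y‖ = ‖cfc f z * star y - star y‖ := by
      rw [← norm_star (y * cfc f z - y), star_sub, star_mul, GBC_star hup]
    rw [h3]
    exact (pow_le_pow_iff_left₀ (norm_nonneg _) hε.le two_ne_zero).1 h2

end P095G
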