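import Vale.Agent.Lib.P095G.GBC
import Vale.Agent.Lib.P095F.CASt

/-!
# P095G, GBD: bounds for the traces (GB.2, GB.3)

`τ ∈ Tr a₀`, `c ∈ P` self-adjoint, `b = c c`: `w ↦ τ (c w c)` is a positive functional on `E`
(`c d* d c = (d c)* (d c) ∈ P`), so `‖τ (c w c)‖ ≤ τ (b) ‖w‖` (`IsSt.norm_le` in CASt.lean after division by
`τ b` if `τ b > 0`; if `τ b = 0` use the Cauchy-Schwarz inequality for the positive functional or
`IsSt` of `(τ(c w c) + ψ w) `; or apply the inequality to `c w c ≤ ...` for `w` self-adjoint: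
`-‖w‖ c c ≤ c w c ≤ ‖w‖ c c` and decompose `w`: this gives the bound `2 τ(b) ‖w‖` which is enough for
`gb_bound`, but `gb_pos_bound` is stated with the constant one).

`τ (b w) = τ (c (c w)) = τ (c w c)` by the trace property (`c ∈ P`).

`gb_bound`: `p = ∑ x_i a₀ y_i`, `a₀ = c c` (`gb_root`): `τ (x_i a₀ y_i w) = τ (a₀ y_i w x_i)`, so the constant
`C = ∑ ‖x_i‖ ‖y_i‖` works (`τ a₀ = 1`).

`gb_lower`: `a₀ = ∑ x_i (σ a₀) y_i` by `gb_mem` for the pair `(σ a₀, σ a₁)` (`gb_trBase_aut`; `a₁ a₀ = a₀`), so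
`1 = τ a₀ = ∑ τ (σ a₀ y_i x_i) ≤ ∑ ‖y_i x_i‖ τ (σ a₀)`.
-/

open scoped ENNReal Topology
open Filter P101 P095E P095F

namespace P095G

universe u

variable {E : Type u} [CStarAlgebra E] {I : Ideal E} {a₀ a₁ : E}

/-- positive functionals are hermitian -/
private theorem GBD_star_map {φ : E →ₗ[ℂ] ℂ}
    (h : ∀ x : E, 0 ≤ (φ (star x * x)).re ∧ (φ (star x * x)).im = 0) (x : E) :
    φ (star x) = (starRingEnd ℂ) (φ x) := by
  have h1 := (h (1 + x)).2
  have h2 := (h (1 + Complex.I • x)).2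
  have hx := (h x).2
  have h0 : (φ 1).im = 0 := by
    have := (h 1).2
    rwa [star_one, one_mul] at this
  have e1 : star (1 + x) * (1 + x) = 1 + x + star x + star x * x := by
    rw [star_add, star_one, add_mul, mul_add, mul_add, one_mul, mul_one, one_mul]
    abel
  have e2 : star (1 + Complex.I • x) * (1 + Complex.I • x) =
      1 + Complex.I • x - Complex.I • star x + star x * x := by
    rw [star_add, star_one, star_smul, add_mul, mul_add, mul_add, one_mul, mul_one, one_mul,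
      smul_mul_smul_comm]
    simp only [RCLike.star_def, Complex.conj_I, neg_mul, Complex.I_mul_I, neg_neg, one_smul,
      neg_smul]
    abel
  rw [e1, map_add, map_add, map_add, Complex.add_im, Complex.add_im, Complex.add_im, h0, hx] at h1
  rw [e2, map_add, map_sub, map_add, map_smul, map_smul, Complex.add_im, Complex.sub_im,
    Complex.add_im, h0, hx] at h2
  simp only [smul_eq_mul, Complex.mul_im, Complex.I_re, Complex.I_im, zero_mul, one_mul,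
    zero_add, add_zero] at h1 h2
  apply Complex.ext
  · rw [Complex.conj_re]
    linarith
  · rw [Complex.conj_im]
    linarith

/-- the semi-inner product `φ(x* y)` -/
@[instance_reducible]
private noncomputable def GBD_core {φ : E →ₗ[ℂ] ℂ}
    (h : ∀ x : E, 0 ≤ (φ (star x * x)).re ∧ (φ (star x * x)).im = 0) :
    PreInnerProductSpace.Core ℂ E where
  inner x y := φ (star x * y)
  conj_inner_symm x y := by
    rw [← GBD_star_map h, star_mul, star_star]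
  re_inner_nonneg x := (h x).1
  add_left x y z := by
    rw [star_add, add_mul, map_add]
  smul_left x y r := by
    rw [star_smul, smul_mul_assoc, map_smul]
    rfl

private theorem GBD_cs_sq {φ : E →ₗ[ℂ] ℂ}
    (h : ∀ x : E, 0 ≤ (φ (star x * x)).re ∧ (φ (star x * x)).im = 0) (x y : E) :
    ‖φ (star x * y)‖ ^ 2 ≤ (φ (star x * x)).re * (φ (star y * y)).re := by
  have h1 := @InnerProductSpace.Core.inner_mul_inner_self_le ℂ E _ _ _ (GBD_core h) x y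
  have h2 : ‖φ (star y * x)‖ = ‖φ (star x * y)‖ := by
    have : star y * x = star (star x * y) := by rw [star_mul, star_star]
    rw [this, GBD_star_map h, Complex.norm_conj]
  have h3 : ‖φ (star x * y)‖ * ‖φ (star y * x)‖ ≤ (φ (star x * x)).re * (φ (star y * y)).re := h1
  rw [h2] at h3
  rw [pow_two]
  exact h3

/-- positive functionals have norm `φ 1` -/
private theorem GBD_norm_le {φ : E →ₗ[ℂ] ℂ}
    (h : ∀ x : E, 0 ≤ (φ (star x * x)).re ∧ (φ (star x * x)).im = 0) (x : E) :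
    ‖φ x‖ ≤ (φ 1).re * ‖x‖ := by
  let _ : PartialOrder E := CStarAlgebra.spectralOrder E
  have _ : StarOrderedRing E := CStarAlgebra.spectralOrderedRing E
  have h1 := GBD_cs_sq h 1 x
  rw [star_one, one_mul, one_mul] at h1
  have h2 : star x * x ≤ algebraMap ℝ E (‖x‖ ^ 2) := by
    have h3 := IsSelfAdjoint.le_algebraMap_norm_self (IsSelfAdjoint.star_mul_self x)
    rwa [CStarRing.norm_star_mul_self, ← pow_two] at h3
  have h0 : 0 ≤ (φ 1).re := by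
    have := (h 1).1
    rwa [star_one, one_mul] at this
  have h4 : (φ (star x * x)).re ≤ (φ 1).re * ‖x‖ ^ 2 := by
    obtain ⟨y, hy⟩ := CStarAlgebra.nonneg_iff_eq_star_mul_self.1 (sub_nonneg.2 h2)
    have h5 := (h y).1
    rw [← hy, map_sub, Complex.sub_re] at h5
    have h6 : φ (algebraMap ℝ E (‖x‖ ^ 2)) = ((‖x‖ ^ 2 : ℝ) : ℂ) * φ 1 := by
      rw [Algebra.algebraMap_eq_smul_one, ← Complex.coe_smul, map_smul, smul_eq_mul]
    rw [h6, Complex.re_ofReal_mul] at h5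
    nlinarith [h5]
  have h7 : ‖φ x‖ ^ 2 ≤ ((φ 1).re * ‖x‖) ^ 2 := by
    calc ‖φ x‖ ^ 2 ≤ (φ 1).re * (φ (star x * x)).re := h1
      _ ≤ (φ 1).re * ((φ 1).re * ‖x‖ ^ 2) := mul_le_mul_of_nonneg_left h4 h0
      _ = ((φ 1).re * ‖x‖) ^ 2 := by ring
  exact (pow_le_pow_iff_left₀ (norm_nonneg _) (mul_nonneg h0 (norm_nonneg _)) two_ne_zero).1 h7

/-- moving the square root -/
theorem gb_tr_root {τ : E →ₗ[ℂ] ℂ} (hτ : τ ∈ Tr a₀) {c : E} (hc : InIdeal {a₀} c) (w : E) :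
    τ (c * c * w) = τ (c * w * c) := by
  have h := hτ.1 c hc (c * w)
  rw [← mul_assoc] at h
  exact h

theorem gb_pos_fun {τ : E →ₗ[ℂ] ℂ} (hτ : τ ∈ Tr a₀) {c : E} (hc : InIdeal {a₀} c)
    (hs : star c = c) (w : E) :
    0 ≤ (τ (c * (star w * w) * c)).re ∧ (τ (c * (star w * w) * c)).im = 0 := by
  have h := hτ.2.1 (c * (star w * w) * c) (hc.mul_left _)
    ⟨w * c, by rw [star_mul, hs]; simp only [mul_assoc]⟩
  exact h

/-- the compression as a linear functional -/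
private noncomputable def GBD_comp (τ : E →ₗ[ℂ] ℂ) (c : E) : E →ₗ[ℂ] ℂ where
  toFun w := τ (c * w * c)
  map_add' x y := by rw [mul_add, add_mul, map_add]
  map_smul' r x := by
    rw [mul_smul_comm, smul_mul_assoc, map_smul]
    rfl

theorem gb_pos_bound {τ : E →ₗ[ℂ] ℂ} (hτ : τ ∈ Tr a₀) {c : E} (hc : InIdeal {a₀} c)
    (hs : star c = c) (w : E) : ‖τ (c * w * c)‖ ≤ (τ (c * c)).re * ‖w‖ := by
  have h := GBD_norm_le (φ := GBD_comp τ c) (fun x => gb_pos_fun hτ hc hs x) w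
  have h1 : GBD_comp τ c 1 = τ (c * c) := by
    change τ (c * 1 * c) = _
    rw [mul_one]
  rw [h1] at h
  exact h

private theorem GBD_cc {τ : E →ₗ[ℂ] ℂ} (hτ : τ ∈ Tr a₀) {c : E} (hc : InIdeal {a₀} c)
    (hs : star c = c) : 0 ≤ (τ (c * c)).re ∧ (τ (c * c)).im = 0 := by
  have h := gb_pos_fun hτ hc hs 1
  rwa [star_one, mul_one, mul_one] at h

/-- `w ↦ τ (c w c) / τ (c c)` is a state -/
theorem gb_isSt {τ : E →ₗ[ℂ] ℂ} (hτ : τ ∈ Tr a₀) {c : E} (hc : InIdeal {a₀} c)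
    (hs : star c = c) (hpos : 0 < (τ (c * c)).re) {s : E →ₗ[ℂ] ℂ}
    (h : ∀ w, s w = τ (c * c * w) / τ (c * c)) : IsSt s := by
  have hcc := GBD_cc hτ hc hs
  have h0 : τ (c * c) = (((τ (c * c)).re : ℝ) : ℂ) := by
    apply Complex.ext
    · rw [Complex.ofReal_re]
    · rw [Complex.ofReal_im, hcc.2]
  have hne : τ (c * c) ≠ 0 := by
    intro h1
    rw [h1, Complex.zero_re] at hpos
    exact lt_irrefl _ hpos
  have key : ∀ x, s (star x * x) = τ (c * (star x * x) * c) / (((τ (c * c)).re : ℝ) : ℂ) := by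
    intro x
    rw [h, gb_tr_root hτ hc, ← h0]
  refine ⟨fun x => ?_, fun x => ?_, ?_⟩
  · rw [key, Complex.div_ofReal_re]
    exact div_nonneg (gb_pos_fun hτ hc hs x).1 hpos.le
  · rw [key, Complex.div_ofReal_im, (gb_pos_fun hτ hc hs x).2, zero_div]
  · rw [h, mul_one, div_self hne]

/-- sums over a decomposition -/
private theorem GBD_sum {τ : E →ₗ[ℂ] ℂ} (hτ : τ ∈ Tr a₀) {c : E} (hc : InIdeal {a₀} c)
    (hs : star c = c) {m : ℕ} (x y : Fin m → E) (w : E) :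
    ‖τ ((∑ i, x i * (c * c) * y i) * w)‖ ≤
      (τ (c * c)).re * ((∑ i, ‖x i‖ * ‖y i‖) * ‖w‖) := by
  have h0 := (GBD_cc hτ hc hs).1
  have hi : ∀ i, τ (x i * (c * c) * y i * w) = τ (c * (y i * w * x i) * c) := by
    intro i
    have h1 : InIdeal {a₀} (c * c * (y i * w)) := (hc.mul_left c).mul_right _
    have h2 := hτ.1 _ h1 (x i)
    have e1 : x i * (c * c) * y i * w = x i * (c * c * (y i * w)) := by
      simp only [mul_assoc]
    have e2 : c * c * (y i * w) * x i = c * c * (y i * w * x i) := by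
      simp only [mul_assoc]
    rw [e1, ← h2, e2, gb_tr_root hτ hc]
  rw [Finset.sum_mul, map_sum]
  calc ‖∑ i, τ (x i * (c * c) * y i * w)‖ ≤ ∑ i, ‖τ (x i * (c * c) * y i * w)‖ :=
        norm_sum_le _ _
    _ ≤ ∑ i, (τ (c * c)).re * (‖x i‖ * ‖y i‖ * ‖w‖) := by
        refine Finset.sum_le_sum fun i _ => ?_
        rw [hi]
        refine (gb_pos_bound hτ hc hs _).trans (mul_le_mul_of_nonneg_left ?_ h0)
        calc ‖y i * w * x i‖ ≤ ‖y i * w‖ * ‖x i‖ := norm_mul_le _ _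
          _ ≤ ‖y i‖ * ‖w‖ * ‖x i‖ :=
            mul_le_mul_of_nonneg_right (norm_mul_le _ _) (norm_nonneg _)
          _ = ‖x i‖ * ‖y i‖ * ‖w‖ := by ring
    _ = (τ (c * c)).re * ((∑ i, ‖x i‖ * ‖y i‖) * ‖w‖) := by
        rw [Finset.sum_mul, Finset.mul_sum]

/-- GB.2 -/
theorem gb_bound (hI : GoodIdeal I) (hT : TrBase I a₀ a₁) {p : E} (hp : InIdeal {a₀} p) :
    ∃ C : ℝ, 0 ≤ C ∧ ∀ τ ∈ Tr a₀, ∀ w : E, ‖τ (p * w)‖ ≤ C * ‖w‖ := by
  obtain ⟨c, hs, -, hcc, hc, -, -⟩ := gb_root hI hT hT.pos0 hT.mem1 hT.pos1 hT.mul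
  obtain ⟨m, x, z, y, hz, rfl⟩ := hp
  have hz' : ∀ i, z i = c * c := fun i => by
    rw [hcc]
    exact hz i
  refine ⟨∑ i, ‖x i‖ * ‖y i‖,
    Finset.sum_nonneg fun i _ => mul_nonneg (norm_nonneg _) (norm_nonneg _), fun τ hτ w => ?_⟩
  have h := GBD_sum hτ hc hs x y w
  simp only [hz']
  refine h.trans (le_of_eq ?_)
  rw [hcc, hτ.2.2, Complex.one_re, one_mul]

/-- GB.3 -/
theorem gb_lower (hI : GoodIdeal I) (hT : TrBase I a₀ a₁) {σ : E ≃⋆ₐ[ℂ] E}
    (hσ : ∀ a ∈ I, σ a ∈ I) :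
    ∃ c : ℝ, 0 < c ∧ ∀ τ ∈ Tr a₀, c ≤ (τ (σ a₀)).re ∧ (τ (σ a₀)).im = 0 := by
  have hT' := gb_trBase_aut hI hT hσ
  obtain ⟨c, hs, -, hcc, hc, -, -⟩ := gb_root hI hT hT'.pos0 hT'.mem1 hT'.pos1 hT'.mul
  obtain ⟨m, x, z, y, hz, he⟩ := gb_mem hI hT' hT.mem1 hT.pos1 hT.mul
  have hz' : ∀ i, z i = c * c := fun i => by
    rw [hcc]
    exact hz i
  have hM : 0 ≤ ∑ i, ‖x i‖ * ‖y i‖ :=
    Finset.sum_nonneg fun i _ => mul_nonneg (norm_nonneg _) (norm_nonneg _)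
  refine ⟨1 / ((∑ i, ‖x i‖ * ‖y i‖) * ‖(1 : E)‖ + 1), by positivity, fun τ hτ => ?_⟩
  have h0 := GBD_cc hτ hc hs
  have h := GBD_sum hτ hc hs x y 1
  have he' : a₀ = (∑ i, x i * (c * c) * y i) * 1 := by
    rw [mul_one]
    simp only [hz'] at he
    exact he
  rw [← he', hτ.2.2, norm_one] at h
  rw [hcc] at h h0
  refine ⟨?_, h0.2⟩
  rw [div_le_iff₀ (by positivity)]
  nlinarith [h0.1]

/-- the composition as a linear functional -/
private noncomputable def GBD_aut (τ : E →ₗ[ℂ] ℂ) (σ : E ≃⋆ₐ[ℂ] E) (r : ℂ) : E →ₗ[ℂ] ℂ where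
  toFun w := τ (σ w) / r
  map_add' x y := by rw [map_add, map_add, add_div]
  map_smul' t x := by
    rw [map_smul, map_smul, smul_eq_mul, RingHom.id_apply, smul_eq_mul, mul_div_assoc]

/-- GB.3: invariance -/
theorem gb_tr_aut (hI : GoodIdeal I) (hT : TrBase I a₀ a₁) {σ : E ≃⋆ₐ[ℂ] E}
    (hσ : ∀ a ∈ I, σ a ∈ I) {τ : E →ₗ[ℂ] ℂ} (hτ : τ ∈ Tr a₀) :
    ∃ τ' ∈ Tr a₀, ∀ x, τ' x = τ (σ x) / τ (σ a₀) := by
  obtain ⟨c, hc, hlow⟩ := gb_lower hI hT hσ
  obtain ⟨h1, h2⟩ := hlow τ hτ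
  have h0 : τ (σ a₀) = (((τ (σ a₀)).re : ℝ) : ℂ) := by
    apply Complex.ext
    · rw [Complex.ofReal_re]
    · rw [Complex.ofReal_im, h2]
  have hpos : 0 < (τ (σ a₀)).re := hc.trans_le h1
  have hne : τ (σ a₀) ≠ 0 := by
    intro h3
    rw [h3, Complex.zero_re] at hpos
    exact lt_irrefl _ hpos
  refine ⟨GBD_aut τ σ (τ (σ a₀)), ⟨fun p hp x => ?_, fun p hp hp' => ?_, ?_⟩, fun x => rfl⟩
  · change τ (σ (p * x)) / τ (σ a₀) = τ (σ (x * p)) / τ (σ a₀)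
    rw [map_mul σ p x, map_mul σ x p, hτ.1 _ (gb_aut_mem hI hT hσ hp)]
  · obtain ⟨d, hd⟩ := hp'
    have h4 := hτ.2.1 _ (gb_aut_mem hI hT hσ hp) ⟨σ d, by rw [hd, map_mul, map_star]⟩
    change 0 ≤ (τ (σ p) / τ (σ a₀)).re ∧ (τ (σ p) / τ (σ a₀)).im = 0
    rw [h0, Complex.div_ofReal_re, Complex.div_ofReal_im, h4.2, zero_div]
    exact ⟨div_nonneg h4.1 hpos.le, rfl⟩
  · change τ (σ a₀) / τ (σ a₀) = 1
    exact div_self hne

end P095G
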