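import Vale.Agent.Lib.P095G.GBD

/-!
# P095G, GBE: the family `stFam` (GB.4)

(ST) `stFam_isSt`: `gb_isSt` with `c` the square root of `α g a₀` (`gb_root` for the pair `(α g a₀, α g a₁)`,
`gb_trBase_aut`), positivity of `τ (α g a₀)` from `gb_lower`.

(TR) `stFam_tr`: `b = α g a₀ = c c`, `c ∈ P`.  `τ (c c x y) = τ (c x c y) + τ (c [c,x] y)`,
`τ (c x c y) = τ ((c x)(c y)) = τ ((c y)(c x)) = τ (c y c x) = τ (c c y x) - τ (c [c,y] x)`; the errors are at most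
`C_c ‖[c,x_n]‖ ‖y_n‖`, `C_c ‖[c,y_n]‖ ‖x_n‖` (`gb_bound` for `p = c`) and tend to zero
(`P101.eventually_comm_lt`), divided by `τ b ≥ c_g` (`gb_lower`).

(INV) `stFam_inv`: `s (α h x) = τ (α g a₀ * α h x) / τ (α g a₀) = τ (α h (α (h⁻¹ g) a₀ * x)) / τ (α h (α (h⁻¹ g) a₀))`, and
`τ' = τ ∘ α h / τ (α h a₀)` is in `Tr a₀` (`gb_tr_aut`).
-/

open scoped ENNReal Topology
open Filter P101 P095E P095F

namespace P095G

universe u v

variable {E : Type u} [CStarAlgebra E] {I : Ideal E} {a₀ a₁ : E} {G : Type v} [Group G]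
  {α : G →* (E ≃⋆ₐ[ℂ] E)}

/-- square root and lower bound for `α g a₀` -/
theorem GBE_root (hI : GoodIdeal I) (hT : TrBase I a₀ a₁) (hα : ∀ g, ∀ a ∈ I, α g a ∈ I)
    (g : G) : ∃ (c : E) (κ : ℝ), star c = c ∧ PosC c ∧ c * c = α g a₀ ∧ InIdeal {a₀} c ∧ 0 < κ ∧
      ∀ τ ∈ Tr a₀, κ ≤ (τ (α g a₀)).re ∧ (τ (α g a₀)).im = 0 := by
  have hb : TrBase I (α g a₀) (α g a₁) := gb_trBase_aut hI hT (hα g)
  obtain ⟨c, h1, h2, h3, h4, -, -⟩ := gb_root hI hT hb.pos0 hb.mem1 hb.pos1 hb.mul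
  obtain ⟨κ, hκ, hκ'⟩ := gb_lower hI hT (hα g)
  exact ⟨c, κ, h1, h2, h3, h4, hκ, hκ'⟩

/-- every member of the family is a state -/
theorem stFam_isSt (hI : GoodIdeal I) (hT : TrBase I a₀ a₁) (hα : ∀ g, ∀ a ∈ I, α g a ∈ I)
    {g : G} {s : E →ₗ[ℂ] ℂ} (hs : s ∈ stFam α a₀ g) : IsSt s := by
  obtain ⟨c, κ, h1, h2, h3, h4, hκ, hκ'⟩ := GBE_root hI hT hα g
  obtain ⟨τ, hτ, hsτ⟩ := hs
  refine gb_isSt hτ h4 h1 ?_ (fun w => ?_)
  · rw [h3]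
    exact hκ.trans_le (hκ' τ hτ).1
  · rw [h3]
    exact hsτ w

/-- for `c c = α g a₀`: a uniform bound for the state by the traces -/
theorem stFam_le (hI : GoodIdeal I) (hT : TrBase I a₀ a₁) (hα : ∀ g, ∀ a ∈ I, α g a ∈ I)
    (g : G) : ∃ (c : E) (C : ℝ), star c = c ∧ PosC c ∧ c * c = α g a₀ ∧ InIdeal {a₀} c ∧ 0 ≤ C ∧
      ∀ s ∈ stFam α a₀ g, ∀ w : E, ‖s w‖ ≤ C * ‖c * w‖ ∧ ‖s w‖ ≤ C * ‖w * c‖ := by
  obtain ⟨c, κ, h1, h2, h3, h4, hκ, hκ'⟩ := GBE_root hI hT hα g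
  obtain ⟨C, hC, hCb⟩ := gb_bound hI hT h4
  refine ⟨c, C / κ, h1, h2, h3, h4, div_nonneg hC hκ.le, ?_⟩
  rintro s ⟨τ, hτ, hsτ⟩ w
  have hden : κ ≤ ‖τ (α g a₀)‖ := (hκ' τ hτ).1.trans (Complex.re_le_norm _)
  have key : ∀ N : ℝ, 0 ≤ N → ‖τ (α g a₀ * w)‖ ≤ C * N → ‖s w‖ ≤ C / κ * N := by
    intro N hN h
    rw [hsτ, norm_div]
    refine (div_le_div₀ (mul_nonneg hC hN) h hκ hden).trans (le_of_eq ?_)
    ring
  constructor
  · refine key _ (norm_nonneg _) ?_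
    rw [← h3, mul_assoc]
    exact hCb τ hτ _
  · refine key _ (norm_nonneg _) ?_
    rw [← h3, gb_tr_root hτ h4, mul_assoc]
    exact hCb τ hτ _

/-- tracial on central sequences -/
theorem stFam_tr (hI : GoodIdeal I) (hT : TrBase I a₀ a₁) (hα : ∀ g, ∀ a ∈ I, α g a ∈ I)
    (ω : Ultrafilter ℕ) [Nontrivial E] {x y : lp (fun _ : ℕ => E) ∞}
    (hx : toUltrapower ω E x ∈ centralSeq ω E) (hy : toUltrapower ω E y ∈ centralSeq ω E)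
    (g : G) {ε : ℝ} (hε : 0 < ε) :
    ∀ᶠ n in (ω : Filter ℕ), ∀ s ∈ stFam α a₀ g, ‖s (x n * y n - y n * x n)‖ ≤ ε := by
  obtain ⟨c, κ, h1, h2, h3, h4, hκ, hκ'⟩ := GBE_root hI hT hα g
  obtain ⟨C, hC, hCb⟩ := gb_bound hI hT h4
  have hD : 0 < C * (‖x‖ + ‖y‖) + 1 := by positivity
  have hδ : 0 < ε * κ / (C * (‖x‖ + ‖y‖) + 1) := by positivity
  obtain ⟨δ, hδe⟩ : ∃ δ, δ = ε * κ / (C * (‖x‖ + ‖y‖) + 1) := ⟨_, rfl⟩
  rw [← hδe] at hδ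
  filter_upwards [P101.eventually_comm_lt ω E hx c hδ, P101.eventually_comm_lt ω E hy c hδ] with n hxn hyn
  rintro s ⟨τ, hτ, hsτ⟩
  have hden : κ ≤ ‖τ (α g a₀)‖ := (hκ' τ hτ).1.trans (Complex.re_le_norm _)
  have hden0 : 0 < ‖τ (α g a₀)‖ := hκ.trans_le hden
  have hnx : ‖x n‖ ≤ ‖x‖ := lp.norm_apply_le_norm ENNReal.top_ne_zero x n
  have hny : ‖y n‖ ≤ ‖y‖ := lp.norm_apply_le_norm ENNReal.top_ne_zero y n
  obtain ⟨a, ha⟩ : ∃ a, a = x n := ⟨_, rfl⟩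
  obtain ⟨b, hb⟩ : ∃ b, b = y n := ⟨_, rfl⟩
  rw [← ha] at hnx hxn
  rw [← hb] at hny hyn
  rw [← ha, ← hb]
  have hp : InIdeal {a₀} (c * a) := h4.mul_right a
  have htr : τ ((c * a) * (c * b)) = τ ((c * b) * (c * a)) := hτ.1 _ hp _
  have e1 : c * c * (a * b - b * a) = ((c * a) * (c * b) - (c * b) * (c * a)) +
      (c * ((c * a - a * c) * b) - c * ((c * b - b * c) * a)) := by noncomm_ring
  have e2 : τ (c * c * (a * b - b * a)) =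
      τ (c * ((c * a - a * c) * b)) - τ (c * ((c * b - b * c) * a)) := by
    rw [e1, map_add, map_sub, map_sub, htr, sub_self, zero_add]
  have n1 : ‖τ (c * ((c * a - a * c) * b))‖ ≤ C * (δ * ‖y‖) := by
    refine (hCb τ hτ _).trans (mul_le_mul_of_nonneg_left ?_ hC)
    refine (norm_mul_le _ _).trans ?_
    rw [norm_sub_rev] at hxn
    exact mul_le_mul hxn.le hny (norm_nonneg _) hδ.le
  have n2 : ‖τ (c * ((c * b - b * c) * a))‖ ≤ C * (δ * ‖x‖) := by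
    refine (hCb τ hτ _).trans (mul_le_mul_of_nonneg_left ?_ hC)
    refine (norm_mul_le _ _).trans ?_
    rw [norm_sub_rev] at hyn
    exact mul_le_mul hyn.le hnx (norm_nonneg _) hδ.le
  have n3 : ‖τ (c * c * (a * b - b * a))‖ ≤ ε * κ := by
    rw [e2]
    refine (norm_sub_le _ _).trans ((add_le_add n1 n2).trans ?_)
    have e3 : δ * (C * (‖x‖ + ‖y‖) + 1) = ε * κ := by
      rw [hδe]
      field_simp
    have e4 : C * (δ * ‖y‖) + C * (δ * ‖x‖) = δ * (C * (‖x‖ + ‖y‖) + 1) - δ := by ring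
    rw [e4, e3]
    linarith
  rw [hsτ, ← h3, norm_div, h3, div_le_iff₀ hden0, ← h3]
  refine n3.trans ?_
  rw [h3]
  exact mul_le_mul_of_nonneg_left hden hε.le

/-- invariance of the family -/
theorem stFam_inv (hI : GoodIdeal I) (hT : TrBase I a₀ a₁) (hα : ∀ g, ∀ a ∈ I, α g a ∈ I)
    (g h : G) {s : E →ₗ[ℂ] ℂ} (hs : s ∈ stFam α a₀ g) :
    ∃ s' ∈ stFam α a₀ (h⁻¹ * g), ∀ x, s' x = s (α h x) := by
  obtain ⟨τ, hτ, hsτ⟩ := hs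
  obtain ⟨τ', hτ', hττ⟩ := gb_tr_aut hI hT (hα h) hτ
  obtain ⟨κ, hκ, hκ'⟩ := gb_lower hI hT (hα h)
  have hne : τ (α h a₀) ≠ 0 := by
    intro h0
    have h1 := (hκ' τ hτ).1
    rw [h0, Complex.zero_re] at h1
    exact absurd h1 (not_le.2 hκ)
  let s' : E →ₗ[ℂ] ℂ :=
    { toFun := fun x => s (α h x)
      map_add' := fun x y => by rw [map_add, map_add]
      map_smul' := fun r x => by rw [map_smul, map_smul]; rfl }
  have hgh : ∀ z : E, α h (α (h⁻¹ * g) z) = α g z := by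
    intro z
    have h1 : α g = α h * α (h⁻¹ * g) := by rw [← map_mul, mul_inv_cancel_left]
    rw [h1]
    rfl
  refine ⟨s', ⟨τ', hτ', fun x => ?_⟩, fun x => rfl⟩
  show s (α h x) = _
  rw [hsτ, hττ, hττ, map_mul (α h) (α (h⁻¹ * g) a₀) x, hgh, div_div_div_cancel_right₀ hne]

end P095G
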