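import Vale.Agent.Lib.P095G.GBC
import Vale.Agent.Lib.P095F.V1B

/-!
# P095G, GBG: fullness

`gb_dom`: `k ∈ P` positive, `k = ∑ x_i (f) y_i` (finite sum, `f = y* y`-type positive element): replace by
`k = (k + k*)/2 = ½ ∑ (x_i f y_i + y_i* f x_i*) ≤ ½ ∑ (x_i f x_i* + y_i* f y_i)`
(`(x_i - y_i*) f (x_i - y_i*)* ≥ 0`).

`gb_full`: `f = x* x ≠ 0` in `I`.  By simplicity `‖k - ∑ a_i f b_i‖ < κ` for some finite family, so
`k ≤ m + κ`, `m = ½ ∑ (a_i f a_i* + b_i* f b_i)`: self-adjoint part of the approximation and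
`(a_i - b_i*) f (a_i - b_i*)* ≥ 0`.  `gb_rs` for `q = m + κ` and `κ₁`: `r, s`.  `h = √k` (`cfc`), `z = (1/√2) h r a_i` and
`(1/√2) h r b_i*`: `∑ z f z* = h r m r h = h r q r h - κ h r r h`; `h r q r h = k - h s s h`,
`‖h s s h‖ = ‖s k s‖ ≤ ‖s q s‖ ≤ κ₁` (`0 ≤ k ≤ q`); `‖κ h r r h‖ ≤ κ/κ₁`.  Take `κ₁ = ε/2`, `κ = κ₁ ε/2`.
Use `CStarAlgebra.spectralOrder` for the order in the proof.

`gb_rs`: as `V1_rs` (proved in P095F/V1B.lean, copy), `‖r r‖ = sup (t+κ)⁻¹ ≤ κ⁻¹`.

`gb_full_unit`: `u` from `gb_approx_unit`, `a₀ = star c * c` (`gb_root`), `gb_full` for `k = u`, `x = c`.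
-/

open scoped ENNReal Topology
open Filter P101 P095E P095F

namespace P095G

universe u

variable {E : Type u} [CStarAlgebra E] {I : Ideal E} {a₀ a₁ : E}

/-- functional calculus: version of `V1_rs` with a bound for `r` -/
theorem gb_rs [PartialOrder E] [StarOrderedRing E] {q : E} (hq : 0 ≤ q) {κ : ℝ} (hκ : 0 < κ) :
    ∃ r s : E, star r = r ∧ star s = s ∧ r * q * r ≤ 1 ∧ 1 - r * q * r = s * s ∧
      s * q * s ≤ algebraMap ℝ E κ ∧ ‖r * r‖ ≤ κ⁻¹ := by
  have hsp : ∀ t ∈ spectrum ℝ q, 0 ≤ t := fun t ht => spectrum_nonneg_of_nonneg hq ht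
  have hsa : IsSelfAdjoint q := IsSelfAdjoint.of_nonneg hq
  have hpos : ∀ t ∈ spectrum ℝ q, 0 < t + κ := fun t ht => by
    have := hsp t ht
    linarith
  obtain ⟨f, hf⟩ : ∃ f : ℝ → ℝ, f = fun t => (Real.sqrt (t + κ))⁻¹ := ⟨_, rfl⟩
  obtain ⟨g, hg⟩ : ∃ g : ℝ → ℝ, g = fun t => Real.sqrt (κ / (t + κ)) := ⟨_, rfl⟩
  have cf : ContinuousOn f (spectrum ℝ q) := by
    rw [hf]
    refine ContinuousOn.inv₀ (Real.continuous_sqrt.comp_continuousOn
      (continuousOn_id.add continuousOn_const)) fun t ht => ?_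
    exact (Real.sqrt_pos.2 (hpos t ht)).ne'
  have cg : ContinuousOn g (spectrum ℝ q) := by
    rw [hg]
    refine Real.continuous_sqrt.comp_continuousOn (ContinuousOn.div continuousOn_const
      (continuousOn_id.add continuousOn_const) fun t ht => ?_)
    exact (hpos t ht).ne'
  have cid : ContinuousOn (fun t : ℝ => t) (spectrum ℝ q) := continuousOn_id
  have hid : cfc (fun t : ℝ => t) q = q := cfc_id' ℝ q
  have key : ∀ h : ℝ → ℝ, ContinuousOn h (spectrum ℝ q) →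
      cfc h q * q * cfc h q = cfc (fun t => h t * t * h t) q := by
    intro h ch
    rw [cfc_mul (fun t => h t * t) h q (ch.mul cid) ch, cfc_mul h (fun t => t) q ch cid, hid]
  have ff : ∀ t ∈ spectrum ℝ q, f t * t * f t = t / (t + κ) := by
    intro t ht
    have h1 : Real.sqrt (t + κ) * Real.sqrt (t + κ) = t + κ := Real.mul_self_sqrt (hpos t ht).le
    have h2 : Real.sqrt (t + κ) ≠ 0 := (Real.sqrt_pos.2 (hpos t ht)).ne'
    rw [hf]
    beta_reduce
    generalize Real.sqrt (t + κ) = S at h1 h2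
    rw [← h1]
    field_simp
  have gg : ∀ t ∈ spectrum ℝ q, g t * g t = κ / (t + κ) := by
    intro t ht
    rw [hg]
    exact Real.mul_self_sqrt (div_nonneg hκ.le (hpos t ht).le)
  refine ⟨cfc f q, cfc g q, (cfc_predicate f q).star_eq, (cfc_predicate g q).star_eq, ?_, ?_, ?_,
    ?_⟩
  · rw [key f cf]
    refine cfc_le_one _ _ fun t ht => ?_
    rw [ff t ht, div_le_one (hpos t ht)]
    linarith
  · rw [key f cf, ← cfc_mul g g q cg cg]
    have h1 : (1 : E) = cfc (fun _ : ℝ => (1 : ℝ)) q := by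
      rw [cfc_const_one ℝ q]
    rw [h1, ← cfc_sub (fun _ => (1 : ℝ)) (fun t => f t * t * f t) q continuousOn_const
      ((cf.mul cid).mul cf)]
    refine cfc_congr fun t ht => ?_
    rw [ff t ht, gg t ht, eq_div_iff (hpos t ht).ne', sub_mul, div_mul_cancel₀ _ (hpos t ht).ne']
    ring
  · rw [key g cg]
    refine cfc_le_algebraMap _ _ _ fun t ht => ?_
    have h2 : g t * t * g t = κ * (t / (t + κ)) := by
      rw [mul_right_comm, gg t ht]
      ring
    rw [h2]
    have h3 : t / (t + κ) ≤ 1 := by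
      rw [div_le_one (hpos t ht)]
      linarith
    calc κ * (t / (t + κ)) ≤ κ * 1 := mul_le_mul_of_nonneg_left h3 hκ.le
      _ = κ := mul_one κ
  · rw [← cfc_mul f f q cf cf]
    refine norm_cfc_le (inv_nonneg.2 hκ.le) fun t ht => ?_
    have h1 : Real.sqrt (t + κ) * Real.sqrt (t + κ) = t + κ := Real.mul_self_sqrt (hpos t ht).le
    have h2 : f t * f t = (t + κ)⁻¹ := by
      rw [hf]
      beta_reduce
      rw [← mul_inv, h1]
    rw [h2, Real.norm_of_nonneg (inv_nonneg.2 (hpos t ht).le)]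
    exact inv_anti₀ hκ (by linarith [hsp t ht])

private theorem GBG_half [PartialOrder E] [StarOrderedRing E] {y : E} (hy : 0 ≤ (2 : ℝ) • y) :
    0 ≤ y := by
  have h1 : y = (1 / 2 : ℝ) • ((2 : ℝ) • y) := by
    rw [smul_smul]
    norm_num
  rw [h1]
  exact smul_nonneg (by norm_num) hy

private theorem GBG_dom [PartialOrder E] [StarOrderedRing E] {n : ℕ} (a b : Fin n → E)
    (x k : E) (hk : star k = k) {κ : ℝ}
    (h : ‖k - ∑ i, a i * (star x * x) * b i‖ ≤ κ) :
    k ≤ (1 / 2 : ℝ) • (∑ i, (a i * (star x * x) * star (a i) +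
      star (b i) * (star x * x) * b i)) + algebraMap ℝ E κ := by
  set p : E := ∑ i, a i * (star x * x) * b i with hp
  set M : E := ∑ i, (a i * (star x * x) * star (a i) + star (b i) * (star x * x) * b i) with hM
  have h1 : p + star p ≤ M := by
    rw [hp, hM, star_sum, ← Finset.sum_add_distrib]
    refine Finset.sum_le_sum fun i _ => ?_
    rw [← sub_nonneg]
    have h2 : a i * (star x * x) * star (a i) + star (b i) * (star x * x) * b i -
        (a i * (star x * x) * b i + star (a i * (star x * x) * b i)) =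
        star (x * (star (a i) - b i)) * (x * (star (a i) - b i)) := by
      simp only [star_mul, star_sub, star_star]
      noncomm_ring
    rw [h2]
    exact star_mul_self_nonneg _
  have h3 : (k - p) + star (k - p) ≤ algebraMap ℝ E (2 * κ) := by
    have hsa : IsSelfAdjoint ((k - p) + star (k - p)) := IsSelfAdjoint.add_star_self _
    refine hsa.le_algebraMap_norm_self.trans ?_
    have h4 : ‖(k - p) + star (k - p)‖ ≤ 2 * κ := by
      refine (norm_add_le _ _).trans ?_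
      rw [norm_star]
      linarith
    exact algebraMap_mono E h4
  rw [← sub_nonneg]
  apply GBG_half
  have h5 : (2 : ℝ) • ((1 / 2 : ℝ) • M + algebraMap ℝ E κ - k) =
      (M - (p + star p)) + (algebraMap ℝ E (2 * κ) - ((k - p) + star (k - p))) := by
    rw [smul_sub, smul_add, smul_smul, Algebra.algebraMap_eq_smul_one,
      Algebra.algebraMap_eq_smul_one, smul_smul, star_sub, hk, two_smul ℝ k]
    norm_num
    abel
  rw [h5]
  exact add_nonneg (sub_nonneg.2 h1) (sub_nonneg.2 h3)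

private theorem GBG_conj (f X : E) :
    (((Real.sqrt (1 / 2) : ℝ) : ℂ) • X) * f * star (((Real.sqrt (1 / 2) : ℝ) : ℂ) • X) =
      (1 / 2 : ℝ) • (X * f * star X) := by
  rw [star_smul, smul_mul_assoc, mul_smul_comm, smul_mul_assoc, smul_smul, RCLike.star_def,
    Complex.conj_ofReal, ← Complex.ofReal_mul, Real.mul_self_sqrt (by norm_num)]
  exact Complex.coe_smul _ _

private theorem GBG_full [PartialOrder E] [StarOrderedRing E] (hI : GoodIdeal I) {x : E}
    (hx : x ∈ I) (hx0 : x ≠ 0) {k : E} (hk : k ∈ I)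
    (hp : PosC k) {ε : ℝ} (hε : 0 < ε) :
    ∃ (n : ℕ) (z : Fin n → E), ‖k - ∑ i, z i * (star x * x) * star (z i)‖ ≤ ε := by
  have hksa : star k = k := hp.isSelfAdjoint.star_eq
  have hk0 : 0 ≤ k := by
    obtain ⟨⟨c, rfl⟩, -⟩ := hp
    exact star_mul_self_nonneg c
  have hfI : star x * x ∈ I := I.mul_mem_left _ hx
  have hf0 : star x * x ≠ 0 := fun h => hx0 (CStarRing.star_mul_self_eq_zero_iff x |>.1 h)
  obtain ⟨n, a, b, hab⟩ := hI.simple _ hfI hf0 k hk (ε / 2 * (ε / 2)) (by positivity)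
  have hdom := GBG_dom a b x k hksa hab.le
  obtain ⟨m, hm⟩ : ∃ m : E, m = (1 / 2 : ℝ) • (∑ i, (a i * (star x * x) * star (a i) +
      star (b i) * (star x * x) * b i)) := ⟨_, rfl⟩
  rw [← hm] at hdom
  obtain ⟨r, s, hr, hs, -, hrs, hsq, hrr⟩ := gb_rs (hk0.trans hdom) (half_pos hε)
  have hh2 : CFC.sqrt k * CFC.sqrt k = k := CFC.sqrt_mul_sqrt_self k hk0
  have hhs : star (CFC.sqrt k) = CFC.sqrt k :=
    (IsSelfAdjoint.of_nonneg (CFC.sqrt_nonneg k)).star_eq
  obtain ⟨h, hdef⟩ : ∃ h : E, h = CFC.sqrt k := ⟨_, rfl⟩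
  rw [← hdef] at hh2 hhs
  have hnh : ‖h‖ * ‖h‖ ≤ 1 := by
    rw [← CStarRing.norm_star_mul_self, hhs, hh2]
    exact hp.2
  refine ⟨n + n, Fin.append (fun i => ((Real.sqrt (1 / 2) : ℝ) : ℂ) • (h * r * a i))
    (fun i => ((Real.sqrt (1 / 2) : ℝ) : ℂ) • (h * r * star (b i))), ?_⟩
  have hsum : ∑ i, (Fin.append (fun i => ((Real.sqrt (1 / 2) : ℝ) : ℂ) • (h * r * a i))
      (fun i => ((Real.sqrt (1 / 2) : ℝ) : ℂ) • (h * r * star (b i)))) i * (star x * x) *
      star ((Fin.append (fun i => ((Real.sqrt (1 / 2) : ℝ) : ℂ) • (h * r * a i))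
      (fun i => ((Real.sqrt (1 / 2) : ℝ) : ℂ) • (h * r * star (b i)))) i) = h * r * m * r * h := by
    rw [Fin.sum_univ_add]
    simp only [Fin.append_left, Fin.append_right]
    simp only [GBG_conj]
    rw [hm, ← Finset.sum_add_distrib, mul_smul_comm, smul_mul_assoc, smul_mul_assoc,
      Finset.mul_sum, Finset.sum_mul, Finset.sum_mul, Finset.smul_sum]
    refine Finset.sum_congr rfl fun i _ => ?_
    rw [← smul_add]
    congr 1
    simp only [star_mul, star_star, hhs, hr]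
    noncomm_ring
  rw [hsum]
  have hkey : k - h * r * m * r * h = h * s * s * h + (ε / 2 * (ε / 2) : ℝ) • (h * (r * r) * h) := by
    have h1 : h * (1 - r * (m + algebraMap ℝ E (ε / 2 * (ε / 2))) * r) * h =
        h * (s * s) * h := by rw [hrs]
    rw [Algebra.algebraMap_eq_smul_one] at h1
    have h2 : h * (1 - r * (m + (ε / 2 * (ε / 2) : ℝ) • (1 : E)) * r) * h =
        h * h - h * r * m * r * h - (ε / 2 * (ε / 2) : ℝ) • (h * (r * r) * h) := by
      simp only [mul_add, add_mul, mul_sub, sub_mul, mul_one, mul_smul_comm, smul_mul_assoc,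
        mul_assoc]
      abel
    rw [h2, hh2] at h1
    have h3 : h * (s * s) * h = h * s * s * h := by simp only [mul_assoc]
    rw [← h3, ← h1]
    abel
  rw [hkey]
  have hn1 : ‖h * s * s * h‖ ≤ ε / 2 := by
    have h1 : ‖h * s * s * h‖ = ‖s * k * s‖ := by
      have e1 : h * s * s * h = star (s * h) * (s * h) := by
        rw [star_mul, hs, hhs]
        simp only [mul_assoc]
      have e2 : s * k * s = (s * h) * star (s * h) := by
        rw [star_mul, hs, hhs, ← hh2]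
        simp only [mul_assoc]
      rw [e1, e2, CStarRing.norm_star_mul_self, CStarRing.norm_self_mul_star]
    rw [h1]
    have h2 : 0 ≤ s * k * s := by
      have := star_left_conjugate_nonneg hk0 s
      rwa [hs] at this
    have h3 : s * k * s ≤ algebraMap ℝ E (ε / 2) := by
      have := star_left_conjugate_le_conjugate hdom s
      rw [hs] at this
      exact this.trans hsq
    exact (CStarAlgebra.norm_le_iff_le_algebraMap _ (half_pos hε).le h2).2 h3
  have hn2 : ‖(ε / 2 * (ε / 2) : ℝ) • (h * (r * r) * h)‖ ≤ ε / 2 := by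
    rw [norm_smul, Real.norm_of_nonneg (by positivity)]
    have h1 : ‖h * (r * r) * h‖ ≤ (ε / 2)⁻¹ := by
      calc ‖h * (r * r) * h‖ ≤ ‖h‖ * ‖r * r‖ * ‖h‖ :=
            (norm_mul_le _ _).trans (mul_le_mul_of_nonneg_right (norm_mul_le _ _)
              (norm_nonneg _))
        _ = ‖r * r‖ * (‖h‖ * ‖h‖) := by ring
        _ ≤ (ε / 2)⁻¹ * 1 := mul_le_mul hrr hnh (by positivity) (by positivity)
        _ = (ε / 2)⁻¹ := mul_one _
    calc ε / 2 * (ε / 2) * ‖h * (r * r) * h‖ ≤ ε / 2 * (ε / 2) * (ε / 2)⁻¹ :=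
          mul_le_mul_of_nonneg_left h1 (by positivity)
      _ = ε / 2 := by field_simp
  calc ‖h * s * s * h + (ε / 2 * (ε / 2) : ℝ) • (h * (r * r) * h)‖
      ≤ ‖h * s * s * h‖ + ‖(ε / 2 * (ε / 2) : ℝ) • (h * (r * r) * h)‖ := norm_add_le _ _
    _ ≤ ε := by linarith

/-- `I` simple: every positive contraction `k ∈ I` is approximately `∑ z f z*`, `f = x* x ≠ 0` -/
theorem gb_full (hI : GoodIdeal I) {x : E} (hx : x ∈ I) (hx0 : x ≠ 0) {k : E} (hk : k ∈ I)
    (hp : PosC k) {ε : ℝ} (hε : 0 < ε) :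
    ∃ (n : ℕ) (z : Fin n → E), ‖k - ∑ i, z i * (star x * x) * star (z i)‖ ≤ ε := by
  let _ := CStarAlgebra.spectralOrder E
  let _ := CStarAlgebra.spectralOrderedRing E
  exact GBG_full hI hx hx0 hk hp hε

/-- for finitely many elements of `I` there is `w = ∑ z a₀ z*` with `w y ≈ y` -/
theorem gb_full_unit (hI : GoodIdeal I) (hT : TrBase I a₀ a₁) (Y : Finset E)
    (hY : ∀ y ∈ Y, y ∈ I) {ε : ℝ} (hε : 0 < ε) :
    ∃ (n : ℕ) (z : Fin n → E), ∀ y ∈ Y, ‖(∑ i, z i * a₀ * star (z i)) * y - y‖ ≤ ε := by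
  obtain ⟨u, -, hu, -, huP, -, -, -, huY⟩ := gb_approx_unit hI hT Y hY (half_pos hε)
  obtain ⟨c, hcs, -, hcc, hcP, -, -⟩ := gb_root hI hT hT.pos0 hT.mem1 hT.pos1 hT.mul
  have hcI : c ∈ I := gb_mem_of_inIdeal hI hT hcP
  have hc0 : c ≠ 0 := by
    intro h
    have h1 := hT.norm0
    rw [← hcc, h, mul_zero, norm_zero] at h1
    exact zero_ne_one h1
  have hM0 : 0 ≤ ∑ y ∈ Y, ‖y‖ := Finset.sum_nonneg fun y _ => norm_nonneg y
  obtain ⟨M, hM⟩ : ∃ M : ℝ, M = ∑ y ∈ Y, ‖y‖ := ⟨_, rfl⟩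
  rw [← hM] at hM0
  have hyM : ∀ y ∈ Y, ‖y‖ ≤ M := fun y hy => by
    rw [hM]
    exact Finset.single_le_sum (f := fun y => ‖y‖) (fun y _ => norm_nonneg y) hy
  obtain ⟨n, z, hz⟩ := gb_full hI hcI hc0 (gb_mem_of_inIdeal hI hT huP) hu
    (ε := ε / (2 * (M + 1))) (by positivity)
  refine ⟨n, z, fun y hy => ?_⟩
  rw [hcs, hcc] at hz
  obtain ⟨w, hw⟩ : ∃ w : E, w = ∑ i, z i * a₀ * star (z i) := ⟨_, rfl⟩
  rw [← hw] at hz ⊢
  have e : w * y - y = (u * y - y) - (u - w) * y := by noncomm_ring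
  rw [e]
  have h1 : ‖(u - w) * y‖ ≤ ε / 2 := by
    calc ‖(u - w) * y‖ ≤ ‖u - w‖ * ‖y‖ := norm_mul_le _ _
      _ ≤ ε / (2 * (M + 1)) * M := mul_le_mul hz (hyM y hy) (norm_nonneg _) (by positivity)
      _ ≤ ε / 2 := by
        rw [div_mul_eq_mul_div, div_le_div_iff₀ (by positivity) (by norm_num)]
        nlinarith
  calc ‖(u * y - y) - (u - w) * y‖ ≤ ‖u * y - y‖ + ‖(u - w) * y‖ := norm_sub_le _ _
    _ ≤ ε := by linarith [(huY y hy).1]

end P095G
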