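import Vale.Agent.Lib.P095G.GBG
import Vale.Agent.Lib.P095G.GBD

/-!
# P095G, GBH: extension of traces (GB.6)

Data: `c` self-adjoint in `P`, `c c = a₀`, `u' c = c = c u'`; `H₁` a star subalgebra of `E` with
`u' x u' ∈ H₁` for all `x`; `ρ : H₁ →ₗ[ℂ] ℂ` a tracial state.  To avoid coercions let
`R : E →ₗ[ℂ] ℂ` be a linear extension of `ρ`.  The elements `X = c y x c` satisfy `u' X u' = X` (so `tr` and `bd`
apply to them).  `RData` below records what is used.

`gb_wd`: `x_i, y_i` finite families with `∑ x_i a₀ y_i = 0`: for `w = ∑_l z_l a₀ z_l*` with `w x_i c ≈ x_i c`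
(`gb_full_unit`): `∑_i R (c y_i x_i c) ≈ ∑_i R (c y_i w x_i c) = ∑_i ∑_l R ((c y_i z_l c)(c z_l* x_i c)) =
∑_l ∑_i R ((c z_l* x_i c)(c y_i z_l c)) = ∑_l R (c z_l* (∑_i x_i a₀ y_i) z_l c) = 0`; the error is at most
`∑_i ‖c y_i‖ ‖w x_i c - x_i c‖`.

`gb_ext`: the linear maps `f, g` on `E ⊗[ℂ] E`, `f (x ⊗ y) = x a₀ y`, `g (x ⊗ y) = R (c y x c)` satisfy
`ker f ≤ ker g` by `gb_wd` (every tensor is a finite sum), so there is `τ' : E →ₗ[ℂ] ℂ` with `τ' ∘ f = g`
(`LinearMap.exists_extend` and the quotient by `ker f`).  Trace property: both sides are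
`∑ R (c y_i x x_i c)`.  Positivity of `τ' (d* d)`, `d* d ∈ P`: by the computation in `gb_wd`,
`τ' (p) = lim ∑_l R (c z_l* p z_l c)` and each term is `≥ 0` for `p = d* d`.
-/

open scoped ENNReal Topology TensorProduct
open Filter P101 P095E P095F

namespace P095G

universe u

variable {E : Type u} [CStarAlgebra E] {I : Ideal E} {a₀ a₁ : E}

/-- what is used of a tracial state on `closure (u' E u') + ℂ 1` -/
structure RData (a₀ u' c : E) (R : E →ₗ[ℂ] ℂ) : Prop where
  star_c : star c = c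
  cc : c * c = a₀
  pc : InIdeal {a₀} c
  uc : u' * c = c
  cu : c * u' = c
  su : star u' = u'
  tr : ∀ x y : E, R (u' * x * u' * (u' * y * u')) = R (u' * y * u' * (u' * x * u'))
  pos : ∀ d : E, 0 ≤ (R (c * (star d * d) * c)).re ∧ (R (c * (star d * d) * c)).im = 0
  bd : ∀ x : E, ‖R (u' * x * u')‖ ≤ ‖u' * x * u'‖

variable {u' c : E} {R : E →ₗ[ℂ] ℂ}

/-- elements `c w c` -/
theorem GBH_cwc (hR : RData a₀ u' c R) (w : E) : u' * (c * w * c) * u' = c * w * c := by
  rw [mul_assoc u', mul_assoc (c * w), hR.cu, mul_assoc c, ← mul_assoc u', hR.uc]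

theorem GBH_tr (hR : RData a₀ u' c R) (v w : E) :
    R (c * v * c * (c * w * c)) = R (c * w * c * (c * v * c)) := by
  have h1 := hR.tr (c * v * c) (c * w * c)
  rwa [GBH_cwc hR, GBH_cwc hR] at h1

theorem GBH_bd (hR : RData a₀ u' c R) (w : E) : ‖R (c * w * c)‖ ≤ ‖c * w * c‖ := by
  have h1 := hR.bd (c * w * c)
  rwa [GBH_cwc hR] at h1

/-- the approximate formula: for a finite family there is `z` with
`∑ R (c y_i x_i c) ≈ ∑_l R (c z_l* (∑ x_i a₀ y_i) z_l c)` -/
theorem gb_formula (hI : GoodIdeal I) (hT : TrBase I a₀ a₁) (hR : RData a₀ u' c R) {m : ℕ}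
    (x y : Fin m → E) {ε : ℝ} (hε : 0 < ε) :
    ∃ (n : ℕ) (z : Fin n → E), ‖∑ i, R (c * (y i * x i) * c) -
      ∑ l, R (c * (star (z l) * (∑ i, x i * a₀ * y i) * z l) * c)‖ ≤ ε := by
  classical
  have hcI : c ∈ I := gb_mem_of_inIdeal hI hT hR.pc
  have _ := hI.two
  obtain ⟨K, hK0, hK⟩ : ∃ K : ℝ, 0 < K ∧ ∀ i, ‖c * y i‖ ≤ K := by
    refine ⟨∑ i, ‖c * y i‖ + 1, by positivity, fun i => ?_⟩
    have h1 := Finset.single_le_sum (f := fun i => ‖c * y i‖) (fun i _ => norm_nonneg _)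
      (Finset.mem_univ i)
    linarith
  have hδ : 0 < ε / (K * (m + 1)) := by positivity
  obtain ⟨n, z, hz⟩ := gb_full_unit hI hT (Finset.univ.image fun i => x i * c) (by
    intro v hv
    obtain ⟨i, -, rfl⟩ := Finset.mem_image.1 hv
    exact I.mul_mem_left _ hcI) hδ
  refine ⟨n, z, ?_⟩
  set w : E := ∑ l, z l * a₀ * star (z l) with hw
  -- the second sum
  have h2 : ∑ l, R (c * (star (z l) * (∑ i, x i * a₀ * y i) * z l) * c) =
      ∑ i, R (c * (y i * w * x i) * c) := by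
    have h3 : ∀ l, R (c * (star (z l) * (∑ i, x i * a₀ * y i) * z l) * c) =
        ∑ i, R (c * (y i * (z l * a₀ * star (z l)) * x i) * c) := by
      intro l
      rw [Finset.mul_sum, Finset.sum_mul, Finset.mul_sum, Finset.sum_mul, map_sum]
      refine Finset.sum_congr rfl fun i _ => ?_
      have e1 : c * (star (z l) * (x i * a₀ * y i) * z l) * c =
          c * (star (z l) * x i) * c * (c * (y i * z l) * c) := by
        rw [← hR.cc]
        simp only [mul_assoc]
      have e2 : c * (y i * (z l * a₀ * star (z l)) * x i) * c =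
          c * (y i * z l) * c * (c * (star (z l) * x i) * c) := by
        rw [← hR.cc]
        simp only [mul_assoc]
      rw [e1, e2]
      exact GBH_tr hR _ _
    rw [Finset.sum_congr rfl fun l _ => h3 l, Finset.sum_comm]
    refine Finset.sum_congr rfl fun i _ => ?_
    rw [← map_sum]
    congr 1
    rw [hw, Finset.mul_sum, Finset.sum_mul, Finset.mul_sum, Finset.sum_mul]
  rw [h2, ← Finset.sum_sub_distrib]
  refine (norm_sum_le _ _).trans ?_
  have h4 : ∀ i ∈ Finset.univ, ‖R (c * (y i * x i) * c) - R (c * (y i * w * x i) * c)‖ ≤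
      ε / (m + 1) := by
    intro i _
    have e1 : c * (y i * x i) * c - c * (y i * w * x i) * c = c * (y i * (x i - w * x i)) * c := by
      simp only [mul_sub, sub_mul, mul_assoc]
    rw [← map_sub, e1]
    refine (GBH_bd hR _).trans ?_
    have e2 : c * (y i * (x i - w * x i)) * c = -(c * y i * (w * (x i * c) - x i * c)) := by
      simp only [mul_sub, sub_mul, mul_assoc]
      abel
    rw [e2, norm_neg]
    refine (norm_mul_le _ _).trans ?_
    have h5 := hz _ (Finset.mem_image_of_mem (fun i => x i * c) (Finset.mem_univ i))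
    calc ‖c * y i‖ * ‖w * (x i * c) - x i * c‖ ≤ K * (ε / (K * (m + 1))) :=
          mul_le_mul (hK i) h5 (norm_nonneg _) hK0.le
      _ = ε / (m + 1) := by field_simp
  refine (Finset.sum_le_card_nsmul _ _ _ h4).trans ?_
  rw [Finset.card_univ, Fintype.card_fin, nsmul_eq_mul, mul_div_assoc', div_le_iff₀ (by positivity)]
  nlinarith

theorem gb_wd (hI : GoodIdeal I) (hT : TrBase I a₀ a₁) (hR : RData a₀ u' c R) {m : ℕ}
    (x y : Fin m → E) (h : ∑ i, x i * a₀ * y i = 0) : ∑ i, R (c * (y i * x i) * c) = 0 := by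
  have h1 : ‖∑ i, R (c * (y i * x i) * c)‖ ≤ 0 := le_of_forall_pos_le_add fun ε hε => by
    obtain ⟨n, z, hz⟩ := gb_formula hI hT hR x y hε
    rw [h] at hz
    simp only [mul_zero, zero_mul, map_zero, Finset.sum_const_zero, sub_zero] at hz
    rw [zero_add]
    exact hz
  exact norm_le_zero_iff.1 h1

/-- the extension -/
theorem gb_ext (hI : GoodIdeal I) (hT : TrBase I a₀ a₁) (hR : RData a₀ u' c R) :
    ∃ τ' : E →ₗ[ℂ] ℂ, ∀ x y : E, τ' (x * a₀ * y) = R (c * (y * x) * c) := by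
  let f : E ⊗[ℂ] E →ₗ[ℂ] E := TensorProduct.lift
    (LinearMap.mk₂ ℂ (fun x y => x * a₀ * y)
      (fun x x' y => by rw [add_mul, add_mul])
      (fun r x y => by rw [smul_mul_assoc, smul_mul_assoc])
      (fun x y y' => by rw [mul_add])
      (fun r x y => by rw [mul_smul_comm]))
  let g : E ⊗[ℂ] E →ₗ[ℂ] ℂ := TensorProduct.lift
    (LinearMap.mk₂ ℂ (fun x y => R (c * (y * x) * c))
      (fun x x' y => by rw [mul_add, mul_add, add_mul, map_add])
      (fun r x y => by rw [mul_smul_comm, mul_smul_comm, smul_mul_assoc, map_smul])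
      (fun x y y' => by rw [add_mul, mul_add, add_mul, map_add])
      (fun r x y => by rw [smul_mul_assoc, mul_smul_comm, smul_mul_assoc, map_smul]))
  have hker : LinearMap.ker f ≤ LinearMap.ker g := by
    intro t ht
    rw [LinearMap.mem_ker] at ht ⊢
    obtain ⟨m, x, y, hxy⟩ : ∃ (m : ℕ) (x y : Fin m → E), t = ∑ i, x i ⊗ₜ[ℂ] y i := by
      clear ht
      induction t using TensorProduct.induction_on with
      | zero => exact ⟨0, fun i => i.elim0, fun i => i.elim0, by simp⟩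
      | tmul x y => exact ⟨1, fun _ => x, fun _ => y, by simp⟩
      | add t₁ t₂ h₁ h₂ =>
        obtain ⟨m₁, x₁, y₁, e₁⟩ := h₁
        obtain ⟨m₂, x₂, y₂, e₂⟩ := h₂
        refine ⟨m₁ + m₂, Fin.append x₁ x₂, Fin.append y₁ y₂, ?_⟩
        rw [Fin.sum_univ_add, e₁, e₂]
        simp only [Fin.append_left, Fin.append_right]
    have h1 : f t = ∑ i, x i * a₀ * y i := by
      rw [hxy, map_sum]
      rfl
    have h2 : g t = ∑ i, R (c * (y i * x i) * c) := by
      rw [hxy, map_sum]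
      rfl
    rw [h2]
    apply gb_wd hI hT hR
    rw [← h1, ht]
  obtain ⟨τ', hτ'⟩ : ∃ τ' : E →ₗ[ℂ] ℂ, τ' ∘ₗ f = g := by
    obtain ⟨τ', hτ'⟩ := LinearMap.exists_extend
      (((LinearMap.ker f).liftQ g hker) ∘ₗ f.quotKerEquivRange.symm.toLinearMap)
    refine ⟨τ', LinearMap.ext fun t => ?_⟩
    have h1 := LinearMap.congr_fun hτ' ⟨f t, LinearMap.mem_range_self f t⟩
    rw [LinearMap.comp_apply, LinearMap.comp_apply] at h1
    rw [LinearMap.comp_apply]
    have h2 : f.quotKerEquivRange.symm ⟨f t, LinearMap.mem_range_self f t⟩ =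
        Submodule.Quotient.mk t := by
      rw [LinearEquiv.symm_apply_eq]
      rfl
    have h3 : τ' (f t) = (LinearMap.ker f).liftQ g hker
        (f.quotKerEquivRange.symm ⟨f t, LinearMap.mem_range_self f t⟩) := h1
    rw [h3, h2]
    rfl
  refine ⟨τ', fun x y => ?_⟩
  exact LinearMap.congr_fun hτ' (x ⊗ₜ[ℂ] y)

end P095G
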