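import Vale.Agent.Lib.P095G.GBH
import Vale.Agent.Lib.P095F.V1Defs

/-!
# P095G, GBI: tracial states of corner algebras are dominated by `Tr a₀` (GB.6)

`gb_ext_props`: `τ'` of `gb_ext` is tracial on `P`, positive on `P`, `τ' a₀ = R (a₀)` (take `x = y = 1`,
`c 1 c = a₀`), and `τ' h = R h` for `h ∈ P` with `u' h = h = h u'`: `h = ∑ (u' x_i) a₀ (y_i u')`,
`R h = ∑ R ((u' (x_i c) u')(u' (c y_i) u')) = ∑ R ((u' (c y_i) u')(u' (x_i c) u')) = τ' h`.

`gb_corner`: a linear extension `R` of `ρ` to `E` (`LinearMap.exists_extend`) satisfies `RData` (`c` from `gb_root` for `(a₀, u')`; `bd`: a tracial state of the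
closed subalgebra `H₁` has norm one: apply `IsSt.norm_le` to it, `H₁` is a C*-algebra, `‖u' x u'‖ ≤ ‖x‖`; `pos`:
`c d* d c ∈ H₁` is the limit of `c d* w d c = ∑_l (c z_l* d c)* (c z_l* d c)`, `w = ∑ z_l a₀ z_l*`, `w d c ≈ d c`
(`gb_full_unit`), and `c z_l* d c ∈ H₁`).
If `R a₀ = 0` then `R e = τ' e = ∑ R (c y_i x_i c) = 0` (positive functional `w ↦ R (c w c)` with value `R(a₀) = 0` at
`1`: Cauchy-Schwarz).  Otherwise `τ = τ' / R a₀ ∈ Tr a₀` and `R e = R a₀ * τ e`, `0 < R a₀ ≤ 1`.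
-/

open scoped ENNReal Topology
open Filter P101 P095E P095F

namespace P095G

universe u

variable {E : Type u} [CStarAlgebra E] {I : Ideal E} {a₀ a₁ : E} {u' c : E} {R : E →ₗ[ℂ] ℂ}

theorem gb_ext_props (hI : GoodIdeal I) (hT : TrBase I a₀ a₁) (hR : RData a₀ u' c R)
    {τ' : E →ₗ[ℂ] ℂ} (h : ∀ x y : E, τ' (x * a₀ * y) = R (c * (y * x) * c)) :
    (∀ p, InIdeal {a₀} p → ∀ x, τ' (p * x) = τ' (x * p)) ∧
    (∀ p, InIdeal {a₀} p → (∃ d, p = star d * d) → 0 ≤ (τ' p).re ∧ (τ' p).im = 0) ∧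
    τ' a₀ = R a₀ ∧
    (∀ p, InIdeal {a₀} p → u' * p = p → p * u' = p → τ' p = R p) := by
  refine ⟨?_, ?_, ?_, ?_⟩
  · rintro p ⟨m, x, z, y, hz, rfl⟩ w
    have hz' : ∀ l, z l = a₀ := fun l => hz l
    rw [Finset.sum_mul, Finset.mul_sum, map_sum, map_sum]
    refine Finset.sum_congr rfl fun l _ => ?_
    rw [hz' l]
    have e1 : x l * a₀ * y l * w = x l * a₀ * (y l * w) := by rw [mul_assoc (x l * a₀)]
    have e2 : w * (x l * a₀ * y l) = (w * x l) * a₀ * y l := by simp only [mul_assoc]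
    rw [e1, e2, h, h]
    simp only [mul_assoc]
  · rintro p ⟨m, x, z, y, hz, hp⟩ ⟨d, hd⟩
    have hz' : ∀ l, z l = a₀ := fun l => hz l
    have hp' : p = ∑ i, x i * a₀ * y i := by
      rw [hp]
      exact Finset.sum_congr rfl fun l _ => by rw [hz' l]
    have hτ : τ' p = ∑ i, R (c * (y i * x i) * c) := by
      rw [hp', map_sum]
      exact Finset.sum_congr rfl fun l _ => h _ _
    have key : ∀ ε : ℝ, 0 < ε → -ε ≤ (τ' p).re ∧ |(τ' p).im| ≤ ε := by
      intro ε hε
      obtain ⟨n, zz, hzz⟩ := gb_formula hI hT hR x y hε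
      rw [← hτ, ← hp', hd] at hzz
      have hpos : ∀ l, 0 ≤ (R (c * (star (zz l) * (star d * d) * zz l) * c)).re ∧
          (R (c * (star (zz l) * (star d * d) * zz l) * c)).im = 0 := by
        intro l
        have h1 := hR.pos (d * zz l)
        have h2 : star (d * zz l) * (d * zz l) = star (zz l) * (star d * d) * zz l := by
          rw [star_mul]
          simp only [mul_assoc]
        rw [h2] at h1
        exact h1
      set T := ∑ l, R (c * (star (zz l) * (star d * d) * zz l) * c) with hTdef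
      have hT1 : 0 ≤ T.re := by
        rw [hTdef, Complex.re_sum]
        exact Finset.sum_nonneg fun l _ => (hpos l).1
      have hT2 : T.im = 0 := by
        rw [hTdef, Complex.im_sum]
        exact Finset.sum_eq_zero fun l _ => (hpos l).2
      have h3 := (Complex.abs_re_le_norm (τ' (star d * d) - T)).trans hzz
      have h4 := (Complex.abs_im_le_norm (τ' (star d * d) - T)).trans hzz
      rw [Complex.sub_re] at h3
      rw [Complex.sub_im, hT2, sub_zero] at h4
      rw [hd]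
      refine ⟨?_, h4⟩
      have h5 := (abs_le.1 h3).1
      linarith
    refine ⟨?_, ?_⟩
    · by_contra hcon
      push Not at hcon
      have h1 := (key (-(τ' p).re / 2) (by linarith)).1
      linarith
    · by_contra hcon
      have h0 : 0 < |(τ' p).im| := abs_pos.2 hcon
      have h1 := (key (|(τ' p).im| / 2) (by linarith)).2
      linarith
  · have h1 := h 1 1
    rw [one_mul, mul_one, mul_one, mul_one, hR.cc] at h1
    exact h1
  · rintro p ⟨m, x, z, y, hz, hp⟩ h1 h2
    have hz' : ∀ l, z l = a₀ := fun l => hz l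
    have hp' : p = ∑ i, (u' * x i) * a₀ * (y i * u') := by
      have h3 : p = u' * p * u' := by rw [h1, h2]
      conv_lhs => rw [h3, hp]
      rw [Finset.mul_sum, Finset.sum_mul]
      refine Finset.sum_congr rfl fun l _ => ?_
      rw [hz' l]
      simp only [mul_assoc]
    rw [hp', map_sum, map_sum]
    refine Finset.sum_congr rfl fun l _ => ?_
    rw [h]
    have e1 : u' * x l * a₀ * (y l * u') = u' * (x l * c) * u' * (u' * (c * y l) * u') := by
      have f1 : u' * (x l * c) * u' = u' * x l * c := by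
        rw [mul_assoc u', mul_assoc (x l), hR.cu, ← mul_assoc u']
      have f2 : u' * (c * y l) * u' = c * y l * u' := by
        rw [← mul_assoc u', hR.uc]
      rw [f1, f2, ← hR.cc]
      simp only [mul_assoc]
    have e2 : c * (y l * u' * (u' * x l)) * c = u' * (c * y l) * u' * (u' * (x l * c) * u') := by
      have f1 : u' * (x l * c) * u' = u' * x l * c := by
        rw [mul_assoc u', mul_assoc (x l), hR.cu, ← mul_assoc u']
      have f2 : u' * (c * y l) * u' = c * y l * u' := by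
        rw [← mul_assoc u', hR.uc]
      rw [f1, f2]
      simp only [mul_assoc]
    rw [e1, e2]
    exact hR.tr _ _

/-- `R a₀` is a nonnegative real number at most `‖a₀‖` -/
theorem GBI_a0 (hR : RData a₀ u' c R) : 0 ≤ (R a₀).re ∧ (R a₀).im = 0 ∧ ‖R a₀‖ ≤ ‖a₀‖ := by
  have h1 := hR.pos 1
  rw [star_one, mul_one, mul_one, hR.cc] at h1
  refine ⟨h1.1, h1.2, ?_⟩
  have h2 := hR.bd a₀
  have h3 : u' * a₀ * u' = a₀ := by
    rw [← hR.cc, ← mul_assoc, hR.uc, mul_assoc, hR.cu]
  rwa [h3] at h2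

/-- a positive functional vanishing at `1` is zero -/
theorem GBI_pos_zero {φ : E →ₗ[ℂ] ℂ}
    (h : ∀ d, 0 ≤ (φ (star d * d)).re ∧ (φ (star d * d)).im = 0) (h1 : φ 1 = 0) (w : E) :
    φ w = 0 := by
  have key : ∀ w : E, φ w + φ (star w) = 0 := by
    intro w
    have e1 : ∀ t : ℝ, φ (star ((t : ℂ) • (1 : E) + w) * ((t : ℂ) • (1 : E) + w)) =
        (t : ℂ) * (φ w + φ (star w)) + φ (star w * w) := by
      intro t
      have e2 : star ((t : ℂ) • (1 : E) + w) * ((t : ℂ) • (1 : E) + w) =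
          ((t : ℂ) * (t : ℂ)) • (1 : E) + (t : ℂ) • w + (t : ℂ) • star w + star w * w := by
        rw [star_add, star_smul, star_one, add_mul, mul_add, mul_add, smul_mul_smul_comm, one_mul,
          smul_mul_assoc, one_mul, mul_smul_comm, mul_one]
        simp only [RCLike.star_def, Complex.conj_ofReal]
        abel
      rw [e2, map_add, map_add, map_add, map_smul, map_smul, map_smul, h1]
      simp only [smul_eq_mul, mul_zero, zero_add]
      ring
    obtain ⟨q1, q2⟩ := h w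
    have h2 : ∀ t : ℝ, 0 ≤ t * (φ w + φ (star w)).re + (φ (star w * w)).re ∧
        t * (φ w + φ (star w)).im = 0 := by
      intro t
      have h3 := h ((t : ℂ) • (1 : E) + w)
      rw [e1, Complex.add_re, Complex.add_im, Complex.re_ofReal_mul, Complex.im_ofReal_mul, q2,
        add_zero] at h3
      exact h3
    apply Complex.ext
    · rw [Complex.zero_re]
      by_contra hne
      have h3 := (h2 (-((φ (star w * w)).re + 1) / (φ w + φ (star w)).re)).1
      rw [div_mul_cancel₀ _ hne] at h3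
      linarith
    · have h3 := (h2 1).2
      rw [one_mul] at h3
      rw [h3, Complex.zero_im]
  have h3 := key w
  have h4 := key (Complex.I • w)
  rw [star_smul, map_smul, map_smul, smul_eq_mul, smul_eq_mul] at h4
  simp only [RCLike.star_def, Complex.conj_I] at h4
  have h5 : Complex.I * (φ w - φ (star w)) = 0 := by linear_combination h4
  have h6 : φ w - φ (star w) = 0 := (mul_eq_zero.1 h5).resolve_left Complex.I_ne_zero
  linear_combination (h3 + h6) / 2

/-- if `R a₀ = 0` then `R (c w c) = 0` -/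
theorem GBI_zero (hR : RData a₀ u' c R) (h0 : (R a₀).re = 0) (w : E) : R (c * w * c) = 0 := by
  let φ : E →ₗ[ℂ] ℂ :=
    { toFun := fun w => R (c * w * c)
      map_add' := fun x y => by rw [mul_add, add_mul, map_add]
      map_smul' := fun z x => by
        rw [RingHom.id_apply, mul_smul_comm, smul_mul_assoc, map_smul] }
  refine GBI_pos_zero (φ := φ) (fun d => hR.pos d) ?_ w
  change R (c * 1 * c) = 0
  rw [mul_one, hR.cc]
  obtain ⟨-, a2, -⟩ := GBI_a0 hR
  exact Complex.ext h0 a2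

/-- if `R a₀ = 0` then `R` vanishes on `P ∩ u' P u'` -/
theorem gb_zero (hI : GoodIdeal I) (hT : TrBase I a₀ a₁) (hR : RData a₀ u' c R)
    (h0 : (R a₀).re = 0) {p : E} (hp : InIdeal {a₀} p) (h1 : u' * p = p) (h2 : p * u' = p) :
    R p = 0 := by
  obtain ⟨τ', hτ'⟩ := gb_ext hI hT hR
  have h3 := (gb_ext_props hI hT hR hτ').2.2.2 p hp h1 h2
  rw [← h3]
  obtain ⟨m, x, z, y, hz, rfl⟩ := hp
  rw [map_sum]
  refine Finset.sum_eq_zero fun l _ => ?_
  have hz' : z l = a₀ := hz l
  rw [hz', hτ']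
  exact GBI_zero hR h0 _

/-- the inequality for one functional -/
theorem gb_R_le (hI : GoodIdeal I) (hT : TrBase I a₀ a₁) (hR : RData a₀ u' c R) {e : E}
    (he : InIdeal {a₀} e) (h1 : u' * e = e) (h2 : e * u' = e) {η : ℝ} (hη : 0 ≤ η)
    (hτ : ∀ τ ∈ Tr a₀, (τ e).re ≤ η) : (R e).re ≤ η := by
  obtain ⟨a1, a2, a3⟩ := GBI_a0 hR
  rcases a1.eq_or_lt with h0 | h0
  · rw [gb_zero hI hT hR h0.symm he h1 h2]
    exact hη
  · obtain ⟨τ', hτ'⟩ := gb_ext hI hT hR
    obtain ⟨p1, p2, p3, p4⟩ := gb_ext_props hI hT hR hτ'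
    have hne : R a₀ ≠ 0 := by
      intro h
      rw [h, Complex.zero_re] at h0
      exact lt_irrefl _ h0
    have hre : R a₀ = ((R a₀).re : ℂ) := by
      apply Complex.ext
      · rw [Complex.ofReal_re]
      · rw [Complex.ofReal_im, a2]
    have hle1 : (R a₀).re ≤ 1 := by
      have h3 := (Complex.re_le_norm (R a₀)).trans a3
      rwa [hT.norm0] at h3
    have hmem : ((R a₀)⁻¹ • τ') ∈ Tr a₀ := by
      refine ⟨fun p hp x => ?_, fun p hp hd => ?_, ?_⟩
      · rw [LinearMap.smul_apply, LinearMap.smul_apply, p1 p hp x]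
      · obtain ⟨q1, q2⟩ := p2 p hp hd
        have h3 : ((R a₀)⁻¹ • τ') p = (((R a₀).re⁻¹ : ℝ) : ℂ) * τ' p := by
          rw [LinearMap.smul_apply, smul_eq_mul]
          conv_lhs => rw [hre]
          rw [Complex.ofReal_inv]
        rw [h3, Complex.re_ofReal_mul, Complex.im_ofReal_mul, q2, mul_zero]
        exact ⟨mul_nonneg (inv_nonneg.2 h0.le) q1, rfl⟩
      · rw [LinearMap.smul_apply, p3, smul_eq_mul, inv_mul_cancel₀ hne]
    have h5 := hτ _ hmem
    have h6 : R e = ((R a₀).re : ℂ) * ((R a₀)⁻¹ • τ') e := by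
      rw [LinearMap.smul_apply, smul_eq_mul, p4 e he h1 h2, ← mul_assoc, ← hre,
        mul_inv_cancel₀ hne, one_mul]
    rw [h6, Complex.re_ofReal_mul]
    calc (R a₀).re * (((R a₀)⁻¹ • τ') e).re ≤ (R a₀).re * η :=
          mul_le_mul_of_nonneg_left h5 h0.le
      _ ≤ 1 * η := mul_le_mul_of_nonneg_right hle1 hη
      _ = η := one_mul η

/-- GB.6: tracial states of closed star subalgebras containing `u' E u'` -/
theorem gb_corner (hI : GoodIdeal I) (hT : TrBase I a₀ a₁) {u' : E} (hu : InIdeal {a₀} u')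
    (hp : PosC u') (h0 : u' * a₀ = a₀) (H₁ : StarSubalgebra ℂ E) [IsClosed (H₁ : Set E)]
    (hH : ∀ x : E, u' * x * u' ∈ H₁) {e : E} (he : e ∈ H₁) (hep : PosC e) (h1 : u' * e = e)
    {η : ℝ} (hη : 0 ≤ η) (hτ : ∀ τ ∈ Tr a₀, (τ e).re ≤ η) (ρ : H₁ →ₗ[ℂ] ℂ)
    (hρ : ρ ∈ TState H₁) : (ρ ⟨e, he⟩).re ≤ η := by
  obtain ⟨hρ1, hρ2⟩ := hρ
  have hus : star u' = u' := hp.isSelfAdjoint.star_eq
  have huI : u' ∈ I := gb_mem_of_inIdeal hI hT hu
  obtain ⟨c, hc1, hc2, hc3, hc4, hc5, hc6⟩ := gb_root hI hT hT.pos0 huI hp h0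
  -- extension
  obtain ⟨R, hRx⟩ := LinearMap.exists_extend (p := Subalgebra.toSubmodule H₁.toSubalgebra) ρ
  have hRρ : ∀ x (hx : x ∈ H₁), R x = ρ ⟨x, hx⟩ := fun x hx => LinearMap.congr_fun hRx ⟨x, hx⟩
  have hst : IsSt ρ := ⟨hρ1.nonneg, hρ1.im_eq, hρ2⟩
  have hcw : ∀ w : E, c * w * c ∈ H₁ := by
    intro w
    have h2 : u' * (c * w * c) * u' = c * w * c := by
      rw [mul_assoc u', mul_assoc (c * w), hc6, mul_assoc c, ← mul_assoc u', hc5]
    rw [← h2]
    exact hH _
  have hR : RData a₀ u' c R := by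
    refine ⟨hc1, hc3, hc4, hc5, hc6, hus, fun x y => ?_, fun d => ?_, fun x => ?_⟩
    · rw [hRρ _ (mul_mem (hH x) (hH y)), hRρ _ (mul_mem (hH y) (hH x))]
      exact hρ1.comm ⟨_, hH x⟩ ⟨_, hH y⟩
    · rw [hRρ _ (hcw _)]
      set P : E := c * (star d * d) * c with hP
      have hP' : P = star (d * c) * (d * c) := by
        rw [hP, star_mul, hc1]
        simp only [mul_assoc]
      let _ : PartialOrder E := CStarAlgebra.spectralOrder E
      have _ : StarOrderedRing E := CStarAlgebra.spectralOrderedRing E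
      have hP0 : 0 ≤ P := by
        rw [hP']
        exact star_mul_self_nonneg _
      have hz : cfc Real.sqrt P ∈ H₁ := cfc_mem (𝕜 := ℝ) (𝕜' := ℂ) Real.sqrt (hcw _)
      have hzs : star (cfc Real.sqrt P) = cfc Real.sqrt P :=
        (cfc_predicate (p := IsSelfAdjoint) Real.sqrt P).star_eq
      have hzz : star (cfc Real.sqrt P) * cfc Real.sqrt P = P := by
        rw [hzs, ← cfc_mul Real.sqrt Real.sqrt P]
        conv_rhs => rw [← cfc_id ℝ P]
        apply cfc_congr
        intro t ht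
        exact Real.mul_self_sqrt (spectrum_nonneg_of_nonneg hP0 ht)
      have h4 : (⟨P, hcw _⟩ : H₁) = star (⟨cfc Real.sqrt P, hz⟩ : H₁) * ⟨cfc Real.sqrt P, hz⟩ := by
        apply Subtype.ext
        exact hzz.symm
      rw [h4]
      exact ⟨hρ1.nonneg _, hρ1.im_eq _⟩
    · rw [hRρ _ (hH x)]
      let _ : PartialOrder H₁ := CStarAlgebra.spectralOrder H₁
      have _ : StarOrderedRing H₁ := CStarAlgebra.spectralOrderedRing H₁
      exact hst.norm_le (⟨_, hH x⟩ : H₁)
  rw [← hRρ e he]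
  have hes : star e = e := hep.isSelfAdjoint.star_eq
  have h2 : e * u' = e := by
    have := congrArg star h1
    rwa [star_mul, hes, hus] at this
  have heP : InIdeal {a₀} e := by
    rw [← h1]
    exact hu.mul_right e
  exact gb_R_le hI hT hR heP h1 h2 hη hτ

end P095G
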