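import Vale.Agent.Lib.P095G.GCADual
import Vale.Agent.Lib.P095F.CAApx

/-!
# P095G, part GCA, module GCAApx: completely positive maps are approximated by one state

Copy of the proof of `P095F.cp_approx` (file P095F/CAApx.lean; its lemmas `caapx_I`, `caapx_C`, `caapx_smul`,
`caapx_add`, `caapx_zero`, `caapx_convex` are public, use them) with `cp_dualG` in the place of `cp_dual`:
the elements `x p q = ∑ a, y (a, p, q) • a` lie in `I` because `S ⊂ I`.
-/

open scoped ENNReal Topology
open Filter P101 P095E P095F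

namespace P095G

universe u

variable {E : Type u} [CStarAlgebra E] {I : Ideal E}

theorem cp_approxG (hI : GoodIdeal I) {k : ℕ} (φ : E →ₗ[ℂ] Matrix (Fin k) (Fin k) ℂ)
    (hφ : CPos φ) (ψ : E →ₗ[ℂ] ℂ) (hψ : IsSt ψ) (hψI : ∃ z ∈ I, ψ z ≠ 0) (S : Finset E)
    (hS : ∀ a ∈ S, a ∈ I) {ε : ℝ} (hε : 0 < ε) :
    ∃ (n : ℕ) (d : Fin n → Fin k → E), ∀ a ∈ S, ∀ p q,
      ‖φ a p q - ∑ j, ψ (star (d j p) * a * d j q)‖ < ε := by
  classical
  set w : caapx_I S k → ℂ := fun i => φ (i.1 : E) i.2.1 i.2.2 with hw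
  have hmem : w ∈ closure (caapx_C ψ S k) := by
    by_contra hcon
    obtain ⟨f, u, h1, h2⟩ := RCLike.geometric_hahn_banach_point_closed (𝕜 := ℂ)
      (caapx_convex ψ S k).closure isClosed_closure hcon
    have h1' : (f w).re < u := h1
    have h2' : ∀ v ∈ caapx_C ψ S k, u < (f v).re := fun v hv => h2 v (subset_closure hv)
    have hu : u < 0 := by
      have h3 := h2' 0 caapx_zero
      rw [map_zero, Complex.zero_re] at h3
      exact h3
    have hpos : ∀ v ∈ caapx_C ψ S k, 0 ≤ (f v).re := by
      intro v hv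
      by_contra hneg
      push Not at hneg
      have h3 := h2' ((u / (f v).re) • v) (caapx_smul hv (div_nonneg_of_nonpos hu.le hneg.le))
      have h4 : (f ((u / (f v).re) • v)).re = (u / (f v).re) * (f v).re := by
        rw [← Complex.coe_smul, map_smul, smul_eq_mul, Complex.re_ofReal_mul]
      rw [h4, div_mul_cancel₀ _ hneg.ne] at h3
      exact lt_irrefl _ h3
    -- coordinates of `f`
    set y : caapx_I S k → ℂ := fun i => f (fun j => if i = j then 1 else 0) with hy
    have hf : ∀ v : caapx_I S k → ℂ, f v = ∑ i, v i * y i := by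
      intro v
      have h3 := LinearMap.pi_apply_eq_sum_univ (f : (caapx_I S k → ℂ) →ₗ[ℂ] ℂ) v
      exact h3
    set x : Fin k → Fin k → E := fun p q => ∑ a : {a // a ∈ S}, y (a, p, q) • (a : E) with hx
    have hsum : ∀ v : caapx_I S k → ℂ, f v = ∑ p, ∑ q, ∑ a, v (a, p, q) * y (a, p, q) := by
      intro v
      rw [hf, Fintype.sum_prod_type, Finset.sum_comm]
      rw [Fintype.sum_prod_type]
    have hxI : ∀ p q, x p q ∈ I := by
      intro p q
      simp only [hx]
      refine Ideal.sum_mem I fun a _ => ?_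
      rw [← smul_one_mul (y (a, p, q)) (a : E)]
      exact I.mul_mem_left _ (hS (a : E) a.2)
    have hdual := cp_dualG hI φ hφ ψ hψ hψI x hxI (by
      intro d
      have h3 : (∑ p, ∑ q, ψ (star (d p) * x p q * d q)) =
          f (fun i => ψ (star (d i.2.1) * (i.1 : E) * d i.2.2)) := by
        rw [hsum]
        refine Finset.sum_congr rfl fun p _ => Finset.sum_congr rfl fun q _ => ?_
        simp only [hx]
        rw [Finset.mul_sum, Finset.sum_mul, map_sum]
        refine Finset.sum_congr rfl fun a _ => ?_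
        rw [mul_smul_comm, smul_mul_assoc, map_smul, smul_eq_mul, mul_comm]
      rw [h3]
      apply hpos
      refine ⟨1, fun _ => d, fun i => ?_⟩
      simp)
    have h3 : (∑ p, ∑ q, φ (x p q) p q) = f w := by
      rw [hsum]
      refine Finset.sum_congr rfl fun p _ => Finset.sum_congr rfl fun q _ => ?_
      simp only [hx, hw]
      rw [map_sum, Matrix.sum_apply]
      refine Finset.sum_congr rfl fun a _ => ?_
      rw [map_smul, Matrix.smul_apply, smul_eq_mul, mul_comm]
    rw [h3] at hdual
    linarith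
  obtain ⟨v, ⟨n, d, hd⟩, hv⟩ := Metric.mem_closure_iff.1 hmem ε hε
  refine ⟨n, d, fun a ha p q => ?_⟩
  have h4 := (dist_pi_lt_iff hε).1 hv (⟨a, ha⟩, p, q)
  rw [dist_eq_norm, hd] at h4
  exact h4

end P095G
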