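import Vale.Agent.Lib.P095F.CAEst

/-!
# P095G, part GCA, module GCAEst: the estimate `ca_est_a` with a weaker hypothesis

Same proof as `P095F.ca_est_a`; the hypothesis `‖star r * r - e‖ ≤ ε₃` is only needed between the `c l p`.
-/

open scoped Topology
open P095F

namespace P095G

universe u

variable {A : Type u} [CStarAlgebra A]

private theorem gcaest_sum {ι : Type*} [Fintype ι] (F : ι → A) {B : ℝ} (h : ∀ i, ‖F i‖ ≤ B) :
    ‖∑ i, F i‖ ≤ Fintype.card ι * B := by
  refine (norm_sum_le _ _).trans ((Finset.sum_le_sum fun i _ => h i).trans ?_)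
  rw [Finset.sum_const, Finset.card_univ, nsmul_eq_mul]

/-- the terms -/
private noncomputable def gcaest_T {n k : ℕ} (d : Fin n → Fin k → A) (c : Fin k → Fin k → A) (x : A)
    (r : Fin n → Fin k → A) (i : Fin n × Fin k × Fin k) : A :=
  d i.1 i.2.2 * x * r i.1 i.2.1 * c i.2.1 i.2.2

private theorem gcaest_s {n k : ℕ} (d : Fin n → Fin k → A) (c : Fin k → Fin k → A) (x : A)
    (r : Fin n → Fin k → A) : ca_s d c x r = ∑ i, gcaest_T d c x r i := by
  rw [Fintype.sum_prod_type]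
  unfold ca_s
  refine Finset.sum_congr rfl fun j _ => ?_
  rw [Fintype.sum_prod_type]
  rfl

private theorem gcaest_card (n k : ℕ) :
    (Fintype.card (Fin n × Fin k × Fin k) : ℝ) = n * k ^ 2 := by
  rw [Fintype.card_prod, Fintype.card_prod, Fintype.card_fin, Fintype.card_fin]
  push_cast
  ring

theorem gca_est_a {n k : ℕ} (d : Fin n → Fin k → A) (c : Fin k → Fin k → A) (x e a : A)
    (r : Fin n → Fin k → A) (w : Fin n → Fin k → Fin n → Fin k → ℂ) {C δ ε₂ ε₃ : ℝ} (hC : 1 ≤ C)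
    (h2 : 0 ≤ ε₂) (h3 : 0 ≤ ε₃) (hδ : 0 ≤ δ)
    (hd : ∀ j p, ‖d j p‖ ≤ C) (hc : ∀ l p, ‖c l p‖ ≤ C) (hr2 : ∀ j l, ‖r j l‖ ≤ 2)
    (hxs : star x = x) (hxr : ∀ j l, x * r j l = r j l)
    (ho : ∀ j l j' l', ¬ (j = j' ∧ l = l') → star (r j l) * r j' l' = 0)
    (hr : ∀ j l p q, ‖star (c l p) * (star (r j l) * r j l - e) * c l q‖ ≤ C ^ 2 * ε₃)
    (hec : ∀ l p, ‖e * c l p - c l p * e‖ ≤ δ) (hw : ∀ j p j' q, ‖w j p j' q‖ ≤ C ^ 3)
    (hex : ∀ j p j' q, ‖x * (star (d j p) * a * d j' q) * x - w j p j' q • (x * x)‖ ≤ ε₂) :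
    ‖star (ca_s d c x r) * a * ca_s d c x r -
      ∑ p, ∑ q, (∑ j, w j p j q) • ((∑ l, star (c l p) * c l q) * e)‖ ≤
      n ^ 2 * k ^ 4 * (4 * C ^ 2 * ε₂) + n * k ^ 3 * (C ^ 5 * ε₃ + C ^ 4 * δ) := by
  have hC0 : 0 ≤ C := by linarith
  let I := Fin n × Fin k × Fin k
  -- the two approximations
  let X : I → I → A := fun i i' => star (gcaest_T d c x r i) * a * gcaest_T d c x r i'
  let U : I → I → A := fun i i' => w i.1 i.2.2 i'.1 i'.2.2 •
    (star (c i.2.1 i.2.2) * (star (r i.1 i.2.1) * r i'.1 i'.2.1) * c i'.2.1 i'.2.2)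
  let V : I → Fin k → A := fun i q => w i.1 i.2.2 i.1 q •
    (star (c i.2.1 i.2.2) * (star (r i.1 i.2.1) * r i.1 i.2.1) * c i.2.1 q)
  let V' : I → Fin k → A := fun i q => w i.1 i.2.2 i.1 q •
    (star (c i.2.1 i.2.2) * c i.2.1 q * e)
  have hX : star (ca_s d c x r) * a * ca_s d c x r = ∑ i, ∑ i', X i i' := by
    rw [gcaest_s, star_sum, Finset.sum_mul, Finset.sum_mul_sum]
  have hXU : ∀ i i', ‖X i i' - U i i'‖ ≤ 4 * C ^ 2 * ε₂ := by
    intro i i'
    have h1 : X i i' - U i i' = star (c i.2.1 i.2.2) * star (r i.1 i.2.1) *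
        (x * (star (d i.1 i.2.2) * a * d i'.1 i'.2.2) * x -
          w i.1 i.2.2 i'.1 i'.2.2 • (x * x)) * r i'.1 i'.2.1 * c i'.2.1 i'.2.2 := by
      have h2 : X i i' = star (c i.2.1 i.2.2) * star (r i.1 i.2.1) *
          (x * (star (d i.1 i.2.2) * a * d i'.1 i'.2.2) * x) * r i'.1 i'.2.1 *
            c i'.2.1 i'.2.2 := by
        change star (d i.1 i.2.2 * x * r i.1 i.2.1 * c i.2.1 i.2.2) * a *
          (d i'.1 i'.2.2 * x * r i'.1 i'.2.1 * c i'.2.1 i'.2.2) = _
        rw [star_mul, star_mul, star_mul, hxs]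
        simp only [mul_assoc]
      have h3 : U i i' = star (c i.2.1 i.2.2) * star (r i.1 i.2.1) *
          (w i.1 i.2.2 i'.1 i'.2.2 • (x * x)) * r i'.1 i'.2.1 * c i'.2.1 i'.2.2 := by
        have h4 : x * x * r i'.1 i'.2.1 = r i'.1 i'.2.1 := by rw [mul_assoc, hxr, hxr]
        change w i.1 i.2.2 i'.1 i'.2.2 • (star (c i.2.1 i.2.2) *
          (star (r i.1 i.2.1) * r i'.1 i'.2.1) * c i'.2.1 i'.2.2) = _
        conv_lhs => rw [← h4]
        simp only [mul_smul_comm, smul_mul_assoc, mul_assoc]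
      rw [h2, h3]
      simp only [mul_sub, sub_mul]
    rw [h1]
    calc _ ≤ C * 2 * ε₂ * 2 * C := by
          refine (norm_mul_le _ _).trans (mul_le_mul ?_ (hc _ _) (norm_nonneg _) (by positivity))
          refine (norm_mul_le _ _).trans (mul_le_mul ?_ (hr2 _ _) (norm_nonneg _) (by positivity))
          refine (norm_mul_le _ _).trans (mul_le_mul ?_ (hex _ _ _ _) (norm_nonneg _)
            (by positivity))
          refine (norm_mul_le _ _).trans (mul_le_mul ?_ ?_ (norm_nonneg _) hC0)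
          · rw [norm_star]
            exact hc _ _
          · rw [norm_star]
            exact hr2 _ _
      _ = 4 * C ^ 2 * ε₂ := by ring
  have hU : ∀ i, ∑ i', U i i' = ∑ q, V i q := by
    intro i
    rw [Fintype.sum_prod_type, Finset.sum_eq_single i.1]
    · rw [Fintype.sum_prod_type, Finset.sum_eq_single i.2.1]
      · intro l' _ hl'
        refine Finset.sum_eq_zero fun q _ => ?_
        have h1 : star (r i.1 i.2.1) * r i.1 l' = 0 := ho _ _ _ _ fun h => hl' h.2.symm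
        change w i.1 i.2.2 i.1 q • (star (c i.2.1 i.2.2) * (star (r i.1 i.2.1) * r i.1 l') *
          c l' q) = 0
        rw [h1, mul_zero, zero_mul, smul_zero]
      · intro h
        exact absurd (Finset.mem_univ _) h
    · intro j' _ hj'
      refine Finset.sum_eq_zero fun i' _ => ?_
      have h1 : star (r i.1 i.2.1) * r j' i'.1 = 0 := ho _ _ _ _ fun h => hj' h.1.symm
      change w i.1 i.2.2 j' i'.2 • (star (c i.2.1 i.2.2) * (star (r i.1 i.2.1) * r j' i'.1) *
        c i'.1 i'.2) = 0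
      rw [h1, mul_zero, zero_mul, smul_zero]
    · intro h
      exact absurd (Finset.mem_univ _) h
  have hVV : ∀ i q, ‖V i q - V' i q‖ ≤ C ^ 5 * ε₃ + C ^ 4 * δ := by
    intro i q
    have h1 : V i q - V' i q = w i.1 i.2.2 i.1 q •
        (star (c i.2.1 i.2.2) * (star (r i.1 i.2.1) * r i.1 i.2.1 - e) * c i.2.1 q +
          star (c i.2.1 i.2.2) * (e * c i.2.1 q - c i.2.1 q * e)) := by
      change w i.1 i.2.2 i.1 q • _ - w i.1 i.2.2 i.1 q • _ = _
      rw [← smul_sub]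
      congr 1
      simp only [mul_sub, sub_mul, mul_assoc]
      abel
    rw [h1, norm_smul]
    have h2 : ‖star (c i.2.1 i.2.2) * (star (r i.1 i.2.1) * r i.1 i.2.1 - e) * c i.2.1 q‖ ≤
        C ^ 2 * ε₃ := hr _ _ _ _
    have h3 : ‖star (c i.2.1 i.2.2) * (e * c i.2.1 q - c i.2.1 q * e)‖ ≤ C * δ := by
      refine (norm_mul_le _ _).trans (mul_le_mul ?_ (hec _ _) (norm_nonneg _) hC0)
      rw [norm_star]
      exact hc _ _
    calc _ ≤ C ^ 3 * (C ^ 2 * ε₃ + C * δ) :=
          mul_le_mul (hw _ _ _ _) ((norm_add_le _ _).trans (add_le_add h2 h3)) (norm_nonneg _)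
            (by positivity)
      _ = C ^ 5 * ε₃ + C ^ 4 * δ := by ring
  have hV' : ∑ p, ∑ q, (∑ j, w j p j q) • ((∑ l, star (c l p) * c l q) * e) =
      ∑ i, ∑ q, V' i q := by
    rw [Fintype.sum_prod_type]
    have h1 : ∀ j : Fin n, ∑ i : Fin k × Fin k, ∑ q, V' (j, i) q =
        ∑ p, ∑ q, ∑ l, w j p j q • (star (c l p) * c l q * e) := by
      intro j
      rw [Fintype.sum_prod_type]
      refine Finset.sum_comm.trans (Finset.sum_congr rfl fun p _ => ?_)
      exact Finset.sum_comm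
    have h2 : ∑ j : Fin n, ∑ i : Fin k × Fin k, ∑ q, V' (j, i) q =
        ∑ p, ∑ q, ∑ j : Fin n, ∑ l, w j p j q • (star (c l p) * c l q * e) := by
      refine (Finset.sum_congr rfl fun j _ => h1 j).trans ?_
      refine Finset.sum_comm.trans (Finset.sum_congr rfl fun p _ => ?_)
      exact Finset.sum_comm
    refine Eq.trans ?_ h2.symm
    refine Finset.sum_congr rfl fun p _ => Finset.sum_congr rfl fun q _ => ?_
    rw [Finset.sum_smul]
    refine Finset.sum_congr rfl fun j _ => ?_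
    rw [Finset.sum_mul, Finset.smul_sum]
  rw [hX, hV']
  have h1 : ∑ i, ∑ i', X i i' - ∑ i, ∑ q, V' i q =
      ∑ i, ∑ i', (X i i' - U i i') + ∑ i, ∑ q, (V i q - V' i q) := by
    simp only [Finset.sum_sub_distrib, hU]
    abel
  rw [h1]
  refine (norm_add_le _ _).trans (add_le_add ?_ ?_)
  · refine (gcaest_sum _ fun i => gcaest_sum _ fun i' => hXU i i').trans (le_of_eq ?_)
    rw [gcaest_card]
    ring
  · refine (gcaest_sum _ fun i => gcaest_sum _ fun q => hVV i q).trans (le_of_eq ?_)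
    rw [gcaest_card, Fintype.card_fin]
    ring

end P095G
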