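import Vale.Agent.Lib.P095G.GCAApx
import Vale.Agent.Lib.P095F.CAComp

/-!
# P095G, part GCA, module GCAFin: finitely many tuples suffice for all states `ψ` with `ψ(b²) ≥ 1/2`

`st_coverG`: apply `P095F.st_cover` with the index type `Option D` and
`F' none g = (g (b * b)).re - 1 / 2 + ε`, `F' (some d) = F d`: states with `(ψ (b * b)).re < 1 / 2` are covered by
`none`.  Then copy the proof of `P095F.cp_approx_finite` (file P095F/CAFin.lean, with its private lemma) with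
`cp_approxG` and `st_coverG`; `ψ (b * b) ≠ 0` and `b * b ∈ I` give `hψI`.
-/

open scoped ENNReal Topology
open Filter P101 P095E P095F

namespace P095G

universe u v

variable {E : Type u} [CStarAlgebra E] {I : Ideal E}

private theorem gcafin_extend {k n N : ℕ} (hnN : n ≤ N) (d : Fin n → Fin k → E)
    (ψ : E →ₗ[ℂ] ℂ) (a : E) (p q : Fin k) :
    ∑ j : Fin N, ψ (star ((fun p => if h : (j : ℕ) < n then d ⟨j, h⟩ p else 0) p) * a *
      (fun p => if h : (j : ℕ) < n then d ⟨j, h⟩ p else 0) q) =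
    ∑ j, ψ (star (d j p) * a * d j q) := by
  let e : ℕ → Fin k → E := fun j p => if h : j < n then d ⟨j, h⟩ p else 0
  have h1 : ∑ j : Fin N, ψ (star (e j p) * a * e j q) =
      ∑ j ∈ Finset.range N, ψ (star (e j p) * a * e j q) :=
    Fin.sum_univ_eq_sum_range (fun j => ψ (star (e j p) * a * e j q)) N
  have h2 : ∑ j : Fin n, ψ (star (e j p) * a * e j q) =
      ∑ j ∈ Finset.range n, ψ (star (e j p) * a * e j q) :=
    Fin.sum_univ_eq_sum_range (fun j => ψ (star (e j p) * a * e j q)) n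
  have h3 : ∑ j ∈ Finset.range n, ψ (star (e j p) * a * e j q) =
      ∑ j ∈ Finset.range N, ψ (star (e j p) * a * e j q) := by
    refine Finset.sum_subset (Finset.range_subset_range.2 hnN) fun j _ hj => ?_
    have hj' : ¬ j < n := fun h => hj (Finset.mem_range.2 h)
    have h4 : ∀ r, e j r = 0 := fun r => by
      simp only [e]
      rw [dif_neg hj']
    rw [h4, h4, star_zero, zero_mul, zero_mul, map_zero]
  have h5 : ∑ j : Fin n, ψ (star (e j p) * a * e j q) =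
      ∑ j : Fin n, ψ (star (d j p) * a * d j q) := by
    refine Finset.sum_congr rfl fun j _ => ?_
    have h6 : ∀ r, e j r = d j r := fun r => by
      simp only [e]
      rw [dif_pos j.isLt]
    rw [h6, h6]
  show ∑ j : Fin N, ψ (star (e j p) * a * e j q) = _
  rw [h1, ← h3, ← h2, h5]

theorem st_coverG (b : E) {D : Type v} (F : D → (E → ℂ) → ℝ) (hF : ∀ d, Continuous (F d)) (ε : ℝ)
    (h : ∀ ψ : E →ₗ[ℂ] ℂ, IsSt ψ → 1 / 2 ≤ (ψ (b * b)).re → ∃ d, F d (fun a => ψ a) < ε) :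
    ∃ DD : Finset D, ∀ ψ : E →ₗ[ℂ] ℂ, IsSt ψ → 1 / 2 ≤ (ψ (b * b)).re →
      ∃ d ∈ DD, F d (fun a => ψ a) < ε := by
  let F' : Option D → (E → ℂ) → ℝ := fun o g => match o with
    | none => (g (b * b)).re - 1 / 2 + ε
    | some d => F d g
  have hF' : ∀ o, Continuous (F' o) := by
    intro o
    rcases o with _ | d
    · have h1 : Continuous fun g : E → ℂ => (g (b * b)).re :=
        Complex.continuous_re.comp (continuous_apply (b * b))
      exact (h1.sub continuous_const).add continuous_const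
    · exact hF d
  have hcov : ∀ ψ : E →ₗ[ℂ] ℂ, IsSt ψ → ∃ o, F' o (fun a => ψ a) < ε := by
    intro ψ hψ
    rcases lt_or_ge (ψ (b * b)).re (1 / 2) with h1 | h1
    · refine ⟨none, ?_⟩
      change (ψ (b * b)).re - 1 / 2 + ε < ε
      linarith
    · obtain ⟨d, hd⟩ := h ψ hψ h1
      exact ⟨some d, hd⟩
  obtain ⟨DD, hDD⟩ := st_cover F' hF' ε hcov
  refine ⟨Finset.eraseNone DD, fun ψ hψ h1 => ?_⟩
  obtain ⟨o, ho, hlt⟩ := hDD ψ hψ
  rcases o with _ | d
  · exfalso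
    change (ψ (b * b)).re - 1 / 2 + ε < ε at hlt
    linarith
  · exact ⟨d, Finset.mem_eraseNone.2 ho, hlt⟩

theorem cp_approx_finiteG (hI : GoodIdeal I) {b : E} (hb : b ∈ I) {k : ℕ}
    (φ : E →ₗ[ℂ] Matrix (Fin k) (Fin k) ℂ) (hφ : CPos φ) (S : Finset E) (hS : ∀ a ∈ S, a ∈ I)
    {ε : ℝ} (hε : 0 < ε) :
    ∃ (n : ℕ) (DD : Set (Fin n → Fin k → E)), DD.Finite ∧ ∀ ψ : E →ₗ[ℂ] ℂ, IsSt ψ →
      1 / 2 ≤ (ψ (b * b)).re → ∃ d ∈ DD,
      ∀ a ∈ S, ∀ p q, ‖φ a p q - ∑ j, ψ (star (d j p) * a * d j q)‖ < ε := by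
  classical
  let D : Type u := (n : ℕ) × (Fin n → Fin k → E)
  let F : D → (E → ℂ) → ℝ := fun d g =>
    ∑ a ∈ S, ∑ p, ∑ q, ‖φ a p q - ∑ j, g (star (d.2 j p) * a * d.2 j q)‖
  have hF : ∀ d, Continuous (F d) := by
    intro d
    refine continuous_finsetSum _ fun a _ => continuous_finsetSum _ fun p _ =>
      continuous_finsetSum _ fun q _ => ?_
    have h1 : Continuous fun g : E → ℂ => ∑ j, g (star (d.2 j p) * a * d.2 j q) :=
      continuous_finsetSum _ fun j _ => continuous_apply (star (d.2 j p) * a * d.2 j q)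
    have h2 : Continuous fun g : E → ℂ => φ a p q - ∑ j, g (star (d.2 j p) * a * d.2 j q) :=
      Continuous.sub continuous_const h1
    exact h2.norm
  have hcov : ∀ ψ : E →ₗ[ℂ] ℂ, IsSt ψ → 1 / 2 ≤ (ψ (b * b)).re →
      ∃ d, F d (fun a => ψ a) < ε := by
    intro ψ hψ hψb
    set C : ℝ := S.card * (k * k) + 1 with hC
    have hCpos : 0 < C := by positivity
    have hψI : ∃ z ∈ I, ψ z ≠ 0 := by
      refine ⟨b * b, I.mul_mem_left b hb, fun h0 => ?_⟩
      rw [h0, Complex.zero_re] at hψb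
      norm_num at hψb
    obtain ⟨n, d, hd⟩ := cp_approxG hI φ hφ ψ hψ hψI S hS (ε := ε / C) (by positivity)
    refine ⟨⟨n, d⟩, ?_⟩
    have h1 : F ⟨n, d⟩ (fun a => ψ a) ≤ ∑ a ∈ S, ∑ p : Fin k, ∑ q : Fin k, ε / C :=
      Finset.sum_le_sum fun a ha => Finset.sum_le_sum fun p _ => Finset.sum_le_sum fun q _ =>
        (hd a ha p q).le
    refine h1.trans_lt ?_
    simp only [Finset.sum_const, Finset.card_univ, Fintype.card_fin, nsmul_eq_mul]
    have h2 : (S.card : ℝ) * (k * (k * (ε / C))) = (C - 1) * (ε / C) := by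
      rw [hC]
      ring
    rw [h2, sub_mul, one_mul, mul_div_cancel₀ _ hCpos.ne']
    have : 0 < ε / C := by positivity
    linarith
  obtain ⟨DD, hDD⟩ := st_coverG b F hF ε hcov
  let N : ℕ := DD.sup fun d => d.1
  let ext : D → (Fin N → Fin k → E) := fun d j p =>
    if h : (j : ℕ) < d.1 then d.2 ⟨j, h⟩ p else 0
  refine ⟨N, (DD.image ext : Finset (Fin N → Fin k → E)), Finset.finite_toSet _, ?_⟩
  intro ψ hψ hψb
  obtain ⟨d, hd, hlt⟩ := hDD ψ hψ hψb
  refine ⟨ext d, Finset.mem_coe.2 (Finset.mem_image_of_mem _ hd), ?_⟩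
  intro a ha p q
  have hN : d.1 ≤ N := Finset.le_sup (f := fun d : D => d.1) hd
  have h1 := gcafin_extend hN d.2 ψ a p q
  have h2 : ∑ j : Fin N, ψ (star (ext d j p) * a * ext d j q) =
      ∑ j, ψ (star (d.2 j p) * a * d.2 j q) := h1
  rw [h2]
  refine lt_of_le_of_lt ?_ hlt
  have h3 : ‖φ a p q - ∑ j, ψ (star (d.2 j p) * a * d.2 j q)‖ ≤
      ∑ q, ‖φ a p q - ∑ j, ψ (star (d.2 j p) * a * d.2 j q)‖ :=
    Finset.single_le_sum (f := fun q => ‖φ a p q - ∑ j, ψ (star (d.2 j p) * a * d.2 j q)‖)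
      (fun _ _ => norm_nonneg _) (Finset.mem_univ q)
  have h4 : ∑ q, ‖φ a p q - ∑ j, ψ (star (d.2 j p) * a * d.2 j q)‖ ≤
      ∑ p, ∑ q, ‖φ a p q - ∑ j, ψ (star (d.2 j p) * a * d.2 j q)‖ :=
    Finset.single_le_sum
      (f := fun p => ∑ q, ‖φ a p q - ∑ j, ψ (star (d.2 j p) * a * d.2 j q)‖)
      (fun _ _ => Finset.sum_nonneg fun _ _ => norm_nonneg _) (Finset.mem_univ p)
  have h5 : ∑ p, ∑ q, ‖φ a p q - ∑ j, ψ (star (d.2 j p) * a * d.2 j q)‖ ≤
      F d (fun a => ψ a) :=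
    Finset.single_le_sum
      (f := fun a => ∑ p, ∑ q, ‖φ a p q - ∑ j, ψ (star (d.2 j p) * a * d.2 j q)‖)
      (fun _ _ => Finset.sum_nonneg fun _ _ => Finset.sum_nonneg fun _ _ => norm_nonneg _) ha
  exact h3.trans (h4.trans h5)

end P095G
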