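import Vale.Agent.Lib.P095G.GCAId
import Vale.Agent.Lib.P095F.CASplitA

/-!
# P095G, part GCA, module GCASplit: orthogonal positive elements of `I` below `h`

Copy of the proofs of P095F/CASplit.lean.  The negated hypothesis `H` now reads: there are no `g₁ g₂ ∈ I` with ...;
the two private lemmas `casplit_sq`, `casplit_corner` (rename them gcasplit_...) get the additional hypothesis `k ∈ I`
resp. `p ∈ I` (the elements `g₁ = k * c₁`, `g₂ = k * c₂` of `orth_of_two_points` lie in `I` when `k ∈ I`: right multiples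
use `hI.two`, `Ideal.mul_mem_right`).  Instead of `finite_of_corner` use `hmin` for the projection `p = c⁻¹ • h ∈ I`.
`exists_orthG` by the same induction as `exists_orth`.
-/

open scoped ENNReal Topology
open Filter P101 P095E P095F

namespace P095G

universe u

variable {E : Type u} [CStarAlgebra E] [PartialOrder E] [StarOrderedRing E] {I : Ideal E}

/-- a self-adjoint element below `h` satisfies a quadratic equation, if `h` cannot be split -/
private theorem gcasplit_sq (hI : GoodIdeal I) {h : E} (H : ¬ ∃ g₁ ∈ I, ∃ g₂ ∈ I, 0 ≤ g₁ ∧ 0 ≤ g₂ ∧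
      g₁ ≠ 0 ∧ g₂ ≠ 0 ∧ g₁ * g₂ = 0 ∧ ∀ x, x * h = 0 → x * g₁ = 0 ∧ x * g₂ = 0) {k : E}
    (hkI : k ∈ I) (hk : IsSelfAdjoint k) (hkh : ∀ x, x * h = 0 → x * k = 0) :
    ∃ c : ℝ, k * k = c • k := by
  haveI := hI.two
  refine sq_eq_smul hk fun s hs t ht hs0 ht0 => ?_
  by_contra hst
  obtain ⟨g₁, g₂, c₁, c₂, a1, a2, a3, a4, a5, a6, a7⟩ :=
    orth_of_two_points hk hs ht hs0 ht0 hst
  have m1 : g₁ ∈ I := by
    rw [a6]
    exact Ideal.mul_mem_right c₁ I hkI
  have m2 : g₂ ∈ I := by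
    rw [a7]
    exact Ideal.mul_mem_right c₂ I hkI
  refine H ⟨g₁, m1, g₂, m2, a1, a2, a3, a4, a5, fun x hx => ⟨?_, ?_⟩⟩
  · rw [a6, ← mul_assoc, hkh x hx, zero_mul]
  · rw [a7, ← mul_assoc, hkh x hx, zero_mul]

private theorem gcasplit_corner (hI : GoodIdeal I) {h p : E} {c : ℝ} (H : ¬ ∃ g₁ ∈ I, ∃ g₂ ∈ I,
      0 ≤ g₁ ∧ 0 ≤ g₂ ∧ g₁ ≠ 0 ∧ g₂ ≠ 0 ∧ g₁ * g₂ = 0 ∧ ∀ x, x * h = 0 → x * g₁ = 0 ∧ x * g₂ = 0)
    (hpI : p ∈ I) (hp : star p = p) (hp2 : p * p = p) (hc : p = c • h) {b : E}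
    (hb : IsSelfAdjoint b) : ∃ e : ℝ, p * b * p = e • p := by
  have hps : IsSelfAdjoint p := hp
  have hxp : ∀ x, x * h = 0 → x * p = 0 := by
    intro x hx
    rw [hc, mul_smul_comm, hx, smul_zero]
  set t : ℝ := ‖b‖ + 1 with ht
  set k : E := p * b * p + t • p with hk
  have hbs : star b = b := hb
  have hpbp : star (p * b * p) = p * b * p := by
    rw [star_mul, star_mul, hbs, hp, mul_assoc]
  have hks : IsSelfAdjoint k := by
    show star k = k
    rw [hk, star_add, hpbp, star_smul, hp, star_trivial]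
  have hkI : k ∈ I := by
    have e1 : k = (p * b + algebraMap ℝ E t) * p := by
      rw [hk, add_mul, Algebra.algebraMap_eq_smul_one, smul_mul_assoc, one_mul]
    rw [e1]
    exact I.mul_mem_left _ hpI
  obtain ⟨c', hc'⟩ := gcasplit_sq hI H hkI hks (by
    intro x hx
    rw [hk, mul_add, mul_smul_comm, ← mul_assoc, ← mul_assoc, hxp x hx]
    simp)
  have hpk : p * k = k := by
    rw [hk, mul_add, mul_smul_comm, hp2, ← mul_assoc, ← mul_assoc, hp2]
  have hkp : k * p = k := by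
    rw [hk, add_mul, smul_mul_assoc, hp2, mul_assoc (p * b), hp2]
  -- `p ≤ k`
  have hle : p ≤ k := by
    have h1 : -(algebraMap ℝ E ‖b‖) ≤ b := hb.neg_algebraMap_norm_le_self
    have h2 : star p * (-(algebraMap ℝ E ‖b‖)) * p ≤ star p * b * p :=
      star_left_conjugate_le_conjugate h1 p
    rw [hp] at h2
    have h3 : p * (-(algebraMap ℝ E ‖b‖)) * p = -(‖b‖ • p) := by
      rw [Algebra.algebraMap_eq_smul_one, mul_neg, neg_mul, mul_smul_comm, mul_one,
        smul_mul_assoc, hp2]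
    rw [h3] at h2
    have h4 : k = (p * b * p + ‖b‖ • p) + p := by
      rw [hk, ht, add_smul, one_smul, add_assoc]
    rw [h4]
    have h5 : 0 ≤ p * b * p + ‖b‖ • p := by
      have := add_le_add_left h2 (‖b‖ • p)
      simpa [add_comm] using this
    exact le_add_of_nonneg_left h5
  set z : E := k - c' • p with hz
  have hzs : star z = z := by
    have hk' : star k = k := hks
    rw [hz, star_sub, hk', star_smul, hp, star_trivial]
  have hpz : p * z = z := by
    rw [hz, mul_sub, hpk, mul_smul_comm, hp2]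
  have hkz : k * z = 0 := by
    rw [hz, mul_sub, mul_smul_comm, hkp, hc', sub_self]
  have h6 : star z * p * z ≤ star z * k * z := star_left_conjugate_le_conjugate hle z
  rw [mul_assoc, mul_assoc, hpz, hkz, mul_zero] at h6
  have h7 : star z * z = 0 := le_antisymm h6 (star_mul_self_nonneg z)
  have h8 : z = 0 := CStarRing.star_mul_self_eq_zero_iff z |>.1 h7
  refine ⟨c' - t, ?_⟩
  have h9 : k = c' • p := sub_eq_zero.1 h8
  rw [sub_smul, ← h9, hk, add_sub_cancel_right]

theorem split_twoG (hI : GoodIdeal I)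
    (hmin : ∀ p ∈ I, star p = p → p * p = p → p ≠ 0 → ¬ ∀ a, ∃ c : ℂ, p * a * p = c • p)
    {h : E} (hhI : h ∈ I) (hh : 0 ≤ h) (h0 : h ≠ 0) :
    ∃ g₁ ∈ I, ∃ g₂ ∈ I, 0 ≤ g₁ ∧ 0 ≤ g₂ ∧ g₁ ≠ 0 ∧ g₂ ≠ 0 ∧ g₁ * g₂ = 0 ∧
      ∀ x, x * h = 0 → x * g₁ = 0 ∧ x * g₂ = 0 := by
  by_contra H
  have hs : IsSelfAdjoint h := IsSelfAdjoint.of_nonneg hh
  have hss : star h = h := hs
  obtain ⟨c, hc⟩ := gcasplit_sq hI H hhI hs (fun x hx => hx)
  have hhh : h * h ≠ 0 := by
    intro h1
    apply h0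
    rw [← CStarRing.star_mul_self_eq_zero_iff, hss]
    exact h1
  have hpos : 0 ≤ h * h := by
    have := star_mul_self_nonneg h
    rwa [hss] at this
  have hcp : 0 < c := by
    by_contra hcn
    push Not at hcn
    have h1 : c • h ≤ 0 := by
      have := smul_nonneg (neg_nonneg.2 hcn) hh
      rw [neg_smul] at this
      exact neg_nonneg.1 this
    rw [← hc] at h1
    exact hhh (le_antisymm h1 hpos)
  set p : E := c⁻¹ • h with hp
  have hps : star p = p := by rw [hp, star_smul, hss, star_trivial]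
  have hp2 : p * p = p := by
    rw [hp, smul_mul_smul_comm, hc, smul_smul]
    congr 1
    field_simp
  have hp0 : p ≠ 0 := smul_ne_zero (inv_ne_zero hcp.ne') h0
  have hpI : p ∈ I := by
    have e1 : p = algebraMap ℝ E c⁻¹ * h := by
      rw [hp, Algebra.algebraMap_eq_smul_one, smul_mul_assoc, one_mul]
    rw [e1]
    exact I.mul_mem_left _ hhI
  refine hmin p hpI hps hp2 hp0 fun a => ?_
  obtain ⟨e1, he1⟩ := gcasplit_corner hI H hpI hps hp2 hp (b := (realPart a : E)) (realPart a).2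
  obtain ⟨e2, he2⟩ :=
    gcasplit_corner hI H hpI hps hp2 hp (b := (imaginaryPart a : E)) (imaginaryPart a).2
  refine ⟨(e1 : ℂ) + Complex.I * (e2 : ℂ), ?_⟩
  have h1 : a = (realPart a : E) + Complex.I • (imaginaryPart a : E) :=
    (realPart_add_I_smul_imaginaryPart a).symm
  have h2 : p * a * p = p * (realPart a : E) * p + Complex.I • (p * (imaginaryPart a : E) * p) := by
    have h3 : p * (Complex.I • (imaginaryPart a : E)) = Complex.I • (p * (imaginaryPart a : E)) :=
      mul_smul_comm _ _ _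
    have h4 : (Complex.I • (p * (imaginaryPart a : E))) * p =
        Complex.I • (p * (imaginaryPart a : E) * p) := smul_mul_assoc _ _ _
    conv_lhs => rw [h1]
    rw [mul_add, add_mul, h3, h4]
  rw [h2, he1, he2, add_smul, mul_smul]
  simp only [Complex.coe_smul]

theorem exists_orthG (hI : GoodIdeal I)
    (hmin : ∀ p ∈ I, star p = p → p * p = p → p ≠ 0 → ¬ ∀ a, ∃ c : ℂ, p * a * p = c • p)
    {h : E} (hhI : h ∈ I) (hh : 0 ≤ h) (h0 : h ≠ 0) (L : ℕ) :
    ∃ g : Fin L → E, (∀ i, g i ∈ I ∧ 0 ≤ g i ∧ g i ≠ 0 ∧ ∀ x, x * h = 0 → x * g i = 0) ∧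
      ∀ i j, i ≠ j → g i * g j = 0 := by
  induction L generalizing h with
  | zero => exact ⟨fun i => i.elim0, fun i => i.elim0, fun i => i.elim0⟩
  | succ L ih =>
    obtain ⟨g₁, m1, g₂, m2, a1, a2, a3, a4, a5, a6⟩ := split_twoG hI hmin hhI hh h0
    obtain ⟨g', b1, b2⟩ := ih m2 a2 a4
    have k1 : ∀ i, g₁ * g' i = 0 := fun i => (b1 i).2.2.2 g₁ a5
    have k2 : ∀ i, g' i * g₁ = 0 := by
      intro i
      have h1 : star (g₁ * g' i) = 0 := by rw [k1 i, star_zero]
      have s1 : star g₁ = g₁ := IsSelfAdjoint.of_nonneg a1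
      have s2 : star (g' i) = g' i := IsSelfAdjoint.of_nonneg (b1 i).2.1
      rwa [star_mul, s1, s2] at h1
    refine ⟨Fin.cons g₁ g', fun i => ?_, fun i j hij => ?_⟩
    · refine Fin.cases ?_ (fun i => ?_) i
      · rw [Fin.cons_zero]
        exact ⟨m1, a1, a3, fun x hx => (a6 x hx).1⟩
      · rw [Fin.cons_succ]
        exact ⟨(b1 i).1, (b1 i).2.1, (b1 i).2.2.1, fun x hx => (b1 i).2.2.2 x (a6 x hx).2⟩
    · revert hij
      refine Fin.cases ?_ (fun i => ?_) i <;> refine Fin.cases ?_ (fun j => ?_) j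
      · intro h
        exact absurd rfl h
      · intro _
        rw [Fin.cons_zero, Fin.cons_succ]
        exact k1 j
      · intro _
        rw [Fin.cons_zero, Fin.cons_succ]
        exact k2 i
      · intro h
        rw [Fin.cons_succ, Fin.cons_succ]
        exact b2 i j fun h' => h (by rw [h'])

end P095G
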