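import Vale.Agent.Lib.P095G.GTr
import Vale.Agent.Lib.P095F.CASt

/-!
# P095G, part GCA, module GCAId: facts on the ideal `I`

`haveI := hI.two`, `haveI := hI.closed` give the quotient C*-algebra `E ⧸ I` and `quotMk I` (file
Vale/Agent/Lib/P101/Quot.lean), `quotMk_eq_zero_iff`.

`gca_star_mem`: `quotMk I (star x) = star (quotMk I x)`.
`gca_mem_of_star_mul_self`: `star (q y) * q y = 0` (`CStarRing.star_mul_self_eq_zero_iff`).
`gca_mem_of_inIdeal`: `x = ∑ l, a l * y l * b l` with `y l = a₀`.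
`gca_mem_of_fix`: `q (f0) = 0`, so `l * ‖q x‖ = ‖q (f0 * x - l • x)‖ ≤ ‖f0 * x - l • x‖ < l`
(`quot_norm_mk_le` or `StarAlgHom` norm contraction `NonUnitalStarAlgHom.norm_apply_le`), `‖q x‖ < 1` (note `l > 0`)
and `q x * q h = q h`, so `q h = 0`.
`gca_exists_unit`: `u' = cfc (fun t => t / (ε + t)) u` with the order `spectralOrder` (0 ≤ u because `u = star c * c`);
`u' = u * cfc (fun t => 1 / (ε + t)) u ∈ I`, `‖u' * u - u‖ = ‖cfc (fun t => ε * t / (ε + t)) u‖ ≤ ε`; `0 ≤ u' ≤ 1`.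
Compare `exists_approx` in Vale/Agent/Lib/P101/Quot.lean.
-/

open scoped ENNReal Topology
open Filter P101 P095E P095F

namespace P095G

universe u

variable {E : Type u} [CStarAlgebra E] {I : Ideal E}

theorem gca_star_mem (hI : GoodIdeal I) {x : E} (hx : x ∈ I) : star x ∈ I := by
  have := hI.two
  exact star_mem_of_closed I hI.closed hx

theorem gca_mem_of_star_mul_self (hI : GoodIdeal I) {y : E} (hy : star y * y ∈ I) : y ∈ I := by
  have := hI.two
  have hcl : y ∈ closure (I : Set E) := by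
    rw [Metric.mem_closure_iff]
    intro ε hε
    obtain ⟨z, -, -, -, -, -, h⟩ := exists_approx y (half_pos hε)
    refine ⟨y * (star y * y * z), ?_, ?_⟩
    · show y * (star y * y * z) ∈ I
      exact I.mul_mem_left _ (I.mul_mem_right _ hy)
    · rw [dist_eq_norm]
      have e : y - y * (star y * y * z) = y * (1 - star y * y * z) := by rw [mul_sub, mul_one]
      rw [e]
      linarith
  rwa [hI.closed.closure_eq] at hcl

theorem gca_mem_of_inIdeal (hI : GoodIdeal I) {a₀ u : E} (h0 : a₀ ∈ I) (hu : InIdeal {a₀} u) :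
    u ∈ I := by
  have := hI.two
  obtain ⟨m, a, y, b, hy, rfl⟩ := hu
  refine I.sum_mem fun l _ => ?_
  rw [Set.mem_singleton_iff.1 (hy l)]
  exact I.mul_mem_right _ (I.mul_mem_left _ h0)

theorem gca_mem_of_fix (hI : GoodIdeal I) {f0 x h : E} {l : ℝ} (hf : f0 ∈ I)
    (hx : ‖f0 * x - (l : ℂ) • x‖ < l) (hxh : x * h = h) : h ∈ I := by
  have := hI.two
  have hl : 0 < l := lt_of_le_of_lt (norm_nonneg _) hx
  have hlc : (l : ℂ) ≠ 0 := by exact_mod_cast hl.ne'
  obtain ⟨d, hd⟩ : ∃ d : E, d = -((l : ℂ)⁻¹ • (f0 * x - (l : ℂ) • x)) := ⟨_, rfl⟩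
  have hdn : ‖d‖ < 1 := by
    rw [hd, norm_neg, norm_smul, norm_inv, Complex.norm_real, Real.norm_eq_abs, abs_of_pos hl,
      inv_mul_lt_iff₀ hl, mul_one]
    exact hx
  have hu : IsUnit (1 - d) := isUnit_one_sub_of_norm_lt_one hdn
  have hdh : d * h = h - (l : ℂ)⁻¹ • (f0 * h) := by
    rw [hd, neg_mul, smul_mul_assoc, sub_mul, smul_mul_assoc, mul_assoc, hxh, smul_sub,
      smul_smul, inv_mul_cancel₀ hlc, one_smul]
    abel
  have h1 : (1 - d) * h ∈ I := by
    rw [sub_mul, one_mul, hdh, sub_sub_cancel]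
    have e : (l : ℂ)⁻¹ • (f0 * h) = ((l : ℂ)⁻¹ • (1 : E)) * (f0 * h) := by
      rw [smul_mul_assoc, one_mul]
    rw [e]
    exact I.mul_mem_left _ (I.mul_mem_right _ hf)
  obtain ⟨w, hw⟩ := hu
  have h2 : h = (↑w⁻¹ : E) * ((1 - d) * h) := by
    rw [← hw, Units.inv_mul_cancel_left]
  rw [h2]
  exact I.mul_mem_left _ h1

section

attribute [local instance] CStarAlgebra.spectralOrder CStarAlgebra.spectralOrderedRing

theorem gca_exists_unit (hI : GoodIdeal I) {u : E} (hu : u ∈ I) (hp : PosC u) {ε : ℝ}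
    (hε : 0 < ε) : ∃ u' ∈ I, PosC u' ∧ ‖u' * u - u‖ ≤ ε := by
  have := hI.two
  obtain ⟨⟨c, hc⟩, hn⟩ := hp
  have hsa : IsSelfAdjoint u := hc ▸ IsSelfAdjoint.star_mul_self c
  have hc0 : 0 ≤ u := hc ▸ star_mul_self_nonneg c
  have hsp : ∀ t ∈ spectrum ℝ u, 0 ≤ t := fun t ht => spectrum_nonneg_of_nonneg hc0 ht
  have hpos : ∀ t ∈ spectrum ℝ u, 0 < ε + t := fun t ht => add_pos_of_pos_of_nonneg hε (hsp t ht)
  have hcf : ContinuousOn (fun t : ℝ => (ε + t)⁻¹) (spectrum ℝ u) :=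
    ContinuousOn.inv₀ (by fun_prop) (fun t ht => (hpos t ht).ne')
  have hcg : ContinuousOn (fun t : ℝ => t * (ε + t)⁻¹) (spectrum ℝ u) :=
    continuousOn_id.mul hcf
  have hg : u * cfc (fun t : ℝ => (ε + t)⁻¹) u = cfc (fun t : ℝ => t * (ε + t)⁻¹) u := by
    rw [cfc_mul (fun t : ℝ => t) _ u continuousOn_id hcf, cfc_id' ℝ u]
  refine ⟨cfc (fun t : ℝ => t * (ε + t)⁻¹) u, ?_, ⟨?_, ?_⟩, ?_⟩
  · rw [← hg]
    exact I.mul_mem_right _ hu
  · have h0 : 0 ≤ cfc (fun t : ℝ => t * (ε + t)⁻¹) u := by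
      refine cfc_nonneg fun t ht => ?_
      exact mul_nonneg (hsp t ht) (inv_nonneg.2 (hpos t ht).le)
    exact CStarAlgebra.nonneg_iff_eq_star_mul_self.1 h0
  · refine norm_cfc_le zero_le_one fun t ht => ?_
    have ht0 := hsp t ht
    have hp := hpos t ht
    rw [Real.norm_eq_abs, abs_of_nonneg (by positivity), ← div_eq_mul_inv, div_le_one hp]
    linarith
  · have e1 : cfc (fun t : ℝ => t * (ε + t)⁻¹) u * u - u =
        cfc (fun t : ℝ => t * (ε + t)⁻¹ * t - t) u := by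
      rw [cfc_sub (fun t : ℝ => t * (ε + t)⁻¹ * t) (fun t : ℝ => t) u (hcg.mul continuousOn_id)
        continuousOn_id, cfc_mul (fun t : ℝ => t * (ε + t)⁻¹) (fun t : ℝ => t) u hcg
        continuousOn_id, cfc_id' ℝ u]
    rw [e1]
    refine norm_cfc_le hε.le fun t ht => ?_
    have ht0 := hsp t ht
    have hp := hpos t ht
    have e2 : t * (ε + t)⁻¹ * t - t = -(ε * (t / (ε + t))) := by
      field_simp
      ring
    rw [Real.norm_eq_abs, e2, abs_neg, abs_of_nonneg (by positivity)]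
    refine mul_le_of_le_one_right hε.le ?_
    rw [div_le_one hp]
    linarith

end

end P095G
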