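import Vale.Agent.Lib.P095G.GBB
import Vale.Agent.Lib.P095G.GCAId

/-!
# P095G, part GCA, module GCAUnit: local units in the Pedersen ideal

`c = ∑ y ∈ Y, y * star y ∈ I`, `0 ≤ c` (spectral order).  With the cut-off `f_δ t = max 0 (min 1 (t / δ - 1))` (`0` for
`t ≤ δ`, `1` for `t ≥ 2 δ`) put `v = cfc f_δ c`, `u₂ = cfc f_{δ/2} c`, `u₃ = cfc f_{δ/4} c`; `f_{δ/2} f_δ = f_δ` gives
`u₂ * v = v`, `u₃ * u₂ = u₂`.  All are in `I` (`gb_cfc_mem` of GBA.lean) and `PosC`, so `v, u₂` are in the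
Pedersen ideal by `gb_mem` (GBB.lean).  `‖v * y - y‖^2 = ‖(1 - v) y star y (1 - v)‖ ≤ ‖(1 - v) c (1 - v)‖ ≤ 2 δ ≤ ε^2`
(`y * star y ≤ c`, `(1 - f_δ t)^2 t ≤ 2 δ` for `t ≥ 0`).  The file G1Unit.lean has a similar proof (private lemmas).
-/

open scoped ENNReal Topology
open Filter P101 P095E P095F

namespace P095G

universe u

variable {E : Type u} [CStarAlgebra E] {I : Ideal E}

/-- cut-off function -/
private noncomputable def gcaunit_f (δ t : ℝ) : ℝ := max 0 (min 1 (t / δ - 1))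

private theorem gcaunit_f_cont (δ : ℝ) : Continuous (gcaunit_f δ) := by
  unfold gcaunit_f
  fun_prop

private theorem gcaunit_f_nonneg (δ t : ℝ) : 0 ≤ gcaunit_f δ t := le_max_left _ _

private theorem gcaunit_f_le_one (δ t : ℝ) : gcaunit_f δ t ≤ 1 :=
  max_le (by norm_num) (min_le_left _ _)

private theorem gcaunit_f_zero {δ t : ℝ} (hδ : 0 < δ) (ht : t ≤ δ) : gcaunit_f δ t = 0 := by
  unfold gcaunit_f
  have h1 : t / δ ≤ 1 := (div_le_one hδ).2 ht
  exact max_eq_left ((min_le_right _ _).trans (by linarith))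

private theorem gcaunit_f_one {δ t : ℝ} (hδ : 0 < δ) (ht : 2 * δ ≤ t) : gcaunit_f δ t = 1 := by
  unfold gcaunit_f
  have h1 : 2 ≤ t / δ := (le_div_iff₀ hδ).2 ht
  rw [min_eq_left (by linarith)]
  exact max_eq_right (by norm_num)

/-- the cut-offs of one positive element -/
private theorem gcaunit_pos (hI : GoodIdeal I) {c : E} (hc : c ∈ I)
    (hpos : ∃ d, c = star d * d) {δ : ℝ} (hδ : 0 < δ) :
    ∃ v u₂ u₃ : E, v ∈ I ∧ u₂ ∈ I ∧ u₃ ∈ I ∧ PosC v ∧ PosC u₂ ∧ PosC u₃ ∧ u₂ * v = v ∧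
      u₃ * u₂ = u₂ ∧ ‖(1 - v) * c * (1 - v)‖ ≤ 2 * δ := by
  let _ := CStarAlgebra.spectralOrder E
  have := CStarAlgebra.spectralOrderedRing E
  have hc0 : 0 ≤ c := CStarAlgebra.nonneg_iff_eq_star_mul_self.2 hpos
  have hsa : IsSelfAdjoint c := IsSelfAdjoint.of_nonneg hc0
  have hP : ∀ δ' : ℝ, PosC (cfc (gcaunit_f δ') c) := by
    intro δ'
    refine ⟨CStarAlgebra.nonneg_iff_eq_star_mul_self.1
      (cfc_nonneg fun t _ => gcaunit_f_nonneg δ' t), norm_cfc_le (by norm_num) fun t _ => ?_⟩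
    rw [Real.norm_of_nonneg (gcaunit_f_nonneg δ' t)]
    exact gcaunit_f_le_one δ' t
  have hM : ∀ δ' : ℝ, 0 < δ' → cfc (gcaunit_f δ') c ∈ I := fun δ' hδ' =>
    gb_cfc_mem hI hc hsa _ (gcaunit_f_cont δ') (gcaunit_f_zero hδ' hδ'.le)
  have hU : ∀ δ' : ℝ, 0 < δ' → cfc (gcaunit_f (δ' / 2)) c * cfc (gcaunit_f δ') c =
      cfc (gcaunit_f δ') c := by
    intro δ' hδ'
    rw [← cfc_mul (gcaunit_f (δ' / 2)) (gcaunit_f δ') c (gcaunit_f_cont _).continuousOn
      (gcaunit_f_cont _).continuousOn]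
    refine cfc_congr fun t _ => ?_
    change gcaunit_f (δ' / 2) t * gcaunit_f δ' t = gcaunit_f δ' t
    rcases le_total t δ' with h | h
    · rw [gcaunit_f_zero hδ' h, mul_zero]
    · rw [gcaunit_f_one (half_pos hδ') (by linarith), one_mul]
  refine ⟨cfc (gcaunit_f δ) c, cfc (gcaunit_f (δ / 2)) c, cfc (gcaunit_f (δ / 2 / 2)) c,
    hM δ hδ, hM _ (half_pos hδ), hM _ (half_pos (half_pos hδ)), hP _, hP _, hP _, hU δ hδ,
    hU _ (half_pos hδ), ?_⟩
  have h1 : (1 - cfc (gcaunit_f δ) c) * c * (1 - cfc (gcaunit_f δ) c) =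
      cfc (fun t : ℝ => (1 - gcaunit_f δ t) * t * (1 - gcaunit_f δ t)) c := by
    have hcont := gcaunit_f_cont δ
    have e1 : cfc (fun t : ℝ => 1 - gcaunit_f δ t) c = 1 - cfc (gcaunit_f δ) c := by
      rw [cfc_sub (fun _ : ℝ => (1 : ℝ)) (gcaunit_f δ) c (by fun_prop) hcont.continuousOn,
        cfc_const_one ℝ c]
    rw [cfc_mul (fun t : ℝ => (1 - gcaunit_f δ t) * t) (fun t : ℝ => 1 - gcaunit_f δ t) c
      (by fun_prop) (by fun_prop), cfc_mul (fun t : ℝ => 1 - gcaunit_f δ t) (fun t : ℝ => t) c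
      (by fun_prop) (by fun_prop), e1, cfc_id' ℝ c]
  rw [h1]
  refine norm_cfc_le (by positivity) fun t ht => ?_
  have ht0 : 0 ≤ t := spectrum_nonneg_of_nonneg hc0 ht
  have f0 := gcaunit_f_nonneg δ t
  have f1 := gcaunit_f_le_one δ t
  have h2 : 0 ≤ (1 - gcaunit_f δ t) * t * (1 - gcaunit_f δ t) :=
    mul_nonneg (mul_nonneg (by linarith) ht0) (by linarith)
  rw [Real.norm_of_nonneg h2]
  rcases le_total (2 * δ) t with h | h
  · rw [gcaunit_f_one hδ h, sub_self, mul_zero]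
    positivity
  · have h3 : (1 - gcaunit_f δ t) * t * (1 - gcaunit_f δ t) ≤ 1 * t * 1 :=
      mul_le_mul (mul_le_mul_of_nonneg_right (by linarith) ht0) (by linarith) (by linarith)
        (by linarith)
    linarith

theorem gca_local_units (hI : GoodIdeal I) {a₀ a₁ : E} (hT : TrBase I a₀ a₁) (Y : Finset E)
    (hY : ∀ y ∈ Y, y ∈ I) {ε : ℝ} (hε : 0 < ε) :
    ∃ v u₂ : E, InIdeal {a₀} v ∧ PosC v ∧ InIdeal {a₀} u₂ ∧ PosC u₂ ∧ u₂ * v = v ∧
      ∀ y ∈ Y, ‖v * y - y‖ ≤ ε := by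
  let _ := CStarAlgebra.spectralOrder E
  have := CStarAlgebra.spectralOrderedRing E
  have htwo := hI.two
  set c : E := ∑ y ∈ Y, y * star y with hc
  have hcI : c ∈ I := Submodule.sum_mem _ fun y hy => I.mul_mem_right _ (hY y hy)
  have hc0 : 0 ≤ c := Finset.sum_nonneg fun y _ => mul_star_self_nonneg y
  obtain ⟨v, u₂, u₃, hvI, h2I, h3I, hv, h2, h3, h2v, h32, hn⟩ := gcaunit_pos hI hcI
    (CStarAlgebra.nonneg_iff_eq_star_mul_self.1 hc0) (δ := ε ^ 2 / 2) (by positivity)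
  have hsv : star v = v := by
    obtain ⟨⟨d, hd⟩, -⟩ := hv
    rw [hd, star_mul, star_star]
  have hsu : star (1 - v) = 1 - v := by rw [star_sub, star_one, hsv]
  have hn' : ‖(1 - v) * c * (1 - v)‖ ≤ ε ^ 2 := hn.trans (le_of_eq (by ring))
  have key : ∀ w : E, 0 ≤ w → w ≤ c → ‖(1 - v) * w * (1 - v)‖ ≤ ε ^ 2 := by
    intro w hw0 hwc
    have h1 := star_left_conjugate_le_conjugate hwc (1 - v)
    have h0 := star_left_conjugate_nonneg hw0 (1 - v)
    rw [hsu] at h1 h0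
    exact (CStarAlgebra.norm_le_norm_of_nonneg_of_le h0 h1).trans hn'
  refine ⟨v, u₂, gb_mem hI hT h2I h2 h2v, hv, gb_mem hI hT h3I h3 h32, h2, h2v,
    fun y hy => ?_⟩
  have hle : y * star y ≤ c :=
    Finset.single_le_sum (f := fun y => y * star y) (fun y _ => mul_star_self_nonneg y) hy
  have h1 : v * y - y = - ((1 - v) * y) := by noncomm_ring
  have h4 : ‖(1 - v) * y‖ * ‖(1 - v) * y‖ ≤ ε ^ 2 := by
    rw [← CStarRing.norm_self_mul_star, star_mul, hsu]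
    have h5 : (1 - v) * y * (star y * (1 - v)) = (1 - v) * (y * star y) * (1 - v) := by
      simp only [mul_assoc]
    rw [h5]
    exact key _ (mul_star_self_nonneg y) hle
  rw [h1, norm_neg]
  exact abs_le_of_sq_le_sq' (by nlinarith [norm_nonneg ((1 - v) * y)]) hε.le |>.2

end P095G
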