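import Vale.Agent.Lib.P095G.GCAExc
import Vale.Agent.Lib.P095G.GCAFin
import Vale.Agent.Lib.P095G.GCASplit
import Vale.Agent.Lib.P095F.CACP
import Vale.Agent.Lib.P095G.GCAEst
import Vale.Agent.Lib.P095G.GCAUnit

/-!
# P095G, part GCA, module GCACore: the element `s` for a finite set `T ⊂ I`

The proof is the one of `P095F.si_local` (file P095F/CAFinal.lean).  Changes: `T` instead of `insert 1 S`, `excisionG`,
`cp_approx_finiteG`, `exists_orthG`; `c l p := c₀ l p * w` with the Kraus coefficients `c₀`; `v` in the Pedersen ideal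
with `v * c l p ~ c l p` and a unit `u₂` for `v` (`gca_local_units`); very weak comparison for `u₂` and `v * e * v`.
-/

open scoped ENNReal Topology
open Filter P101 P095E P095F

namespace P095G

universe u

variable {E : Type u} [CStarAlgebra E] {I : Ideal E}

private theorem gcacore_bound (T : Finset E) : ∃ C : ℝ, 1 ≤ C ∧ ∀ a ∈ T, ‖a‖ ≤ C := by
  refine ⟨1 + ∑ a ∈ T, ‖a‖, ?_, fun a ha => ?_⟩
  · have : 0 ≤ ∑ a ∈ T, ‖a‖ := Finset.sum_nonneg fun a _ => norm_nonneg a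
    linarith
  · have := Finset.single_le_sum (f := fun a : E => ‖a‖) (fun a _ => norm_nonneg a) ha
    linarith

private theorem gcacore_min {m : ℕ} (η : Fin m → ℝ) (h : ∀ i, 0 < η i) :
    ∃ t : ℝ, 0 < t ∧ ∀ i, t ≤ η i := by
  rcases isEmpty_or_nonempty (Fin m) with hm | hm
  · exact ⟨1, one_pos, fun i => (hm.false i).elim⟩
  · obtain ⟨i, hi⟩ := Finite.exists_min η
    exact ⟨η i, h i, hi⟩

/-- the second half of the estimate -/
private theorem gcacore_half {k : ℕ} (c : Fin k → Fin k → E) (e a : E) (F : Matrix (Fin k) (Fin k) ℂ)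
    (v : Fin k → Fin k → ℂ) {C₁ ε₁ ε₀ : ℝ} (hC : 0 ≤ C₁) (hε₁ : 0 ≤ ε₁)
    (hc : ∀ l p, ‖c l p‖ ≤ C₁) (he : ‖e‖ ≤ 1) (hv : ∀ p q, ‖F p q - v p q‖ ≤ ε₁)
    (hF : ‖(∑ p, ∑ q, F p q • ∑ l, star (c l p) * c l q) - a‖ ≤ ε₀) :
    ‖(∑ p, ∑ q, v p q • ((∑ l, star (c l p) * c l q) * e)) - a * e‖ ≤
      k ^ 3 * C₁ ^ 2 * ε₁ + ε₀ := by
  have h1 : (∑ p, ∑ q, v p q • ((∑ l, star (c l p) * c l q) * e)) - a * e =
      ((∑ p, ∑ q, F p q • ∑ l, star (c l p) * c l q) - a) * e -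
        ∑ p, ∑ q, (F p q - v p q) • ((∑ l, star (c l p) * c l q) * e) := by
    simp only [sub_smul, Finset.sum_sub_distrib, sub_mul, Finset.sum_mul, smul_mul_assoc]
    abel
  rw [h1]
  have h2 : ∀ p q, ‖∑ l, star (c l p) * c l q‖ ≤ k * C₁ ^ 2 := by
    intro p q
    refine (norm_sum_le _ _).trans ?_
    have h3 : ∀ l ∈ (Finset.univ : Finset (Fin k)), ‖star (c l p) * c l q‖ ≤ C₁ ^ 2 := by
      intro l _
      refine (norm_mul_le _ _).trans ?_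
      rw [norm_star, pow_two]
      exact mul_le_mul (hc l p) (hc l q) (norm_nonneg _) hC
    refine (Finset.sum_le_sum h3).trans ?_
    rw [Finset.sum_const, Finset.card_univ, Fintype.card_fin, nsmul_eq_mul]
  have h4 : ∀ p q, ‖(F p q - v p q) • ((∑ l, star (c l p) * c l q) * e)‖ ≤
      ε₁ * (k * C₁ ^ 2) := by
    intro p q
    rw [norm_smul]
    refine mul_le_mul (hv p q) ?_ (norm_nonneg _) hε₁
    refine (norm_mul_le _ _).trans ?_
    calc ‖∑ l, star (c l p) * c l q‖ * ‖e‖ ≤ (k * C₁ ^ 2) * 1 :=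
          mul_le_mul (h2 p q) he (norm_nonneg _) (by positivity)
      _ = k * C₁ ^ 2 := mul_one _
  have h5 : ‖∑ p, ∑ q, (F p q - v p q) • ((∑ l, star (c l p) * c l q) * e)‖ ≤
      k ^ 3 * C₁ ^ 2 * ε₁ := by
    refine (norm_sum_le _ _).trans ?_
    have h6 : ∀ p ∈ (Finset.univ : Finset (Fin k)),
        ‖∑ q, (F p q - v p q) • ((∑ l, star (c l p) * c l q) * e)‖ ≤
          k * (ε₁ * (k * C₁ ^ 2)) := by
      intro p _
      refine (norm_sum_le _ _).trans ?_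
      refine (Finset.sum_le_sum fun q _ => h4 p q).trans ?_
      rw [Finset.sum_const, Finset.card_univ, Fintype.card_fin, nsmul_eq_mul]
    refine (Finset.sum_le_sum h6).trans ?_
    rw [Finset.sum_const, Finset.card_univ, Fintype.card_fin, nsmul_eq_mul]
    exact le_of_eq (by ring)
  refine (norm_sub_le _ _).trans ?_
  have h7 : ‖((∑ p, ∑ q, F p q • ∑ l, star (c l p) * c l q) - a) * e‖ ≤ ε₀ := by
    refine (norm_mul_le _ _).trans ?_
    calc _ ≤ ε₀ * 1 := mul_le_mul hF he (norm_nonneg _) ((norm_nonneg _).trans hF)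
      _ = ε₀ := mul_one _
  linarith

private theorem gcacore_norm_s {n k : ℕ} (d : Fin n → Fin k → E) (c : Fin k → Fin k → E) (x : E)
    (r : Fin n → Fin k → E) {C : ℝ} (hC : 0 ≤ C) (hd : ∀ j p, ‖d j p‖ ≤ C)
    (hc : ∀ l p, ‖c l p‖ ≤ C) (hr : ∀ j l, ‖r j l‖ ≤ 2) (hx : ‖x‖ ≤ 1) :
    ‖ca_s d c x r‖ ≤ n * k ^ 2 * (2 * C ^ 2) := by
  have h1 : ∀ j l p, ‖d j p * x * r j l * c l p‖ ≤ 2 * C ^ 2 := by
    intro j l p
    have h2 : ‖d j p * x‖ ≤ C * 1 :=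
      (norm_mul_le _ _).trans (mul_le_mul (hd j p) hx (norm_nonneg _) hC)
    have h3 : ‖d j p * x * r j l‖ ≤ C * 1 * 2 :=
      (norm_mul_le _ _).trans (mul_le_mul h2 (hr j l) (norm_nonneg _) (by positivity))
    have h4 : ‖d j p * x * r j l * c l p‖ ≤ C * 1 * 2 * C :=
      (norm_mul_le _ _).trans (mul_le_mul h3 (hc l p) (norm_nonneg _) (by positivity))
    refine h4.trans (le_of_eq (by ring))
  unfold ca_s
  have h5 : ∀ j l, ‖∑ p, d j p * x * r j l * c l p‖ ≤ k * (2 * C ^ 2) := by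
    intro j l
    refine (norm_sum_le _ _).trans ((Finset.sum_le_sum fun p _ => h1 j l p).trans ?_)
    rw [Finset.sum_const, Finset.card_univ, Fintype.card_fin, nsmul_eq_mul]
  have h6 : ∀ j, ‖∑ l, ∑ p, d j p * x * r j l * c l p‖ ≤ k * (k * (2 * C ^ 2)) := by
    intro j
    refine (norm_sum_le _ _).trans ((Finset.sum_le_sum fun l _ => h5 j l).trans ?_)
    rw [Finset.sum_const, Finset.card_univ, Fintype.card_fin, nsmul_eq_mul]
  refine (norm_sum_le _ _).trans ((Finset.sum_le_sum fun j _ => h6 j).trans ?_)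
  rw [Finset.sum_const, Finset.card_univ, Fintype.card_fin, nsmul_eq_mul]
  exact le_of_eq (by ring)

private theorem gcacore_hrc {c₁ c₂ R e v : E} {C t : ℝ} (hC : 1 ≤ C) (ht : 0 ≤ t)
    (hv : ‖v‖ ≤ 1) (he : ‖e‖ ≤ 1) (hc₁ : ‖c₁‖ ≤ C) (hc₂ : ‖c₂‖ ≤ C) (hR : ‖R - v * e * v‖ ≤ t)
    (h1 : ‖c₁ * v - c₁‖ ≤ t) (h2 : ‖v * c₂ - c₂‖ ≤ t) :
    ‖c₁ * (R - e) * c₂‖ ≤ C ^ 2 * (3 * t) := by
  have hC0 : 0 ≤ C := by linarith
  have e1 : c₁ * (R - e) * c₂ = c₁ * (R - v * e * v) * c₂ + (c₁ * v - c₁) * e * (v * c₂) +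
      c₁ * e * (v * c₂ - c₂) := by
    noncomm_ring
  have e2 : ‖c₁ * (R - v * e * v) * c₂‖ ≤ C * t * C :=
    (norm_mul_le _ _).trans (mul_le_mul ((norm_mul_le _ _).trans
      (mul_le_mul hc₁ hR (norm_nonneg _) hC0)) hc₂ (norm_nonneg _) (by positivity))
  have hvcq : ‖v * c₂‖ ≤ 1 * C :=
    (norm_mul_le _ _).trans (mul_le_mul hv hc₂ (norm_nonneg _) zero_le_one)
  have e3 : ‖(c₁ * v - c₁) * e * (v * c₂)‖ ≤ t * 1 * (1 * C) :=
    (norm_mul_le _ _).trans (mul_le_mul ((norm_mul_le _ _).trans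
      (mul_le_mul h1 he (norm_nonneg _) ht)) hvcq (norm_nonneg _) (by positivity))
  have e4 : ‖c₁ * e * (v * c₂ - c₂)‖ ≤ C * 1 * t :=
    (norm_mul_le _ _).trans (mul_le_mul ((norm_mul_le _ _).trans
      (mul_le_mul hc₁ he (norm_nonneg _) hC0)) h2 (norm_nonneg _) (by positivity))
  rw [e1]
  refine (norm_add_le _ _).trans ((add_le_add ((norm_add_le _ _).trans
    (add_le_add e2 e3)) e4).trans ?_)
  have e5 : C ≤ C ^ 2 := by nlinarith
  have e6 : C * t ≤ C ^ 2 * t := mul_le_mul_of_nonneg_right e5 ht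
  nlinarith

private theorem gcacore_tb1 {n k C t ε B : ℝ} (hn : 0 ≤ n) (hk : 0 ≤ k) (hC : 0 ≤ C) (ht : 0 ≤ t)
    (hB : B = n ^ 2 * k ^ 4 * (4 * C ^ 2) + n * k ^ 3 * (3 * C ^ 5 + C ^ 4) +
      n * k ^ 2 * (2 * C ^ 2 * 2) + 1) (htB : B * t ≤ ε / 5) :
    n ^ 2 * k ^ 4 * (4 * C ^ 2 * t) + n * k ^ 3 * (C ^ 5 * (3 * t) + C ^ 4 * t) ≤ ε / 5 := by
  refine le_trans ?_ htB
  have h1 : B * t - (n ^ 2 * k ^ 4 * (4 * C ^ 2 * t) +
      n * k ^ 3 * (C ^ 5 * (3 * t) + C ^ 4 * t)) = (n * k ^ 2 * (2 * C ^ 2 * 2) + 1) * t := by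
    rw [hB]
    ring
  have h2 : 0 ≤ (n * k ^ 2 * (2 * C ^ 2 * 2) + 1) * t := by positivity
  linarith

private theorem gcacore_tb2 {n k C t ε B : ℝ} (hn : 0 ≤ n) (hk : 0 ≤ k) (hC : 0 ≤ C) (ht : 0 ≤ t)
    (hB : B = n ^ 2 * k ^ 4 * (4 * C ^ 2) + n * k ^ 3 * (3 * C ^ 5 + C ^ 4) +
      n * k ^ 2 * (2 * C ^ 2 * 2) + 1) (htB : B * t ≤ ε / 5) :
    n * k ^ 2 * (2 * C ^ 2 * (t + t)) ≤ ε / 5 := by
  refine le_trans ?_ htB
  have h1 : B * t - (n * k ^ 2 * (2 * C ^ 2 * (t + t))) =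
      (n ^ 2 * k ^ 4 * (4 * C ^ 2) + n * k ^ 3 * (3 * C ^ 5 + C ^ 4) + 1) * t := by
    rw [hB]
    ring
  have h2 : 0 ≤ (n ^ 2 * k ^ 4 * (4 * C ^ 2) + n * k ^ 3 * (3 * C ^ 5 + C ^ 4) + 1) * t := by
    positivity
  linarith

private theorem gcacore_frac {X ε : ℝ} (hX : 0 ≤ X) (hε : 0 ≤ ε) :
    X * (ε / (5 * (X + 1))) ≤ ε / 5 := by
  have h4 : X * (ε / (5 * (X + 1))) = ε / 5 * (X / (X + 1)) := by
    field_simp
  rw [h4]
  have h5 : X / (X + 1) ≤ 1 := by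
    rw [div_le_one (by linarith)]
    linarith
  nlinarith

private theorem gcacore_conj {w x a : E} {ε : ℝ} (hw : ‖w‖ ≤ 1) (h : ‖x - a‖ ≤ ε) :
    ‖w * x * w - w * a * w‖ ≤ ε := by
  have hε : 0 ≤ ε := (norm_nonneg _).trans h
  have e1 : w * x * w - w * a * w = w * (x - a) * w := by noncomm_ring
  rw [e1]
  calc ‖w * (x - a) * w‖ ≤ 1 * ε * 1 :=
        (norm_mul_le _ _).trans (mul_le_mul ((norm_mul_le _ _).trans
          (mul_le_mul hw h (norm_nonneg _) zero_le_one)) hw (norm_nonneg _) (by positivity))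
    _ = ε := by ring

private theorem gcacore_cube {x y z : E} {C : ℝ} (hC : 0 ≤ C) (hx : ‖x‖ ≤ C) (hy : ‖y‖ ≤ C)
    (hz : ‖z‖ ≤ C) : ‖star x * y * z‖ ≤ C ^ 3 := by
  calc ‖star x * y * z‖ ≤ C * C * C :=
        (norm_mul_le _ _).trans (mul_le_mul ((norm_mul_le _ _).trans
          (mul_le_mul (by rwa [norm_star]) hy (norm_nonneg _) hC)) hz (norm_nonneg _)
          (by positivity))
    _ = C ^ 3 := by ring

private theorem gcacore_kraus {k : ℕ} (θ : Matrix (Fin k) (Fin k) ℂ →ₗ[ℂ] E)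
    (hθ : CPos θ) {w : E} (hw : w ∈ I) (hws : star w = w) :
    ∃ c : Fin k → Fin k → E, (∀ l p, c l p ∈ I) ∧ ∀ m : Matrix (Fin k) (Fin k) ℂ,
      w * θ m * w = ∑ p, ∑ q, m p q • ∑ l, star (c l p) * c l q := by
  obtain ⟨c₀, hc₀⟩ := cp_kraus θ hθ
  refine ⟨fun l p => c₀ l p * w, fun l p => I.mul_mem_left _ hw, ?_⟩
  intro m
  rw [hc₀, Finset.mul_sum, Finset.sum_mul]
  refine Finset.sum_congr rfl fun p _ => ?_
  rw [Finset.mul_sum, Finset.sum_mul]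
  refine Finset.sum_congr rfl fun q _ => ?_
  rw [mul_smul_comm, smul_mul_assoc, Finset.mul_sum, Finset.sum_mul]
  congr 1
  refine Finset.sum_congr rfl fun l _ => ?_
  rw [star_mul, hws]
  simp only [mul_assoc]

theorem si_coreG (hI : GoodIdeal I) (hcp : CPAP E) {a₀ a₁ : E} (hTr : TrBase I a₀ a₁)
    (hvw : VWCG I a₀)
    (hmin : ∀ p ∈ I, star p = p → p * p = p → p ≠ 0 → ¬ ∀ a, ∃ c : ℂ, p * a * p = c • p)
    (T : Finset E) (hT : ∀ a ∈ T, a ∈ I) {ε : ℝ} (hε : 0 < ε) {b : E} (hb : b ∈ I)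
    (hbp : PosC b) {w : E} (hw : w ∈ I) (hwp : PosC w) :
    ∃ (S' : Finset E) (δ N : ℝ) (v : E), 0 < δ ∧ 0 < N ∧ InIdeal {a₀} v ∧ PosC v ∧
      ∀ f : E, PosC f → 1 - δ ≤ ‖b * f * b‖ →
      (∀ a ∈ S', ‖f * a - a * f‖ ≤ δ) → ∃ η : ℝ, 0 < η ∧ ∀ e : E, PosC e →
        (∀ a ∈ S', ‖e * a - a * e‖ ≤ δ) → (∀ τ ∈ Tr a₀, (τ (v * e * v)).re ≤ η) →
          ∃ s : E, ‖s‖ ≤ N ∧ (∀ a ∈ T, ‖star s * a * s - w * a * w * e‖ ≤ ε) ∧
            ‖f * s - s‖ ≤ ε := by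
  classical
  let _ := CStarAlgebra.spectralOrder E
  have _ := CStarAlgebra.spectralOrderedRing E
  have := hI.two
  have hws : star w = w := by
    obtain ⟨⟨z, hz⟩, -⟩ := hwp
    rw [hz, star_mul, star_star]
  obtain ⟨k, φ, θ, hφ, hθ, hφθ⟩ := hcp T (ε / 5) (by positivity)
  obtain ⟨c, hcI, hc⟩ := gcacore_kraus θ hθ hw hws
  obtain ⟨C₁, hC₁, hc1⟩ := gcacore_bound
    (Finset.univ.image (fun q : Fin k × Fin k => c q.1 q.2))
  have hc1' : ∀ l p, ‖c l p‖ ≤ C₁ := fun l p =>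
    hc1 _ (Finset.mem_image.2 ⟨(l, p), Finset.mem_univ _, rfl⟩)
  have hM : (0 : ℝ) < k ^ 3 * C₁ ^ 2 + 1 := by positivity
  obtain ⟨n, DD, hDD, hcov⟩ := cp_approx_finiteG hI hb φ hφ T hT
    (ε := ε / (5 * (k ^ 3 * C₁ ^ 2 + 1))) (by positivity)
  -- the finite set
  let S' : Finset E := (Finset.univ.image (fun q : Fin k × Fin k => c q.1 q.2)) ∪
    (hDD.toFinset.biUnion fun d => Finset.univ.image (fun q : Fin n × Fin k => d q.1 q.2)) ∪
      T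
  have hcS : ∀ l p, c l p ∈ S' := fun l p =>
    Finset.mem_union_left _ (Finset.mem_union_left _
      (Finset.mem_image.2 ⟨(l, p), Finset.mem_univ _, rfl⟩))
  have hdS : ∀ d ∈ DD, ∀ j p, d j p ∈ S' := fun d hd j p =>
    Finset.mem_union_left _ (Finset.mem_union_right _ (Finset.mem_biUnion.2
      ⟨d, hDD.mem_toFinset.2 hd, Finset.mem_image.2 ⟨(j, p), Finset.mem_univ _, rfl⟩⟩))
  have haS : ∀ a ∈ T, a ∈ S' := fun a ha => Finset.mem_union_right _ ha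
  obtain ⟨C, hC, hCS⟩ := gcacore_bound S'
  -- the constant
  have hn0 : (0 : ℝ) ≤ n := Nat.cast_nonneg n
  have hk0 : (0 : ℝ) ≤ k := Nat.cast_nonneg k
  have hC0 : 0 ≤ C := by linarith
  set B : ℝ := n ^ 2 * k ^ 4 * (4 * C ^ 2) + n * k ^ 3 * (3 * C ^ 5 + C ^ 4) +
    n * k ^ 2 * (2 * C ^ 2 * 2) + 1 with hB
  have hB1 : 0 < B := by positivity
  set t : ℝ := min 1 (ε / (5 * B)) with ht
  have ht0 : 0 < t := lt_min one_pos (by positivity)
  have ht1 : t ≤ 1 := min_le_left _ _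
  have htB : B * t ≤ ε / 5 := by
    calc B * t ≤ B * (ε / (5 * B)) := mul_le_mul_of_nonneg_left (min_le_right _ _) hB1.le
      _ = ε / 5 := by field_simp
  obtain ⟨v, u₂, hvI, hvp, hu₂I, hu₂p, hu₂v, hvc⟩ := gca_local_units hI hTr
    (Finset.univ.image (fun q : Fin k × Fin k => c q.1 q.2)) (by
      intro y hy
      obtain ⟨q, _, rfl⟩ := Finset.mem_image.1 hy
      exact hcI _ _) ht0
  have hvs : star v = v := by
    obtain ⟨⟨z, hz⟩, -⟩ := hvp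
    rw [hz, star_mul, star_star]
  have hvc1 : ∀ l p, ‖v * c l p - c l p‖ ≤ t := fun l p =>
    hvc _ (Finset.mem_image.2 ⟨(l, p), Finset.mem_univ _, rfl⟩)
  have hvc2 : ∀ l p, ‖star (c l p) * v - star (c l p)‖ ≤ t := fun l p => by
    have h1 := hvc1 l p
    rwa [← norm_star, star_sub, star_mul, hvs] at h1
  obtain ⟨δ₀, hδ₀, hexc⟩ := excisionG hI hb hbp ht0
  refine ⟨S', min t δ₀, n * k ^ 2 * (2 * C ^ 2) + 1, v, lt_min ht0 hδ₀, by positivity, hvI, hvp,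
    ?_⟩
  rintro f hfc hf1 hfS'
  have hfS : ∀ a ∈ S', ‖f * a - a * f‖ ≤ t := fun a ha => (hfS' a ha).trans (min_le_left _ _)
  obtain ⟨ψ, x, h, hψ, hψb, hx0, hx1, hhI, hh0, hhne, hxh, hfx, hex⟩ := hexc f hfc
    ((sub_le_sub_left (min_le_right t δ₀) 1).trans hf1)
    ((hDD.toFinset ×ˢ T ×ˢ
      (Finset.univ : Finset ((Fin n × Fin k) × (Fin n × Fin k)))).image
        (fun q => star (q.1 q.2.2.1.1 q.2.2.1.2) * q.2.1 * q.1 q.2.2.2.1 q.2.2.2.2))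
  obtain ⟨d, hd, hdψ⟩ := hcov ψ hψ hψb
  obtain ⟨g, hg, hgo⟩ := exists_orthG hI hmin hhI hh0 hhne (n * k)
  choose η hη hcmp using fun i => hvw u₂ hu₂I hu₂p (g i) (hg i).1 (hg i).2.2.1 t ht0
  obtain ⟨η₀, hη₀, hη₀'⟩ := gcacore_min η hη
  refine ⟨η₀, hη₀, ?_⟩
  rintro e hep heS' heτ
  have he1 : ‖e‖ ≤ 1 := hep.2
  have heS : ∀ a ∈ S', ‖e * a - a * e‖ ≤ t := fun a ha => (heS' a ha).trans (min_le_left _ _)
  have hve1 : ‖v * e * v‖ ≤ 1 := by
    refine (norm_mul_le _ _).trans (mul_le_one₀ ?_ (norm_nonneg _) hvp.2)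
    exact (norm_mul_le _ _).trans (mul_le_one₀ hvp.2 (norm_nonneg _) he1)
  have hvep : PosC (v * e * v) := by
    refine ⟨?_, hve1⟩
    obtain ⟨⟨z, hz⟩, -⟩ := hep
    refine ⟨z * v, ?_⟩
    rw [star_mul, hvs, hz]
    simp only [mul_assoc]
  choose r' hr' using fun i => hcmp i (v * e * v) hvep
    (by rw [← mul_assoc, ← mul_assoc, hu₂v]) fun τ hτ => (heτ τ hτ).trans (hη₀' i)
  let r : Fin n → Fin k → E := fun j l =>
    g (finProdFinEquiv (j, l)) * r' (finProdFinEquiv (j, l))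
  have hgs : ∀ i, star (g i) = g i := fun i => (IsSelfAdjoint.of_nonneg (hg i).2.1).star_eq
  have hxg : ∀ i, x * g i = g i := by
    intro i
    have h1 : (x - 1) * h = 0 := by rw [sub_mul, hxh, one_mul, sub_self]
    have h2 := (hg i).2.2.2 _ h1
    rwa [sub_mul, one_mul, sub_eq_zero] at h2
  have hxr : ∀ j l, x * r j l = r j l := fun j l => by
    change x * (g _ * r' _) = _
    rw [← mul_assoc, hxg]
  have hrr : ∀ j l, ‖star (r j l) * r j l - v * e * v‖ ≤ t := by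
    intro j l
    have h1 := hr' (finProdFinEquiv (j, l))
    have h2 : star (r j l) * r j l = star (r' (finProdFinEquiv (j, l))) *
        (star (g (finProdFinEquiv (j, l))) * g (finProdFinEquiv (j, l))) *
          r' (finProdFinEquiv (j, l)) := by
      change star (g _ * r' _) * (g _ * r' _) = _
      rw [star_mul]
      simp only [mul_assoc]
    rw [h2]
    exact h1
  have ho : ∀ j l j' l', ¬ (j = j' ∧ l = l') → star (r j l) * r j' l' = 0 := by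
    intro j l j' l' hne
    have h1 : finProdFinEquiv (j, l) ≠ finProdFinEquiv (j', l') := by
      intro h2
      have h3 := finProdFinEquiv.injective h2
      exact hne (Prod.mk.inj h3)
    change star (g _ * r' _) * (g _ * r' _) = _
    rw [star_mul, hgs]
    calc _ = star (r' (finProdFinEquiv (j, l))) *
          (g (finProdFinEquiv (j, l)) * g (finProdFinEquiv (j', l'))) *
            r' (finProdFinEquiv (j', l')) := by simp only [mul_assoc]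
      _ = 0 := by rw [hgo _ _ h1, mul_zero, zero_mul]
  have hr2 : ∀ j l, ‖r j l‖ ≤ 2 := fun j l => ca_norm_r hve1 ht1 hrr j l
  have hxs : star x = x := (IsSelfAdjoint.of_nonneg hx0).star_eq
  have hcC : ∀ l p, ‖c l p‖ ≤ C := fun l p => hCS _ (hcS l p)
  have hdC : ∀ j p, ‖d j p‖ ≤ C := fun j p => hCS _ (hdS d hd j p)
  have hrc : ∀ j l p q, ‖star (c l p) * (star (r j l) * r j l - e) * c l q‖ ≤
      C ^ 2 * (3 * t) := fun j l p q =>
    gcacore_hrc hC ht0.le hvp.2 he1 (by rw [norm_star]; exact hcC l p) (hcC l q) (hrr j l)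
      (hvc2 l p) (hvc1 l q)
  have hTB1 : (n : ℝ) ^ 2 * k ^ 4 * (4 * C ^ 2 * t) +
      n * k ^ 3 * (C ^ 5 * (3 * t) + C ^ 4 * t) ≤ ε / 5 :=
    gcacore_tb1 hn0 hk0 hC0 ht0.le hB htB
  have hTB2 : (n : ℝ) * k ^ 2 * (2 * C ^ 2 * (t + t)) ≤ ε / 5 :=
    gcacore_tb2 hn0 hk0 hC0 ht0.le hB htB
  have key : ∀ a ∈ T,
      ‖star (ca_s d c x r) * a * ca_s d c x r - w * a * w * e‖ ≤ ε := by
    intro a ha
    have haC : ‖a‖ ≤ C := hCS _ (haS a ha)
    have hw' : ∀ j p j' q, ‖ψ (star (d j p) * a * d j' q)‖ ≤ C ^ 3 := fun j p j' q =>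
      (hψ.norm_le _).trans (gcacore_cube hC0 (hdC j p) haC (hdC j' q))
    have h1 := gca_est_a d c x e a r (fun j p j' q => ψ (star (d j p) * a * d j' q))
      (ε₃ := 3 * t)
      hC ht0.le (by positivity) ht0.le hdC hcC hr2 hxs hxr ho hrc (fun l p => heS _ (hcS l p)) hw'
      (fun j p j' q => hex _ (Finset.mem_image.2 ⟨(d, a, (j, p), (j', q)), by
        simp only [Finset.mem_product, Finset.mem_univ, and_true]
        exact ⟨hDD.mem_toFinset.2 hd, ha⟩, rfl⟩))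
    have h2 := gcacore_half c e (w * a * w) (φ a)
      (fun p q => ∑ j, ψ (star (d j p) * a * d j q)) (C₁ := C₁)
      (ε₁ := ε / (5 * (k ^ 3 * C₁ ^ 2 + 1))) (ε₀ := ε / 5) (by linarith) (by positivity) hc1' he1
      (fun p q => (hdψ a ha p q).le) (by
        rw [← hc]
        exact gcacore_conj hwp.2 (hφθ a ha))
    have h3 : (k : ℝ) ^ 3 * C₁ ^ 2 * (ε / (5 * (k ^ 3 * C₁ ^ 2 + 1))) ≤ ε / 5 :=
      gcacore_frac (by positivity) hε.le
    calc _ ≤ ‖star (ca_s d c x r) * a * ca_s d c x r -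
          ∑ p, ∑ q, (∑ j, ψ (star (d j p) * a * d j q)) •
            ((∑ l, star (c l p) * c l q) * e)‖ +
          ‖(∑ p, ∑ q, (∑ j, ψ (star (d j p) * a * d j q)) •
            ((∑ l, star (c l p) * c l q) * e)) - w * a * w * e‖ :=
          norm_sub_le_norm_sub_add_norm_sub _ _ _
      _ ≤ ε := by linarith
  refine ⟨ca_s d c x r, ?_, fun a ha => key a ha, ?_⟩
  · exact (gcacore_norm_s d c x r hC0 hdC hcC hr2 hx1).trans (by linarith)
  · refine (ca_est_f d c x f r hC hdC hcC hr2 hx1 (fun j p => hfS _ (hdS d hd j p)) hfx).trans ?_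
    linarith

end P095G
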