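import Mathlib.Algebra.Ring.IsFormallyReal
import Vale.Agent.Lib.P095G.GCAId
import Vale.Agent.Lib.P095F.CAMat
import Vale.Agent.Lib.P095F.CASt

/-!
# P095G, part GCA, module GCADual: the dual cone

`gca_state_zero`: `ψ (star a * (star y * y) * a)` has real part `≤ 0`, so it is `0` (`IsSt.nonneg` for
`y * a`).  By Cauchy-Schwarz (`IsSt.cs_sq` for `y * a`, `y * b`... in the form
`ψ (star (y * star a) * (y * b))`) `ψ (a * (star y * y) * b) = 0` for all `a b`, so `ψ` vanishes on all finite sums
`∑ i, a i * (star y * y) * b i`; `hI.simple (star y * y)` (nonzero: `CStarRing.star_mul_self_eq_zero_iff`) and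
`IsSt.norm_le` give `‖ψ z‖ < ε` for all `ε` (spectral order: `let _ := CStarAlgebra.spectralOrder E`,
`have _ := CStarAlgebra.spectralOrderedRing E`).

`cp_dualG`: copy the proof of `P095F.cp_dual` (file P095F/CADual.lean, including its private lemmas, renamed
with prefix gcadual_); in the second alternative of `mat_alt`: `star y * y = - ∑ p, ∑ q, star (b p) * T p q * b q`
(`a = 1`) lies in `I` (`T p q ∈ I` by `gca_star_mem`), and `gca_state_zero` contradicts `hψI`.
-/

open scoped ENNReal Topology
open Filter P101 P095E P095F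

namespace P095G

universe u

section Dual

variable {A : Type u} [CStarAlgebra A]

private theorem gcadual_herm {k : ℕ} {φ : A →ₗ[ℂ] Matrix (Fin k) (Fin k) ℂ} (hφ : CPos φ) (z : A) :
    star (φ (star z * z)) = φ (star z * z) := by
  obtain ⟨c, hc⟩ := hφ 1 (fun _ => z) (fun _ => 1)
  simp only [Finset.univ_unique, Finset.sum_singleton, star_one, one_mul, mul_one] at hc
  rw [hc, star_mul, star_star]

private theorem gcadual_star {k : ℕ} {φ : A →ₗ[ℂ] Matrix (Fin k) (Fin k) ℂ} (hφ : CPos φ) (z : A) :
    φ (star z) = star (φ z) := by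
  have h1 := gcadual_herm hφ (1 + z)
  have h2 := gcadual_herm hφ (1 + Complex.I • z)
  have hz := gcadual_herm hφ z
  have h0 : star (φ 1) = φ 1 := by
    have := gcadual_herm hφ 1
    rwa [star_one, one_mul] at this
  have e1 : star (1 + z) * (1 + z) = 1 + z + star z + star z * z := by
    rw [star_add, star_one, add_mul, mul_add, mul_add, one_mul, mul_one, one_mul]
    abel
  have e2 : star (1 + Complex.I • z) * (1 + Complex.I • z) =
      1 + Complex.I • z - Complex.I • star z + star z * z := by
    rw [star_add, star_one, star_smul, add_mul, mul_add, mul_add, one_mul, mul_one, one_mul,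
      smul_mul_smul_comm]
    simp only [RCLike.star_def, Complex.conj_I, neg_mul, Complex.I_mul_I, neg_neg, one_smul,
      neg_smul]
    abel
  rw [e1, map_add, map_add, map_add, star_add, star_add, star_add, h0, hz] at h1
  rw [e2, map_add, map_sub, map_add, map_smul, map_smul, star_add, star_sub, star_add, h0, hz,
    star_smul, star_smul] at h2
  have h3 : star (φ z) + star (φ (star z)) = φ z + φ (star z) := by
    have h4 := congrArg (fun t => t - φ 1 - φ (star z * z)) h1
    calc star (φ z) + star (φ (star z)) =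
        φ 1 + star (φ z) + star (φ (star z)) + φ (star z * z) - φ 1 - φ (star z * z) := by abel
      _ = φ 1 + φ z + φ (star z) + φ (star z * z) - φ 1 - φ (star z * z) := h4
      _ = _ := by abel
  have h5 : -(star (φ z) - star (φ (star z))) = φ z - φ (star z) := by
    have hI : star Complex.I = -Complex.I := by
      rw [RCLike.star_def, Complex.conj_I]
    rw [hI] at h2
    have h4 := congrArg (fun t => (-Complex.I) • (t - φ 1 - φ (star z * z))) h2
    have e3 : (-Complex.I) • (φ 1 + (-Complex.I) • star (φ z) - (-Complex.I) • star (φ (star z)) +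
        φ (star z * z) - φ 1 - φ (star z * z)) = -(star (φ z) - star (φ (star z))) := by
      have e4 : φ 1 + (-Complex.I) • star (φ z) - (-Complex.I) • star (φ (star z)) +
          φ (star z * z) - φ 1 - φ (star z * z) =
          (-Complex.I) • (star (φ z) - star (φ (star z))) := by
        rw [smul_sub]
        abel
      rw [e4, smul_smul, neg_mul_neg, Complex.I_mul_I, neg_one_smul]
    have e5 : (-Complex.I) • (φ 1 + Complex.I • φ z - Complex.I • φ (star z) +
        φ (star z * z) - φ 1 - φ (star z * z)) = φ z - φ (star z) := by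
      have e4 : φ 1 + Complex.I • φ z - Complex.I • φ (star z) +
          φ (star z * z) - φ 1 - φ (star z * z) = Complex.I • (φ z - φ (star z)) := by
        rw [smul_sub]
        abel
      rw [e4, smul_smul, neg_mul, Complex.I_mul_I, neg_neg, one_smul]
    rw [e3, e5] at h4
    exact h4
  have h6 : (2 : ℂ) • φ (star z) = (2 : ℂ) • star (φ z) := by
    rw [two_smul, two_smul]
    calc φ (star z) + φ (star z) = (φ z + φ (star z)) - (φ z - φ (star z)) := by abel
      _ = (star (φ z) + star (φ (star z))) - -(star (φ z) - star (φ (star z))) := by rw [h3, h5]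
      _ = star (φ z) + star (φ z) := by abel
  exact smul_right_injective _ (two_ne_zero : (2 : ℂ) ≠ 0) h6

private theorem gcadual_pos {k : ℕ} {φ : A →ₗ[ℂ] Matrix (Fin k) (Fin k) ℂ} (hφ : CPos φ)
    (c : Fin k → A) : 0 ≤ (∑ p, ∑ q, φ (star (c p) * c q) p q).re := by
  rcases Nat.eq_zero_or_pos k with rfl | hk
  · simp
  · have p0 : Fin k := ⟨0, hk⟩
    obtain ⟨w, hw⟩ := hφ k c (fun p => Matrix.single p p0 1)
    have h1 : ∀ p q : Fin k, star (Matrix.single p p0 (1 : ℂ)) * φ (star (c p) * c q) *
        Matrix.single q p0 1 = Matrix.single p0 p0 (φ (star (c p) * c q) p q) := by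
      intro p q
      rw [Matrix.star_eq_conjTranspose, Matrix.conjTranspose_single, star_one,
        Matrix.single_mul_mul_single, one_mul, mul_one]
    simp only [h1] at hw
    have h2 : (∑ p, ∑ q, φ (star (c p) * c q) p q) = (star w * w) p0 p0 := by
      rw [← hw, Matrix.sum_apply]
      refine Finset.sum_congr rfl fun p _ => ?_
      rw [Matrix.sum_apply]
      refine Finset.sum_congr rfl fun q _ => ?_
      rw [Matrix.single_apply_same]
    rw [h2, Matrix.mul_apply, Complex.re_sum]
    refine Finset.sum_nonneg fun i _ => ?_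
    rw [Matrix.star_apply]
    have h3 : star (w i p0) * w i p0 = ((Complex.normSq (w i p0) : ℝ) : ℂ) := by
      rw [mul_comm]
      exact Complex.mul_conj _
    rw [h3, Complex.ofReal_re]
    exact Complex.normSq_nonneg _

end Dual

variable {E : Type u} [CStarAlgebra E] {I : Ideal E}

theorem gca_state_zero (hI : GoodIdeal I) {ψ : E →ₗ[ℂ] ℂ} (hψ : IsSt ψ) {y : E}
    (hy : star y * y ∈ I) (hy0 : y ≠ 0) (h : ∀ a, (ψ (star a * (star y * y) * a)).re ≤ 0) :
    ∀ z ∈ I, ψ z = 0 := by
  let _ := CStarAlgebra.spectralOrder E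
  have _ := CStarAlgebra.spectralOrderedRing E
  have h0 : ∀ a, (ψ (star (y * a) * (y * a))).re = 0 := by
    intro a
    have h1 := hψ.nonneg (y * a)
    have h2 := h a
    have h3 : star a * (star y * y) * a = star (y * a) * (y * a) := by
      rw [star_mul, mul_assoc, mul_assoc, mul_assoc]
    rw [h3] at h2
    exact le_antisymm h2 h1
  have h1 : ∀ a b, ψ (a * (star y * y) * b) = 0 := by
    intro a b
    have h2 := hψ.cs_sq (y * star a) (y * b)
    rw [h0, h0, mul_zero] at h2
    have h3 : star (y * star a) * (y * b) = a * (star y * y) * b := by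
      rw [star_mul, star_star, mul_assoc, mul_assoc, mul_assoc]
    rw [h3] at h2
    have h4 : ‖ψ (a * (star y * y) * b)‖ ^ 2 = 0 := le_antisymm h2 (sq_nonneg _)
    exact norm_eq_zero.1 (pow_eq_zero_iff (two_ne_zero)  |>.1 h4)
  intro z hz
  by_contra hz0
  have hpos : 0 < ‖ψ z‖ := norm_pos_iff.2 hz0
  have hyy : star y * y ≠ 0 := fun h2 => hy0 (CStarRing.star_mul_self_eq_zero_iff y |>.1 h2)
  obtain ⟨n, a, b, hab⟩ := hI.simple (star y * y) hy hyy z hz ‖ψ z‖ hpos
  have h2 : ψ (z - ∑ i, a i * (star y * y) * b i) = ψ z := by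
    rw [map_sub, map_sum, Finset.sum_eq_zero fun i _ => h1 (a i) (b i), sub_zero]
  have h3 := hψ.norm_le (z - ∑ i, a i * (star y * y) * b i)
  rw [h2] at h3
  exact absurd (h3.trans_lt hab) (lt_irrefl _)

theorem cp_dualG (hI : GoodIdeal I) {k : ℕ} (φ : E →ₗ[ℂ] Matrix (Fin k) (Fin k) ℂ) (hφ : CPos φ)
    (ψ : E →ₗ[ℂ] ℂ) (hψ : IsSt ψ) (hψI : ∃ z ∈ I, ψ z ≠ 0) (x : Fin k → Fin k → E)
    (hxI : ∀ p q, x p q ∈ I)
    (hx : ∀ d : Fin k → E, 0 ≤ (∑ p, ∑ q, ψ (star (d p) * x p q * d q)).re) :
    0 ≤ (∑ p, ∑ q, φ (x p q) p q).re := by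
  obtain ⟨T, hTdef⟩ : ∃ T : Fin k → Fin k → E, ∀ p q,
    T p q = (1 / 2 : ℂ) • (x p q + star (x q p)) := ⟨_, fun _ _ => rfl⟩
  have hT : ∀ p q, star (T p q) = T q p := by
    intro p q
    rw [hTdef, hTdef, star_smul, star_add, star_star, add_comm]
    congr 1
    simp
  have hswap : ∀ g : Fin k → Fin k → ℝ, ∑ p, ∑ q, g q p = ∑ p, ∑ q, g p q := fun g =>
    Finset.sum_comm
  have hA : ∀ d : Fin k → E, (∑ p, ∑ q, ψ (star (d p) * x p q * d q)).re =
      (∑ p, ∑ q, ψ (star (d p) * T p q * d q)).re := by
    intro d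
    have h1 : ∀ p q, (ψ (star (d p) * T p q * d q)).re = 1 / 2 *
        ((ψ (star (d p) * x p q * d q)).re + (ψ (star (d q) * x q p * d p)).re) := by
      intro p q
      have h2 : star (d p) * T p q * d q = (1 / 2 : ℂ) • (star (d p) * x p q * d q +
          star (star (d q) * x q p * d p)) := by
        rw [hTdef, mul_smul_comm, smul_mul_assoc, mul_add, add_mul, star_mul, star_mul, star_star,
          mul_assoc (star (d p)) (star (x q p))]
      rw [h2, map_smul, map_add, hψ.star_map, smul_eq_mul]
      have h3 : (1 / 2 : ℂ) = ((1 / 2 : ℝ) : ℂ) := by norm_num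
      rw [h3, Complex.re_ofReal_mul, Complex.add_re, Complex.conj_re]
    simp only [Complex.re_sum]
    simp only [h1, ← Finset.mul_sum, Finset.sum_add_distrib]
    rw [hswap fun p q => (ψ (star (d p) * x p q * d q)).re]
    ring
  have hB : (∑ p, ∑ q, φ (x p q) p q).re = (∑ p, ∑ q, φ (T p q) p q).re := by
    have h1 : ∀ p q, (φ (T p q) p q).re = 1 / 2 *
        ((φ (x p q) p q).re + (φ (x q p) q p).re) := by
      intro p q
      rw [hTdef, map_smul, map_add, gcadual_star hφ, Matrix.smul_apply, Matrix.add_apply,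
        Matrix.star_apply, smul_eq_mul]
      have h3 : (1 / 2 : ℂ) = ((1 / 2 : ℝ) : ℂ) := by norm_num
      rw [h3, Complex.re_ofReal_mul, Complex.add_re]
      rfl
    simp only [Complex.re_sum]
    simp only [h1, ← Finset.mul_sum, Finset.sum_add_distrib]
    rw [hswap fun p q => (φ (x p q) p q).re]
    ring
  rw [hB]
  rcases mat_alt T hT with ⟨C, hC⟩ | ⟨y, b, hy, hb⟩
  · have h1 : (∑ p, ∑ q, φ (T p q) p q) = ∑ l, ∑ p, ∑ q, φ (star (C l p) * C l q) p q := by
      have h2 : ∀ p q, φ (T p q) p q = ∑ l, φ (star (C l p) * C l q) p q := by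
        intro p q
        rw [hC, map_sum, Matrix.sum_apply]
      simp only [h2]
      rw [Finset.sum_congr rfl fun p _ => Finset.sum_comm, Finset.sum_comm]
    rw [h1, Complex.re_sum]
    exact Finset.sum_nonneg fun l _ => gcadual_pos hφ (C l)
  · exfalso
    have h1 : ∀ a : E, (ψ (star a * (star y * y) * a)).re ≤ 0 := by
      intro a
      have h2 := hx fun p => b p * a
      rw [hA] at h2
      have h3 : (∑ p, ∑ q, ψ (star (b p * a) * T p q * (b q * a))) =
          -ψ (star a * (star y * y) * a) := by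
        rw [← map_neg, ← hb a, map_sum]
        refine Finset.sum_congr rfl fun p _ => ?_
        rw [map_sum]
      rw [h3, Complex.neg_re] at h2
      linarith
    have := hI.two
    have hTI : ∀ p q, T p q ∈ I := by
      intro p q
      rw [hTdef, Algebra.smul_def]
      exact I.mul_mem_left _ (I.add_mem (hxI p q) (gca_star_mem hI (hxI q p)))
    have hyI : star y * y ∈ I := by
      have h2 := hb 1
      rw [star_one, one_mul, mul_one] at h2
      have h3 : -(star y * y) ∈ I := by
        rw [← h2]
        refine I.sum_mem fun p _ => I.sum_mem fun q _ => ?_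
        exact I.mul_mem_right _ (I.mul_mem_left _ (hTI p q))
      exact neg_mem_iff.1 h3
    obtain ⟨z, hz, hz0⟩ := hψI
    exact hz0 (gca_state_zero hI hψ hyI hy h1 z hz)

end P095G
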