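import Vale.Agent.Lib.P095G.GCAId
import Vale.Agent.Lib.P095F.CAExcA

/-!
# P095G, part GCA, module GCAExc: excision

`gcaexc_sqrt`: `(1 - g)^2 ≤ 1 - g` (see the private lemma `caexc_sq` in P095F/CAExc.lean), so
`‖(1 - g) x‖^2 = ‖x (1-g)^2 x‖ ≤ ‖x (1-g) x‖ ≤ t` (`CStarAlgebra.norm_le_norm_of_nonneg_of_le`).

`excisionG`: `t = min (1/16) (ε^4 / 9)`, `δ = t / 2`.  `f0 = b * f * b`, `0 ≤ f0 ≤ b * b ≤ 1`, `f0 ∈ I`,
`1 - t / 2 ≤ ‖f0‖ ≤ 1`.  Apply `P095F.excision_sa` to `f0`, the finite set of the real and imaginary parts of the elements of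
`S` and `b * b`, tolerance `t / 2`: `lam0, ψ, x, h`.
`lam0 = ‖f0‖` (as in P095F/CAExc.lean: `≤` from `IsSt.norm_le`, `≥` from `norm_le_of_st`), so `1 - t/2 ≤ lam0 ≤ 1`.
`‖x (1 - f0) x‖ ≤ t / 2 + (1 - lam0) ≤ t`; by `gcaexc_sqrt` `‖(1 - f0) x‖ ≤ √t ≤ 1/4`, so
`‖f0 x - lam0 • x‖ ≤ √t + t/2 < lam0` and `h ∈ I` by `gca_mem_of_fix`.
`1 - b * b ≤ 1 - f0`: `‖x (1 - b * b) x‖ ≤ t`; `1 - b ≤ 1 - b * b`: `‖x (1 - b) x‖ ≤ t`, `‖(1 - b) x‖ ≤ √t`.
`x f0 x - x f x = x b f (b - 1) x + x (b - 1) f x` has norm `≤ 2 √t`, so `‖x (1 - f) x‖ ≤ t + 2 √t ≤ 3 √t ≤ ε^2` and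
`‖(1 - f) x‖ ≤ ε` by `gcaexc_sqrt`.
`‖x‖ = 1` (`x h = h ≠ 0`), `‖x * x‖ = 1`; `‖x (b*b) x - ψ (b*b) • (x*x)‖ ≤ t/2` and `‖x (b*b) x - x*x‖ ≤ t` give
`|1 - ψ (b*b)| ≤ 3t/2 ≤ 1/2`.
For `a ∈ S`: real and imaginary parts as in P095F/CAExc.lean, `t/2 + t/2 ≤ ε`.
-/

open scoped ENNReal Topology
open Filter P101 P095E P095F

namespace P095G

universe u

variable {E : Type u} [CStarAlgebra E] [PartialOrder E] [StarOrderedRing E] {I : Ideal E}

/-- `f^2 ≤ f` for `0 ≤ f ≤ 1` -/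
private theorem gcaexc_sq_le {f : E} (h0 : 0 ≤ f) (h1 : f ≤ 1) : f * f ≤ f := by
  have hs : star f = f := (IsSelfAdjoint.of_nonneg h0).star_eq
  have h2 : 0 ≤ 1 - f := sub_nonneg.2 h1
  rw [← sub_nonneg]
  have e : f - f * f = star f * (1 - f) * f + star (1 - f) * f * (1 - f) := by
    rw [star_sub, star_one, hs]
    noncomm_ring
  rw [e]
  exact add_nonneg (star_left_conjugate_nonneg h2 f) (star_left_conjugate_nonneg h0 (1 - f))

private theorem gcaexc_posC {b : E} (hb : PosC b) : 0 ≤ b ∧ b ≤ 1 := by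
  obtain ⟨⟨c, hc⟩, hb1⟩ := hb
  have h0 : 0 ≤ b := by
    rw [hc]
    exact star_mul_self_nonneg c
  exact ⟨h0, (CStarAlgebra.norm_le_one_iff_of_nonneg b h0).1 hb1⟩

/-- monotonicity of `‖x * g * x‖` -/
private theorem gcaexc_mono {g g' x : E} (hg : 0 ≤ g) (h : g ≤ g') (hx : 0 ≤ x) :
    ‖x * g * x‖ ≤ ‖x * g' * x‖ := by
  have hxs : star x = x := (IsSelfAdjoint.of_nonneg hx).star_eq
  have h1 : star x * g * x ≤ star x * g' * x := star_left_conjugate_le_conjugate h x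
  have h2 : 0 ≤ star x * g * x := star_left_conjugate_nonneg hg x
  rw [hxs] at h1 h2
  exact CStarAlgebra.norm_le_norm_of_nonneg_of_le h2 h1

theorem gcaexc_sqrt {g x : E} (hg : 0 ≤ g) (hg1 : g ≤ 1) (hx : 0 ≤ x) {t : ℝ}
    (ht : ‖x * (1 - g) * x‖ ≤ t) : ‖(1 - g) * x‖ ≤ √t := by
  have hxs : star x = x := (IsSelfAdjoint.of_nonneg hx).star_eq
  have hgs : star g = g := (IsSelfAdjoint.of_nonneg hg).star_eq
  have h2 : star ((1 - g) * x) * ((1 - g) * x) = x * ((1 - g) * (1 - g)) * x := by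
    rw [star_mul, star_sub, star_one, hgs, hxs]
    noncomm_ring
  have h0 : 0 ≤ (1 - g) * (1 - g) := by
    have h := star_mul_self_nonneg (1 - g)
    rwa [star_sub, star_one, hgs] at h
  have h1 : (1 - g) * (1 - g) ≤ 1 - g :=
    gcaexc_sq_le (sub_nonneg.2 hg1) (by rw [sub_le_self_iff]; exact hg)
  have h3 := gcaexc_mono h0 h1 hx
  rw [← h2, CStarRing.norm_star_mul_self] at h3
  refine Real.le_sqrt_of_sq_le ?_
  rw [pow_two]
  exact h3.trans ht

theorem excisionG (hI : GoodIdeal I) {b : E} (hb : b ∈ I) (hbp : PosC b) {ε : ℝ} (hε : 0 < ε) :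
    ∃ δ : ℝ, 0 < δ ∧ ∀ f : E, PosC f → 1 - δ ≤ ‖b * f * b‖ → ∀ S : Finset E,
      ∃ (ψ : E →ₗ[ℂ] ℂ) (x h : E), IsSt ψ ∧ 1 / 2 ≤ (ψ (b * b)).re ∧ 0 ≤ x ∧ ‖x‖ ≤ 1 ∧ h ∈ I ∧
        0 ≤ h ∧ h ≠ 0 ∧ x * h = h ∧ ‖f * x - x‖ ≤ ε ∧
        ∀ a ∈ S, ‖x * a * x - ψ a • (x * x)‖ ≤ ε := by
  classical
  set t : ℝ := min (1 / 16) (ε ^ 4 / 9) with htdef
  have ht0 : 0 < t := lt_min (by norm_num) (by positivity)
  have ht1 : t ≤ 1 / 16 := min_le_left _ _
  have ht2 : t ≤ ε ^ 4 / 9 := min_le_right _ _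
  have hst0 : 0 < √t := Real.sqrt_pos.2 ht0
  have hst1 : √t ≤ 1 / 4 := by
    rw [Real.sqrt_le_left (by norm_num)]
    linarith [ht1]
  have hst2 : 3 * √t ≤ ε ^ 2 := by
    have h1 : √t ≤ √(ε ^ 4 / 9) := Real.sqrt_le_sqrt ht2
    have h2 : √(ε ^ 4 / 9) = ε ^ 2 / 3 := by
      rw [show ε ^ 4 / 9 = (ε ^ 2 / 3) ^ 2 by ring]
      exact Real.sqrt_sq (by positivity)
    rw [h2] at h1
    linarith
  have hts : t ≤ √t / 4 := by
    have h1 : √t * √t = t := Real.mul_self_sqrt ht0.le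
    nlinarith
  have htε : t ≤ ε := by
    rcases le_or_gt (1 / 16) ε with h1 | h1
    · exact ht1.trans h1
    · have h2 : ε ^ 4 ≤ ε ^ 1 := pow_le_pow_of_le_one hε.le (by linarith) (by norm_num)
      linarith [ht2]
  refine ⟨t / 2, half_pos ht0, fun f hf hfb S => ?_⟩
  obtain ⟨hb0, hb1⟩ := gcaexc_posC hbp
  obtain ⟨hf0, hf1⟩ := gcaexc_posC hf
  have hbs : star b = b := (IsSelfAdjoint.of_nonneg hb0).star_eq
  have hfs : star f = f := (IsSelfAdjoint.of_nonneg hf0).star_eq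
  set f0 : E := b * f * b with hf0def
  have hf00 : 0 ≤ f0 := by
    have h := star_left_conjugate_nonneg hf0 b
    rwa [hbs] at h
  have hf0bb : f0 ≤ b * b := by
    have h := star_left_conjugate_le_conjugate hf1 b
    rwa [hbs, mul_one] at h
  have hbb0 : 0 ≤ b * b := hf00.trans hf0bb
  have hbb1 : b * b ≤ b := gcaexc_sq_le hb0 hb1
  have hf01 : f0 ≤ 1 := (hf0bb.trans hbb1).trans hb1
  have hf0I : f0 ∈ I := I.mul_mem_left _ hb
  have hf0n : ‖f0‖ ≤ 1 := (CStarAlgebra.norm_le_one_iff_of_nonneg f0 hf00).2 hf01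
  have hne : f0 ≠ 0 := by
    intro h
    rw [h, norm_zero] at hfb
    linarith
  have hnt : Nontrivial E := ⟨f0, 0, hne⟩
  have hbbs : IsSelfAdjoint (b * b) := IsSelfAdjoint.of_nonneg hbb0
  have hsa : ∀ a ∈ insert (b * b) (S.image (fun a => ((realPart a : selfAdjoint E) : E)) ∪
      S.image (fun a => ((imaginaryPart a : selfAdjoint E) : E))), IsSelfAdjoint a := by
    intro a ha
    rcases Finset.mem_insert.1 ha with ha | ha
    · rw [ha]
      exact hbbs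
    rcases Finset.mem_union.1 ha with ha | ha
    · obtain ⟨b, _, rfl⟩ := Finset.mem_image.1 ha
      exact (realPart b).2
    · obtain ⟨b, _, rfl⟩ := Finset.mem_image.1 ha
      exact (imaginaryPart b).2
  obtain ⟨lam0, ψ, x, h, hle, ⟨ρ, hρ, hρ0⟩, hψ, hx, hx1, hh, hh0, hxh, hfx, hS⟩ :=
    excision_sa f0 (IsSelfAdjoint.of_nonneg hf00) _ hsa (half_pos ht0)
  have hlam0 : 0 ≤ lam0 := hρ0 ▸ hρ.re_nonneg hf00
  have hlam : lam0 = ‖f0‖ := by
    refine le_antisymm ?_ ?_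
    · rw [← hρ0]
      exact (Complex.re_le_norm _).trans (hρ.norm_le f0)
    · refine norm_le_of_st (IsSelfAdjoint.of_nonneg hf00) hlam0 fun φ hφ => ?_
      rw [abs_of_nonneg (hφ.re_nonneg hf00)]
      exact hle φ hφ
  have hl1 : 1 - t / 2 ≤ lam0 := by rw [hlam]; exact hfb
  have hl2 : lam0 ≤ 1 := by rw [hlam]; exact hf0n
  have hxs : star x = x := (IsSelfAdjoint.of_nonneg hx).star_eq
  have hxx : ‖x * x‖ ≤ 1 := (norm_mul_le _ _).trans (mul_le_one₀ hx1 (norm_nonneg _) hx1)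
  have hln : ‖((1 - lam0 : ℝ) : ℂ)‖ ≤ t / 2 := by
    rw [Complex.norm_real, Real.norm_of_nonneg (by linarith)]
    linarith
  -- `‖x (1 - f0) x‖ ≤ t`
  have e1 : ‖x * (1 - f0) * x‖ ≤ t := by
    have e : x * (1 - f0) * x =
        ((1 - lam0 : ℝ) : ℂ) • (x * x) - (x * f0 * x - (lam0 : ℂ) • (x * x)) := by
      rw [Complex.ofReal_sub, Complex.ofReal_one, sub_smul, one_smul, mul_sub, mul_one, sub_mul]
      abel
    rw [e]
    refine (norm_sub_le _ _).trans ?_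
    rw [norm_smul]
    have h1 : ‖((1 - lam0 : ℝ) : ℂ)‖ * ‖x * x‖ ≤ t / 2 * 1 :=
      mul_le_mul hln hxx (norm_nonneg _) (half_pos ht0).le
    linarith
  have e2 : ‖(1 - f0) * x‖ ≤ √t := gcaexc_sqrt hf00 hf01 hx e1
  have hhI : h ∈ I := by
    refine gca_mem_of_fix hI hf0I (x := x) (l := lam0) ?_ hxh
    have e : f0 * x - (lam0 : ℂ) • x = ((1 - lam0 : ℝ) : ℂ) • x - (1 - f0) * x := by
      rw [Complex.ofReal_sub, Complex.ofReal_one, sub_smul, one_smul, sub_mul, one_mul]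
      abel
    rw [e]
    refine (norm_sub_le _ _).trans_lt ?_
    rw [norm_smul]
    have h1 : ‖((1 - lam0 : ℝ) : ℂ)‖ * ‖x‖ ≤ t / 2 * 1 :=
      mul_le_mul hln hx1 (norm_nonneg _) (half_pos ht0).le
    linarith
  -- `b * b` and `b`
  have e3 : ‖x * (1 - b * b) * x‖ ≤ t :=
    (gcaexc_mono (sub_nonneg.2 (hbb1.trans hb1)) (sub_le_sub_left hf0bb 1) hx).trans e1
  have e4 : ‖x * (1 - b) * x‖ ≤ t :=
    (gcaexc_mono (sub_nonneg.2 hb1) (sub_le_sub_left hbb1 1) hx).trans e3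
  have e5 : ‖(1 - b) * x‖ ≤ √t := gcaexc_sqrt hb0 hb1 hx e4
  have e6 : ‖x * (1 - b)‖ ≤ √t := by
    have h1 : x * (1 - b) = star ((1 - b) * x) := by
      rw [star_mul, star_sub, star_one, hbs, hxs]
    rw [h1, norm_star]
    exact e5
  have hxn : ‖x‖ = 1 := by
    refine le_antisymm hx1 ?_
    have h1 : ‖h‖ ≤ ‖x‖ * ‖h‖ := by
      calc ‖h‖ = ‖x * h‖ := by rw [hxh]
        _ ≤ ‖x‖ * ‖h‖ := norm_mul_le _ _
    have h2 : 0 < ‖h‖ := norm_pos_iff.2 hh0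
    by_contra h3
    push Not at h3
    nlinarith
  have hxxn : ‖x * x‖ = 1 := by
    have h1 : ‖star x * x‖ = ‖x‖ * ‖x‖ := CStarRing.norm_star_mul_self
    rw [hxs, hxn, one_mul] at h1
    exact h1
  refine ⟨ψ, x, h, hψ, ?_, hx, hx1, hhI, hh, hh0, hxh, ?_, fun a ha => ?_⟩
  · have h1 := hS (b * b) (Finset.mem_insert_self _ _)
    have h2 : ‖(1 - ψ (b * b)) • (x * x)‖ ≤ t / 2 + t := by
      have e : (1 - ψ (b * b)) • (x * x) =
          (x * (b * b) * x - ψ (b * b) • (x * x)) + x * (1 - b * b) * x := by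
        rw [sub_smul, one_smul, mul_sub, mul_one, sub_mul]
        abel
      rw [e]
      exact (norm_add_le _ _).trans (add_le_add h1 e3)
    rw [norm_smul, hxxn, mul_one] at h2
    have h3 := (Complex.re_le_norm _).trans h2
    rw [Complex.sub_re, Complex.one_re] at h3
    linarith
  · have hfn : ‖f‖ ≤ 1 := hf.2
    have hbn : ‖b‖ ≤ 1 := hbp.2
    have h1 : ‖x * (1 - f) * x‖ ≤ ε ^ 2 := by
      have e : x * (1 - f) * x = x * (1 - f0) * x -
          (x * b * f * ((1 - b) * x) + x * (1 - b) * (f * x)) := by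
        rw [hf0def]
        noncomm_ring
      have h2 : ‖x * b * f * ((1 - b) * x)‖ ≤ √t := by
        have h3 : ‖x * b * f‖ ≤ 1 :=
          (norm_mul_le _ _).trans (mul_le_one₀ ((norm_mul_le _ _).trans
            (mul_le_one₀ hx1 (norm_nonneg _) hbn)) (norm_nonneg _) hfn)
        calc ‖x * b * f * ((1 - b) * x)‖ ≤ ‖x * b * f‖ * ‖(1 - b) * x‖ := norm_mul_le _ _
          _ ≤ 1 * √t := mul_le_mul h3 e5 (norm_nonneg _) zero_le_one
          _ = √t := one_mul _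
      have h4 : ‖x * (1 - b) * (f * x)‖ ≤ √t := by
        have h3 : ‖f * x‖ ≤ 1 := (norm_mul_le _ _).trans (mul_le_one₀ hfn (norm_nonneg _) hx1)
        calc ‖x * (1 - b) * (f * x)‖ ≤ ‖x * (1 - b)‖ * ‖f * x‖ := norm_mul_le _ _
          _ ≤ √t * 1 := mul_le_mul e6 h3 (norm_nonneg _) hst0.le
          _ = √t := mul_one _
      rw [e]
      have h5 := norm_sub_le (x * (1 - f0) * x) (x * b * f * ((1 - b) * x) + x * (1 - b) * (f * x))
      have h6 := norm_add_le (x * b * f * ((1 - b) * x)) (x * (1 - b) * (f * x))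
      linarith
    have h2 := gcaexc_sqrt hf0 hf1 hx h1
    rw [Real.sqrt_sq hε.le] at h2
    have h6 : ‖f * x - x‖ = ‖(1 - f) * x‖ := by
      rw [← norm_neg]
      congr 1
      noncomm_ring
    rw [h6]
    exact h2
  · have hre := hS _ (Finset.mem_insert_of_mem (Finset.mem_union_left _ (Finset.mem_image_of_mem
      (fun a => ((realPart a : selfAdjoint E) : E)) ha)))
    have him := hS _ (Finset.mem_insert_of_mem (Finset.mem_union_right _ (Finset.mem_image_of_mem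
      (fun a => ((imaginaryPart a : selfAdjoint E) : E)) ha)))
    set r : E := ((realPart a : selfAdjoint E) : E) with hr
    set s : E := ((imaginaryPart a : selfAdjoint E) : E) with hs
    have hdec : a = r + Complex.I • s := (realPart_add_I_smul_imaginaryPart a).symm
    have e : x * a * x - ψ a • (x * x) = (x * r * x - ψ r • (x * x)) +
        Complex.I • (x * s * x - ψ s • (x * x)) := by
      rw [hdec, map_add, map_smul, mul_add, add_mul, mul_smul_comm, smul_mul_assoc, smul_eq_mul,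
        add_smul, smul_sub, smul_smul]
      abel
    rw [e]
    refine (norm_add_le _ _).trans ?_
    rw [norm_smul, Complex.norm_I, one_mul]
    linarith

end P095G
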