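import Vale.Agent.Lib.P095G.GFActA

/-!
# P095 stage 3, part GF.3: the action `α ⊗ id` on `B`; see the header of `GFActA`
-/

open scoped Topology TensorProduct MultiplierAlgebra
open Filter

namespace P095G

universe u v

variable {A Z B : Type u} [NonUnitalCStarAlgebra A] [CStarAlgebra Z] [NonUnitalCStarAlgebra B]

/-- use `exists_completion` and `P095E.exists_tensorAction` for the group of all automorphisms of `A⁺` with
the identity homomorphism, at `uAut1 e` -/
theorem norm_tId (hZ : P095E.Nuclear Z) {m : A ⊗[ℂ] Z →ₗ[ℂ] B} (hm : IsTensorCompletion m)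
    (e : A ≃⋆ₐ[ℂ] A) (y : A ⊗[ℂ] Z) : ‖m (tId Z e y)‖ = ‖m y‖ := by
  obtain ⟨B1, hB1, m1, hinj, hd, hn⟩ := exists_completion hm
  obtain ⟨γ, hγ⟩ := P095E.exists_tensorAction hZ m1 hinj hd
    (MonoidHom.id (Unitization ℂ A ≃⋆ₐ[ℂ] Unitization ℂ A))
  have key : ∀ y : A ⊗[ℂ] Z, γ (uAut1 e) (m1 (iotaT A Z y)) = m1 (iotaT A Z (tId Z e y)) := by
    intro y
    induction y using TensorProduct.induction_on with
    | zero => simp only [map_zero]
    | tmul a z =>
      rw [iotaT_tmul, tId_tmul, iotaT_tmul, hγ]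
      change m1 (uAut1 e (a : Unitization ℂ A) ⊗ₜ[ℂ] z) = _
      rw [uAut1_inr]
    | add x y hx hy => rw [map_add, map_add, map_add, map_add, map_add, map_add, hx, hy]
  rw [← hn, ← hn, ← key]
  exact NonUnitalStarAlgHom.norm_map (γ (uAut1 e) : B1 →⋆ₐ[ℂ] B1) (γ (uAut1 e)).injective _

/-- `e ⊗ id` composed -/
theorem gfact_comp (e e' : A ≃⋆ₐ[ℂ] A) (y : A ⊗[ℂ] Z) :
    tId Z e (tId Z e' y) = tId Z (e * e') y := by
  induction y using TensorProduct.induction_on with
  | zero => simp only [map_zero]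
  | tmul a z => rfl
  | add x y hx hy => rw [map_add, map_add, map_add, hx, hy]

theorem gfact_one (y : A ⊗[ℂ] Z) : tId Z (1 : A ≃⋆ₐ[ℂ] A) y = y := by
  induction y using TensorProduct.induction_on with
  | zero => simp only [map_zero]
  | tmul a z => rfl
  | add x y hx hy => rw [map_add, hx, hy]

/-- `e ⊗ id` as a linear equivalence -/
noncomputable def gfactEquiv (Z : Type u) [CStarAlgebra Z] (e : A ≃⋆ₐ[ℂ] A) :
    A ⊗[ℂ] Z ≃ₗ[ℂ] A ⊗[ℂ] Z :=
  LinearEquiv.ofLinearMap (tId Z e) (tId Z e⁻¹)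
    (by
      ext1
      refine LinearMap.ext fun y => LinearMap.ext fun z => ?_
      change tId Z e (tId Z e⁻¹ (y ⊗ₜ[ℂ] z)) = y ⊗ₜ[ℂ] z
      rw [gfact_comp, mul_inv_cancel, gfact_one])
    (by
      ext1
      refine LinearMap.ext fun y => LinearMap.ext fun z => ?_
      change tId Z e⁻¹ (tId Z e (y ⊗ₜ[ℂ] z)) = y ⊗ₜ[ℂ] z
      rw [gfact_comp, inv_mul_cancel, gfact_one])

theorem gfactEquiv_apply (e : A ≃⋆ₐ[ℂ] A) (y : A ⊗[ℂ] Z) : gfactEquiv Z e y = tId Z e y := rfl

/-- extension of one automorphism -/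
theorem exists_aut {m : A ⊗[ℂ] Z →ₗ[ℂ] B} (hm : IsTensorCompletion m) (e : A ≃⋆ₐ[ℂ] A)
    (he : ∀ y : A ⊗[ℂ] Z, ‖m (tId Z e y)‖ = ‖m y‖) :
    ∃ c : B ≃⋆ₐ[ℂ] B, ∀ y : A ⊗[ℂ] Z, c (m y) = m (tId Z e y) := by
  have h1 : ∃ C : ℝ, ∀ y, ‖m (gfactEquiv Z e y)‖ ≤ C * ‖m y‖ :=
    ⟨1, fun y => by rw [gfactEquiv_apply, he, one_mul]⟩
  have h2 : ∃ C : ℝ, ∀ y, ‖m ((gfactEquiv Z e).symm y)‖ ≤ C * ‖m y‖ :=
    ⟨1, fun y => by
      rw [one_mul, ← he, ← gfactEquiv_apply, LinearEquiv.apply_symm_apply]⟩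
  obtain ⟨φ, hφ⟩ : ∃ φ : B ≃L[ℂ] B, ∀ y, φ (m y) = m (tId Z e y) :=
    ⟨(gfactEquiv Z e).extend m m hm.dense h1 hm.dense h2, fun y =>
      LinearEquiv.extend_eq _ _ _ hm.dense h1 hm.dense h2 y⟩
  have hmul : ∀ x y : A ⊗[ℂ] Z, φ (m x * m y) = φ (m x) * φ (m y) := by
    intro x y
    induction x using TensorProduct.induction_on with
    | zero => rw [map_zero, zero_mul, map_zero, zero_mul]
    | add x x' hx hx' => rw [map_add, add_mul, map_add, hx, hx', map_add, add_mul]
    | tmul a z =>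
      induction y using TensorProduct.induction_on with
      | zero => rw [map_zero, mul_zero, map_zero, mul_zero]
      | add y y' hy hy' => rw [map_add, mul_add, map_add, hy, hy', map_add, mul_add]
      | tmul a' z' =>
        rw [hm.mul, hφ, hφ, hφ, tId_tmul, tId_tmul, tId_tmul, hm.mul, map_mul]
  have hstar : ∀ x : A ⊗[ℂ] Z, φ (star (m x)) = star (φ (m x)) := by
    intro x
    induction x using TensorProduct.induction_on with
    | zero => rw [map_zero, star_zero, map_zero, star_zero]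
    | add x x' hx hx' => rw [map_add, star_add, map_add, hx, hx', map_add, star_add]
    | tmul a z =>
      rw [hm.star, hφ, hφ, tId_tmul, tId_tmul, hm.star, map_star]
  have hmul' : ∀ b b' : B, φ (b * b') = φ b * φ b' := by
    intro b b'
    refine hm.dense.induction_on₂ (p := fun b b' => φ (b * b') = φ b * φ b') ?_ hmul b b'
    exact isClosed_eq (φ.continuous.comp (continuous_fst.mul continuous_snd))
      ((φ.continuous.comp continuous_fst).mul (φ.continuous.comp continuous_snd))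
  have hstar' : ∀ b : B, φ (star b) = star (φ b) := by
    intro b
    refine hm.dense.induction_on (p := fun b => φ (star b) = star (φ b)) b ?_ hstar
    exact isClosed_eq (φ.continuous.comp continuous_star) (continuous_star.comp φ.continuous)
  let f : B →⋆ₙₐ[ℂ] B :=
    { toFun := φ
      map_smul' := fun c b => map_smul φ c b
      map_zero' := map_zero φ
      map_add' := map_add φ
      map_mul' := hmul'
      map_star' := hstar' }
  have hbij : Function.Bijective f := φ.bijective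
  exact ⟨StarAlgEquiv.ofBijective f hbij, fun y => hφ y⟩

theorem gfact_continuous (c : B ≃⋆ₐ[ℂ] B) : Continuous c :=
  (AddMonoidHomClass.isometry_of_norm c fun x =>
    NonUnitalStarAlgHom.norm_map (c : B →⋆ₙₐ[ℂ] B) c.injective x).continuous

theorem exists_tensorActionN (hZ : P095E.Nuclear Z) {m : A ⊗[ℂ] Z →ₗ[ℂ] B}
    (hm : IsTensorCompletion m) {G : Type v} [Group G] (α : G →* (A ≃⋆ₐ[ℂ] A)) :
    ∃ γ : G →* (B ≃⋆ₐ[ℂ] B), IsTensorActionN m α γ := by
  choose c hc using fun g : G => exists_aut hm (α g) (norm_tId hZ hm (α g))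
  refine ⟨MonoidHom.mk' c ?_, fun g a z => ?_⟩
  · intro g h
    apply StarAlgEquiv.ext
    intro b
    rw [StarAlgEquiv.mul_apply]
    refine hm.dense.induction_on (p := fun b => c (g * h) b = c g (c h b)) b ?_ fun y => ?_
    · exact isClosed_eq (gfact_continuous _)
        ((gfact_continuous (c g)).comp (gfact_continuous (c h)))
    · rw [hc, hc, hc, gfact_comp, map_mul]
  · change c g (m (a ⊗ₜ[ℂ] z)) = _
    rw [hc, tId_tmul]

end P095G
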