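import Vale.Agent.Lib.P095G.GFIJ
import Vale.Agent.Lib.P095E.TensorAct

/-!
# P095 stage 3, part GF.3: the action `α ⊗ id` on `B`

`E = A⁺`. The *-homomorphism `F : E ⊗ Z → 𝓜(B) × Z`, `e ⊗ z ↦ (i e * j z, e.fst • z)`
(`StarAlgHom` from `Algebra.TensorProduct.lift`, the ranges commute) is injective: if the second
component of `F x` vanishes then `x` is in the range of `A ⊗ Z → E ⊗ Z` (`E = ℂ ⊕ A`), say `x = ι y`, and the
first component is `coe (m y)`. Let `B1` be the closure of its range (a `StarSubalgebra`,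
a C*-algebra), `m1 : E ⊗ Z → B1`. `P095E.exists_tensorAction` gives `γ1` with `γ1_g (m1 (e ⊗ z)) =
m1 (uAut α g e ⊗ z)`. For `y ∈ A ⊗ Z`: `‖m1 (ι y)‖ = ‖m y‖`, so `‖m ((α_g ⊗ id) y)‖ = ‖m y‖` and
`m y ↦ m ((α_g ⊗ id) y)` extends to `B`.
-/

open scoped Topology TensorProduct MultiplierAlgebra
open Filter

namespace P095G

universe u v

variable {A Z B : Type u} [NonUnitalCStarAlgebra A] [CStarAlgebra Z] [NonUnitalCStarAlgebra B]

/-- `e ⊗ id` for an automorphism `e` -/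
noncomputable def tId (Z : Type u) [CStarAlgebra Z] (e : A ≃⋆ₐ[ℂ] A) : A ⊗[ℂ] Z →ₗ[ℂ] A ⊗[ℂ] Z :=
  LinearMap.rTensor Z (e : A →ₗ[ℂ] A)

theorem tId_tmul (e : A ≃⋆ₐ[ℂ] A) (a : A) (z : Z) : tId Z e (a ⊗ₜ[ℂ] z) = e a ⊗ₜ[ℂ] z := rfl

/-- the inclusion `A ⊗ Z → A⁺ ⊗ Z` -/
noncomputable def iotaT (A Z : Type u) [NonUnitalCStarAlgebra A] [CStarAlgebra Z] :
    A ⊗[ℂ] Z →ₗ[ℂ] Unitization ℂ A ⊗[ℂ] Z :=
  LinearMap.rTensor Z (Unitization.inrHom ℂ ℂ A)

theorem iotaT_tmul (a : A) (z : Z) :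
    iotaT A Z (a ⊗ₜ[ℂ] z) = (a : Unitization ℂ A) ⊗ₜ[ℂ] z := rfl

/-- the injective *-homomorphism `F`, see the header -/
theorem exists_F {m : A ⊗[ℂ] Z →ₗ[ℂ] B} {i : Unitization ℂ A →⋆ₐ[ℂ] 𝓜(ℂ, B)}
    {j : Z →⋆ₐ[ℂ] 𝓜(ℂ, B)} (h : IsIJ m i j) :
    ∃ F : Unitization ℂ A ⊗[ℂ] Z →⋆ₐ[ℂ] 𝓜(ℂ, B) × Z, Function.Injective F ∧
      (∀ e z, F (e ⊗ₜ[ℂ] z) = (i e * j z, e.fst • z)) ∧
      ∀ y : A ⊗[ℂ] Z, F (iotaT A Z y) = (((m y : B) : 𝓜(ℂ, B)), 0) := by
  -- first component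
  let f1 : Unitization ℂ A ⊗[ℂ] Z →ₐ[ℂ] 𝓜(ℂ, B) :=
    Algebra.TensorProduct.lift i.toAlgHom j.toAlgHom (fun x z => h.commute x z)
  have hf1 : ∀ e z, f1 (e ⊗ₜ[ℂ] z) = i e * j z := fun e z => Algebra.TensorProduct.lift_tmul _ _ _ _ _
  let F1 : Unitization ℂ A ⊗[ℂ] Z →⋆ₐ[ℂ] 𝓜(ℂ, B) :=
    { f1 with
      map_star' := fun t => by
        change f1 (star t) = star (f1 t)
        induction t using TensorProduct.induction_on with
        | zero => simp
        | tmul x z =>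
          rw [TensorProduct.star_tmul, hf1, hf1, star_mul, (h.commute (star x) (star z)).eq,
            map_star, map_star]
        | add x y hx hy => rw [star_add, map_add, map_add, hx, hy, star_add] }
  -- second component
  let f2 : Unitization ℂ A ⊗[ℂ] Z →ₐ[ℂ] Z :=
    Algebra.TensorProduct.lift ((Algebra.ofId ℂ Z).comp (Unitization.fstHom ℂ A)) (AlgHom.id ℂ Z)
      (fun x z => Algebra.commutes _ _)
  have hf2 : ∀ (e : Unitization ℂ A) (z : Z), f2 (e ⊗ₜ[ℂ] z) = e.fst • z := fun e z => by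
    have h1 : f2 (e ⊗ₜ[ℂ] z) = algebraMap ℂ Z e.fst * z := Algebra.TensorProduct.lift_tmul _ _ _ _ _
    rw [h1, Algebra.smul_def]
  let F2 : Unitization ℂ A ⊗[ℂ] Z →⋆ₐ[ℂ] Z :=
    { f2 with
      map_star' := fun t => by
        change f2 (star t) = star (f2 t)
        induction t using TensorProduct.induction_on with
        | zero => simp
        | tmul x z =>
          rw [TensorProduct.star_tmul, hf2, hf2, star_smul]
          rfl
        | add x y hx hy => rw [star_add, map_add, map_add, hx, hy, star_add] }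
  have hF : ∀ t, (F1.prod F2) t = (f1 t, f2 t) := fun _ => rfl
  have hiota : ∀ y : A ⊗[ℂ] Z, f1 (iotaT A Z y) = ((m y : B) : 𝓜(ℂ, B)) ∧
      f2 (iotaT A Z y) = 0 := by
    intro y
    induction y using TensorProduct.induction_on with
    | zero =>
      rw [map_zero, map_zero, map_zero, map_zero]
      exact ⟨(map_zero (DoubleCentralizer.coeHom (𝕜 := ℂ) (A := B))).symm, rfl⟩
    | tmul a z =>
      rw [iotaT_tmul, hf1, hf2, h.mul, Unitization.fst_inr, zero_smul]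
      exact ⟨rfl, rfl⟩
    | add x y hx hy =>
      rw [map_add, map_add, map_add, map_add, hx.1, hx.2, hy.1, hy.2, add_zero]
      exact ⟨(map_add (DoubleCentralizer.coeHom (𝕜 := ℂ) (A := B)) _ _).symm, rfl⟩
  have hdec : ∀ x : Unitization ℂ A ⊗[ℂ] Z,
      x = (1 : Unitization ℂ A) ⊗ₜ[ℂ] (f2 x) +
        iotaT A Z (LinearMap.rTensor Z (Unitization.sndHom ℂ ℂ A) x) := by
    intro x
    induction x using TensorProduct.induction_on with
    | zero => simp
    | tmul e z =>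
      rw [hf2, LinearMap.rTensor_tmul, iotaT_tmul, ← TensorProduct.smul_tmul,
        ← TensorProduct.add_tmul]
      congr 1
      change e = e.fst • (1 : Unitization ℂ A) + ((e.snd : A) : Unitization ℂ A)
      apply Unitization.ext
      · simp
      · simp
    | add x y hx hy =>
      conv_lhs => rw [hx, hy]
      rw [map_add, map_add, map_add, TensorProduct.tmul_add]
      abel
  refine ⟨F1.prod F2, ?_, ?_, ?_⟩
  · rw [injective_iff_map_eq_zero]
    intro x hx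
    rw [hF, Prod.mk_eq_zero] at hx
    have h1 := hdec x
    rw [hx.2, TensorProduct.tmul_zero, zero_add] at h1
    have h2 := hx.1
    rw [h1, (hiota _).1] at h2
    have h3 : m (LinearMap.rTensor Z (Unitization.sndHom ℂ ℂ A) x) = 0 := by
      apply coe_injective
      exact h2.trans (map_zero (DoubleCentralizer.coeHom (𝕜 := ℂ) (A := B))).symm
    have h4 := h.comp.injective (h3.trans (map_zero m).symm)
    rw [h1, h4, map_zero]
  · intro e z
    rw [hF, hf1, hf2]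
  · intro y
    rw [hF, (hiota y).1, (hiota y).2]

/-- `A⁺ ⊗ Z` has a C*-completion `m1` in which the norm of `A ⊗ Z` is that of `B` -/
theorem exists_completion {m : A ⊗[ℂ] Z →ₗ[ℂ] B} (hm : IsTensorCompletion m) :
    ∃ (B1 : Type u) (_ : CStarAlgebra B1) (m1 : Unitization ℂ A ⊗[ℂ] Z →⋆ₐ[ℂ] B1),
      Function.Injective m1 ∧ DenseRange m1 ∧ ∀ y : A ⊗[ℂ] Z, ‖m1 (iotaT A Z y)‖ = ‖m y‖ := by
  obtain ⟨i, j, h⟩ := exists_IJ hm
  obtain ⟨F, hinj, -, hF⟩ := exists_F h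
  let S : StarSubalgebra ℂ (𝓜(ℂ, B) × Z) := F.range.topologicalClosure
  have hcl : IsClosed (S : Set (𝓜(ℂ, B) × Z)) := F.range.isClosed_topologicalClosure
  have hmem : ∀ x, F x ∈ S := fun x => F.range.le_topologicalClosure ⟨x, rfl⟩
  refine ⟨S, inferInstance, F.codRestrict S hmem, ?_, ?_, ?_⟩
  · intro x y hxy
    exact hinj (congrArg Subtype.val hxy)
  · intro x
    have hx : (x : 𝓜(ℂ, B) × Z) ∈ closure (Set.range F) := x.2
    rw [mem_closure_iff_seq_limit] at hx ⊢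
    obtain ⟨u, hu, hlim⟩ := hx
    choose t ht using hu
    refine ⟨fun n => F.codRestrict S hmem (t n), fun n => ⟨t n, rfl⟩, ?_⟩
    rw [tendsto_subtype_rng]
    refine hlim.congr fun n => ?_
    exact (ht n).symm
  · intro y
    change ‖F (iotaT A Z y)‖ = ‖m y‖
    rw [hF, Prod.norm_mk, norm_zero, norm_coe]
    exact max_eq_left (norm_nonneg _)

end P095G
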