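import Vale.Agent.Lib.P095G.GFMult

/-!
# P095 stage 3, part GF.5: strict limits
-/

open scoped Topology TensorProduct MultiplierAlgebra
open Filter

namespace P095G

universe u v

section Strict

variable {B : Type u} [NonUnitalCStarAlgebra B]

private theorem gfstrict_mul {x y : ℕ → 𝓜(ℂ, B)} (hx : ∀ n, x n ∈ unitary 𝓜(ℂ, B))
    {l z : 𝓜(ℂ, B)} (hw : Tendsto (fun n => x n * z) atTop (𝓝 l))
    (hy : Tendsto y atTop (𝓝 z)) : Tendsto (fun n => x n * y n) atTop (𝓝 l) := by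
  have h1 : Tendsto (fun n => x n * (y n - z)) atTop (𝓝 0) := by
    rw [tendsto_zero_iff_norm_tendsto_zero]
    have h2 : ∀ n, ‖x n * (y n - z)‖ = ‖y n - z‖ := fun n =>
      CStarRing.norm_mem_unitary_mul _ (hx n)
    simp only [h2]
    exact tendsto_iff_norm_sub_tendsto_zero.1 hy
  have h3 := h1.add hw
  rw [zero_add] at h3
  refine h3.congr fun n => ?_
  rw [← mul_add, sub_add_cancel]

private theorem gfstrict_mul' {x y : ℕ → 𝓜(ℂ, B)} (hx : ∀ n, x n ∈ unitary 𝓜(ℂ, B))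
    {l z : 𝓜(ℂ, B)} (hw : Tendsto (fun n => z * x n) atTop (𝓝 l))
    (hy : Tendsto y atTop (𝓝 z)) : Tendsto (fun n => y n * x n) atTop (𝓝 l) := by
  have h1 : Tendsto (fun n => (y n - z) * x n) atTop (𝓝 0) := by
    rw [tendsto_zero_iff_norm_tendsto_zero]
    have h2 : ∀ n, ‖(y n - z) * x n‖ = ‖y n - z‖ := fun n =>
      CStarRing.norm_mul_mem_unitary _ (hx n)
    simp only [h2]
    exact tendsto_iff_norm_sub_tendsto_zero.1 hy
  have h3 := h1.add hw
  rw [zero_add] at h3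
  refine h3.congr fun n => ?_
  rw [← add_mul, sub_add_cancel]

/-- a limit of elements of `B` in the multiplier algebra -/
private theorem gfstrict_lim {c : ℕ → B} {l : 𝓜(ℂ, B)}
    (h : Tendsto (fun n => ((c n : B) : 𝓜(ℂ, B))) atTop (𝓝 l)) :
    ∃ b : B, (b : 𝓜(ℂ, B)) = l ∧ Tendsto c atTop (𝓝 b) := by
  have h1 : l ∈ Set.range (fun b : B => (b : 𝓜(ℂ, B))) :=
    isClosed_range_coe.mem_of_tendsto h (Eventually.of_forall fun n => ⟨c n, rfl⟩)
  obtain ⟨b, rfl⟩ := h1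
  refine ⟨b, rfl, ?_⟩
  rw [tendsto_iff_norm_sub_tendsto_zero] at h ⊢
  refine h.congr fun n => ?_
  rw [← coe_sub', norm_coe]

private theorem gfstrict_clm (L : ℕ → B →L[ℂ] B) (hL : ∀ n b, ‖L n b‖ ≤ ‖b‖) (F : B → B)
    (hF : ∀ b, Tendsto (fun n => L n b) atTop (𝓝 (F b))) : ∃ T : B →L[ℂ] B, ∀ b, T b = F b := by
  let Fl : B →ₗ[ℂ] B :=
    { toFun := F
      map_add' := fun a b => by
        refine tendsto_nhds_unique (hF (a + b)) ?_
        simp only [map_add]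
        exact (hF a).add (hF b)
      map_smul' := fun r a => by
        refine tendsto_nhds_unique (hF (r • a)) ?_
        simp only [map_smul, RingHom.id_apply]
        exact (hF a).const_smul r }
  refine ⟨Fl.mkContinuous 1 fun b => ?_, fun b => rfl⟩
  rw [one_mul]
  exact le_of_tendsto (hF b).norm (Eventually.of_forall fun n => hL n b)

/-- A sequence of unitary multipliers such that `x_n b` and `b x_n` converge for all `b ∈ B` has a
strict limit, which is unitary: `w.fst b = lim x_n.fst b`, `w.snd b = lim x_n.snd b`;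
`w^* w b = lim x_n^* (w b) = lim x_n^* x_n b = b`, similarly `w w^*`. -/
theorem exists_strict_limit (x : ℕ → 𝓜(ℂ, B)) (hx : ∀ n, x n ∈ unitary 𝓜(ℂ, B))
    (h1 : ∀ b : B, ∃ l, Tendsto (fun n => x n * (b : 𝓜(ℂ, B))) atTop (𝓝 l))
    (h2 : ∀ b : B, ∃ l, Tendsto (fun n => (b : 𝓜(ℂ, B)) * x n) atTop (𝓝 l)) :
    ∃ w ∈ unitary 𝓜(ℂ, B),
      (∀ b : B, Tendsto (fun n => x n * (b : 𝓜(ℂ, B))) atTop (𝓝 (w * (b : 𝓜(ℂ, B))))) ∧
      ∀ b : B, Tendsto (fun n => (b : 𝓜(ℂ, B)) * x n) atTop (𝓝 ((b : 𝓜(ℂ, B)) * w)) := by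
  have hF0 : ∀ b : B, ∃ c : B, Tendsto (fun n => (x n).fst b) atTop (𝓝 c) := by
    intro b
    obtain ⟨l, hl⟩ := h1 b
    simp only [mul_coe] at hl
    obtain ⟨c, -, hc⟩ := gfstrict_lim hl
    exact ⟨c, hc⟩
  have hS0 : ∀ b : B, ∃ c : B, Tendsto (fun n => (x n).snd b) atTop (𝓝 c) := by
    intro b
    obtain ⟨l, hl⟩ := h2 b
    simp only [coe_mul'] at hl
    obtain ⟨c, -, hc⟩ := gfstrict_lim hl
    exact ⟨c, hc⟩
  choose F hF using hF0
  choose S hS using hS0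
  obtain ⟨TF, hTF⟩ := gfstrict_clm (fun n => (x n).fst) (fun n b => by
    rw [← norm_coe ((x n).fst b), ← mul_coe, CStarRing.norm_mem_unitary_mul _ (hx n), norm_coe])
    F hF
  obtain ⟨TS, hTS⟩ := gfstrict_clm (fun n => (x n).snd) (fun n b => by
    rw [← norm_coe ((x n).snd b), ← coe_mul', CStarRing.norm_mul_mem_unitary _ (hx n), norm_coe])
    S hS
  let w : 𝓜(ℂ, B) :=
    { fst := TF
      snd := TS
      central := fun a b => by
        rw [hTF, hTS]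
        refine tendsto_nhds_unique ((hS a).mul_const b) ?_
        refine ((hF b).const_mul a).congr fun n => ?_
        exact ((x n).central a b).symm }
  have hcont : Continuous fun b : B => (b : 𝓜(ℂ, B)) := by
    refine Metric.continuous_iff.2 fun b ε hε => ⟨ε, hε, fun a ha => ?_⟩
    rw [dist_eq_norm] at ha ⊢
    rwa [← coe_sub', norm_coe]
  have hw1 : ∀ b : B, Tendsto (fun n => x n * (b : 𝓜(ℂ, B))) atTop
      (𝓝 (w * (b : 𝓜(ℂ, B)))) := by
    intro b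
    have e1 : w * (b : 𝓜(ℂ, B)) = ((F b : B) : 𝓜(ℂ, B)) := by
      rw [mul_coe]
      congr 1
      exact hTF b
    rw [e1]
    simp only [mul_coe]
    exact (hcont.tendsto _).comp (hF b)
  have hw2 : ∀ b : B, Tendsto (fun n => (b : 𝓜(ℂ, B)) * x n) atTop
      (𝓝 ((b : 𝓜(ℂ, B)) * w)) := by
    intro b
    have e1 : (b : 𝓜(ℂ, B)) * w = ((S b : B) : 𝓜(ℂ, B)) := by
      rw [coe_mul']
      congr 1
      exact hTS b
    rw [e1]
    simp only [coe_mul']
    exact (hcont.tendsto _).comp (hS b)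
  have hw3 : ∀ b : B, Tendsto (fun n => star (x n) * (b : 𝓜(ℂ, B))) atTop
      (𝓝 (star w * (b : 𝓜(ℂ, B)))) := by
    intro b
    have h3 := (hw2 (star b)).star
    simp only [coe_star', star_mul, star_star] at h3
    exact h3
  have hxs : ∀ n, star (x n) ∈ unitary 𝓜(ℂ, B) := fun n => Unitary.star_mem (hx n)
  refine ⟨w, Unitary.mem_iff.2 ⟨?_, ?_⟩, hw1, hw2⟩
  · refine mult_ext_left fun b => ?_
    rw [mul_assoc, one_mul]
    have e1 : w * (b : 𝓜(ℂ, B)) = ((F b : B) : 𝓜(ℂ, B)) := by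
      rw [mul_coe]
      congr 1
      exact hTF b
    have h4 := hw3 (F b)
    rw [← e1] at h4
    refine tendsto_nhds_unique (gfstrict_mul hxs h4 (hw1 b)) ?_
    refine tendsto_const_nhds.congr fun n => ?_
    rw [← mul_assoc, Unitary.star_mul_self_of_mem (hx n), one_mul]
  · refine mult_ext_left fun b => ?_
    rw [mul_assoc, one_mul]
    have e1 : star w * (b : 𝓜(ℂ, B)) = (((star w).fst b : B) : 𝓜(ℂ, B)) := mul_coe _ _
    have h4 := hw1 ((star w).fst b)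
    rw [← e1] at h4
    refine tendsto_nhds_unique (gfstrict_mul hx h4 (hw3 b)) ?_
    refine tendsto_const_nhds.congr fun n => ?_
    rw [← mul_assoc, Unitary.mul_star_self_of_mem (hx n), one_mul]

/-- the product of a bounded strictly convergent sequence and a sequence `y_n b → l`, where
`l` is in the copy of `B` -/
theorem tendsto_mul_strict {x y : ℕ → 𝓜(ℂ, B)} (hx : ∀ n, x n ∈ unitary 𝓜(ℂ, B)) {w : 𝓜(ℂ, B)}
    (hw : ∀ b : B, Tendsto (fun n => x n * (b : 𝓜(ℂ, B))) atTop (𝓝 (w * (b : 𝓜(ℂ, B)))))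
    {b : B} (hy : Tendsto y atTop (𝓝 (b : 𝓜(ℂ, B)))) :
    Tendsto (fun n => x n * y n) atTop (𝓝 (w * (b : 𝓜(ℂ, B)))) :=
  gfstrict_mul hx (hw b) hy

/-- on the other side -/
theorem tendsto_mul_strict' {x y : ℕ → 𝓜(ℂ, B)} (hx : ∀ n, x n ∈ unitary 𝓜(ℂ, B)) {w : 𝓜(ℂ, B)}
    (hw : ∀ b : B, Tendsto (fun n => (b : 𝓜(ℂ, B)) * x n) atTop (𝓝 ((b : 𝓜(ℂ, B)) * w)))
    {b : B} (hy : Tendsto y atTop (𝓝 (b : 𝓜(ℂ, B)))) :
    Tendsto (fun n => y n * x n) atTop (𝓝 ((b : 𝓜(ℂ, B)) * w)) :=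
  gfstrict_mul' hx (hw b) hy

end Strict

end P095G
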