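import Vale.Agent.Lib.P095G.GFIJ
import Vale.Agent.Lib.P095G.GFStrict

/-!
# P095 stage 3, part GF.5: cocycle conjugacy
-/

open scoped Topology TensorProduct MultiplierAlgebra
open Filter

namespace P095G

universe u v

section Coc

variable {A Z B : Type u} [NonUnitalCStarAlgebra A] [CStarAlgebra Z] [NonUnitalCStarAlgebra B]
  {m : A ⊗[ℂ] Z →ₗ[ℂ] B} {i : Unitization ℂ A →⋆ₐ[ℂ] 𝓜(ℂ, B)} {j : Z →⋆ₐ[ℂ] 𝓜(ℂ, B)}

private theorem gfcoc_continuous (e : 𝓜(ℂ, B) ≃⋆ₐ[ℂ] 𝓜(ℂ, B)) : Continuous e :=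
  (AddMonoidHomClass.isometry_of_norm e fun x =>
    NonUnitalStarAlgHom.norm_map (e : 𝓜(ℂ, B) →⋆ₐ[ℂ] 𝓜(ℂ, B)) e.injective x).continuous

/-- the isomorphism `Φ a = lim v_n i(a) v_n^*` (`IsIJ.norm`: isometric; hence injective) -/
theorem exists_Phi_iso [Nontrivial Z] (h : IsIJ m i j) (v : ℕ → 𝓜(ℂ, B))
    (hv : ∀ n, v n ∈ unitary 𝓜(ℂ, B))
    (h1 : ∀ a : A, ∃ b : B, Tendsto (fun n => v n * i (a : Unitization ℂ A) * star (v n)) atTop
      (𝓝 (b : 𝓜(ℂ, B))))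
    (h2 : ∀ b : B, ∃ a : A, Tendsto (fun n => v n * i (a : Unitization ℂ A) * star (v n)) atTop
      (𝓝 (b : 𝓜(ℂ, B)))) :
    ∃ Φ : A ≃⋆ₐ[ℂ] B, ∀ a : A, Tendsto (fun n => v n * i (a : Unitization ℂ A) * star (v n)) atTop
      (𝓝 ((Φ a : B) : 𝓜(ℂ, B))) := by
  choose f hf using h1
  have huniq : ∀ (a : A) (b : B), Tendsto (fun n => v n * i (a : Unitization ℂ A) * star (v n))
      atTop (𝓝 (b : 𝓜(ℂ, B))) → f a = b := fun a b hb =>
    coe_injective (tendsto_nhds_unique (hf a) hb)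
  have hstar : ∀ n, star (v n) * v n = 1 := fun n => Unitary.star_mul_self_of_mem (hv n)
  have hadd : ∀ a b, f (a + b) = f a + f b := by
    intro a b
    refine huniq _ _ ?_
    have h1 : ((f a + f b : B) : 𝓜(ℂ, B)) = (f a : 𝓜(ℂ, B)) + (f b : 𝓜(ℂ, B)) :=
      map_add (DoubleCentralizer.coeHom (𝕜 := ℂ) (A := B)) _ _
    rw [h1]
    refine ((hf a).add (hf b)).congr fun n => ?_
    rw [Unitization.inr_add, map_add, mul_add, add_mul]
  have hmul : ∀ a b, f (a * b) = f a * f b := by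
    intro a b
    refine huniq _ _ ?_
    rw [coe_mul_coe]
    refine ((hf a).mul (hf b)).congr fun n => ?_
    rw [Unitization.inr_mul, map_mul]
    have h2 : v n * i (a : Unitization ℂ A) * star (v n) *
        (v n * i (b : Unitization ℂ A) * star (v n)) =
        v n * i (a : Unitization ℂ A) * (star (v n) * v n) * i (b : Unitization ℂ A) *
          star (v n) := by noncomm_ring
    rw [h2, hstar n, mul_one, mul_assoc (v n)]
  have hst : ∀ a, f (star a) = star (f a) := by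
    intro a
    refine huniq _ _ ?_
    rw [coe_star']
    refine ((hf a).star).congr fun n => ?_
    rw [star_mul, star_mul, star_star, ← map_star, Unitization.inr_star, mul_assoc]
  have hsmul : ∀ (c : ℂ) a, f (c • a) = c • f a := by
    intro c a
    refine huniq _ _ ?_
    have h1 : ((c • f a : B) : 𝓜(ℂ, B)) = c • (f a : 𝓜(ℂ, B)) :=
      map_smul (DoubleCentralizer.coeHom (𝕜 := ℂ) (A := B)) _ _
    rw [h1]
    refine ((hf a).const_smul c).congr fun n => ?_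
    rw [Unitization.inr_smul, map_smul, mul_smul_comm, smul_mul_assoc]
  have hnorm : ∀ a, ‖f a‖ = ‖a‖ := by
    intro a
    rw [← norm_coe (f a), ← h.norm a]
    refine tendsto_nhds_unique ((hf a).norm) ?_
    refine tendsto_const_nhds.congr fun n => ?_
    rw [CStarRing.norm_mul_mem_unitary _ (Unitary.star_mem (hv n)),
      CStarRing.norm_mem_unitary_mul _ (hv n)]
  let F : A →⋆ₙₐ[ℂ] B :=
    { toFun := f
      map_smul' := hsmul
      map_zero' := by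
        have := hsmul 0 0
        rwa [zero_smul, zero_smul] at this
      map_add' := hadd
      map_mul' := hmul
      map_star' := hst }
  have hbij : Function.Bijective F := by
    constructor
    · intro a b hab
      have h3 : F (a - b) = 0 := by rw [map_sub, hab, sub_self]
      have h4 : ‖F (a - b)‖ = ‖a - b‖ := hnorm (a - b)
      rw [h3, norm_zero] at h4
      exact sub_eq_zero.1 (norm_eq_zero.1 h4.symm)
    · intro b
      obtain ⟨a, ha⟩ := h2 b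
      exact ⟨a, huniq a b ha⟩
  exact ⟨StarAlgEquiv.ofBijective F hbij, hf⟩

/-- the cocycle identity: with `x^g_n = v_n γ_g(v_n)^*`, `x^{gh}_n b = x^g_n γ_g(x^h_n γ_g⁻¹ b)` and
`γ_g(x^h_n γ_g⁻¹ b) → γ_g(w_h γ_g⁻¹ b) = γ_g(w_h) b`, an element of `B` -/
theorem cocycle_identity {G : Type v} [Group G] {γ : G →* (B ≃⋆ₐ[ℂ] B)} (v : ℕ → 𝓜(ℂ, B))
    (hv : ∀ n, v n ∈ unitary 𝓜(ℂ, B)) (w : G → 𝓜(ℂ, B))
    (hw : ∀ g, ∀ b : B, Tendsto (fun n => v n * star (gM γ g (v n)) * (b : 𝓜(ℂ, B))) atTop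
      (𝓝 (w g * (b : 𝓜(ℂ, B))))) (g h : G) :
    w (g * h) = w g * gM γ g (w h) := by
  refine mult_ext_left fun b => ?_
  have h1 := hw (g * h) b
  -- the second factor
  set c : B := (gM γ g (w h)).fst b with hc
  have hcc : gM γ g (w h) * (b : 𝓜(ℂ, B)) = (c : 𝓜(ℂ, B)) := mul_coe _ _
  have hb : gM γ g (((γ g).symm b : B) : 𝓜(ℂ, B)) = (b : 𝓜(ℂ, B)) := by
    rw [gM_coe, (γ g).apply_symm_apply]
  have h2 : Tendsto (fun n => gM γ g (v n * star (gM γ h (v n))) * (b : 𝓜(ℂ, B))) atTop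
      (𝓝 (c : 𝓜(ℂ, B))) := by
    have h3 := ((gfcoc_continuous (gM γ g)).tendsto _).comp (hw h ((γ g).symm b))
    rw [map_mul, hb, hcc] at h3
    refine h3.congr fun n => ?_
    change gM γ g (v n * star (gM γ h (v n)) * (((γ g).symm b : B) : 𝓜(ℂ, B))) = _
    rw [map_mul, hb]
  have hx : ∀ n, v n * star (gM γ g (v n)) ∈ unitary 𝓜(ℂ, B) := fun n =>
    mul_mem (hv n) (Unitary.star_mem (Unitary.map_mem (gM γ g) (hv n)))
  have h4 := tendsto_mul_strict hx (hw g) h2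
  rw [← hcc, ← mul_assoc] at h4
  refine tendsto_nhds_unique h1 (h4.congr fun n => ?_)
  have h5 : star (gM γ g (v n)) * gM γ g (v n) = 1 :=
    Unitary.star_mul_self_of_mem (Unitary.map_mem (gM γ g) (hv n))
  have h6 : gM γ g (star (gM γ h (v n))) = star (gM γ (g * h) (v n)) := by
    rw [map_mul, StarAlgEquiv.mul_apply, map_star]
  rw [map_mul, h6]
  have h7 : v n * star (gM γ g (v n)) * (gM γ g (v n) * star (gM γ (g * h) (v n)) *
      (b : 𝓜(ℂ, B))) = v n * (star (gM γ g (v n)) * gM γ g (v n)) *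
        star (gM γ (g * h) (v n)) * (b : 𝓜(ℂ, B)) := by noncomm_ring
  rw [h7, h5, mul_one]

/-- `Φ(α_g a) = lim v_n γ_g(i a) v_n^* = lim x^g_n γ_g(v_n i(a) v_n^*) (x^g_n)^* = w_g γ_g(Φ a) w_g^*` -/
theorem conj_identity {G : Type v} [Group G] {α : G →* (A ≃⋆ₐ[ℂ] A)} {γ : G →* (B ≃⋆ₐ[ℂ] B)}
    (h : IsIJ m i j) (hγ : IsTensorActionN m α γ) (v : ℕ → 𝓜(ℂ, B))
    (hv : ∀ n, v n ∈ unitary 𝓜(ℂ, B)) (Φ : A ≃⋆ₐ[ℂ] B)
    (hΦ : ∀ a : A, Tendsto (fun n => v n * i (a : Unitization ℂ A) * star (v n)) atTop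
      (𝓝 ((Φ a : B) : 𝓜(ℂ, B)))) (g : G) (w : 𝓜(ℂ, B))
    (hw : ∀ b : B, Tendsto (fun n => v n * star (gM γ g (v n)) * (b : 𝓜(ℂ, B))) atTop
      (𝓝 (w * (b : 𝓜(ℂ, B)))))
    (hw' : ∀ b : B, Tendsto (fun n => (b : 𝓜(ℂ, B)) * (v n * star (gM γ g (v n)))) atTop
      (𝓝 ((b : 𝓜(ℂ, B)) * w))) (a : A) :
    ((Φ (α g a) : B) : 𝓜(ℂ, B)) = w * ((γ g (Φ a) : B) : 𝓜(ℂ, B)) * star w := by
  have hx : ∀ n, v n * star (gM γ g (v n)) ∈ unitary 𝓜(ℂ, B) := fun n =>
    mul_mem (hv n) (Unitary.star_mem (Unitary.map_mem (gM γ g) (hv n)))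
  have h0 : gM γ g (i (a : Unitization ℂ A)) = i ((α g a : A) : Unitization ℂ A) := by
    rw [h.gM_i hγ, uAut_inr]
  -- the middle factor
  have h1 : Tendsto (fun n => gM γ g (v n * i (a : Unitization ℂ A) * star (v n))) atTop
      (𝓝 ((γ g (Φ a) : B) : 𝓜(ℂ, B))) := by
    have h2 := ((gfcoc_continuous (gM γ g)).tendsto _).comp (hΦ a)
    rw [gM_coe] at h2
    exact h2
  have h2 := tendsto_mul_strict hx hw h1
  rw [mul_coe] at h2
  -- the right factor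
  have hw2 : ∀ b : B, Tendsto (fun n => (b : 𝓜(ℂ, B)) * star (v n * star (gM γ g (v n)))) atTop
      (𝓝 ((b : 𝓜(ℂ, B)) * star w)) := by
    intro b
    have h3 := (hw (star b)).star
    rw [star_mul, coe_star', star_star] at h3
    refine h3.congr fun n => ?_
    rw [star_mul, star_star]
  have h3 := tendsto_mul_strict' (fun n => Unitary.star_mem (hx n)) hw2 h2
  rw [← mul_coe] at h3
  refine tendsto_nhds_unique (hΦ (α g a)) (h3.congr fun n => ?_)
  have h5 : star (gM γ g (v n)) * gM γ g (v n) = 1 :=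
    Unitary.star_mul_self_of_mem (Unitary.map_mem (gM γ g) (hv n))
  rw [map_mul, map_mul, h0, map_star, star_mul, star_star]
  have h7 : v n * star (gM γ g (v n)) * (gM γ g (v n) * i ((α g a : A) : Unitization ℂ A) *
      star (gM γ g (v n))) * (gM γ g (v n) * star (v n)) =
      v n * (star (gM γ g (v n)) * gM γ g (v n)) * i ((α g a : A) : Unitization ℂ A) *
      (star (gM γ g (v n)) * gM γ g (v n)) * star (v n) := by noncomm_ring
  rw [h7, h5, mul_one, mul_one]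

/-- GF.5: from the output of the intertwining argument (GN.4) to cocycle conjugacy -/
theorem cocycleConjugateM_of_seq [Nontrivial Z] {G : Type v} [Group G] {α : G →* (A ≃⋆ₐ[ℂ] A)}
    {γ : G →* (B ≃⋆ₐ[ℂ] B)} (h : IsIJ m i j) (hγ : IsTensorActionN m α γ) (v : ℕ → 𝓜(ℂ, B))
    (hv : ∀ n, v n ∈ unitary 𝓜(ℂ, B))
    (h1 : ∀ a : A, ∃ b : B, Tendsto (fun n => v n * i (a : Unitization ℂ A) * star (v n)) atTop
      (𝓝 (b : 𝓜(ℂ, B))))
    (h2 : ∀ b : B, ∃ a : A, Tendsto (fun n => v n * i (a : Unitization ℂ A) * star (v n)) atTop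
      (𝓝 (b : 𝓜(ℂ, B))))
    (h3 : ∀ g, ∀ b : B, ∃ l, Tendsto (fun n => v n * star (gM γ g (v n)) * (b : 𝓜(ℂ, B))) atTop
      (𝓝 l))
    (h4 : ∀ g, ∀ b : B, ∃ l, Tendsto (fun n => (b : 𝓜(ℂ, B)) * (v n * star (gM γ g (v n)))) atTop
      (𝓝 l)) : CocycleConjugateM α γ := by
  obtain ⟨Φ, hΦ⟩ := exists_Phi_iso h v hv h1 h2
  have hx : ∀ g n, v n * star (gM γ g (v n)) ∈ unitary 𝓜(ℂ, B) := fun g n =>
    mul_mem (hv n) (Unitary.star_mem (Unitary.map_mem (gM γ g) (hv n)))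
  choose w hwu hw hw' using fun g =>
    exists_strict_limit (fun n => v n * star (gM γ g (v n))) (hx g) (h3 g) (h4 g)
  refine ⟨Φ, fun g => ⟨w g, hwu g⟩, ?_, ?_⟩
  · intro g k
    exact ⟨gM γ g (w k), multMaps_gM γ g (w k), cocycle_identity v hv w hw g k⟩
  · intro g a
    have := conj_identity h hγ v hv Φ hΦ g (w g) (hw g) (hw' g) a
    exact this

end Coc

end P095G
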