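import Vale.Agent.Lib.P095G.GFCpapB

/-!
# P095 stage 3, part GF.1: CPAP passes to the unitization; the proof is in the header of `GFCpapB`
-/

open scoped Topology
open Filter

namespace P095G

universe u v

variable {A : Type u} [NonUnitalCStarAlgebra A]

/-- two-sided multiplication by a contraction which is a unit up to `δ` -/
theorem gfcpap_conj (v a : A) (δ : ℝ) (h1 : ‖v‖ ≤ 1) (h2 : ‖v * a - a‖ ≤ δ)
    (h3 : ‖a * v - a‖ ≤ δ) : ‖v * a * v - a‖ ≤ 2 * δ := by
  have e : v * a * v - a = v * (a * v - a) + (v * a - a) := by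
    rw [mul_sub, mul_assoc]
    abel
  rw [e]
  have h4 : ‖v * (a * v - a)‖ ≤ δ := by
    refine (norm_mul_le _ _).trans ?_
    nlinarith [norm_nonneg v, norm_nonneg (a * v - a)]
  refine (norm_add_le _ _).trans ?_
  linarith

theorem gfcpap_fst_sub (x y : Unitization ℂ A) : (x - y).fst = x.fst - y.fst := rfl

theorem gfcpap_snd_sub (x y : Unitization ℂ A) : (x - y).snd = x.snd - y.snd := rfl

/-- CPAP of the unitization, see the header of `GFCpapB` -/
theorem cpap_unitization (h : NuclearN A) : P095F.NuclearCPAP (Unitization ℂ A) := by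
  classical
  intro S ε hε
  have hδ : 0 < ε / 5 := by positivity
  obtain ⟨v, hv, hv1, hvS⟩ := exists_local_unit (S.image fun x => x.snd) (ε / 5) hδ
  obtain ⟨w, hw, hw1, hwS⟩ := exists_local_unit (S.image fun x => gfcpapb_q v x) (ε / 5) hδ
  obtain ⟨k, φ, ψ, hφ, hψ, hS⟩ := h (S.image fun x => gfcpapb_q v x) (ε / 5) hδ
  obtain ⟨Φ, hΦ, hΦ'⟩ := exists_Phi φ hφ v hv
  obtain ⟨Ψ, hΨ, hΨ'⟩ := exists_Psi ψ hψ w hw
    (1 - (v : Unitization ℂ A) * (v : Unitization ℂ A)) (exists_one_sub_sq v hv hv1)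
  refine ⟨k + 1, Φ, Ψ, hΦ, hΨ, fun x hx => ?_⟩
  have hxa := hvS x.snd (Finset.mem_image_of_mem _ hx)
  have hxq := hwS (gfcpapb_q v x) (Finset.mem_image_of_mem _ hx)
  have hxS := hS (gfcpapb_q v x) (Finset.mem_image_of_mem _ hx)
  have h1 : Ψ (Φ x) - x = ((w * (ψ (φ (gfcpapb_q v x)) - gfcpapb_q v x) * w +
      (w * gfcpapb_q v x * w - gfcpapb_q v x) + (v * x.snd * v - x.snd) : A) :
        Unitization ℂ A) := by
    rw [hΦ' x (gfcpapb_q v x) (gfcpapb_q_eq v x), hΨ']
    have h2 : gfcpapb_q v x = x.fst • (v * v) + v * x.snd * v := rfl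
    apply Unitization.ext
    · simp [gfcpap_fst_sub]
    · simp only [gfcpap_snd_sub, Unitization.snd_add, Unitization.snd_inr,
        Unitization.snd_smul, Unitization.snd_one, Unitization.snd_mul, Unitization.fst_inr,
        zero_smul, zero_add, add_zero]
      rw [mul_sub, sub_mul, smul_sub, smul_zero]
      generalize ψ (φ (gfcpapb_q v x)) = z
      rw [h2]
      abel
  rw [h1, Unitization.norm_inr]
  have h2 : ‖w * (ψ (φ (gfcpapb_q v x)) - gfcpapb_q v x) * w‖ ≤ ε / 5 := by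
    refine (norm_mul_le _ _).trans ?_
    have h3 : ‖w * (ψ (φ (gfcpapb_q v x)) - gfcpapb_q v x)‖ ≤ ε / 5 := by
      refine (norm_mul_le _ _).trans ?_
      nlinarith [norm_nonneg w, norm_nonneg (ψ (φ (gfcpapb_q v x)) - gfcpapb_q v x)]
    nlinarith [norm_nonneg w, norm_nonneg (w * (ψ (φ (gfcpapb_q v x)) - gfcpapb_q v x))]
  have h3 := gfcpap_conj w (gfcpapb_q v x) (ε / 5) hw1 hxq.1 hxq.2
  have h4 := gfcpap_conj v x.snd (ε / 5) hv1 hxa.1 hxa.2
  refine (norm_add_le _ _).trans ?_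
  have h5 := norm_add_le (w * (ψ (φ (gfcpapb_q v x)) - gfcpapb_q v x) * w)
    (w * gfcpapb_q v x * w - gfcpapb_q v x)
  linarith

end P095G
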