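import Mathlib.Analysis.CStarAlgebra.Multiplier
import Mathlib.Analysis.Normed.Algebra.Exponential
import Vale.Agent.Lib.P095F.Stmt2

/-!
# P095: the definitions used in the statement for general (possibly nonunital) C*-algebras
-/

open scoped Topology TensorProduct MultiplierAlgebra

namespace P095G

universe u v

section Alg

/-- The C*-algebra `A` is simple: it is not zero and every nonzero element generates it as a closed
two-sided ideal. -/
def SimpleCStar (A : Type u) [NonUnitalCStarAlgebra A] : Prop :=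
  (∃ x : A, x ≠ 0) ∧ ∀ x : A, x ≠ 0 → ∀ (y : A) (ε : ℝ), 0 < ε →
    ∃ (n : ℕ) (a b : Fin n → A), ‖y - ∑ i, a i * x * b i‖ < ε

/-- Complete positivity of a linear map between (possibly nonunital) *-algebras. -/
def CompletelyPositiveN {A : Type u} {B : Type v} [NonUnitalRing A] [StarRing A] [Module ℂ A]
    [NonUnitalRing B] [StarRing B] [Module ℂ B] (φ : A →ₗ[ℂ] B) : Prop :=
  ∀ (n : ℕ) (a : Fin n → A) (b : Fin n → B),
    ∃ c : B, ∑ i, ∑ j, star (b i) * φ (star (a i) * a j) * b j = star c * c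

/-- Nuclearity (completely positive approximation property): the identity of `A` is a limit,
pointwise in norm, of completely positive maps that factor through matrix algebras. -/
def NuclearN (A : Type u) [NonUnitalCStarAlgebra A] : Prop :=
  ∀ (S : Finset A) (ε : ℝ), 0 < ε → ∃ (k : ℕ) (φ : A →ₗ[ℂ] Matrix (Fin k) (Fin k) ℂ)
    (ψ : Matrix (Fin k) (Fin k) ℂ →ₗ[ℂ] A), CompletelyPositiveN φ ∧ CompletelyPositiveN ψ ∧
      ∀ a ∈ S, ‖ψ (φ a) - a‖ ≤ ε

/-- `m` exhibits `B` as a C*-completion of the algebraic tensor product `A ⊗ Z` (for `Z` nuclear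
there is only one, the minimal tensor product). -/
structure IsTensorCompletion {A Z B : Type u} [NonUnitalCStarAlgebra A] [CStarAlgebra Z]
    [NonUnitalCStarAlgebra B] (m : A ⊗[ℂ] Z →ₗ[ℂ] B) : Prop where
  mul : ∀ (a a' : A) (z z' : Z), m (a ⊗ₜ[ℂ] z) * m (a' ⊗ₜ[ℂ] z') = m ((a * a') ⊗ₜ[ℂ] (z * z'))
  star : ∀ (a : A) (z : Z), star (m (a ⊗ₜ[ℂ] z)) = m (star a ⊗ₜ[ℂ] star z)
  injective : Function.Injective m
  dense : DenseRange m

/-- every unitary of `Z` is a finite product of exponentials `exp(i h)`, `h = h*` (that is, the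
unitary group of `Z` is connected). -/
def UnitariesExp (Z : Type u) [CStarAlgebra Z] : Prop :=
  ∀ u ∈ unitary Z, ∃ l : List Z, (∀ h ∈ l, IsSelfAdjoint h) ∧
    u = (l.map fun h => NormedSpace.exp (Complex.I • h)).prod

end Alg

section Mult

variable {B : Type u} [NonUnitalCStarAlgebra B]

/-- The *-automorphism `g` of `B` maps the multiplier `m` to the multiplier `m'`, i.e. `m'` is
the image of `m` under the canonical extension of `g` to the multiplier algebra `M(B)`: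
`m' g(b) = g(m b)` and `g(b) m' = g(b m)` for all `b`. -/
def MultMaps (g : B ≃⋆ₐ[ℂ] B) (m m' : 𝓜(ℂ, B)) : Prop :=
  ∀ b : B, m'.fst (g b) = g (m.fst b) ∧ m'.snd (g b) = g (m.snd b)

end Mult

section Act

variable {G : Type v} [Group G] {A B : Type u} [NonUnitalCStarAlgebra A]
  [NonUnitalCStarAlgebra B]

/-- The actions `α` on `A` and `γ` on `B` are cocycle conjugate: there are a *-isomorphism
`Φ : A → B` and a `γ`-cocycle `w` of unitaries of the multiplier algebra `M(B)`, i.e.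
`w_{gh} = w_g γ_g(w_h)`, with `Φ(α_g(a)) = w_g γ_g(Φ(a)) w_g^*`. -/
def CocycleConjugateM (α : G →* (A ≃⋆ₐ[ℂ] A)) (γ : G →* (B ≃⋆ₐ[ℂ] B)) : Prop :=
  ∃ (Φ : A ≃⋆ₐ[ℂ] B) (w : G → unitary 𝓜(ℂ, B)),
    (∀ g h, ∃ m : 𝓜(ℂ, B), MultMaps (γ g) (w h : 𝓜(ℂ, B)) m ∧
      (w (g * h) : 𝓜(ℂ, B)) = (w g : 𝓜(ℂ, B)) * m) ∧
    ∀ g a, ((Φ (α g a) : B) : 𝓜(ℂ, B)) =
      (w g : 𝓜(ℂ, B)) * ((γ g (Φ a) : B) : 𝓜(ℂ, B)) * star (w g : 𝓜(ℂ, B))

/-- `γ` is the action `α ⊗ id_Z` on the C*-completion `m : A ⊗ Z → B`. -/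
def IsTensorActionN {Z : Type u} [CStarAlgebra Z] (m : A ⊗[ℂ] Z →ₗ[ℂ] B)
    (α : G →* (A ≃⋆ₐ[ℂ] A)) (γ : G →* (B ≃⋆ₐ[ℂ] B)) : Prop :=
  ∀ (g : G) (a : A) (z : Z), γ g (m (a ⊗ₜ[ℂ] z)) = m (α g a ⊗ₜ[ℂ] z)

end Act

/-- the final statement (for orientation; the hand-in states it in full) -/
def FinalStatement : Prop :=
  ∀ {G : Type v} [Group G] [Countable G], P095F.AmenableGroup G →
    ∀ {A Z B : Type u} [NonUnitalCStarAlgebra A] [CStarAlgebra Z] [NonUnitalCStarAlgebra B]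
      [TopologicalSpace.SeparableSpace A], SimpleCStar A → NuclearN A → P095E.IsJiangSu Z →
      UnitariesExp Z → ∀ m : A ⊗[ℂ] Z →ₗ[ℂ] B, IsTensorCompletion m → Nonempty (A ≃⋆ₐ[ℂ] B) →
      ∀ α : G →* (A ≃⋆ₐ[ℂ] A), ∃ γ : G →* (B ≃⋆ₐ[ℂ] B),
        IsTensorActionN m α γ ∧ CocycleConjugateM α γ

end P095G
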