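import Mathlib.Topology.Order.Hom.Esakia
import Vale.Agent.Lib.P095G.GDefs
import Vale.Agent.Lib.P095G.GStmt

/-!
# P095 stage 3, part GF.1: the unitization and the ideal `A`
-/

open scoped Topology
open Filter

namespace P095G

universe u v

section

variable (A : Type u) [NonUnitalCStarAlgebra A]

/-- `A` as an ideal of its unitization -/
noncomputable def uI : Ideal (Unitization ℂ A) := RingHom.ker (Unitization.fstHom ℂ A)

variable {A}

theorem mem_uI {x : Unitization ℂ A} : x ∈ uI A ↔ x.fst = 0 := Iff.rfl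

theorem inr_mem_uI (a : A) : (a : Unitization ℂ A) ∈ uI A := Unitization.fst_inr ℂ a

theorem eq_inr_of_mem_uI {x : Unitization ℂ A} (hx : x ∈ uI A) :
    x = ((x.snd : A) : Unitization ℂ A) := by
  apply Unitization.ext
  · rw [Unitization.fst_inr]
    exact hx
  · rw [Unitization.snd_inr]

private theorem gfunit_fst_continuous :
    Continuous (fun x : Unitization ℂ A => x.fst) :=
  continuous_fst.comp (Unitization.uniformEquivProd (𝕜 := ℂ) (A := A)).continuous

/-- the ideal `A` of the unitization is good; `simple`: for `x = a`, `y = b` in `A` the elements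
`a_i x b_i` of the definition of `SimpleCStar` -/
theorem uI_good (h : SimpleCStar A) : GoodIdeal (uI A) := by
  refine ⟨?_, ?_, ?_, ?_, ?_⟩
  · unfold uI
    infer_instance
  · have e : (uI A : Set (Unitization ℂ A)) = {x | x.fst = 0} := rfl
    rw [e]
    exact isClosed_eq gfunit_fst_continuous continuous_const
  · intro x
    refine ⟨x.fst, ?_⟩
    change Unitization.fstHom ℂ A (x - algebraMap ℂ (Unitization ℂ A) x.fst) = 0
    rw [map_sub, AlgHom.commutes]
    exact sub_self x.fst
  · obtain ⟨x, hx⟩ := h.1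
    refine ⟨(x : Unitization ℂ A), inr_mem_uI x, ?_⟩
    intro h0
    exact hx (Unitization.inr_injective (R := ℂ) (by rw [h0, Unitization.inr_zero]))
  · intro x hx hx0 y hy ε hε
    have hx' := eq_inr_of_mem_uI hx
    have hy' := eq_inr_of_mem_uI hy
    have hxs : x.snd ≠ 0 := by
      intro h0
      apply hx0
      rw [hx', h0, Unitization.inr_zero]
    obtain ⟨n, a, b, hab⟩ := h.2 x.snd hxs y.snd ε hε
    refine ⟨n, fun i => (a i : Unitization ℂ A), fun i => (b i : Unitization ℂ A), ?_⟩
    have e : y - ∑ i, (a i : Unitization ℂ A) * x * (b i : Unitization ℂ A) =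
        ((y.snd - ∑ i, a i * x.snd * b i : A) : Unitization ℂ A) := by
      rw [Unitization.inr_sub, ← hy']
      congr 1
      have hs : ((∑ i, a i * x.snd * b i : A) : Unitization ℂ A) =
          ∑ i, ((a i * x.snd * b i : A) : Unitization ℂ A) :=
        map_sum (Unitization.inrNonUnitalAlgHom ℂ A) _ _
      rw [hs]
      refine Finset.sum_congr rfl fun i _ => ?_
      rw [Unitization.inr_mul, Unitization.inr_mul, ← hx']
    rw [e, Unitization.norm_inr]
    exact hab

theorem separable_unitization [TopologicalSpace.SeparableSpace A] :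
    TopologicalSpace.SeparableSpace (Unitization ℂ A) :=
  (Unitization.uniformEquivProd (𝕜 := ℂ) (A := A)).symm.surjective.denseRange.separableSpace
    (Unitization.uniformEquivProd (𝕜 := ℂ) (A := A)).symm.continuous

variable {G : Type v} [Group G]

/-- the unital extension of an automorphism -/
noncomputable def uAut1 (e : A ≃⋆ₐ[ℂ] A) : Unitization ℂ A ≃⋆ₐ[ℂ] Unitization ℂ A :=
  StarAlgEquiv.ofStarAlgHom (Unitization.starMap (e : A →⋆ₙₐ[ℂ] A))
    (Unitization.starMap (e.symm : A →⋆ₙₐ[ℂ] A))
    (by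
      rw [← Unitization.starMap_comp]
      have : (e.symm : A →⋆ₙₐ[ℂ] A).comp (e : A →⋆ₙₐ[ℂ] A) = NonUnitalStarAlgHom.id ℂ A := by
        ext x
        exact e.symm_apply_apply x
      rw [this, Unitization.starMap_id])
    (by
      rw [← Unitization.starMap_comp]
      have : (e : A →⋆ₙₐ[ℂ] A).comp (e.symm : A →⋆ₙₐ[ℂ] A) = NonUnitalStarAlgHom.id ℂ A := by
        ext x
        exact e.apply_symm_apply x
      rw [this, Unitization.starMap_id])

theorem uAut1_inr (e : A ≃⋆ₐ[ℂ] A) (a : A) :
    uAut1 e (a : Unitization ℂ A) = ((e a : A) : Unitization ℂ A) :=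
  Unitization.starMap_inr (e : A →⋆ₙₐ[ℂ] A) a

theorem uAut1_fst (e : A ≃⋆ₐ[ℂ] A) (x : Unitization ℂ A) : (uAut1 e x).fst = x.fst := by
  induction x using Unitization.ind with
  | inl_add_inr r a =>
    have h1 : uAut1 e (Unitization.inl r) = Unitization.inl r :=
      Unitization.starMap_inl (e : A →⋆ₙₐ[ℂ] A) r
    rw [map_add, h1, uAut1_inr, Unitization.fst_add, Unitization.fst_add, Unitization.fst_inr,
      Unitization.fst_inr]

/-- the unital extension of an action -/
noncomputable def uAut (α : G →* (A ≃⋆ₐ[ℂ] A)) :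
    G →* (Unitization ℂ A ≃⋆ₐ[ℂ] Unitization ℂ A) := by
  refine MonoidHom.mk' (fun g => uAut1 (α g)) ?_
  intro g h
  apply StarAlgEquiv.ext
  intro x
  rw [StarAlgEquiv.mul_apply]
  induction x using Unitization.ind with
  | inl_add_inr r a =>
    have h1 : ∀ (e : A ≃⋆ₐ[ℂ] A), uAut1 e (Unitization.inl r) = Unitization.inl r :=
      fun e => Unitization.starMap_inl (e : A →⋆ₙₐ[ℂ] A) r
    rw [map_add, map_add, map_add, h1, h1, h1, uAut1_inr, uAut1_inr, uAut1_inr, map_mul]
    rfl

theorem uAut_inr (α : G →* (A ≃⋆ₐ[ℂ] A)) (g : G) (a : A) :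
    uAut α g (a : Unitization ℂ A) = ((α g a : A) : Unitization ℂ A) := uAut1_inr (α g) a

theorem uAut_fst (α : G →* (A ≃⋆ₐ[ℂ] A)) (g : G) (x : Unitization ℂ A) :
    (uAut α g x).fst = x.fst := uAut1_fst (α g) x

theorem uAut_mem (α : G →* (A ≃⋆ₐ[ℂ] A)) (g : G) (x : Unitization ℂ A) (hx : x ∈ uI A) :
    uAut α g x ∈ uI A := by
  rw [mem_uI, uAut_fst]
  exact hx

end

end P095G
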