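import Mathlib.Analysis.CStarAlgebra.ApproximateUnit
import Vale.Agent.Lib.P095G.GFUnit

/-!
# P095 stage 3, part GF.1: local units and positive elements (for `GFCpap`)
-/

open scoped Topology
open Filter

namespace P095G

universe u v

variable {A : Type u} [NonUnitalCStarAlgebra A]

/-- local units (`CStarAlgebra.increasingApproximateUnit`) -/
theorem exists_local_unit (S : Finset A) (ε : ℝ) (hε : 0 < ε) :
    ∃ v : A, IsSelfAdjoint v ∧ ‖v‖ ≤ 1 ∧ ∀ a ∈ S, ‖v * a - a‖ ≤ ε ∧ ‖a * v - a‖ ≤ ε := by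
  classical
  let _ := CStarAlgebra.spectralOrder A
  have := CStarAlgebra.spectralOrderedRing A
  have hl := CStarAlgebra.increasingApproximateUnit A
  have h1 : ∀ a : A, ∀ᶠ v in CStarAlgebra.approximateUnit A,
      ‖v * a - a‖ ≤ ε ∧ ‖a * v - a‖ ≤ ε := by
    intro a
    filter_upwards [(Metric.tendsto_nhds.1 (hl.tendsto_mul_right a)) ε hε,
      (Metric.tendsto_nhds.1 (hl.tendsto_mul_left a)) ε hε] with v hv hv'
    rw [dist_eq_norm] at hv hv'
    exact ⟨hv.le, hv'.le⟩
  have h2 : ∀ᶠ v in CStarAlgebra.approximateUnit A, ∀ a ∈ S,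
      ‖v * a - a‖ ≤ ε ∧ ‖a * v - a‖ ≤ ε :=
    (Filter.eventually_all_finset S).2 fun a _ => h1 a
  obtain ⟨v, hv1, hv2, hv3⟩ :=
    (hl.eventually_isSelfAdjoint.and (hl.eventually_norm.and h2)).exists
  exact ⟨v, hv1, hv2, hv3⟩

/-- sums of elements of the form `star c * c` in a unital C*-algebra have this form -/
theorem exists_star_mul_add {E : Type u} [CStarAlgebra E] (x y : E)
    (hx : ∃ c : E, x = star c * c) (hy : ∃ c : E, y = star c * c) : ∃ c : E, x + y = star c * c := by
  let _ := CStarAlgebra.spectralOrder E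
  have := CStarAlgebra.spectralOrderedRing E
  exact CStarAlgebra.nonneg_iff_eq_star_mul_self.1
    (add_nonneg (CStarAlgebra.nonneg_iff_eq_star_mul_self.2 hx)
      (CStarAlgebra.nonneg_iff_eq_star_mul_self.2 hy))

/-- a positive multiple: `1 - v²` is of the form `star c * c` -/
theorem exists_one_sub_sq (v : A) (hv : IsSelfAdjoint v) (h1 : ‖v‖ ≤ 1) :
    ∃ c : Unitization ℂ A, 1 - (v : Unitization ℂ A) * (v : Unitization ℂ A) = star c * c := by
  let _ := CStarAlgebra.spectralOrder (Unitization ℂ A)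
  have := CStarAlgebra.spectralOrderedRing (Unitization ℂ A)
  have hs : star (v : Unitization ℂ A) = (v : Unitization ℂ A) := by
    rw [← Unitization.inr_star, hv.star_eq]
  have h2 : 0 ≤ (v : Unitization ℂ A) * (v : Unitization ℂ A) := by
    have h := star_mul_self_nonneg (v : Unitization ℂ A)
    rwa [hs] at h
  have h3 : ‖(v : Unitization ℂ A) * (v : Unitization ℂ A)‖ ≤ 1 := by
    refine (norm_mul_le _ _).trans ?_
    rw [Unitization.norm_inr]
    nlinarith [norm_nonneg v]
  exact CStarAlgebra.nonneg_iff_eq_star_mul_self.1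
    (sub_nonneg.2 ((CStarAlgebra.norm_le_one_iff_of_nonneg _ h2).1 h3))

end P095G
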