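import Mathlib.Analysis.InnerProductSpace.Positive
import Vale.Agent.Lib.P095G.GFCpapA

/-!
# P095 stage 3, part GF.1: CPAP passes to the unitization

Let `S` be a finite subset of the unitization `E` of `A`, `x = λ_x + a_x`. Take `v ∈ A`, self-adjoint,
contraction, with `v a_x ~ a_x ~ a_x v`: then `x ~ v x v + λ_x (1 - v²)`. Take a self-adjoint contraction
`w ∈ A` with `w (v x v) w ~ v x v`, and `φ : A → M_k`, `ψ : M_k → A` completely positive (in the sense of
`CompletelyPositiveN`) with `ψ (φ (v x v)) ~ v x v` (`v x v` is an element of `A`). Put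
`Φ : E → M_{k+1}`, `Φ x = φ(v x v) ⊕ λ_x` (`Fin (k+1)`, the scalar in the last corner) and
`Ψ : M_{k+1} → E`, `Ψ y = w ψ(y restricted to k × k) w + y_{last,last} (1 - v²)`.
`Φ` is completely positive: `φ(v x_i^* x_j v) = φ((x_i v)^* (x_j v))` with `x_i v ∈ A`, and `x ↦ λ_x` is a
*-homomorphism. `Ψ` is completely positive: for `b_i ∈ E` one has `w b_i ∈ A`, so
`∑ b_i^* w ψ(y_i^* y_j) w b_j = ∑ (w b_i)^* ψ(y_i^* y_j) (w b_j) ≥ 0`, and `1 - v² ≥ 0`.
-/

open scoped Topology
open Filter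

namespace P095G

universe u v

variable {A : Type u} [NonUnitalCStarAlgebra A]

/-- block diagonal matrices -/
noncomputable def blk {k : ℕ} (y : Matrix (Fin k) (Fin k) ℂ) (c : ℂ) :
    Matrix (Fin (k + 1)) (Fin (k + 1)) ℂ :=
  Matrix.of (Fin.snoc (fun i => Fin.snoc (fun j => y i j) 0) (Fin.snoc (fun _ => 0) c))

section gfcpapb_matrix

open scoped ComplexOrder Matrix MatrixOrder
open Matrix

/-- a complex matrix with nonnegative quadratic form is of the form `star c * c` -/
theorem gfcpapb_psd {m : ℕ} (M : Matrix (Fin m) (Fin m) ℂ)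
    (h : ∀ ξ : Fin m → ℂ, 0 ≤ star ξ ⬝ᵥ (M *ᵥ ξ)) :
    ∃ c : Matrix (Fin m) (Fin m) ℂ, M = star c * c := by
  have hM : M.PosSemidef := by
    rw [← Matrix.isPositive_toEuclideanLin_iff, LinearMap.isPositive_iff_complex]
    intro x
    have h1 := h (WithLp.ofLp x)
    have h2 : inner ℂ (Matrix.toEuclideanLin M x) x =
        star (star (WithLp.ofLp x) ⬝ᵥ (M *ᵥ (WithLp.ofLp x))) := by
      rw [← Matrix.star_dotProduct_star, star_star, dotProduct_comm]
      rfl
    rw [h2]
    obtain ⟨r, hr, hr'⟩ := Complex.nonneg_iff.1 h1 |> fun h => (⟨(star (WithLp.ofLp x) ⬝ᵥ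
      (M *ᵥ (WithLp.ofLp x))).re, h.1, by
        apply Complex.ext
        · rfl
        · rw [← h.2]
          rfl⟩ : ∃ r : ℝ, 0 ≤ r ∧ star (WithLp.ofLp x) ⬝ᵥ (M *ᵥ (WithLp.ofLp x)) = (r : ℂ))
    rw [hr']
    have h3 : star (r : ℂ) = (r : ℂ) := Complex.conj_ofReal r
    rw [h3]
    exact ⟨by simp, by simpa using hr⟩
  exact CStarAlgebra.nonneg_iff_eq_star_mul_self.mp hM.nonneg

/-- a matrix with first column `η` -/
def gfcpapb_col {k : ℕ} (η : Fin k → ℂ) : Matrix (Fin k) (Fin k) ℂ :=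
  Matrix.of fun p q => if q.val = 0 then η p else 0

theorem gfcpapb_col_apply {k : ℕ} (η η' : Fin (k + 1) → ℂ) (X : Matrix (Fin (k + 1)) (Fin (k + 1)) ℂ) :
    (star (gfcpapb_col η) * X * gfcpapb_col η') 0 0 = star η ⬝ᵥ (X *ᵥ η') := by
  rw [mul_assoc, Matrix.star_eq_conjTranspose, Matrix.mul_apply]
  simp only [dotProduct, Matrix.mulVec, Matrix.mul_apply, Matrix.conjTranspose_apply, gfcpapb_col,
    Matrix.of_apply, Fin.val_zero, if_true, Pi.star_apply]

/-- complete positivity, vector form -/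
theorem gfcpapb_vec {k : ℕ} {φ : A →ₗ[ℂ] Matrix (Fin k) (Fin k) ℂ} (hφ : CompletelyPositiveN φ)
    {n : ℕ} (a : Fin n → A) (η : Fin n → Fin k → ℂ) :
    0 ≤ ∑ i, ∑ j, star (η i) ⬝ᵥ (φ (star (a i) * a j) *ᵥ η j) := by
  cases k with
  | zero => simp [dotProduct]
  | succ k =>
    obtain ⟨c, hc⟩ := hφ n a fun i => gfcpapb_col (η i)
    have h1 := congrArg (fun M : Matrix (Fin (k + 1)) (Fin (k + 1)) ℂ => M 0 0) hc
    simp only [Matrix.sum_apply, gfcpapb_col_apply] at h1
    rw [h1, Matrix.star_eq_conjTranspose, Matrix.mul_apply]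
    refine Finset.sum_nonneg fun i _ => ?_
    rw [Matrix.conjTranspose_apply]
    exact star_mul_self_nonneg _

theorem gfcpapb_blk_mulVec {k : ℕ} (X : Matrix (Fin k) (Fin k) ℂ) (c : ℂ)
    (ζ ξ : Fin (k + 1) → ℂ) :
    star ξ ⬝ᵥ (blk X c *ᵥ ζ) = star (fun i : Fin k => ξ i.castSucc) ⬝ᵥ
      (X *ᵥ fun i : Fin k => ζ i.castSucc) + star (ξ (Fin.last k)) * c * ζ (Fin.last k) := by
  simp only [dotProduct, Matrix.mulVec, Fin.sum_univ_castSucc, blk, Matrix.of_apply,
    Fin.snoc_castSucc, Fin.snoc_last, Pi.star_apply, zero_mul, add_zero, Finset.sum_const_zero,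
    zero_add, mul_assoc]

theorem gfcpapb_blk_psd {k : ℕ} {φ : A →ₗ[ℂ] Matrix (Fin k) (Fin k) ℂ} (hφ : CompletelyPositiveN φ)
    {n : ℕ} (a : Fin n → A) (l : Fin n → ℂ) (b : Fin n → Matrix (Fin (k + 1)) (Fin (k + 1)) ℂ) :
    ∃ c : Matrix (Fin (k + 1)) (Fin (k + 1)) ℂ,
      ∑ i, ∑ j, star (b i) * blk (φ (star (a i) * a j)) (star (l i) * l j) * b j = star c * c := by
  apply gfcpapb_psd
  intro ξ
  have h1 : star ξ ⬝ᵥ ((∑ i, ∑ j, star (b i) * blk (φ (star (a i) * a j)) (star (l i) * l j) *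
      b j) *ᵥ ξ) = ∑ i, ∑ j, star (b i *ᵥ ξ) ⬝ᵥ
        (blk (φ (star (a i) * a j)) (star (l i) * l j) *ᵥ (b j *ᵥ ξ)) := by
    rw [Matrix.sum_mulVec, dotProduct_sum]
    refine Finset.sum_congr rfl fun i _ => ?_
    rw [Matrix.sum_mulVec, dotProduct_sum]
    refine Finset.sum_congr rfl fun j _ => ?_
    rw [← Matrix.mulVec_mulVec, ← Matrix.mulVec_mulVec, Matrix.star_mulVec,
      Matrix.dotProduct_mulVec, Matrix.star_eq_conjTranspose]
  rw [h1]
  simp only [gfcpapb_blk_mulVec, Finset.sum_add_distrib]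
  refine add_nonneg (gfcpapb_vec hφ a _) ?_
  have h2 : ∑ i, ∑ j, star ((b i *ᵥ ξ) (Fin.last k)) * (star (l i) * l j) *
      (b j *ᵥ ξ) (Fin.last k) = star (∑ i, l i * (b i *ᵥ ξ) (Fin.last k)) *
        ∑ j, l j * (b j *ᵥ ξ) (Fin.last k) := by
    rw [star_sum, Finset.sum_mul_sum]
    refine Finset.sum_congr rfl fun i _ => Finset.sum_congr rfl fun j _ => ?_
    rw [star_mul]
    ring
  rw [h2]
  exact star_mul_self_nonneg _

end gfcpapb_matrix

theorem gfcpapb_blk_add {k : ℕ} (X Y : Matrix (Fin k) (Fin k) ℂ) (c d : ℂ) :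
    blk (X + Y) (c + d) = blk X c + blk Y d := by
  ext i j
  refine Fin.lastCases ?_ (fun i => ?_) i <;> refine Fin.lastCases ?_ (fun j => ?_) j <;>
    simp [blk]

theorem gfcpapb_blk_smul {k : ℕ} (X : Matrix (Fin k) (Fin k) ℂ) (c t : ℂ) :
    blk (t • X) (t • c) = t • blk X c := by
  ext i j
  refine Fin.lastCases ?_ (fun i => ?_) i <;> refine Fin.lastCases ?_ (fun j => ?_) j <;>
    simp [blk]

/-- the element `v x v` of `A` -/
noncomputable def gfcpapb_q (v : A) : Unitization ℂ A →ₗ[ℂ] A where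
  toFun x := x.fst • (v * v) + v * x.snd * v
  map_add' x y := by
    rw [Unitization.fst_add, Unitization.snd_add, add_smul, mul_add, add_mul]
    abel
  map_smul' c x := by
    rw [Unitization.fst_smul, Unitization.snd_smul, RingHom.id_apply, smul_add, smul_eq_mul,
      mul_smul, mul_smul_comm, smul_mul_assoc]

theorem gfcpapb_q_eq (v : A) (x : Unitization ℂ A) :
    (v : Unitization ℂ A) * x * (v : Unitization ℂ A) = (gfcpapb_q v x : A) := by
  apply Unitization.ext
  · simp [gfcpapb_q]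
  · simp [gfcpapb_q, add_mul, smul_mul_assoc]

/-- the element `x v` of `A` -/
noncomputable def gfcpapb_r (v : A) (x : Unitization ℂ A) : A := x.fst • v + x.snd * v

theorem gfcpapb_r_eq (v : A) (x : Unitization ℂ A) :
    x * (v : Unitization ℂ A) = (gfcpapb_r v x : A) := by
  apply Unitization.ext
  · simp [gfcpapb_r]
  · simp [gfcpapb_r]

theorem gfcpapb_q_star (v : A) (hv : IsSelfAdjoint v) (x y : Unitization ℂ A) :
    gfcpapb_q v (star x * y) = star (gfcpapb_r v x) * gfcpapb_r v y := by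
  apply Unitization.inr_injective (R := ℂ)
  rw [← gfcpapb_q_eq, Unitization.inr_mul, Unitization.inr_star, ← gfcpapb_r_eq, ← gfcpapb_r_eq,
    star_mul, ← Unitization.inr_star, hv.star_eq]
  noncomm_ring

/-- the map `Φ` is completely positive -/
theorem exists_Phi {k : ℕ} (φ : A →ₗ[ℂ] Matrix (Fin k) (Fin k) ℂ) (hφ : CompletelyPositiveN φ)
    (v : A) (hv : IsSelfAdjoint v) :
    ∃ Φ : Unitization ℂ A →ₗ[ℂ] Matrix (Fin (k + 1)) (Fin (k + 1)) ℂ,
      P095F.CompletelyPositive Φ ∧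
      ∀ x, ∀ a : A, (v : Unitization ℂ A) * x * (v : Unitization ℂ A) = (a : Unitization ℂ A) →
        Φ x = blk (φ a) x.fst := by
  refine ⟨{ toFun := fun x => blk (φ (gfcpapb_q v x)) x.fst
            map_add' := ?_
            map_smul' := ?_ }, ?_, ?_⟩
  · intro x y
    rw [map_add, map_add, Unitization.fst_add, gfcpapb_blk_add]
  · intro c x
    rw [map_smul, map_smul, Unitization.fst_smul, RingHom.id_apply, gfcpapb_blk_smul]
  · intro n a b
    obtain ⟨c, hc⟩ := gfcpapb_blk_psd hφ (fun i => gfcpapb_r v (a i)) (fun i => (a i).fst) b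
    refine ⟨c, ?_⟩
    rw [← hc]
    refine Finset.sum_congr rfl fun i _ => Finset.sum_congr rfl fun j _ => ?_
    change star (b i) * blk (φ (gfcpapb_q v (star (a i) * a j))) (star (a i) * a j).fst * b j = _
    rw [gfcpapb_q_star v hv, Unitization.fst_mul, Unitization.fst_star]
  · intro x a hxa
    change blk (φ (gfcpapb_q v x)) x.fst = blk (φ a) x.fst
    rw [gfcpapb_q_eq] at hxa
    rw [Unitization.inr_injective hxa]

/-- restriction to the first corner -/
def gfcpapb_res {k : ℕ} (y : Matrix (Fin (k + 1)) (Fin (k + 1)) ℂ) : Matrix (Fin k) (Fin k) ℂ :=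
  y.submatrix Fin.castSucc Fin.castSucc

/-- a matrix with first row `ρ` -/
def gfcpapb_row {k : ℕ} (ρ : Fin k → ℂ) : Matrix (Fin k) (Fin k) ℂ :=
  Matrix.of fun p q => if p.val = 0 then ρ q else 0

theorem gfcpapb_res_star_mul {k : ℕ} (y y' : Matrix (Fin (k + 1)) (Fin (k + 1)) ℂ) :
    gfcpapb_res (star y * y') = star (gfcpapb_res y) * gfcpapb_res y' +
      star (gfcpapb_row fun q => y (Fin.last k) q.castSucc) *
        gfcpapb_row fun q => y' (Fin.last k) q.castSucc := by
  ext p q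
  simp only [gfcpapb_res, Matrix.submatrix_apply, Matrix.add_apply, Matrix.mul_apply,
    Matrix.star_eq_conjTranspose, Matrix.conjTranspose_apply, Fin.sum_univ_castSucc]
  congr 1
  cases k with
  | zero => exact p.elim0
  | succ k =>
    rw [Fin.sum_univ_succ]
    simp [gfcpapb_row]

theorem gfcpapb_sum {E : Type u} [CStarAlgebra E] {κ : Type} (s : Finset κ) (f : κ → E)
    (h : ∀ i, ∃ c : E, f i = star c * c) : ∃ c : E, ∑ i ∈ s, f i = star c * c := by
  classical
  induction s using Finset.induction_on with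
  | empty => exact ⟨0, by simp⟩
  | insert i s hi ih =>
    rw [Finset.sum_insert hi]
    exact exists_star_mul_add _ _ (h i) ih

/-- the element `w x` of `A` -/
noncomputable def gfcpapb_l (w : A) (x : Unitization ℂ A) : A := x.fst • w + w * x.snd

theorem gfcpapb_l_eq (w : A) (x : Unitization ℂ A) :
    (w : Unitization ℂ A) * x = (gfcpapb_l w x : A) := by
  apply Unitization.ext
  · simp [gfcpapb_l]
  · simp [gfcpapb_l]

theorem gfcpapb_inr_conj (w : A) (hw : IsSelfAdjoint w) (x y : Unitization ℂ A) (z : A) :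
    star x * ((w * z * w : A) : Unitization ℂ A) * y =
      ((star (gfcpapb_l w x) * z * gfcpapb_l w y : A) : Unitization ℂ A) := by
  rw [Unitization.inr_mul, Unitization.inr_mul, Unitization.inr_mul, Unitization.inr_mul,
    Unitization.inr_star, ← gfcpapb_l_eq, ← gfcpapb_l_eq, star_mul, ← Unitization.inr_star,
    hw.star_eq]
  noncomm_ring

theorem gfcpapb_inr_sum {n : ℕ} (f : Fin n → Fin n → A) :
    ∑ i, ∑ j, ((f i j : A) : Unitization ℂ A) = ((∑ i, ∑ j, f i j : A) : Unitization ℂ A) := by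
  have h : ∀ (g : Fin n → A), ∑ i, ((g i : A) : Unitization ℂ A) =
      ((∑ i, g i : A) : Unitization ℂ A) := fun g =>
    (map_sum (Unitization.inrHom ℂ ℂ A) g Finset.univ).symm
  simp only [h]

theorem gfcpapb_part {k : ℕ} {ψ : Matrix (Fin k) (Fin k) ℂ →ₗ[ℂ] A} (hψ : CompletelyPositiveN ψ)
    (w : A) (hw : IsSelfAdjoint w) {n : ℕ} (Y : Fin n → Matrix (Fin k) (Fin k) ℂ)
    (b : Fin n → Unitization ℂ A) : ∃ c : Unitization ℂ A,
      ∑ i, ∑ j, star (b i) * ((w * ψ (star (Y i) * Y j) * w : A) : Unitization ℂ A) * b j =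
        star c * c := by
  obtain ⟨c, hc⟩ := hψ n Y fun i => gfcpapb_l w (b i)
  refine ⟨(c : Unitization ℂ A), ?_⟩
  simp only [gfcpapb_inr_conj w hw]
  rw [gfcpapb_inr_sum, hc, Unitization.inr_mul, Unitization.inr_star]

theorem gfcpapb_dpart {k n : ℕ} (d : Unitization ℂ A) (hd : ∃ c : Unitization ℂ A, d = star c * c)
    (l : Fin n → Fin k → ℂ) (b : Fin n → Unitization ℂ A) : ∃ c : Unitization ℂ A,
      ∑ i, ∑ j, star (b i) * ((∑ r, star (l i r) * l j r) • d) * b j = star c * c := by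
  obtain ⟨c0, rfl⟩ := hd
  have h1 : ∑ i, ∑ j, star (b i) * ((∑ r, star (l i r) * l j r) • (star c0 * c0)) * b j =
      ∑ r, star (∑ i, l i r • (c0 * b i)) * ∑ j, l j r • (c0 * b j) := by
    have h2 : ∀ r, star (∑ i, l i r • (c0 * b i)) * ∑ j, l j r • (c0 * b j) =
        ∑ i, ∑ j, (star (l i r) * l j r) • (star (b i) * (star c0 * c0) * b j) := by
      intro r
      rw [star_sum, Finset.sum_mul_sum]
      refine Finset.sum_congr rfl fun i _ => Finset.sum_congr rfl fun j _ => ?_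
      rw [star_smul, star_mul, smul_mul_smul_comm]
      congr 1
      noncomm_ring
    have h3 : ∑ r : Fin k, ∑ i, ∑ j,
        (star (l i r) * l j r) • (star (b i) * (star c0 * c0) * b j) =
        ∑ i, ∑ j, ∑ r : Fin k,
          (star (l i r) * l j r) • (star (b i) * (star c0 * c0) * b j) := by
      rw [Finset.sum_comm]
      exact Finset.sum_congr rfl fun i _ => Finset.sum_comm
    rw [Finset.sum_congr rfl fun r _ => h2 r, h3]
    refine Finset.sum_congr rfl fun i _ => Finset.sum_congr rfl fun j _ => ?_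
    rw [← Finset.sum_smul, mul_smul_comm, smul_mul_assoc]
  rw [h1]
  exact gfcpapb_sum Finset.univ _ fun r => ⟨_, rfl⟩

/-- the map `Ψ` is completely positive -/
theorem exists_Psi {k : ℕ} (ψ : Matrix (Fin k) (Fin k) ℂ →ₗ[ℂ] A) (hψ : CompletelyPositiveN ψ)
    (w : A) (hw : IsSelfAdjoint w) (d : Unitization ℂ A) (hd : ∃ c : Unitization ℂ A, d = star c * c) :
    ∃ Ψ : Matrix (Fin (k + 1)) (Fin (k + 1)) ℂ →ₗ[ℂ] Unitization ℂ A,
      P095F.CompletelyPositive Ψ ∧
      ∀ y c, Ψ (blk y c) = ((w * ψ y * w : A) : Unitization ℂ A) + c • d := by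
  refine ⟨{ toFun := fun y => ((w * ψ (gfcpapb_res y) * w : A) : Unitization ℂ A) +
              y (Fin.last k) (Fin.last k) • d
            map_add' := ?_
            map_smul' := ?_ }, ?_, ?_⟩
  · intro x y
    have h1 : gfcpapb_res (x + y) = gfcpapb_res x + gfcpapb_res y := rfl
    rw [h1, map_add, mul_add, add_mul, Unitization.inr_add, Matrix.add_apply, add_smul]
    abel
  · intro c x
    have h1 : gfcpapb_res (c • x) = c • gfcpapb_res x := rfl
    rw [h1, map_smul, mul_smul_comm, smul_mul_assoc, Unitization.inr_smul, Matrix.smul_apply,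
      RingHom.id_apply, smul_add, smul_eq_mul, mul_smul]
  · intro n y b
    obtain ⟨c1, h1⟩ := gfcpapb_part hψ w hw (fun i => gfcpapb_res (y i)) b
    obtain ⟨c2, h2⟩ := gfcpapb_part hψ w hw
      (fun i => gfcpapb_row fun q => y i (Fin.last k) q.castSucc) b
    obtain ⟨c3, h3⟩ := gfcpapb_dpart d hd (fun i r => y i r (Fin.last k)) b
    obtain ⟨c4, h4⟩ := exists_star_mul_add (star c1 * c1) (star c2 * c2) ⟨c1, rfl⟩ ⟨c2, rfl⟩
    obtain ⟨c5, h5⟩ := exists_star_mul_add (star c4 * c4) (star c3 * c3) ⟨c4, rfl⟩ ⟨c3, rfl⟩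
    refine ⟨c5, ?_⟩
    rw [← h5, ← h4, ← h1, ← h2, ← h3, ← Finset.sum_add_distrib, ← Finset.sum_add_distrib]
    refine Finset.sum_congr rfl fun i _ => ?_
    rw [← Finset.sum_add_distrib, ← Finset.sum_add_distrib]
    refine Finset.sum_congr rfl fun j _ => ?_
    change star (b i) * (((w * ψ (gfcpapb_res (star (y i) * y j)) * w : A) : Unitization ℂ A) +
      (star (y i) * y j) (Fin.last k) (Fin.last k) • d) * b j = _
    have h6 : (star (y i) * y j) (Fin.last k) (Fin.last k) =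
        ∑ r, star (y i r (Fin.last k)) * y j r (Fin.last k) := rfl
    rw [h6, gfcpapb_res_star_mul, map_add, mul_add w, add_mul _ _ w, Unitization.inr_add, mul_add,
      mul_add, add_mul, add_mul]
  · intro y c
    change ((w * ψ (gfcpapb_res (blk y c)) * w : A) : Unitization ℂ A) +
      (blk y c) (Fin.last k) (Fin.last k) • d = _
    have h1 : gfcpapb_res (blk y c) = y := by
      ext i j
      simp [gfcpapb_res, blk]
    have h2 : (blk y c) (Fin.last k) (Fin.last k) = c := by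
      simp [blk]
    rw [h1, h2]

end P095G
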