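import Vale.Agent.Lib.P095G.GNFinal
import Vale.Agent.Lib.P095G.GFCoc
import Vale.Agent.Lib.P095G.GFAct

/-!
# P095 stage 3, part GF.6: from homomorphisms `dimDrop p q → FA` to cocycle conjugacy

`exists_conj_of_homs` applies `exists_intertwiningG` (GNFinal.lean) to `E = A⁺`, `I = A`, the multiplier
algebra `𝓜(ℂ, B)` and its ideal `B`.

`exists_e`: the unitization of an isomorphism `A ≅ B` (needed for part G1).
-/

open scoped Topology TensorProduct MultiplierAlgebra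
open Filter P101 P095E P095F

namespace P095G

universe u v

/-- `B` as an ideal of its multiplier algebra -/
noncomputable def mI (B : Type u) [NonUnitalCStarAlgebra B] : Ideal 𝓜(ℂ, B) where
  carrier := Set.range (fun b : B => (b : 𝓜(ℂ, B)))
  add_mem' := by
    rintro _ _ ⟨a, rfl⟩ ⟨b, rfl⟩
    exact ⟨a + b, map_add (DoubleCentralizer.coeHom (𝕜 := ℂ) (A := B)) a b⟩
  zero_mem' := ⟨0, map_zero (DoubleCentralizer.coeHom (𝕜 := ℂ) (A := B))⟩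
  smul_mem' := by
    rintro c _ ⟨b, rfl⟩
    exact ⟨c.fst b, (mul_coe c b).symm⟩

section

variable {A Z B : Type u} [NonUnitalCStarAlgebra A] [CStarAlgebra Z] [NonUnitalCStarAlgebra B]

theorem mem_mI {x : 𝓜(ℂ, B)} : x ∈ mI B ↔ ∃ b : B, (b : 𝓜(ℂ, B)) = x := Iff.rfl

theorem coe_mem_mI (b : B) : (b : 𝓜(ℂ, B)) ∈ mI B := ⟨b, rfl⟩

instance mI_isTwoSided : (mI B).IsTwoSided where
  mul_mem_of_left := by
    rintro _ c ⟨b, rfl⟩
    exact ⟨c.snd b, (coe_mul' c b).symm⟩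

theorem mI_isClosed : IsClosed (mI B : Set 𝓜(ℂ, B)) := isClosed_range_coe

/-- the unitization of an isomorphism `A ≅ B` -/
theorem exists_e {m : A ⊗[ℂ] Z →ₗ[ℂ] B} {i : Unitization ℂ A →⋆ₐ[ℂ] 𝓜(ℂ, B)}
    {j : Z →⋆ₐ[ℂ] 𝓜(ℂ, B)} (h : IsIJ m i j) (φ : A ≃⋆ₐ[ℂ] B) :
    ∃ e : Unitization ℂ A →⋆ₐ[ℂ] 𝓜(ℂ, B),
      (∀ a : A, e (a : Unitization ℂ A) = ((φ a : B) : 𝓜(ℂ, B))) ∧
      (∀ x ∈ uI A, e x = 0 → x = 0) ∧
      (∀ x : 𝓜(ℂ, B), (∃ a ∈ uI A, e a = x) ↔ x ∈ closure (Submodule.span ℂ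
        {y : 𝓜(ℂ, B) | ∃ a ∈ uI A, ∃ z, y = i a * j z} : Set 𝓜(ℂ, B))) := by
  let f : A →⋆ₙₐ[ℂ] 𝓜(ℂ, B) :=
    (DoubleCentralizer.coeHom (𝕜 := ℂ) (A := B)).comp (φ : A →⋆ₙₐ[ℂ] B)
  have hf : ∀ a : A, (Unitization.starLift f) (a : Unitization ℂ A) =
      ((φ a : B) : 𝓜(ℂ, B)) := fun a => by
    have h1 := Unitization.starLift_symm_apply_apply (Unitization.starLift f) a
    rw [Equiv.symm_apply_apply] at h1
    exact h1.symm
  refine ⟨Unitization.starLift f, hf, ?_, ?_⟩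
  · intro x hx h0
    rw [eq_inr_of_mem_uI hx, hf] at h0
    have h1 : ((φ x.snd : B) : 𝓜(ℂ, B)) = ((0 : B) : 𝓜(ℂ, B)) := by
      rw [h0]
      exact (map_zero (DoubleCentralizer.coeHom (𝕜 := ℂ) (A := B))).symm
    have h2 : φ x.snd = 0 := coe_injective h1
    have h3 : x.snd = 0 := (map_eq_zero_iff φ φ.injective).1 h2
    rw [eq_inr_of_mem_uI hx, h3, Unitization.inr_zero]
  · intro x
    rw [h.range]
    constructor
    · rintro ⟨a, ha, rfl⟩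
      rw [eq_inr_of_mem_uI ha, hf]
      exact ⟨_, rfl⟩
    · rintro ⟨b, rfl⟩
      refine ⟨((φ.symm b : A) : Unitization ℂ A), inr_mem_uI _, ?_⟩
      rw [hf, φ.apply_symm_apply]

/-- GF.6: from homomorphisms `dimDrop p q → FA` to cocycle conjugacy -/
theorem exists_conj_of_homs (ω : Ultrafilter ℕ) (hω : (ω : Filter ℕ) ≤ Filter.cofinite)
    [TopologicalSpace.SeparableSpace A] (hA : ∃ x : A, x ≠ 0)
    (hZ : IsJiangSu Z) (hexp : UnitariesExp Z)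
    {m : A ⊗[ℂ] Z →ₗ[ℂ] B} (hm : IsTensorCompletion m)
    {G : Type v} [Group G] [Countable G] (α : G →* (A ≃⋆ₐ[ℂ] A))
    (β : G →* (FOmega ω (Unitization ℂ A) ≃⋆ₐ[ℂ] FOmega ω (Unitization ℂ A)))
    (hβ : ∀ g, Induces ω (uAut α g) (β g))
    (hF : ∀ p q : ℕ, 1 ≤ p → 1 ≤ q → Nat.Coprime p q →
      ∃ f : dimDrop p q →⋆ₐ[ℂ] FA ω (uI A), ∀ g x,
        faAct ω (uI A) (uAut α) (uAut_mem α) β hβ g (f x) = f x) :
    ∃ γ : G →* (B ≃⋆ₐ[ℂ] B), IsTensorActionN m α γ ∧ CocycleConjugateM α γ := by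
  have := hZ.simple
  have hZn : Nontrivial Z := inferInstance
  obtain ⟨γ, hγ⟩ := exists_tensorActionN hZ.nuclear hm α
  obtain ⟨i, j, h⟩ := exists_IJ hm
  let ι : A →⋆ₙₐ[ℂ] Unitization ℂ A := Unitization.inrNonUnitalStarAlgHom ℂ A
  have hι : Set.range ι = (uI A : Set (Unitization ℂ A)) := by
    ext x
    constructor
    · rintro ⟨a, rfl⟩
      exact inr_mem_uI a
    · intro hx
      exact ⟨x.snd, (eq_inr_of_mem_uI hx).symm⟩
  have hmem : ∀ a : A, ((m (a ⊗ₜ[ℂ] (1 : Z)) : B) : 𝓜(ℂ, B)) ∈ mI B := fun a => coe_mem_mI _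
  have hinj : Function.Injective fun x : A => i (ι x) := fun x y hxy =>
    Unitization.inr_injective (R := ℂ) (h.injOn (inr_mem_uI x) (inr_mem_uI y) hxy)
  have hI : ∃ a ∈ uI A, a ≠ 0 := by
    obtain ⟨x, hx⟩ := hA
    refine ⟨(x : Unitization ℂ A), inr_mem_uI x, fun h0 => hx ?_⟩
    exact Unitization.inr_injective (R := ℂ) (by rw [h0, Unitization.inr_zero])
  obtain ⟨v, Φ, hΦ, hΦr, hlim, hcau⟩ := exists_intertwiningG ω hω (uI A) hI ι hι hZ hexp i j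
    h.commute hinj (mI B) mI_isClosed (fun a ha z => by
      rw [eq_inr_of_mem_uI ha, h.mul]
      exact coe_mem_mI _) (fun b hb => by
      rw [h.range]
      exact hb) (uAut α) (uAut_mem α) (gM γ) (fun g x => h.gM_i hγ g x)
    (fun g z => h.gM_j hγ g z) β hβ hF
  refine ⟨γ, hγ, cocycleConjugateM_of_seq h hγ (fun n => (v n : 𝓜(ℂ, B))) (fun n => (v n).2)
    ?_ ?_ ?_ ?_⟩
  · intro a
    have h1 : Φ a ∈ (mI B : Set 𝓜(ℂ, B)) := by
      rw [← hΦr]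
      exact ⟨a, rfl⟩
    obtain ⟨b, hb⟩ := h1
    refine ⟨b, ?_⟩
    have h2 := hlim a
    change (b : 𝓜(ℂ, B)) = Φ a at hb
    rw [← hb] at h2
    exact h2
  · intro b
    have h1 : (b : 𝓜(ℂ, B)) ∈ Set.range Φ := by
      rw [hΦr]
      exact coe_mem_mI b
    obtain ⟨a, ha⟩ := h1
    refine ⟨a, ?_⟩
    have h2 := hlim a
    rw [ha] at h2
    exact h2
  · intro g b
    obtain ⟨l, hl⟩ := cauchySeq_tendsto_of_complete (hcau g (b : 𝓜(ℂ, B)) (coe_mem_mI b)).1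
    refine ⟨l, ?_⟩
    simp only [map_star] at hl
    exact hl
  · intro g b
    obtain ⟨l, hl⟩ := cauchySeq_tendsto_of_complete (hcau g (b : 𝓜(ℂ, B)) (coe_mem_mI b)).2
    refine ⟨l, ?_⟩
    simp only [map_star] at hl
    exact hl

end

end P095G
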