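import Vale.Agent.Lib.P095G.GFMapA

/-!
# P095 stage 3, part GF.2: existence of the maps `i : A⁺ → 𝓜(B)` and `j : Z → 𝓜(B)`
-/

open scoped Topology TensorProduct MultiplierAlgebra
open Filter

namespace P095G

universe u v

variable {A Z B : Type u} [NonUnitalCStarAlgebra A] [CStarAlgebra Z] [NonUnitalCStarAlgebra B]

/-- continuous linear maps which agree on pure tensors are equal -/
private theorem gfmap_ext {m : A ⊗[ℂ] Z →ₗ[ℂ] B} (hm : IsTensorCompletion m) (f g : B →L[ℂ] B)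
    (h : ∀ (a : A) (z : Z), f (m (a ⊗ₜ[ℂ] z)) = g (m (a ⊗ₜ[ℂ] z))) : f = g := by
  have h1 : ∀ x : A ⊗[ℂ] Z, f (m x) = g (m x) := by
    intro x
    induction x using TensorProduct.induction_on with
    | zero => rw [map_zero, map_zero, map_zero]
    | tmul a z => exact h a z
    | add x y hx hy => rw [map_add, map_add, map_add, hx, hy]
  exact ContinuousLinearMap.ext fun b =>
    congrFun (hm.dense.equalizer f.continuous g.continuous (funext h1)) b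

/-- extension of `m x ↦ m (lz z x)` -/
private noncomputable def gfmapL (m : A ⊗[ℂ] Z →ₗ[ℂ] B) (z : Z) : B →L[ℂ] B :=
  (m ∘ₗ lz A z).extendOfNorm m

/-- extension of `m x ↦ m (rz z x)` -/
private noncomputable def gfmapR (m : A ⊗[ℂ] Z →ₗ[ℂ] B) (z : Z) : B →L[ℂ] B :=
  (m ∘ₗ rz A z).extendOfNorm m

private theorem gfmapL_apply {m : A ⊗[ℂ] Z →ₗ[ℂ] B} (hm : IsTensorCompletion m) (z : Z)
    (x : A ⊗[ℂ] Z) : gfmapL m z (m x) = m (lz A z x) :=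
  LinearMap.extendOfNorm_eq (f := m ∘ₗ lz A z) (e := m) hm.dense
    ⟨‖z‖, fun x => norm_lz_le hm z x⟩ x

private theorem gfmapR_apply {m : A ⊗[ℂ] Z →ₗ[ℂ] B} (hm : IsTensorCompletion m) (z : Z)
    (x : A ⊗[ℂ] Z) : gfmapR m z (m x) = m (rz A z x) :=
  LinearMap.extendOfNorm_eq (f := m ∘ₗ rz A z) (e := m) hm.dense
    ⟨‖z‖, fun x => norm_rz_le hm z x⟩ x

private theorem gfmap_central {m : A ⊗[ℂ] Z →ₗ[ℂ] B} (hm : IsTensorCompletion m) (z : Z)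
    (x y : B) : gfmapR m z x * y = x * gfmapL m z y := by
  have h1 : ∀ (a : A) (z' : Z), (ContinuousLinearMap.mul ℂ B (gfmapR m z (m (a ⊗ₜ[ℂ] z')))) =
      (ContinuousLinearMap.mul ℂ B (m (a ⊗ₜ[ℂ] z'))).comp (gfmapL m z) := by
    intro a z'
    refine gfmap_ext hm _ _ fun a' z'' => ?_
    show gfmapR m z (m (a ⊗ₜ[ℂ] z')) * m (a' ⊗ₜ[ℂ] z'') =
      m (a ⊗ₜ[ℂ] z') * gfmapL m z (m (a' ⊗ₜ[ℂ] z''))
    rw [gfmapR_apply hm, gfmapL_apply hm, lz_tmul, rz_tmul, hm.mul, hm.mul, mul_assoc]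
  have h2 : ((ContinuousLinearMap.mul ℂ B).flip y).comp (gfmapR m z) =
      (ContinuousLinearMap.mul ℂ B).flip (gfmapL m z y) := by
    refine gfmap_ext hm _ _ fun a z' => ?_
    exact congrArg (fun L : B →L[ℂ] B => L y) (h1 a z')
  exact congrArg (fun L : B →L[ℂ] B => L x) h2

/-- the multiplier -/
private noncomputable def gfmapJ {m : A ⊗[ℂ] Z →ₗ[ℂ] B} (hm : IsTensorCompletion m) (z : Z) :
    𝓜(ℂ, B) where
  fst := gfmapL m z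
  snd := gfmapR m z
  central := gfmap_central hm z

private theorem gfmapJ_ext {m : A ⊗[ℂ] Z →ₗ[ℂ] B} (hm : IsTensorCompletion m) {x y : 𝓜(ℂ, B)}
    (h1 : ∀ (a : A) (z : Z), x.fst (m (a ⊗ₜ[ℂ] z)) = y.fst (m (a ⊗ₜ[ℂ] z)))
    (h2 : ∀ (a : A) (z : Z), x.snd (m (a ⊗ₜ[ℂ] z)) = y.snd (m (a ⊗ₜ[ℂ] z))) : x = y :=
  DoubleCentralizer.ext ℂ B x y (Prod.ext (gfmap_ext hm _ _ h1) (gfmap_ext hm _ _ h2))

private theorem gfmapJ_fst {m : A ⊗[ℂ] Z →ₗ[ℂ] B} (hm : IsTensorCompletion m) (z z' : Z) (a : A) :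
    (gfmapJ hm z).fst (m (a ⊗ₜ[ℂ] z')) = m (a ⊗ₜ[ℂ] (z * z')) := by
  show gfmapL m z _ = _
  rw [gfmapL_apply hm, lz_tmul]

private theorem gfmapJ_snd {m : A ⊗[ℂ] Z →ₗ[ℂ] B} (hm : IsTensorCompletion m) (z z' : Z) (a : A) :
    (gfmapJ hm z).snd (m (a ⊗ₜ[ℂ] z')) = m (a ⊗ₜ[ℂ] (z' * z)) := by
  show gfmapR m z _ = _
  rw [gfmapR_apply hm, rz_tmul]

/-- extend `m x ↦ m (lz z x)`, `m x ↦ m (rz z x)` to `B` by density -/
theorem exists_jM {m : A ⊗[ℂ] Z →ₗ[ℂ] B} (hm : IsTensorCompletion m) :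
    ∃ j : Z →⋆ₐ[ℂ] 𝓜(ℂ, B), ∀ (z : Z) (x : A ⊗[ℂ] Z),
      (j z).fst (m x) = m (lz A z x) ∧ (j z).snd (m x) = m (rz A z x) := by
  refine ⟨{ toFun := gfmapJ hm, map_one' := ?_, map_mul' := ?_, map_zero' := ?_, map_add' := ?_,
            commutes' := ?_, map_star' := ?_ },
    fun z x => ⟨gfmapL_apply hm z x, gfmapR_apply hm z x⟩⟩
  · refine gfmapJ_ext hm (fun a z => ?_) fun a z => ?_
    · rw [gfmapJ_fst, one_mul]
      rfl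
    · rw [gfmapJ_snd, mul_one]
      rfl
  · intro z z'
    refine gfmapJ_ext hm (fun a w => ?_) fun a w => ?_
    · show _ = (gfmapJ hm z).fst ((gfmapJ hm z').fst (m (a ⊗ₜ[ℂ] w)))
      rw [gfmapJ_fst, gfmapJ_fst, gfmapJ_fst, mul_assoc]
    · show _ = (gfmapJ hm z').snd ((gfmapJ hm z).snd (m (a ⊗ₜ[ℂ] w)))
      rw [gfmapJ_snd, gfmapJ_snd, gfmapJ_snd, mul_assoc]
  · refine gfmapJ_ext hm (fun a w => ?_) fun a w => ?_
    · show (gfmapJ hm 0).fst (m (a ⊗ₜ[ℂ] w)) = 0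
      rw [gfmapJ_fst, zero_mul, TensorProduct.tmul_zero, map_zero]
    · show (gfmapJ hm 0).snd (m (a ⊗ₜ[ℂ] w)) = 0
      rw [gfmapJ_snd, mul_zero, TensorProduct.tmul_zero, map_zero]
  · intro z z'
    refine gfmapJ_ext hm (fun a w => ?_) fun a w => ?_
    · show _ = (gfmapJ hm z).fst (m (a ⊗ₜ[ℂ] w)) + (gfmapJ hm z').fst (m (a ⊗ₜ[ℂ] w))
      rw [gfmapJ_fst, gfmapJ_fst, gfmapJ_fst, add_mul, TensorProduct.tmul_add, map_add]
    · show _ = (gfmapJ hm z).snd (m (a ⊗ₜ[ℂ] w)) + (gfmapJ hm z').snd (m (a ⊗ₜ[ℂ] w))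
      rw [gfmapJ_snd, gfmapJ_snd, gfmapJ_snd, mul_add, TensorProduct.tmul_add, map_add]
  · intro c
    refine gfmapJ_ext hm (fun a w => ?_) fun a w => ?_
    · show (gfmapJ hm (algebraMap ℂ Z c)).fst (m (a ⊗ₜ[ℂ] w)) = c • m (a ⊗ₜ[ℂ] w)
      rw [gfmapJ_fst, ← Algebra.smul_def, TensorProduct.tmul_smul, map_smul]
    · show (gfmapJ hm (algebraMap ℂ Z c)).snd (m (a ⊗ₜ[ℂ] w)) = c • m (a ⊗ₜ[ℂ] w)
      rw [gfmapJ_snd, ← Algebra.commutes, ← Algebra.smul_def, TensorProduct.tmul_smul, map_smul]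
  · intro z
    refine gfmapJ_ext hm (fun a w => ?_) fun a w => ?_
    · show (gfmapJ hm (star z)).fst (m (a ⊗ₜ[ℂ] w)) = (star (gfmapJ hm z)).fst (m (a ⊗ₜ[ℂ] w))
      rw [DoubleCentralizer.star_fst, hm.star, gfmapJ_fst, gfmapJ_snd, hm.star, star_star,
        star_mul, star_star]
    · show (gfmapJ hm (star z)).snd (m (a ⊗ₜ[ℂ] w)) = (star (gfmapJ hm z)).snd (m (a ⊗ₜ[ℂ] w))
      rw [DoubleCentralizer.star_snd, hm.star, gfmapJ_fst, gfmapJ_snd, hm.star, star_star,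
        star_mul, star_star]

/-- `a ↦ m (a ⊗ 1)` -/
private noncomputable def gfmapI {m : A ⊗[ℂ] Z →ₗ[ℂ] B} (hm : IsTensorCompletion m) :
    A →⋆ₙₐ[ℂ] B where
  toFun a := m (a ⊗ₜ[ℂ] 1)
  map_smul' c a := by
    show m ((c • a) ⊗ₜ[ℂ] 1) = c • m (a ⊗ₜ[ℂ] 1)
    rw [← TensorProduct.smul_tmul', map_smul]
  map_zero' := by
    show m ((0 : A) ⊗ₜ[ℂ] 1) = 0
    rw [TensorProduct.zero_tmul, map_zero]
  map_add' a b := by
    show m ((a + b) ⊗ₜ[ℂ] 1) = m (a ⊗ₜ[ℂ] 1) + m (b ⊗ₜ[ℂ] 1)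
    rw [TensorProduct.add_tmul, map_add]
  map_mul' a b := by
    show m ((a * b) ⊗ₜ[ℂ] 1) = m (a ⊗ₜ[ℂ] 1) * m (b ⊗ₜ[ℂ] 1)
    rw [hm.mul, one_mul]
  map_star' a := by
    show m (star a ⊗ₜ[ℂ] 1) = star (m (a ⊗ₜ[ℂ] 1))
    rw [hm.star, star_one]

/-- `Unitization.starLift` of `a ↦ m (a ⊗ 1)` -/
theorem exists_iM {m : A ⊗[ℂ] Z →ₗ[ℂ] B} (hm : IsTensorCompletion m) :
    ∃ i : Unitization ℂ A →⋆ₐ[ℂ] 𝓜(ℂ, B), ∀ a : A,
      i (a : Unitization ℂ A) = ((m (a ⊗ₜ[ℂ] 1) : B) : 𝓜(ℂ, B)) := by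
  refine ⟨Unitization.starLift
    ((DoubleCentralizer.coeHom (𝕜 := ℂ) (A := B)).comp (gfmapI hm)), fun a => ?_⟩
  have h1 := Unitization.starLift_symm_apply_apply (Unitization.starLift
    ((DoubleCentralizer.coeHom (𝕜 := ℂ) (A := B)).comp (gfmapI hm))) a
  rw [Equiv.symm_apply_apply] at h1
  exact h1.symm

end P095G
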