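import Mathlib.Algebra.Module.StablyFree.Basic
import Vale.Agent.Lib.P095G.GFMap

/-!
# P095 stage 3, part GF.2: the canonical data `(B, m, i, j)` and their properties
-/

open scoped Topology TensorProduct MultiplierAlgebra
open Filter

namespace P095G

universe u v

variable {A Z B : Type u} [NonUnitalCStarAlgebra A] [CStarAlgebra Z] [NonUnitalCStarAlgebra B]

/-- the canonical maps into the multiplier algebra -/
structure IsIJ (m : A ⊗[ℂ] Z →ₗ[ℂ] B) (i : Unitization ℂ A →⋆ₐ[ℂ] 𝓜(ℂ, B))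
    (j : Z →⋆ₐ[ℂ] 𝓜(ℂ, B)) : Prop where
  comp : IsTensorCompletion m
  hi : ∀ a : A, i (a : Unitization ℂ A) = ((m (a ⊗ₜ[ℂ] 1) : B) : 𝓜(ℂ, B))
  hj : ∀ (z : Z) (x : A ⊗[ℂ] Z),
    (j z).fst (m x) = m (lz A z x) ∧ (j z).snd (m x) = m (rz A z x)

theorem exists_IJ {m : A ⊗[ℂ] Z →ₗ[ℂ] B} (hm : IsTensorCompletion m) :
    ∃ (i : Unitization ℂ A →⋆ₐ[ℂ] 𝓜(ℂ, B)) (j : Z →⋆ₐ[ℂ] 𝓜(ℂ, B)), IsIJ m i j := by
  obtain ⟨i, hi⟩ := exists_iM hm
  obtain ⟨j, hj⟩ := exists_jM hm
  exact ⟨i, j, hm, hi, hj⟩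

variable {m : A ⊗[ℂ] Z →ₗ[ℂ] B} {i : Unitization ℂ A →⋆ₐ[ℂ] 𝓜(ℂ, B)} {j : Z →⋆ₐ[ℂ] 𝓜(ℂ, B)}

theorem IsIJ.mul (h : IsIJ m i j) (a : A) (z : Z) :
    i (a : Unitization ℂ A) * j z = ((m (a ⊗ₜ[ℂ] z) : B) : 𝓜(ℂ, B)) := by
  rw [h.hi, coe_mul', (h.hj z (a ⊗ₜ[ℂ] 1)).2, rz_tmul, one_mul]

/-- the ranges commute: for `x = a ∈ A` compare both products with `mult_ext` on `m y` -/
theorem IsIJ.commute (h : IsIJ m i j) (x : Unitization ℂ A) (z : Z) : Commute (i x) (j z) := by
  have h1 : ∀ a : A, j z * i (a : Unitization ℂ A) = ((m (a ⊗ₜ[ℂ] z) : B) : 𝓜(ℂ, B)) := by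
    intro a
    rw [h.hi, mul_coe, (h.hj z (a ⊗ₜ[ℂ] 1)).1, lz_tmul, mul_one]
  induction x using Unitization.ind with
  | inl_add_inr r a =>
    rw [map_add]
    refine Commute.add_left ?_ ?_
    · have h2 : i (Unitization.inl r) = algebraMap ℂ 𝓜(ℂ, B) r := AlgHomClass.commutes i r
      rw [h2]
      exact Algebra.commutes r (j z)
    · change i (a : Unitization ℂ A) * j z = j z * i (a : Unitization ℂ A)
      rw [h.mul, h1]

/-- `a ↦ m (a ⊗ 1)` is an injective *-homomorphism, hence isometric (`Z ≠ 0`) -/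
theorem IsIJ.norm (h : IsIJ m i j) [Nontrivial Z] (a : A) :
    ‖i (a : Unitization ℂ A)‖ = ‖a‖ := by
  let F : A →⋆ₙₐ[ℂ] B :=
    { toFun := fun a => m (a ⊗ₜ[ℂ] 1)
      map_smul' := fun c a => by
        change m ((c • a) ⊗ₜ[ℂ] 1) = c • m (a ⊗ₜ[ℂ] 1)
        rw [← map_smul, TensorProduct.smul_tmul']
      map_zero' := by rw [TensorProduct.zero_tmul, map_zero]
      map_add' := fun a b => by rw [TensorProduct.add_tmul, map_add]
      map_mul' := fun a b => by
        have := h.comp.mul a b (1 : Z) 1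
        rw [mul_one] at this
        exact this.symm
      map_star' := fun a => by
        have := h.comp.star a (1 : Z)
        rw [star_one] at this
        exact this.symm }
  have hF : Function.Injective F := by
    intro a b hab
    have h1 : (a - b) ⊗ₜ[ℂ] (1 : Z) = 0 := by
      apply h.comp.injective
      rw [map_zero, TensorProduct.sub_tmul, map_sub]
      exact sub_eq_zero.2 hab
    obtain ⟨φ, hφ⟩ : ∃ φ : Z →ₗ[ℂ] ℂ, φ 1 ≠ 0 := by
      by_contra hcon
      push Not at hcon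
      exact one_ne_zero ((Module.forall_dual_apply_eq_zero_iff ℂ (1 : Z)).1 hcon)
    have h2 := congrArg (TensorProduct.rid ℂ A ∘ LinearMap.lTensor A φ) h1
    simp only [Function.comp_apply, LinearMap.lTensor_tmul, TensorProduct.rid_tmul, map_zero] at h2
    rcases smul_eq_zero.1 h2 with h3 | h3
    · exact absurd h3 hφ
    · exact sub_eq_zero.1 h3
  rw [h.hi, norm_coe]
  exact NonUnitalStarAlgHom.norm_map F hF a

theorem IsIJ.injOn (h : IsIJ m i j) [Nontrivial Z] : Set.InjOn i (uI A : Set (Unitization ℂ A)) := by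
  intro x hx y hy hxy
  have hd : x - y ∈ uI A := (uI A).sub_mem hx hy
  have h1 := h.norm (x - y).snd
  rw [← eq_inr_of_mem_uI hd, map_sub, hxy, sub_self, norm_zero] at h1
  have h2 := eq_inr_of_mem_uI hd
  rw [norm_eq_zero.1 h1.symm, Unitization.inr_zero] at h2
  exact sub_eq_zero.1 h2

/-- the canonical copy of `B` in `𝓜(B)` is the closed span of the `i a * j z` -/
theorem IsIJ.range (h : IsIJ m i j) :
    closure (Submodule.span ℂ {x : 𝓜(ℂ, B) | ∃ a ∈ uI A, ∃ z : Z, x = i a * j z} : Set 𝓜(ℂ, B)) =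
      Set.range (fun b : B => (b : 𝓜(ℂ, B))) := by
  let c : B →ₗ[ℂ] 𝓜(ℂ, B) :=
    { toFun := fun b => (b : 𝓜(ℂ, B))
      map_add' := fun x y => map_add (DoubleCentralizer.coeHom (𝕜 := ℂ) (A := B)) x y
      map_smul' := fun r x => map_smul (DoubleCentralizer.coeHom (𝕜 := ℂ) (A := B)) r x }
  have hcr : ((LinearMap.range c : Submodule ℂ 𝓜(ℂ, B)) : Set 𝓜(ℂ, B)) =
      Set.range (fun b : B => (b : 𝓜(ℂ, B))) := rfl
  have hcont : Continuous (fun b : B => (b : 𝓜(ℂ, B))) := by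
    refine (AddMonoidHomClass.isometry_of_norm c fun b => norm_coe b).continuous
  have hrange : ∀ x : A ⊗[ℂ] Z, ((m x : B) : 𝓜(ℂ, B)) ∈
      Submodule.span ℂ {x : 𝓜(ℂ, B) | ∃ a ∈ uI A, ∃ z : Z, x = i a * j z} := by
    intro x
    change c (m x) ∈ _
    induction x using TensorProduct.induction_on with
    | zero =>
      rw [map_zero, map_zero]
      exact Submodule.zero_mem _
    | tmul a z =>
      refine Submodule.subset_span ⟨(a : Unitization ℂ A), inr_mem_uI a, z, ?_⟩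
      exact (h.mul a z).symm
    | add x y hx hy =>
      rw [map_add, map_add]
      exact Submodule.add_mem _ hx hy
  apply Set.Subset.antisymm
  · refine closure_minimal ?_ isClosed_range_coe
    rw [← hcr]
    refine Submodule.span_le.2 ?_
    rintro x ⟨a, ha, z, rfl⟩
    rw [eq_inr_of_mem_uI ha, h.mul]
    exact ⟨_, rfl⟩
  · rintro _ ⟨b, rfl⟩
    have h1 : b ∈ closure (Set.range m) := h.comp.dense b
    have h2 := image_closure_subset_closure_image hcont ⟨b, h1, rfl⟩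
    refine closure_mono ?_ h2
    rintro _ ⟨_, ⟨x, rfl⟩, rfl⟩
    exact hrange x

/-- the relation with actions -/
theorem IsIJ.gM_i (h : IsIJ m i j) {G : Type v} [Group G] {α : G →* (A ≃⋆ₐ[ℂ] A)}
    {γ : G →* (B ≃⋆ₐ[ℂ] B)} (hγ : IsTensorActionN m α γ) (g : G) (x : Unitization ℂ A) :
    gM γ g (i x) = i (uAut α g x) := by
  induction x using Unitization.ind with
  | inl_add_inr r a =>
    have h2 : i (Unitization.inl r) = algebraMap ℂ 𝓜(ℂ, B) r := AlgHomClass.commutes i r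
    have h3 : uAut α g (Unitization.inl r) = Unitization.inl r :=
      Unitization.starMap_inl (α g : A →⋆ₙₐ[ℂ] A) r
    rw [map_add, map_add, map_add, map_add, h3, h2, AlgHomClass.commutes, uAut_inr, h.hi, h.hi,
      gM_coe, hγ]

theorem IsIJ.gM_j (h : IsIJ m i j) {G : Type v} [Group G] {α : G →* (A ≃⋆ₐ[ℂ] A)}
    {γ : G →* (B ≃⋆ₐ[ℂ] B)} (hγ : IsTensorActionN m α γ) (g : G) (z : Z) :
    gM γ g (j z) = j z := by
  have hinv : ∀ y : A ⊗[ℂ] Z, (γ g).symm (m y) = m (LinearMap.rTensor Z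
      (((α g).symm : A ≃⋆ₐ[ℂ] A) : A →ₗ[ℂ] A) y) := by
    intro y
    have key : m y = γ g (m (LinearMap.rTensor Z
        (((α g).symm : A ≃⋆ₐ[ℂ] A) : A →ₗ[ℂ] A) y)) := by
      induction y using TensorProduct.induction_on with
      | zero => simp
      | tmul a z' =>
        rw [LinearMap.rTensor_tmul, hγ]
        congr 2
        exact ((α g).apply_symm_apply a).symm
      | add x y hx hy =>
        rw [map_add, map_add, map_add, map_add, ← hx, ← hy]
    rw [key, (γ g).symm_apply_apply]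
  have hcl : ∀ y : A ⊗[ℂ] Z, lz A z (LinearMap.rTensor Z
      (((α g).symm : A ≃⋆ₐ[ℂ] A) : A →ₗ[ℂ] A) y) = LinearMap.rTensor Z
      (((α g).symm : A ≃⋆ₐ[ℂ] A) : A →ₗ[ℂ] A) (lz A z y) := by
    intro y
    induction y using TensorProduct.induction_on with
    | zero => simp
    | tmul a z' => rfl
    | add x y hx hy => rw [map_add, map_add, map_add, map_add, hx, hy]
  have hcr : ∀ y : A ⊗[ℂ] Z, rz A z (LinearMap.rTensor Z
      (((α g).symm : A ≃⋆ₐ[ℂ] A) : A →ₗ[ℂ] A) y) = LinearMap.rTensor Z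
      (((α g).symm : A ≃⋆ₐ[ℂ] A) : A →ₗ[ℂ] A) (rz A z y) := by
    intro y
    induction y using TensorProduct.induction_on with
    | zero => simp
    | tmul a z' => rfl
    | add x y hx hy => rw [map_add, map_add, map_add, map_add, hx, hy]
  rw [gM_apply]
  refine mult_ext (fun b => ?_) (fun b => ?_)
  · refine congrFun (h.comp.dense.equalizer (gMfun (γ g) (j z)).fst.continuous
      (j z).fst.continuous (funext fun y => ?_)) b
    change (gMfun (γ g) (j z)).fst (m y) = (j z).fst (m y)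
    rw [gMfun_fst, hinv, (h.hj z _).1, hcl, ← hinv, (γ g).apply_symm_apply, (h.hj z _).1]
  · refine congrFun (h.comp.dense.equalizer (gMfun (γ g) (j z)).snd.continuous
      (j z).snd.continuous (funext fun y => ?_)) b
    change (gMfun (γ g) (j z)).snd (m y) = (j z).snd (m y)
    rw [gMfun_snd, hinv, (h.hj z _).2, hcr, ← hinv, (γ g).apply_symm_apply, (h.hj z _).2]

end P095G
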