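import Vale.Agent.Lib.P095G.GFMult

/-!
# P095 stage 3, part GF.2: the maps `i : A⁺ → 𝓜(B)` and `j : Z → 𝓜(B)`

`m : A ⊗ Z → B` a C*-completion. `lz z = id ⊗ (left multiplication by z)`, `rz z = id ⊗ (right
multiplication by z)` on `A ⊗ Z`.

Bound: `‖m (lz z x)‖ ≤ ‖z‖ ‖m x‖`: `‖z‖² - z^* z = w^* w` in `Z`, so
`m (lz z x)^* m (lz z x) + m (lz w x)^* m (lz w x) = ‖z‖² m(x)^* m(x)` (check on pure tensors:
`star (m (lz z x)) * m (lz z y) = star (m x) * m (lz (star z * z) y)`), and `0 ≤ p`, `p + q = r`,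
`0 ≤ q` give `‖p‖ ≤ ‖r‖`. Right multiplication: `m (rz z x) = star (m (lz (star z) (x^*)))`.
-/

open scoped Topology TensorProduct MultiplierAlgebra
open Filter

namespace P095G

universe u v

variable {A Z B : Type u} [NonUnitalCStarAlgebra A] [CStarAlgebra Z] [NonUnitalCStarAlgebra B]

/-- `id ⊗ (left multiplication by z)` -/
noncomputable def lz (A : Type u) [NonUnitalCStarAlgebra A] (z : Z) : A ⊗[ℂ] Z →ₗ[ℂ] A ⊗[ℂ] Z :=
  LinearMap.lTensor A (LinearMap.mulLeft ℂ z)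

/-- `id ⊗ (right multiplication by z)` -/
noncomputable def rz (A : Type u) [NonUnitalCStarAlgebra A] (z : Z) : A ⊗[ℂ] Z →ₗ[ℂ] A ⊗[ℂ] Z :=
  LinearMap.lTensor A (LinearMap.mulRight ℂ z)

theorem lz_tmul (z z' : Z) (a : A) : lz A z (a ⊗ₜ[ℂ] z') = a ⊗ₜ[ℂ] (z * z') := rfl

theorem rz_tmul (z z' : Z) (a : A) : rz A z (a ⊗ₜ[ℂ] z') = a ⊗ₜ[ℂ] (z' * z) := rfl

/-- if `p + q = r` with `p`, `q` of the form `star c * c` then `‖p‖ ≤ ‖r‖` -/
theorem norm_le_of_add {B : Type u} [NonUnitalCStarAlgebra B] (x y : B) :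
    ‖star x * x‖ ≤ ‖star x * x + star y * y‖ := by
  let _ := CStarAlgebra.spectralOrder (Unitization ℂ B)
  have _ := CStarAlgebra.spectralOrderedRing (Unitization ℂ B)
  have h := CStarAlgebra.norm_le_norm_of_nonneg_of_le
    (a := star (x : Unitization ℂ B) * (x : Unitization ℂ B))
    (b := star (x : Unitization ℂ B) * (x : Unitization ℂ B) +
      star (y : Unitization ℂ B) * (y : Unitization ℂ B))
    (star_mul_self_nonneg _) (le_add_of_nonneg_right (star_mul_self_nonneg _))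
  have e1 : star (x : Unitization ℂ B) * (x : Unitization ℂ B) =
      ((star x * x : B) : Unitization ℂ B) := by
    rw [Unitization.inr_mul, Unitization.inr_star]
  have e2 : star (y : Unitization ℂ B) * (y : Unitization ℂ B) =
      ((star y * y : B) : Unitization ℂ B) := by
    rw [Unitization.inr_mul, Unitization.inr_star]
  rw [e1, e2, ← Unitization.inr_add, Unitization.norm_inr, Unitization.norm_inr] at h
  exact h

theorem gfmapa_lz_add (z w : Z) (x : A ⊗[ℂ] Z) : lz A (z + w) x = lz A z x + lz A w x := by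
  induction x with
  | zero => simp
  | tmul a z' => rw [lz_tmul, lz_tmul, lz_tmul, add_mul, TensorProduct.tmul_add]
  | add x y hx hy => rw [map_add, map_add, map_add, hx, hy]; abel

theorem gfmapa_lz_smul_one (c : ℂ) (x : A ⊗[ℂ] Z) : lz A (c • (1 : Z)) x = c • x := by
  induction x with
  | zero => simp
  | tmul a z' => rw [lz_tmul, smul_mul_assoc, one_mul, TensorProduct.tmul_smul]
  | add x y hx hy => rw [map_add, hx, hy, smul_add]

theorem gfmapa_inner {m : A ⊗[ℂ] Z →ₗ[ℂ] B} (hm : IsTensorCompletion m) (z : Z)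
    (x y : A ⊗[ℂ] Z) :
    star (m (lz A z x)) * m (lz A z y) = star (m x) * m (lz A (star z * z) y) := by
  induction x with
  | zero => simp
  | add x x' hx hx' => rw [map_add, map_add, map_add, star_add, star_add, add_mul, add_mul, hx, hx']
  | tmul a z1 =>
    induction y with
    | zero => simp
    | add y y' hy hy' =>
      rw [map_add, map_add, map_add, map_add, mul_add, mul_add, hy, hy']
    | tmul b z2 =>
      rw [lz_tmul, lz_tmul, lz_tmul, hm.star, hm.star, hm.mul, hm.mul, star_mul]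
      simp only [mul_assoc]

theorem gfmapa_sq (z : Z) : ∃ w : Z, star z * z + star w * w = ((‖z‖ : ℂ) ^ 2) • (1 : Z) := by
  let _ := CStarAlgebra.spectralOrder Z
  have _ := CStarAlgebra.spectralOrderedRing Z
  have h1 : star z * z ≤ algebraMap ℝ Z (‖z‖ ^ 2) := CStarAlgebra.star_mul_le_algebraMap_norm_sq
  obtain ⟨w, hw⟩ := CStarAlgebra.nonneg_iff_eq_star_mul_self.1 (sub_nonneg.2 h1)
  refine ⟨w, ?_⟩
  rw [← hw, add_sub_cancel, Algebra.algebraMap_eq_smul_one, ← Complex.coe_smul]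
  push_cast
  rfl

theorem norm_lz_le {m : A ⊗[ℂ] Z →ₗ[ℂ] B} (hm : IsTensorCompletion m) (z : Z) (x : A ⊗[ℂ] Z) :
    ‖m (lz A z x)‖ ≤ ‖z‖ * ‖m x‖ := by
  obtain ⟨w, hw⟩ := gfmapa_sq z
  have h1 := norm_le_of_add (m (lz A z x)) (m (lz A w x))
  rw [gfmapa_inner hm, gfmapa_inner hm, ← mul_add, ← map_add, ← gfmapa_lz_add, hw,
    gfmapa_lz_smul_one, map_smul, mul_smul_comm, norm_smul, ← gfmapa_inner hm,
    CStarRing.norm_star_mul_self, CStarRing.norm_star_mul_self, norm_pow, Complex.norm_real,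
    norm_norm] at h1
  have h2 : ‖m (lz A z x)‖ ^ 2 ≤ (‖z‖ * ‖m x‖) ^ 2 := by
    calc ‖m (lz A z x)‖ ^ 2 = ‖m (lz A z x)‖ * ‖m (lz A z x)‖ := sq _
      _ ≤ ‖z‖ ^ 2 * (‖m x‖ * ‖m x‖) := h1
      _ = (‖z‖ * ‖m x‖) ^ 2 := by ring
  exact (sq_le_sq₀ (norm_nonneg _) (by positivity)).1 h2

theorem gfmapa_star {m : A ⊗[ℂ] Z →ₗ[ℂ] B} (hm : IsTensorCompletion m) (x : A ⊗[ℂ] Z) :
    ∃ x' : A ⊗[ℂ] Z, star (m x) = m x' ∧ ∀ z : Z, star (m (rz A z x)) = m (lz A (star z) x') := by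
  induction x with
  | zero => exact ⟨0, by simp, fun z => by simp⟩
  | tmul a z1 =>
    refine ⟨star a ⊗ₜ[ℂ] star z1, hm.star a z1, fun z => ?_⟩
    rw [rz_tmul, lz_tmul, hm.star, star_mul]
  | add x y hx hy =>
    obtain ⟨x', h1, h2⟩ := hx
    obtain ⟨y', h3, h4⟩ := hy
    refine ⟨x' + y', ?_, fun z => ?_⟩
    · rw [map_add, map_add, star_add, h1, h3]
    · rw [map_add, map_add, map_add, map_add, star_add, h2, h4]

theorem norm_rz_le {m : A ⊗[ℂ] Z →ₗ[ℂ] B} (hm : IsTensorCompletion m) (z : Z) (x : A ⊗[ℂ] Z) :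
    ‖m (rz A z x)‖ ≤ ‖z‖ * ‖m x‖ := by
  obtain ⟨x', h1, h2⟩ := gfmapa_star hm x
  have h3 := norm_lz_le hm (star z) x'
  rw [← h2, ← h1, norm_star, norm_star, norm_star] at h3
  exact h3

end P095G
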