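import Vale.Agent.Lib.P095G.GFUnit

/-!
# P095 stage 3, part GF: the multiplier algebra

`𝓜(ℂ, B)` is Mathlib's `DoubleCentralizer ℂ B`, a C*-algebra.
-/

open scoped Topology TensorProduct MultiplierAlgebra
open Filter

namespace P095G

universe u v

variable {B : Type u} [NonUnitalCStarAlgebra B]

theorem mult_ext {x y : 𝓜(ℂ, B)} (h1 : ∀ b, x.fst b = y.fst b) (h2 : ∀ b, x.snd b = y.snd b) :
    x = y :=
  DoubleCentralizer.ext ℂ B x y
    (Prod.ext (ContinuousLinearMap.ext h1) (ContinuousLinearMap.ext h2))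

private theorem gfmult_left {z : B} (h : ∀ y : B, y * z = 0) : z = 0 :=
  (CStarRing.star_mul_self_eq_zero_iff z).1 (h (star z))

private theorem gfmult_right {z : B} (h : ∀ y : B, z * y = 0) : z = 0 :=
  (CStarRing.mul_star_self_eq_zero_iff z).1 (h (star z))

private theorem gfmult_fst (x : 𝓜(ℂ, B)) (b c : B) : x.fst (b * c) = x.fst b * c := by
  refine sub_eq_zero.1 (gfmult_left fun y => ?_)
  rw [mul_sub, ← x.central, ← mul_assoc, ← mul_assoc, ← x.central, sub_self]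

private theorem gfmult_snd (x : 𝓜(ℂ, B)) (b c : B) : x.snd (b * c) = b * x.snd c := by
  refine sub_eq_zero.1 (gfmult_right fun y => ?_)
  rw [sub_mul, x.central, mul_assoc, mul_assoc, x.central, sub_self]

theorem mul_coe (x : 𝓜(ℂ, B)) (b : B) : x * (b : 𝓜(ℂ, B)) = ((x.fst b : B) : 𝓜(ℂ, B)) := by
  refine mult_ext (fun c => ?_) (fun c => ?_)
  · show x.fst (b * c) = x.fst b * c
    exact gfmult_fst x b c
  · show x.snd c * b = c * x.fst b
    exact x.central c b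

theorem coe_mul' (x : 𝓜(ℂ, B)) (b : B) : (b : 𝓜(ℂ, B)) * x = ((x.snd b : B) : 𝓜(ℂ, B)) := by
  refine mult_ext (fun c => ?_) (fun c => ?_)
  · show b * x.fst c = x.snd b * c
    exact (x.central b c).symm
  · show x.snd (c * b) = c * x.snd b
    exact gfmult_snd x c b

theorem norm_coe (b : B) : ‖(b : 𝓜(ℂ, B))‖ = ‖b‖ := by
  rw [← DoubleCentralizer.norm_fst, DoubleCentralizer.coe_fst]
  exact ContinuousLinearMap.opNorm_mul_apply ℂ B b

theorem coe_injective : Function.Injective (fun b : B => (b : 𝓜(ℂ, B))) := by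
  intro b c h
  have h1 : ((b - c : B) : 𝓜(ℂ, B)) = 0 := by
    have h2 : ((b - c : B) : 𝓜(ℂ, B)) = (b : 𝓜(ℂ, B)) - (c : 𝓜(ℂ, B)) :=
      map_sub (DoubleCentralizer.coeHom (𝕜 := ℂ) (A := B)) b c
    rw [h2]
    exact sub_eq_zero.2 h
  have h3 := norm_coe (b - c)
  rw [h1, norm_zero] at h3
  exact sub_eq_zero.1 (norm_eq_zero.1 h3.symm)

theorem coe_sub' (b c : B) : ((b - c : B) : 𝓜(ℂ, B)) = (b : 𝓜(ℂ, B)) - (c : 𝓜(ℂ, B)) :=
  map_sub (DoubleCentralizer.coeHom (𝕜 := ℂ) (A := B)) b c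

theorem coe_star' (b : B) : ((star b : B) : 𝓜(ℂ, B)) = star (b : 𝓜(ℂ, B)) :=
  map_star (DoubleCentralizer.coeHom (𝕜 := ℂ) (A := B)) b

theorem coe_mul_coe (b c : B) : ((b * c : B) : 𝓜(ℂ, B)) = (b : 𝓜(ℂ, B)) * (c : 𝓜(ℂ, B)) :=
  map_mul (DoubleCentralizer.coeHom (𝕜 := ℂ) (A := B)) b c

theorem isClosed_range_coe : IsClosed (Set.range (fun b : B => (b : 𝓜(ℂ, B)))) := by
  have h : Isometry (fun b : B => (b : 𝓜(ℂ, B))) := by
    refine Isometry.of_dist_eq fun b c => ?_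
    rw [dist_eq_norm, dist_eq_norm, ← coe_sub', norm_coe]
  exact h.isClosedEmbedding.isClosed_range

/-- two multipliers with the same products with `B` on the left agree (`b * x.fst c = x.snd b * c`,
`norm_fst_eq_snd`) -/
theorem mult_ext_left {x y : 𝓜(ℂ, B)} (h : ∀ b : B, x * (b : 𝓜(ℂ, B)) = y * (b : 𝓜(ℂ, B))) :
    x = y := by
  have h1 : ∀ b, x.fst b = y.fst b := by
    intro b
    have h2 := h b
    rw [mul_coe, mul_coe] at h2
    exact coe_injective h2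
  refine mult_ext h1 (fun b => ?_)
  refine sub_eq_zero.1 (gfmult_right fun c => ?_)
  rw [sub_mul, x.central, y.central, h1, sub_self]

section Ext

/-- the canonical extension of an automorphism to the multiplier algebra (as a function) -/
noncomputable def gMfun (γ : B ≃⋆ₐ[ℂ] B) (x : 𝓜(ℂ, B)) : 𝓜(ℂ, B) where
  fst := (⟨(γ : B →ₗ[ℂ] B), (AddMonoidHomClass.isometry_of_norm γ fun x =>
      NonUnitalStarAlgHom.norm_map (γ : B →⋆ₙₐ[ℂ] B) γ.injective x).continuous⟩ : B →L[ℂ] B).comp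
    (x.fst.comp (⟨(γ.symm : B →ₗ[ℂ] B), (AddMonoidHomClass.isometry_of_norm γ.symm fun x =>
      NonUnitalStarAlgHom.norm_map (γ.symm : B →⋆ₙₐ[ℂ] B) γ.symm.injective x).continuous⟩ :
        B →L[ℂ] B))
  snd := (⟨(γ : B →ₗ[ℂ] B), (AddMonoidHomClass.isometry_of_norm γ fun x =>
      NonUnitalStarAlgHom.norm_map (γ : B →⋆ₙₐ[ℂ] B) γ.injective x).continuous⟩ : B →L[ℂ] B).comp
    (x.snd.comp (⟨(γ.symm : B →ₗ[ℂ] B), (AddMonoidHomClass.isometry_of_norm γ.symm fun x =>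
      NonUnitalStarAlgHom.norm_map (γ.symm : B →⋆ₙₐ[ℂ] B) γ.symm.injective x).continuous⟩ :
        B →L[ℂ] B))
  central := by
    intro a b
    change γ (x.snd (γ.symm a)) * b = a * γ (x.fst (γ.symm b))
    have h := x.central (γ.symm a) (γ.symm b)
    have h2 := congrArg γ h
    rw [map_mul, map_mul, γ.apply_symm_apply, γ.apply_symm_apply] at h2
    exact h2

theorem gMfun_fst (γ : B ≃⋆ₐ[ℂ] B) (x : 𝓜(ℂ, B)) (b : B) :
    (gMfun γ x).fst b = γ (x.fst (γ.symm b)) := rfl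

theorem gMfun_snd (γ : B ≃⋆ₐ[ℂ] B) (x : 𝓜(ℂ, B)) (b : B) :
    (gMfun γ x).snd b = γ (x.snd (γ.symm b)) := rfl

/-- the extension of one automorphism -/
private noncomputable def gfmult_equiv (γ : B ≃⋆ₐ[ℂ] B) : 𝓜(ℂ, B) ≃⋆ₐ[ℂ] 𝓜(ℂ, B) where
  toFun := gMfun γ
  invFun := gMfun γ.symm
  left_inv := by
    intro x
    refine mult_ext (fun b => ?_) (fun b => ?_)
    · rw [gMfun_fst, gMfun_fst, StarAlgEquiv.symm_symm, γ.symm_apply_apply, γ.symm_apply_apply]
    · rw [gMfun_snd, gMfun_snd, StarAlgEquiv.symm_symm, γ.symm_apply_apply, γ.symm_apply_apply]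
  right_inv := by
    intro x
    refine mult_ext (fun b => ?_) (fun b => ?_)
    · rw [gMfun_fst, gMfun_fst, StarAlgEquiv.symm_symm, γ.apply_symm_apply, γ.apply_symm_apply]
    · rw [gMfun_snd, gMfun_snd, StarAlgEquiv.symm_symm, γ.apply_symm_apply, γ.apply_symm_apply]
  map_mul' := by
    intro x y
    refine mult_ext (fun b => ?_) (fun b => ?_)
    · show γ (x.fst (y.fst (γ.symm b))) = γ (x.fst (γ.symm (γ (y.fst (γ.symm b)))))
      rw [γ.symm_apply_apply]
    · show γ (y.snd (x.snd (γ.symm b))) = γ (y.snd (γ.symm (γ (x.snd (γ.symm b)))))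
      rw [γ.symm_apply_apply]
  map_add' := by
    intro x y
    refine mult_ext (fun b => ?_) (fun b => ?_)
    · show γ (x.fst (γ.symm b) + y.fst (γ.symm b)) = _
      rw [map_add]
      rfl
    · show γ (x.snd (γ.symm b) + y.snd (γ.symm b)) = _
      rw [map_add]
      rfl
  map_star' := by
    intro x
    refine mult_ext (fun b => ?_) (fun b => ?_)
    · show γ (star (x.snd (star (γ.symm b)))) = star (γ (x.snd (γ.symm (star b))))
      rw [map_star γ, map_star γ.symm]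
    · show γ (star (x.fst (star (γ.symm b)))) = star (γ (x.fst (γ.symm (star b))))
      rw [map_star γ, map_star γ.symm]
  map_smul' := by
    intro r x
    refine mult_ext (fun b => ?_) (fun b => ?_)
    · show γ (r • x.fst (γ.symm b)) = r • γ (x.fst (γ.symm b))
      rw [map_smul]
    · show γ (r • x.snd (γ.symm b)) = r • γ (x.snd (γ.symm b))
      rw [map_smul]

theorem gM_exists {G : Type v} [Group G] (γ : G →* (B ≃⋆ₐ[ℂ] B)) :
    ∃ γM : G →* (𝓜(ℂ, B) ≃⋆ₐ[ℂ] 𝓜(ℂ, B)), ∀ g x, γM g x = gMfun (γ g) x := by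
  refine ⟨MonoidHom.mk' (fun g => gfmult_equiv (γ g)) ?_, fun g x => rfl⟩
  intro g h
  apply StarAlgEquiv.ext
  intro x
  rw [StarAlgEquiv.mul_apply]
  show gMfun (γ (g * h)) x = gMfun (γ g) (gMfun (γ h) x)
  have hs : ∀ b, (γ (g * h)).symm b = (γ h).symm ((γ g).symm b) := by
    intro b
    refine (γ (g * h)).injective ?_
    show γ (g * h) ((γ (g * h)).symm b) = γ (g * h) ((γ h).symm ((γ g).symm b))
    rw [(γ (g * h)).apply_symm_apply, map_mul, StarAlgEquiv.mul_apply, (γ h).apply_symm_apply,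
      (γ g).apply_symm_apply]
  refine mult_ext (fun b => ?_) (fun b => ?_)
  · rw [gMfun_fst, gMfun_fst, gMfun_fst, hs, map_mul, StarAlgEquiv.mul_apply]
  · rw [gMfun_snd, gMfun_snd, gMfun_snd, hs, map_mul, StarAlgEquiv.mul_apply]

/-- the extension of an action to the multiplier algebra -/
noncomputable def gM {G : Type v} [Group G] (γ : G →* (B ≃⋆ₐ[ℂ] B)) :
    G →* (𝓜(ℂ, B) ≃⋆ₐ[ℂ] 𝓜(ℂ, B)) := (gM_exists γ).choose

theorem gM_apply {G : Type v} [Group G] (γ : G →* (B ≃⋆ₐ[ℂ] B)) (g : G) (x : 𝓜(ℂ, B)) :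
    gM γ g x = gMfun (γ g) x := (gM_exists γ).choose_spec g x

theorem multMaps_gM {G : Type v} [Group G] (γ : G →* (B ≃⋆ₐ[ℂ] B)) (g : G) (x : 𝓜(ℂ, B)) :
    MultMaps (γ g) x (gM γ g x) := by
  intro b
  rw [gM_apply, gMfun_fst, gMfun_snd, (γ g).symm_apply_apply]
  exact ⟨rfl, rfl⟩

theorem gM_coe {G : Type v} [Group G] (γ : G →* (B ≃⋆ₐ[ℂ] B)) (g : G) (b : B) :
    gM γ g (b : 𝓜(ℂ, B)) = ((γ g b : B) : 𝓜(ℂ, B)) := by
  rw [gM_apply]
  refine mult_ext (fun c => ?_) (fun c => ?_)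
  · show γ g (b * (γ g).symm c) = γ g b * c
    rw [map_mul, (γ g).apply_symm_apply]
  · show γ g ((γ g).symm c * b) = c * γ g b
    rw [map_mul, (γ g).apply_symm_apply]

end Ext

end P095G
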