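import Mathlib.Analysis.CStarAlgebra.Exponential
import Mathlib.Analysis.CStarAlgebra.Spectrum

/-!
# P095 stage 3, part GN: finite products of exponentials
-/

open NormedSpace

namespace P095G

universe u v

section Exp

variable {A : Type u} [CStarAlgebra A] {B : Type v} [CStarAlgebra B]

/-- `u` is a finite product of exponentials `exp (i h)` with `h` self-adjoint -/
def IsExpProd (u : A) : Prop :=
  ∃ l : List A, (∀ h ∈ l, IsSelfAdjoint h) ∧ u = (l.map fun h => exp (Complex.I • h)).prod

theorem gnExp_unitary {h : A} (hh : IsSelfAdjoint h) : exp (Complex.I • h) ∈ unitary A :=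
  (selfAdjoint.expUnitary ⟨h, hh⟩).2

theorem gnExp_one : IsExpProd (1 : A) :=
  ⟨[], by simp, by simp⟩

theorem gnExp_cons {h u : A} (hh : IsSelfAdjoint h) (hu : IsExpProd u) :
    IsExpProd (exp (Complex.I • h) * u) := by
  obtain ⟨l, hl, rfl⟩ := hu
  refine ⟨h :: l, ?_, ?_⟩
  · intro x hx
    rcases List.mem_cons.1 hx with rfl | hx
    · exact hh
    · exact hl x hx
  · rw [List.map_cons, List.prod_cons]

/-- induction principle for products of exponentials -/
theorem gnExp_induction {P : A → Prop} (h1 : P 1)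
    (h2 : ∀ h u : A, IsSelfAdjoint h → P u → P (exp (Complex.I • h) * u)) {u : A}
    (hu : IsExpProd u) : P u := by
  obtain ⟨l, hl, rfl⟩ := hu
  induction l with
  | nil => simpa using h1
  | cons h l ih =>
    rw [List.map_cons, List.prod_cons]
    exact h2 h _ (hl h List.mem_cons_self) (ih fun x hx => hl x (List.mem_cons_of_mem _ hx))

theorem IsExpProd.mem_unitary {u : A} (h : IsExpProd u) : u ∈ unitary A :=
  gnExp_induction (one_mem _) (fun _ _ hh hu => mul_mem (gnExp_unitary hh) hu) h

theorem gnExp_continuous (f : A →⋆ₐ[ℂ] B) : Continuous f := by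
  have := NonUnitalStarAlgHom.norm_apply_le f
  exact AddMonoidHomClass.continuous_of_bound f 1 (fun x => by simpa using this x)

theorem gnExp_map (f : A →⋆ₐ[ℂ] B) (h : A) :
    f (exp (Complex.I • h)) = exp (Complex.I • f h) := by
  let +nondep : NormedAlgebra ℚ A := NormedAlgebra.restrictScalars ℚ ℂ A
  let +nondep : NormedAlgebra ℚ B := NormedAlgebra.restrictScalars ℚ ℂ B
  rw [map_exp f (gnExp_continuous f), map_smul]

/-- *-homomorphisms preserve products of exponentials.

Proof.  `f (exp (i h)) = exp (i f(h))` (`NormedSpace.map_exp`), induction on the list. -/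
theorem IsExpProd.map (f : A →⋆ₐ[ℂ] B) {u : A} (h : IsExpProd u) : IsExpProd (f u) := by
  refine gnExp_induction (P := fun u => IsExpProd (f u)) ?_ ?_ h
  · rw [map_one]
    exact gnExp_one
  · intro h u hh hu
    rw [map_mul, gnExp_map]
    exact gnExp_cons (hh.map f) hu

/-- products of exponentials lift along surjections.

Proof.  Induction on the list; a self-adjoint `h = f x` is `f ((1/2) (x + x^*))`. -/
theorem IsExpProd.lift (f : A →⋆ₐ[ℂ] B) (hf : Function.Surjective f) {u : B}
    (h : IsExpProd u) : ∃ v : A, IsExpProd v ∧ f v = u := by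
  refine gnExp_induction (P := fun u => ∃ v : A, IsExpProd v ∧ f v = u) ?_ ?_ h
  · exact ⟨1, gnExp_one, map_one f⟩
  · rintro h u hh ⟨v, hv, rfl⟩
    obtain ⟨x, rfl⟩ := hf h
    have hx : f ((1 / 2 : ℂ) • (x + star x)) = f x := by
      rw [map_smul, map_add, map_star, hh.star_eq, ← two_smul ℂ (f x), smul_smul]
      norm_num
    have hsa : IsSelfAdjoint ((1 / 2 : ℂ) • (x + star x)) := by
      rw [isSelfAdjoint_iff, star_smul, star_add, star_star, add_comm (star x) x]
      congr 1
      simp
    refine ⟨exp (Complex.I • ((1 / 2 : ℂ) • (x + star x))) * v, gnExp_cons hsa hv, ?_⟩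
    rw [map_mul, gnExp_map, hx]

end Exp

end P095G
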