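import Mathlib.Analysis.CStarAlgebra.Unitary.Connected
import Vale.Agent.Lib.P095G.GNExp

/-!
# P095 stage 3, part GN: connected unitary groups consist of products of exponentials
-/

open NormedSpace

namespace P095G

universe u

/-- a product of exponential unitaries of Mathlib is a product of exponentials -/
theorem gnConn_list {A : Type u} [CStarAlgebra A] (l : List (selfAdjoint A)) :
    IsExpProd (((l.map selfAdjoint.expUnitary).prod : unitary A) : A) := by
  induction l with
  | nil => exact gnExp_one
  | cons h l ih =>
    rw [List.map_cons, List.prod_cons]
    exact gnExp_cons h.2 ih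

/-- If the unitary group is connected then every unitary is a finite product of exponentials. -/
theorem isExpProd_of_connected {A : Type u} [CStarAlgebra A] (hc : ConnectedSpace (unitary A))
    {u : A} (hu : u ∈ unitary A) : IsExpProd u := by
  have h1 : (⟨u, hu⟩ : unitary A) ∈ pathComponent (1 : unitary A) := by
    rw [pathComponent_eq_connectedComponent, hc.connectedComponent_eq_univ]
    exact Set.mem_univ _
  obtain ⟨l, hl⟩ := Unitary.mem_pathComponentOne_iff.1 h1
  have h2 := gnConn_list l
  rw [hl] at h2
  exact h2

end P095G
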