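import Vale.Agent.Lib.P095G.GAsm
import Vale.Agent.Lib.P095G.GFFinal
import Vale.Agent.Lib.P095G.GFUnit
import Vale.Agent.Lib.P095G.GFCpap
import Vale.Agent.Lib.P095G.GNConn
import Vale.Agent.Lib.P095U.U9
import Vale.Agent.Lib.P095E.Induced

/-!
# P095 stage 3: the final theorem, up to the tracial part
-/

open scoped ENNReal Topology TensorProduct MultiplierAlgebra
open Filter P101 P095E P095F

namespace P095G

universe u v

theorem whole_of {G : Type v} [Group G] [Countable G] (hG : AmenableGroup G)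
    {A Z B : Type u} [NonUnitalCStarAlgebra A] [CStarAlgebra Z] [NonUnitalCStarAlgebra B]
    [TopologicalSpace.SeparableSpace A] (hA : SimpleCStar A) (hnuc : NuclearN A)
    (hZ : IsJiangSu Z) (m : A ⊗[ℂ] Z →ₗ[ℂ] B) (hm : IsTensorCompletion m)
    (hAB : Nonempty (A ≃⋆ₐ[ℂ] B)) (α : G →* (A ≃⋆ₐ[ℂ] A))
    (hM : ∀ ω : Ultrafilter ℕ, (ω : Filter ℕ) ≤ Filter.cofinite →
      ∀ β : G →* (FOmega ω (Unitization ℂ A) ≃⋆ₐ[ℂ] FOmega ω (Unitization ℂ A)),
        (∀ g, Induces ω (uAut α g) (β g)) → TracialPart ω (uI A) (uAut α) β) :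
    ∃ γ : G →* (B ≃⋆ₐ[ℂ] B), IsTensorActionN m α γ ∧ CocycleConjugateM α γ := by
  classical
  obtain ⟨ω, hω⟩ : ∃ ω : Ultrafilter ℕ, (ω : Filter ℕ) ≤ Filter.cofinite :=
    ⟨hyperfilter ℕ, hyperfilter_le_cofinite⟩
  have := hZ.simple
  have := hZ.separable
  have : TopologicalSpace.SeparableSpace (Unitization ℂ A) := separable_unitization
  obtain ⟨β, hβ⟩ := exists_induced_action ω (uAut α)
  obtain ⟨i, j, h⟩ := exists_IJ hm
  obtain ⟨φ⟩ := hAB
  obtain ⟨e, -, he, hrange⟩ := exists_e h φ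
  have hI : GoodIdeal (uI A) := uI_good hA
  have hcp : CPAP (Unitization ℂ A) := cpap_unitization hnuc
  have hhoms := exists_homs_of ω hω hI hcp hZ.selfAbsorbing hZ.infinite i j h.commute e he
    hrange hG (uAut α) (uAut_mem α) β hβ (hM ω hω β hβ)
  have hexp : UnitariesExp Z := fun u hu =>
    isExpProd_of_connected (P095U.connected_unitary hZ.limit) hu
  exact exists_conj_of_homs ω hω hA.1 hZ hexp hm α β hβ hhoms

end P095G
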