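import Vale.Agent.Lib.P095F.LChar
import Vale.Agent.Lib.P095E.CopiesEC
import Vale.Agent.Lib.P101.Final
import Vale.Agent.Lib.P101.ZDrop

/-!
# P095 stage 3, part GL: homomorphisms of dimension drop algebras into fixed point algebras
-/

open scoped ENNReal Topology TensorProduct
open Filter P101 P095E P095F

namespace P095G

universe u v

/-- Abstract logic: from the tracial part (`v`) and the trace kernel part (`s`) to unital
homomorphisms from prime dimension drop algebras with fixed image. -/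
theorem exists_fix_hom_of_parts {F : Type u} [CStarAlgebra F] [Nontrivial F]
    (S : Set (F ≃⋆ₐ[ℂ] F)) (hS : HasEquivCopies S) (J : Ideal F) [J.IsTwoSided]
    (hv : ∃ v : F, (∀ b ∈ S, b v = v) ∧ v * v ∈ J ∧ star v * v + v * star v - 1 ∈ J)
    (hs : ∀ e ∈ J, (∀ b ∈ S, b e = e) → (∃ c : F, e = star c * c) → ‖e‖ ≤ 1 →
      ∃ s : Fin 2 → F, (∀ i, ∀ b ∈ S, b (s i) = s i) ∧
        ∀ i j, star (s i) * s j = if i = j then e else 0)
    (p q : ℕ) (hp : 1 ≤ p) (hq : 1 ≤ q) (hpq : Nat.Coprime p q) :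
    ∃ f : dimDrop p q →⋆ₐ[ℂ] F, ∀ b ∈ S, ∀ x, b (f x) = f x := by
  have hch : IsEmpty (fixAlg S →⋆ₐ[ℂ] ℂ) := by
    refine isEmpty_char_fix S J ?_ ?_
    · obtain ⟨v, hv1, hv2, hv3⟩ := hv
      exact ⟨v, hv1, hv2, hv3⟩
    · intro e he heJ hc hn
      exact hs e heJ he hc hn
  obtain ⟨n, hn, ⟨f⟩⟩ := exists_dimDrop_hom_coprime hp hq hpq
  have : NeZero n := ⟨by omega⟩
  have : Nontrivial (fixAlg S) :=
    ⟨⟨0, 1, fun h01 => zero_ne_one (α := F) (congrArg Subtype.val h01)⟩⟩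
  obtain ⟨g⟩ := exists_hom_of_no_characters (hasCopies_fixAlg hS) hch n
  exact ⟨(fixAlg S).subtype.comp (g.comp f), fun b hb x => (g (f x)).2 b hb⟩

end P095G
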