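import Mathlib
import Vale.Agent.Lib.P095F.MUnital
import Vale.Agent.Lib.P095G.GBF
import Vale.Agent.Lib.P095G.GCHom
import Vale.Agent.Lib.P095G.GCNorm

/-!
# P095G, part GM: the tracial part

`exists_v_fam` (`Lib/P095F/MFinal.lean`) for the family `k ↦ stFam α a₀ (en k)`, `en : ℕ → G` surjective.
-/

open scoped ENNReal Topology
open Filter P101 P095E P095F

namespace P095G

universe u v

variable {E : Type u} [CStarAlgebra E] [Nontrivial E] {I : Ideal E} {a₀ a₁ : E} {G : Type v}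
  [Group G] {α : G →* (E ≃⋆ₐ[ℂ] E)} {ω : Ultrafilter ℕ}

/-- the family of sets of states, indexed by the natural numbers -/
def gmS (α : G →* (E ≃⋆ₐ[ℂ] E)) (a₀ : E) (en : ℕ → G) : ℕ → Set (E →ₗ[ℂ] ℂ) :=
  fun k => stFam α a₀ (en k)

theorem gm_stFam (hI : GoodIdeal I) (hT : TrBase I a₀ a₁) (hα : ∀ g, ∀ a ∈ I, α g a ∈ I)
    {en : ℕ → G} (hen : Function.Surjective en) : StFam ω α (gmS α a₀ en) where
  st := fun k s hs => by
    have h := stFam_isSt hI hT hα hs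
    exact ⟨h.nonneg, h.im_eq, h.one⟩
  tr := fun k x y hx hy ε hε => stFam_tr hI hT hα ω hx hy (en k) hε
  inv := fun g k => by
    obtain ⟨k', hk'⟩ := hen (g⁻¹ * en k)
    refine ⟨k', fun s hs => ?_⟩
    obtain ⟨s', hs', h⟩ := stFam_inv hI hT hα (en k) g hs
    refine ⟨s', ?_, h⟩
    change s' ∈ stFam α a₀ (en k')
    rw [hk']
    exact hs'

theorem gm_smQ_iff (hI : GoodIdeal I) (hT : TrBase I a₀ a₁) (hα : ∀ g, ∀ a ∈ I, α g a ∈ I)
    {en : ℕ → G} (hen : Function.Surjective en) (x : FOmega ω E) :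
    SmQ ω (gmS α a₀ en) x 0 ↔ InJG ω α a₀ x := by
  constructor
  · intro h
    obtain ⟨y, hy⟩ := mj_exists_rep x
    refine ⟨y, hy, fun g ε hε => ?_⟩
    obtain ⟨k, rfl⟩ := hen g
    exact h k y hy ε hε
  · rintro ⟨y, hy, h⟩
    exact SmQ.of_rep (gm_stFam hI hT hα hen) y hy fun k ε' hε' => h (en k) ε' hε'

section Ideals

variable [Countable G]

/-- the trace kernel ideal of `F_ω(E)` -/
def JG (ω : Ultrafilter ℕ) (hI : GoodIdeal I) (hT : TrBase I a₀ a₁)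
    (hα : ∀ g, ∀ a ∈ I, α g a ∈ I) : Ideal (FOmega ω E) where
  carrier := {x | InJG ω α a₀ x}
  add_mem' := by
    intro x y hx hy
    obtain ⟨en, hen⟩ := exists_surjective_nat G
    exact (gm_smQ_iff hI hT hα hen _).1 (SmQ.add (gm_stFam hI hT hα hen)
      ((gm_smQ_iff hI hT hα hen _).2 hx) ((gm_smQ_iff hI hT hα hen _).2 hy))
  zero_mem' := by
    obtain ⟨en, hen⟩ := exists_surjective_nat G
    exact (gm_smQ_iff hI hT hα hen _).1 (SmQ.zero (gm_stFam hI hT hα hen))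
  smul_mem' := by
    intro a x hx
    obtain ⟨en, hen⟩ := exists_surjective_nat G
    exact (gm_smQ_iff hI hT hα hen _).1 (SmQ.mul_left (gm_stFam hI hT hα hen) a
      ((gm_smQ_iff hI hT hα hen _).2 hx))

theorem mem_JG {hI : GoodIdeal I} {hT : TrBase I a₀ a₁} {hα : ∀ g, ∀ a ∈ I, α g a ∈ I}
    {x : FOmega ω E} : x ∈ JG ω hI hT hα ↔ InJG ω α a₀ x := Iff.rfl

instance JG_isTwoSided (hI : GoodIdeal I) (hT : TrBase I a₀ a₁)
    (hα : ∀ g, ∀ a ∈ I, α g a ∈ I) : (JG ω hI hT hα).IsTwoSided where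
  mul_mem_of_left := by
    intro a b ha
    obtain ⟨en, hen⟩ := exists_surjective_nat G
    exact (gm_smQ_iff hI hT hα hen _).1 (SmQ.mul_right (gm_stFam hI hT hα hen) b
      ((gm_smQ_iff hI hT hα hen _).2 ha))

instance JG_isClosed (hI : GoodIdeal I) (hT : TrBase I a₀ a₁)
    (hα : ∀ g, ∀ a ∈ I, α g a ∈ I) : IsClosed (JG ω hI hT hα : Set (FOmega ω E)) := by
  obtain ⟨en, hen⟩ := exists_surjective_nat G
  have h : (JG ω hI hT hα : Set (FOmega ω E)) = {x | SmQ ω (gmS α a₀ en) x 0} := by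
    ext x
    exact (gm_smQ_iff hI hT hα hen x).symm
  rw [h]
  exact smQ_isClosed (gm_stFam hI hT hα hen)

theorem annF_le_JG (hI : GoodIdeal I) (hT : TrBase I a₀ a₁)
    (hα : ∀ g, ∀ a ∈ I, α g a ∈ I) : annF ω I ≤ JG ω hI hT hα :=
  fun _ hx => inJG_of_mem_annF hI hT hα hx

theorem inJG_star (hI : GoodIdeal I) (hT : TrBase I a₀ a₁)
    (hα : ∀ g, ∀ a ∈ I, α g a ∈ I) {x : FOmega ω E} (hx : InJG ω α a₀ x) :
    InJG ω α a₀ (star x) := by
  obtain ⟨en, hen⟩ := exists_surjective_nat G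
  exact (gm_smQ_iff hI hT hα hen _).1 (SmQ.star (gm_stFam hI hT hα hen)
      ((gm_smQ_iff hI hT hα hen _).2 hx))

theorem inJG_equiv (hI : GoodIdeal I) (hT : TrBase I a₀ a₁)
    (hα : ∀ g, ∀ a ∈ I, α g a ∈ I) {β : G →* (FOmega ω E ≃⋆ₐ[ℂ] FOmega ω E)}
    (hβ : ∀ g, Induces ω (α g) (β g)) (g : G) {x : FOmega ω E} (hx : InJG ω α a₀ x) :
    InJG ω α a₀ (β g x) := by
  obtain ⟨en, hen⟩ := exists_surjective_nat G
  exact (gm_smQ_iff hI hT hα hen _).1 (SmQ.equiv (gm_stFam hI hT hα hen) hβ g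
      ((gm_smQ_iff hI hT hα hen _).2 hx))

/-- the image of the trace kernel ideal in `FA` -/
def JFA (ω : Ultrafilter ℕ) (hI : GoodIdeal I) (hT : TrBase I a₀ a₁)
    (hα : ∀ g, ∀ a ∈ I, α g a ∈ I) : Ideal (FA ω I) where
  carrier := {e | ∃ x, toFA ω I x = e ∧ InJG ω α a₀ x}
  add_mem' := by
    rintro _ _ ⟨x, rfl, hx⟩ ⟨y, rfl, hy⟩
    exact ⟨x + y, map_add _ _ _, (JG ω hI hT hα).add_mem hx hy⟩
  zero_mem' := ⟨0, map_zero _, (JG ω hI hT hα).zero_mem⟩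
  smul_mem' := by
    rintro a _ ⟨x, rfl, hx⟩
    obtain ⟨b, rfl⟩ := toFA_surjective ω I a
    exact ⟨b * x, map_mul _ _ _, (JG ω hI hT hα).mul_mem_left b hx⟩

theorem mem_JFA {hI : GoodIdeal I} {hT : TrBase I a₀ a₁} {hα : ∀ g, ∀ a ∈ I, α g a ∈ I}
    {e : FA ω I} : e ∈ JFA ω hI hT hα ↔ ∃ x, toFA ω I x = e ∧ InJG ω α a₀ x := Iff.rfl

theorem toFA_mem_JFA {hI : GoodIdeal I} {hT : TrBase I a₀ a₁} {hα : ∀ g, ∀ a ∈ I, α g a ∈ I}
    {x : FOmega ω E} : toFA ω I x ∈ JFA ω hI hT hα ↔ InJG ω α a₀ x :=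
  ⟨fun ⟨_, h1, h2⟩ => inJG_congr hI hT hα h1 h2, fun h => ⟨x, rfl, h⟩⟩

instance JFA_isTwoSided (hI : GoodIdeal I) (hT : TrBase I a₀ a₁)
    (hα : ∀ g, ∀ a ∈ I, α g a ∈ I) : (JFA ω hI hT hα).IsTwoSided where
  mul_mem_of_left := by
    rintro _ b ⟨x, rfl, hx⟩
    obtain ⟨c, rfl⟩ := toFA_surjective ω I b
    exact ⟨x * c, map_mul _ _ _, (JG ω hI hT hα).mul_mem_right c hx⟩

end Ideals

/-- homomorphisms of the dimension drop algebras modulo the trace kernel ideal -/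
theorem gm_drop (hω : (ω : Filter ℕ) ≤ Filter.cofinite) [TopologicalSpace.SeparableSpace E]
    (hI : GoodIdeal I) (hT : TrBase I a₀ a₁) (hα : ∀ g, ∀ a ∈ I, α g a ∈ I)
    {en : ℕ → G} (hen : Function.Surjective en)
    (hZ : ∀ n, 1 ≤ n → Nonempty (dimDrop n (n + 1) →⋆ₐ[ℂ] FA ω I)) :
    DropJ ω (gmS α a₀ en) := by
  intro n hn C hC
  obtain ⟨f⟩ := hZ n hn
  obtain ⟨T, hT', hTd⟩ := munital_sep_range n (n + 1) f
  obtain ⟨D, hDc, hDs, hTD⟩ := exists_closed_separable T hT'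
  have hfD : ∀ x, f x ∈ D := by
    intro x
    have h1 : closure T ⊆ (D : Set (FA ω I)) := closure_minimal hTD hDc
    exact h1 (hTd ⟨x, rfl⟩)
  obtain ⟨θ, hθ, -, -⟩ := exists_hom_indepG ω hω hI (κ := Empty) (fun i => i.elim)
    (fun i => i.elim) (fun i => i.elim) (fun i => i.elim) (fun i => i.elim) D hDc hDs
    (toFA ω I '' C) (hC.image _).isSeparable
  choose l hl using toFA_surjective ω I
  let h : dimDrop n (n + 1) → FOmega ω E := fun x => l (θ (StarAlgHom.codRestrict f D hfD x))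
  have hh : ∀ x, toFA ω I (h x) = θ (StarAlgHom.codRestrict f D hfD x) := fun x => hl _
  have h0 : ∀ z : FOmega ω E, toFA ω I z = 0 → SmQ ω (gmS α a₀ en) z 0 := by
    intro z hz
    exact (gm_smQ_iff hI hT hα hen _).2
      (inJG_of_mem_annF hI hT hα ((toFA_eq_zero_iff ω I z).1 hz))
  refine ⟨h, fun x y => h0 _ ?_, fun x y => h0 _ ?_, fun x => h0 _ ?_, fun r x => h0 _ ?_, h0 _ ?_,
    fun x c hc => h0 _ ?_⟩
  · rw [map_sub, map_add, hh, hh, hh, map_add (StarAlgHom.codRestrict f D hfD), map_add θ, sub_self]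
  · rw [map_sub, map_mul, hh, hh, hh, map_mul (StarAlgHom.codRestrict f D hfD), map_mul θ, sub_self]
  · rw [map_sub, map_star, hh, hh, map_star (StarAlgHom.codRestrict f D hfD), map_star θ, sub_self]
  · rw [map_sub, map_smul, hh, hh, map_smul (StarAlgHom.codRestrict f D hfD), map_smul θ, sub_self]
  · rw [map_sub, map_one, hh, map_one (StarAlgHom.codRestrict f D hfD), map_one θ, sub_self]
  · rw [map_sub, map_mul, map_mul, hh, (hθ _ _ ⟨c, hc, rfl⟩).eq, sub_self]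

/-- **GM**: the tracial part -/
theorem exists_vG (hω : (ω : Filter ℕ) ≤ Filter.cofinite) [TopologicalSpace.SeparableSpace E]
    (hI : GoodIdeal I) (hT : TrBase I a₀ a₁) (hα : ∀ g, ∀ a ∈ I, α g a ∈ I)
    [Countable G] (hG : FolnerGroup G)
    {β : G →* (FOmega ω E ≃⋆ₐ[ℂ] FOmega ω E)} (hβ : ∀ g, Induces ω (α g) (β g))
    (hZ : ∀ n, 1 ≤ n → Nonempty (dimDrop n (n + 1) →⋆ₐ[ℂ] FA ω I)) :
    ∃ v : FOmega ω E, (∀ g, β g v = v) ∧ InJG ω α a₀ (v * v) ∧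
      InJG ω α a₀ (star v * v + v * star v - 1) := by
  obtain ⟨en, hen⟩ := exists_surjective_nat G
  obtain ⟨v, h1, h2, h3⟩ := exists_v_fam hω hG hβ (gm_stFam hI hT hα hen)
    (gm_drop hω hI hT hα hen hZ)
  exact ⟨v, h1, (gm_smQ_iff hI hT hα hen _).1 (mem_JJ.1 h2),
    (gm_smQ_iff hI hT hα hen _).1 (mem_JJ.1 h3)⟩

/-- the version in `FA` (the input of `exists_fix_hom_of_parts`) -/
theorem exists_vFA (hω : (ω : Filter ℕ) ≤ Filter.cofinite) [TopologicalSpace.SeparableSpace E]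
    (hI : GoodIdeal I) (hT : TrBase I a₀ a₁) (hα : ∀ g, ∀ a ∈ I, α g a ∈ I)
    [Countable G] (hG : FolnerGroup G)
    {β : G →* (FOmega ω E ≃⋆ₐ[ℂ] FOmega ω E)} (hβ : ∀ g, Induces ω (α g) (β g))
    (hZ : ∀ n, 1 ≤ n → Nonempty (dimDrop n (n + 1) →⋆ₐ[ℂ] FA ω I)) :
    ∃ v : FA ω I, (∀ b ∈ Set.range (faAct ω I α hα β hβ), b v = v) ∧
      v * v ∈ JFA ω hI hT hα ∧ star v * v + v * star v - 1 ∈ JFA ω hI hT hα := by
  obtain ⟨v, h1, h2, h3⟩ := exists_vG hω hI hT hα hG hβ hZ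
  refine ⟨toFA ω I v, ?_, ⟨_, map_mul _ _ _, h2⟩, ⟨_, ?_, h3⟩⟩
  · rintro _ ⟨g, rfl⟩
    rw [faAct_toFA, h1]
  · rw [map_sub, map_add, map_mul, map_mul, map_star, map_one]

end P095G
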