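import Vale.Agent.Lib.P095E.Stmt
import Vale.Agent.Lib.P095G.GNExp

/-!
# P095 stage 3, part GN: the flip by products of exponentials
-/

open scoped TensorProduct
open P101 P095E

namespace P095G

universe u

/-- The flip property with products of exponentials (compare `P101.ApproxInnerHalfFlip`). -/
def FlipExp (Z : Type u) [CStarAlgebra Z] : Prop :=
  ∀ (C : Type u) [CStarAlgebra C] (α β : Z →⋆ₐ[ℂ] C), (∀ x y, Commute (α x) (β y)) →
    ∀ (S : Finset Z) (ε : ℝ), 0 < ε →
      ∃ u ∈ (StarAlgebra.adjoin ℂ (Set.range α ∪ Set.range β)).topologicalClosure,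
        IsExpProd u ∧ ∀ z ∈ S, ‖u * α z * star u - β z‖ < ε

/-- corestriction of a *-homomorphism to the closure of its range -/
theorem gnFlip_corestrict {T : Type u} [Ring T] [StarRing T] [Algebra ℂ T] {C : Type u}
    [CStarAlgebra C] (f : T →⋆ₐ[ℂ] C) :
    ∃ (B : StarSubalgebra ℂ C) (_ : IsClosed (B : Set C)) (g : T →⋆ₐ[ℂ] B),
      DenseRange g ∧ ∀ t, ((g t : B) : C) = f t := by
  let B : StarSubalgebra ℂ C := f.range.topologicalClosure
  have hB : IsClosed (B : Set C) := StarSubalgebra.isClosed_topologicalClosure _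
  have hmem : ∀ t, f t ∈ B := fun t => StarSubalgebra.le_topologicalClosure _ ⟨t, rfl⟩
  let g : T →⋆ₐ[ℂ] B := StarAlgHom.codRestrict f B hmem
  refine ⟨B, hB, g, ?_, fun t => rfl⟩
  intro x
  rw [closure_subtype]
  have hR : (((↑) : B → C) '' Set.range g) = (f.range : Set C) := by
    ext c
    constructor
    · rintro ⟨_, ⟨t, rfl⟩, rfl⟩
      exact ⟨t, rfl⟩
    · rintro ⟨t, rfl⟩
      exact ⟨g t, ⟨t, rfl⟩, rfl⟩
  rw [hR]
  exact x.2

/-- By nuclearity every unital *-homomorphism on the algebraic tensor product factors through a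
given C*-completion.

Proof.  `m' : t ↦ (m t, μ t)` is an injective unital *-homomorphism `Z ⊗ Z → C × D`; let `B'` be the
closure of its range (`(StarAlgHom.range m').topologicalClosure`, a closed star subalgebra of the
C*-algebra `C × D`, hence a C*-algebra); `m'` corestricted to `B'` is injective with dense range
(`StarAlgHom.codRestrict`, as in `P101.approxInnerHalfFlip_of`, file `Lib/P101/TransferB.lean`).
`hZ Z` gives `e : C ≃⋆ₐ B'` with `e (m t) = m' t`; take
`π = (StarAlgHom.snd ℂ C D).comp (B'.subtype.comp e)`. -/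
theorem exists_factor {Z : Type u} [CStarAlgebra Z] (hZ : Nuclear Z) {C D : Type u}
    [CStarAlgebra C] [CStarAlgebra D] (m : Z ⊗[ℂ] Z →⋆ₐ[ℂ] C) (hm : Function.Injective m)
    (hd : DenseRange m) (μ : Z ⊗[ℂ] Z →⋆ₐ[ℂ] D) : ∃ π : C →⋆ₐ[ℂ] D, ∀ t, π (m t) = μ t := by
  obtain ⟨B, hB, g, hg, hgm⟩ := gnFlip_corestrict (StarAlgHom.prod m μ)
  have hinj : Function.Injective g := by
    intro s t hst
    apply hm
    have h1 := congrArg (fun x : B => (x : C × D).1) hst
    change ((g s : B) : C × D).1 = ((g t : B) : C × D).1 at h1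
    rw [hgm, hgm] at h1
    exact h1
  obtain ⟨e, he⟩ := hZ Z C B m g hm hd hinj hg
  refine ⟨(StarAlgHom.snd ℂ C D).comp (B.subtype.comp (e : C →⋆ₐ[ℂ] B)), fun t => ?_⟩
  change ((e (m t) : B) : C × D).2 = μ t
  rw [he, hgm]
  rfl

/-- Two commuting unital *-homomorphisms give a *-homomorphism on the algebraic tensor product with
values in the C*-algebra generated by the ranges.

Proof.  The same as the first half of the proof of `P101.approxInnerHalfFlip_of` (file
`Lib/P101/TransferB.lean`; the map is called `μ` there). -/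
theorem exists_tensor_map {Z C : Type u} [CStarAlgebra Z] [CStarAlgebra C] (α β : Z →⋆ₐ[ℂ] C)
    (hαβ : ∀ x y, Commute (α x) (β y)) :
    ∃ μ : Z ⊗[ℂ] Z →⋆ₐ[ℂ]
      (StarAlgebra.adjoin ℂ (Set.range α ∪ Set.range β)).topologicalClosure,
      ∀ x y, ((μ (x ⊗ₜ[ℂ] y) : _) : C) = α x * β y := by
  let D : StarSubalgebra ℂ C :=
    (StarAlgebra.adjoin ℂ (Set.range α ∪ Set.range β)).topologicalClosure
  have hα : ∀ x, α x ∈ D := fun x => StarSubalgebra.le_topologicalClosure _
    (StarAlgebra.subset_adjoin ℂ _ (Or.inl ⟨x, rfl⟩))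
  have hβ : ∀ x, β x ∈ D := fun x => StarSubalgebra.le_topologicalClosure _
    (StarAlgebra.subset_adjoin ℂ _ (Or.inr ⟨x, rfl⟩))
  let α' : Z →⋆ₐ[ℂ] D := StarAlgHom.codRestrict α D hα
  let β' : Z →⋆ₐ[ℂ] D := StarAlgHom.codRestrict β D hβ
  have hc : ∀ x y, Commute (α' x) (β' y) := fun x y => Subtype.ext (hαβ x y)
  let μ₀ : Z ⊗[ℂ] Z →ₐ[ℂ] D := Algebra.TensorProduct.lift α'.toAlgHom β'.toAlgHom hc
  have hμ₀ : ∀ x y, μ₀ (x ⊗ₜ y) = α' x * β' y := fun x y =>
    Algebra.TensorProduct.lift_tmul _ _ _ _ _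
  let μ : Z ⊗[ℂ] Z →⋆ₐ[ℂ] D :=
    { μ₀ with
      map_star' := by
        intro t
        change μ₀ (star t) = star (μ₀ t)
        induction t using TensorProduct.induction_on with
        | zero => rw [star_zero, map_zero, star_zero]
        | tmul x y =>
          rw [TensorProduct.star_tmul, hμ₀, hμ₀, star_mul, ← map_star, ← map_star]
          exact (hc _ _)
        | add x y hx hy => rw [star_add, map_add, map_add, hx, hy, star_add] }
  refine ⟨μ, fun x y => ?_⟩
  have h1 : μ (x ⊗ₜ y) = α' x * β' y := hμ₀ x y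
  rw [h1]
  rfl

/-- **GN.1.**

Proof.  Let `m : Z ⊗ Z → C₀`, `e : Z ≃⋆ₐ C₀` be from `hZ.selfAbsorbing`, `μ` from
`exists_tensor_map`, `π : C₀ → D` from `exists_factor` (`D` the closed algebra generated by the
ranges, a C*-algebra as it is closed).  `hZ.flip C₀ m` gives a unitary `w` of `C₀` with
`‖w m(z ⊗ 1) w^* - m(1 ⊗ z)‖ < ε` for `z ∈ S`.  `e.symm w` is a unitary of `Z`, so `IsExpProd`, and
`w = e (e.symm w)` is `IsExpProd` (`IsExpProd.map`); so are `π w` and its image in `C`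
(`StarSubalgebra.subtype`).  `‖π w α(z) (π w)^* - β(z)‖ ≤ ‖w m(z ⊗ 1) w^* - m(1 ⊗ z)‖` because `π`
is norm decreasing (`NonUnitalStarAlgHom.norm_apply_le`). -/
theorem flipExp_of {Z : Type u} [CStarAlgebra Z] (hZ : IsJiangSu Z)
    (hexp : ∀ u ∈ unitary Z, IsExpProd u) : FlipExp Z := by
  intro C _ α β hαβ S ε hε
  obtain ⟨C₀, _, m, e, hm, hd, -⟩ := hZ.selfAbsorbing
  obtain ⟨μ, hμ⟩ := exists_tensor_map α β hαβ
  have hD : IsClosed ((StarAlgebra.adjoin ℂ (Set.range α ∪ Set.range β)).topologicalClosure :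
    Set C) := StarSubalgebra.isClosed_topologicalClosure _
  obtain ⟨π, hπ⟩ := exists_factor hZ.nuclear m hm hd μ
  obtain ⟨w, hw, hw2⟩ := hZ.flip C₀ m hd S ε hε
  have hew : e.symm w ∈ unitary Z := by
    rw [Unitary.mem_iff]
    constructor
    · rw [← map_star, ← map_mul, (Unitary.mem_iff.1 hw).1, map_one]
    · rw [← map_star, ← map_mul, (Unitary.mem_iff.1 hw).2, map_one]
  have hwe : IsExpProd w := by
    have h1 := (hexp _ hew).map (e : Z →⋆ₐ[ℂ] C₀)
    have h2 : (e : Z →⋆ₐ[ℂ] C₀) (e.symm w) = w := e.apply_symm_apply w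
    rwa [h2] at h1
  have hπe := (hwe.map π).map
    (StarAlgebra.adjoin ℂ (Set.range α ∪ Set.range β)).topologicalClosure.subtype
  refine ⟨_, (π w).2, hπe, fun z hz => ?_⟩
  have h3 : ((π w : _) : C) * α z * star ((π w : _) : C) - β z =
      ((π (w * m (z ⊗ₜ[ℂ] 1) * star w - m (1 ⊗ₜ[ℂ] z)) : _) : C) := by
    rw [map_sub, map_mul, map_mul, map_star, hπ, hπ]
    change _ = ((π w : _) : C) * ((μ (z ⊗ₜ[ℂ] 1) : _) : C) * star ((π w : _) : C) -
      ((μ (1 ⊗ₜ[ℂ] z) : _) : C)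
    rw [hμ, hμ, map_one, map_one, mul_one, one_mul]
  rw [h3]
  refine lt_of_le_of_lt ?_ (hw2 z hz)
  exact NonUnitalStarAlgHom.norm_apply_le π _

end P095G
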