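import Vale.Agent.Lib.P101.ZApprox
import Vale.Agent.Lib.P095E.Defs
import Vale.Agent.Lib.P095G.GNFlip

/-!
# P095 stage 3, part GN: an almost invariant product of exponentials in `Q`
-/

open scoped ENNReal Topology
open Filter P101 P095E

namespace P095G

universe u v

/-- evaluation at `n` of bounded sequences -/
private def gnDesc_eval (Q : Type u) [CStarAlgebra Q] [Nontrivial Q] (n : ℕ) :
    lp (fun _ : ℕ => Q) ∞ →⋆ₐ[ℂ] Q where
  toFun x := x n
  map_one' := rfl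
  map_mul' _ _ := rfl
  map_zero' := rfl
  map_add' _ _ := rfl
  commutes' _ := rfl
  map_star' _ := rfl

/-- If `u` is a product of exponentials in the ultrapower of `Q` then it is the class of a bounded
sequence all of whose terms are products of exponentials.

Proof.  `IsExpProd.lift (toUltrapower ω Q)` gives `v : lp` with `IsExpProd v`; evaluation at `n` is a
unital *-homomorphism `lp → Q` (build it: all fields hold by `rfl`), use `IsExpProd.map`. -/
theorem exists_expProd_seq (ω : Ultrafilter ℕ) {Q : Type u} [CStarAlgebra Q] [Nontrivial Q]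
    {u : Ultrapower ω Q} (hu : IsExpProd u) :
    ∃ v : lp (fun _ : ℕ => Q) ∞, IsExpProd v ∧ (∀ n, IsExpProd (v n)) ∧
      toUltrapower ω Q v = u := by
  have hsurj : Function.Surjective (toUltrapower ω Q) := toUltrapower_surjective ω Q
  obtain ⟨v, hv, hvu⟩ := IsExpProd.lift (toUltrapower ω Q) hsurj hu
  refine ⟨v, hv, fun n => ?_, hvu⟩
  exact hv.map (gnDesc_eval Q n)

/-- The flip unitary in `Ultrapower ω Q`: a product of exponentials, fixed by the maps `c₂ k` induced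
by `c k`.

Proof.  As in `P095E.exists_unitary_approxE` (file `Lib/P095E/ApproxE.lean`): `g1` the map induced by
`g0`; `α = (ultraConst ω Q).comp jQ`, `β = g1.comp θ` commute (write `θ z = [f]`, `β z = [lpMap g0 f]`,
`P101.zapprox_commute`); `hflip` gives `u`; the closed star subalgebra generated by the ranges is
contained in `StarAlgHom.equalizer (c2 k) (StarAlgHom.id ..)` (there `hc2α`, `hc2β`, `hufix`). -/
theorem exists_flip_unitary (ω : Ultrafilter ℕ) {Z : Type u} [CStarAlgebra Z]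
    (hflip : FlipExp Z) {F Q : Type u} [CStarAlgebra F] [Nontrivial F] [CStarAlgebra Q]
    [Nontrivial Q] {κ : Type v} (b : κ → (F ≃⋆ₐ[ℂ] F)) (θ : Z →⋆ₐ[ℂ] Ultrapower ω F)
    (hθ : ∀ (k : κ) (z : Z) (y : lp (fun _ : ℕ => F) ∞), toUltrapower ω F y = θ z →
      toUltrapower ω F (lpMap (b k : F →⋆ₐ[ℂ] F) y) = θ z)
    (g0 : F →⋆ₐ[ℂ] Q) (jQ : Z →⋆ₐ[ℂ] Q) (hcomm : ∀ x z, Commute (g0 x) (jQ z))
    (c : κ → (Q →⋆ₐ[ℂ] Q)) (hg0 : ∀ k x, c k (g0 x) = g0 (b k x))
    (hjQ : ∀ k z, c k (jQ z) = jQ z) (c2 : κ → (Ultrapower ω Q →⋆ₐ[ℂ] Ultrapower ω Q))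
    (hc2 : ∀ k x, c2 k (toUltrapower ω Q x) = toUltrapower ω Q (lpMap (c k) x))
    (T : Finset Z) {δ : ℝ} (hδ : 0 < δ) :
    ∃ u : Ultrapower ω Q, IsExpProd u ∧ (∀ k, c2 k u = u) ∧
      ∀ z ∈ T, ∃ y : lp (fun _ : ℕ => F) ∞,
        ‖u * ultraConst ω Q (jQ z) * star u - toUltrapower ω Q (lpMap g0 y)‖ < δ := by
  classical
  obtain ⟨g1, hg1⟩ := exists_ultraMap ω g0
  let α : Z →⋆ₐ[ℂ] Ultrapower ω Q := (ultraConst ω Q).comp jQ
  let β : Z →⋆ₐ[ℂ] Ultrapower ω Q := g1.comp θ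
  have hα : ∀ z, α z = toUltrapower ω Q (constSeq Q (jQ z)) := fun z => rfl
  have hβ : ∀ z, ∃ f : lp (fun _ : ℕ => F) ∞, β z = toUltrapower ω Q (lpMap g0 f) := by
    intro z
    obtain ⟨f, hf⟩ := toUltrapower_surjective ω F (θ z)
    refine ⟨f, ?_⟩
    show g1 (θ z) = _
    rw [← hf, hg1]
  have hαβ : ∀ x y, Commute (α x) (β y) := by
    intro x y
    obtain ⟨f, hf⟩ := hβ y
    rw [hf, hα]
    exact zapprox_commute ω _ _ fun n => (hcomm (f n) x).symm
  have hc2α : ∀ (k : κ) (z : Z), c2 k (α z) = α z := by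
    intro k z
    rw [hα, hc2]
    congr 1
    ext n
    exact hjQ k z
  have hc2β : ∀ (k : κ) (z : Z), c2 k (β z) = β z := by
    intro k z
    obtain ⟨y, hy⟩ := toUltrapower_surjective ω F (θ z)
    have h1 : β z = toUltrapower ω Q (lpMap g0 y) := by
      show g1 (θ z) = _
      rw [← hy, hg1]
    have h2 : β z = toUltrapower ω Q (lpMap g0 (lpMap (b k : F →⋆ₐ[ℂ] F) y)) := by
      show g1 (θ z) = _
      rw [← hθ k z y hy, hg1]
    conv_lhs => rw [h1]
    rw [h2, hc2]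
    congr 1
    ext n
    exact hg0 k (y n)
  obtain ⟨u, hu1, hu2, hu3⟩ := hflip (Ultrapower ω Q) α β hαβ T δ hδ
  refine ⟨u, hu2, fun k => ?_, fun z hz => ?_⟩
  · have hle : (StarAlgebra.adjoin ℂ (Set.range α ∪ Set.range β)).topologicalClosure ≤
        StarAlgHom.equalizer (c2 k) (StarAlgHom.id ℂ (Ultrapower ω Q)) := by
      refine StarSubalgebra.topologicalClosure_minimal ?_ ?_
      · rw [StarAlgebra.adjoin_le_iff]
        rintro c (⟨z, rfl⟩ | ⟨z, rfl⟩)
        · exact hc2α k z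
        · exact hc2β k z
      · exact isClosed_eq (gnExp_continuous (c2 k)) continuous_id
    exact hle hu1
  · obtain ⟨f, hf⟩ := hβ z
    refine ⟨f, ?_⟩
    rw [← hf]
    exact hu3 z hz

/-- The same in `Q`.

Proof.  `exists_ultraMap` for `c k`; `exists_flip_unitary`; `exists_expProd_seq`; each of the
finitely many strict inequalities holds for the `n`-th terms, eventually along `ω`
(`P101.eventually_norm_lt`; compare `P095E.descendE`, file `Lib/P095E/DescendE.lean`). -/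
theorem exists_expProd_Q (ω : Ultrafilter ℕ) {Z : Type u} [CStarAlgebra Z]
    (hflip : FlipExp Z) {F Q : Type u} [CStarAlgebra F] [Nontrivial F] [CStarAlgebra Q]
    [Nontrivial Q] {κ : Type v} (b : κ → (F ≃⋆ₐ[ℂ] F)) (θ : Z →⋆ₐ[ℂ] Ultrapower ω F)
    (hθ : ∀ (k : κ) (z : Z) (y : lp (fun _ : ℕ => F) ∞), toUltrapower ω F y = θ z →
      toUltrapower ω F (lpMap (b k : F →⋆ₐ[ℂ] F) y) = θ z)
    (g0 : F →⋆ₐ[ℂ] Q) (jQ : Z →⋆ₐ[ℂ] Q) (hcomm : ∀ x z, Commute (g0 x) (jQ z))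
    (c : κ → (Q →⋆ₐ[ℂ] Q)) (hg0 : ∀ k x, c k (g0 x) = g0 (b k x))
    (hjQ : ∀ k z, c k (jQ z) = jQ z) (T : Finset Z) (K : Finset κ) {δ : ℝ} (hδ : 0 < δ) :
    ∃ u : Q, IsExpProd u ∧ (∀ z ∈ T, ∃ x : F, ‖u * jQ z * star u - g0 x‖ < δ) ∧
      ∀ k ∈ K, ‖c k u - u‖ < δ := by
  classical
  choose c2 hc2 using fun k : κ => exists_ultraMap ω (c k)
  obtain ⟨u, hu, hufix, huT⟩ := exists_flip_unitary ω hflip b θ hθ g0 jQ hcomm c hg0 hjQ c2 hc2 T hδ
  obtain ⟨v, hv, hvn, rfl⟩ := exists_expProd_seq ω hu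
  choose! y hy using huT
  have e4 : ∀ z ∈ T, ∀ᶠ n in (ω : Filter ℕ), ‖v n * jQ z * star (v n) - g0 (y z n)‖ < δ := by
    intro z hz
    have h : ‖toUltrapower ω Q (v * constSeq Q (jQ z) * star v - lpMap g0 (y z))‖ < δ := by
      rw [map_sub, map_mul, map_mul, map_star]
      exact hy z hz
    exact eventually_norm_lt ω Q _ h
  have e5 : ∀ k ∈ K, ∀ᶠ n in (ω : Filter ℕ), ‖c k (v n) - v n‖ < δ := by
    intro k hk
    have h : ‖toUltrapower ω Q (lpMap (c k) v - v)‖ < δ := by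
      rw [map_sub, ← hc2, hufix, sub_self, norm_zero]
      exact hδ
    exact eventually_norm_lt ω Q _ h
  obtain ⟨n, n4, n5⟩ := (((Filter.eventually_all_finset T).2 e4).and
    ((Filter.eventually_all_finset K).2 e5)).exists
  exact ⟨v n, hvn n, fun z hz => ⟨y z n, n4 z hz⟩, n5⟩

end P095G
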