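import Vale.Agent.Lib.P095G.GNMap
import Vale.Agent.Lib.P095G.GNDesc

/-!
# P095 stage 3, part GN: lifts of elements of `QB`
-/

open scoped ENNReal Topology
open Filter P101 P095E P095F

namespace P095G

universe u v

/-- A product of exponentials in `QB` comes from a unitary sequence.

Proof.  `IsExpProd.lift (toQB ω I i)` gives `c : cenB ω i`, `IsExpProd c`; its image in the ultrapower
is `IsExpProd` (`IsExpProd.map (cenB ω i).subtype`); `exists_expProd_seq`. -/
theorem exists_unitary_seq (ω : Ultrafilter ℕ) {E B : Type u} [CStarAlgebra E] [CStarAlgebra B]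
    [Nontrivial B] (I : Ideal E) (i : E →⋆ₐ[ℂ] B) {u : QB ω I i} (hu : IsExpProd u) :
    ∃ (v : lp (fun _ : ℕ => B) ∞) (c : cenB ω i), (∀ n, v n ∈ unitary B) ∧
      (∀ n, IsExpProd (v n)) ∧ toUltrapower ω B v = (c : Ultrapower ω B) ∧
      toQB ω I i c = u := by
  obtain ⟨c, hc, hcu⟩ := IsExpProd.lift (toQB ω I i) (toQB_surjective ω I i) hu
  obtain ⟨v, -, hvn, hvc⟩ := exists_expProd_seq ω (IsExpProd.map (cenB ω i).subtype hc)
  exact ⟨v, c, fun n => (hvn n).mem_unitary, hvn, hvc, hcu⟩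

/-- Norm estimate: what the class in `QB` says about a sequence.

Proof.  `norm_mul_le_toQB` and `P101.eventually_norm_lt` for the sequence
`x * constSeq B (i a)`. -/
theorem eventually_mul_lt (ω : Ultrafilter ℕ) {E B : Type u} [CStarAlgebra E] [CStarAlgebra B]
    [Nontrivial B] (I : Ideal E) (i : E →⋆ₐ[ℂ] B) (x : lp (fun _ : ℕ => B) ∞) (c : cenB ω i)
    (hx : toUltrapower ω B x = (c : Ultrapower ω B)) {a : E} (ha : a ∈ I) {r : ℝ}
    (hr : ‖toQB ω I i c‖ * ‖i a‖ < r) : ∀ᶠ n in (ω : Filter ℕ), ‖x n * i a‖ < r := by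
  have h1 : toUltrapower ω B (x * constSeq B (i a)) =
      (c : Ultrapower ω B) * ultraConst ω B (i a) := by
    rw [map_mul, hx]
    rfl
  have h2 : ‖toUltrapower ω B (x * constSeq B (i a))‖ < r := by
    rw [h1]
    exact (norm_mul_le_toQB ω I i c ha).trans_lt hr
  exact eventually_norm_lt ω B _ h2

/-- The terms of a representing sequence almost commute with `i(a)`. -/
theorem eventually_comm_lt_cenB (ω : Ultrafilter ℕ) {E B : Type u} [CStarAlgebra E] [CStarAlgebra B]
    [Nontrivial B] (i : E →⋆ₐ[ℂ] B) (x : lp (fun _ : ℕ => B) ∞) (c : cenB ω i)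
    (hx : toUltrapower ω B x = (c : Ultrapower ω B)) (a : E) {r : ℝ} (hr : 0 < r) :
    ∀ᶠ n in (ω : Filter ℕ), ‖x n * i a - i a * x n‖ < r := by
  have h1 : toUltrapower ω B (x * constSeq B (i a) - constSeq B (i a) * x) = 0 := by
    have h3 := (mem_cenB.1 c.2 a).eq
    rw [map_sub, map_mul, map_mul, hx]
    exact sub_eq_zero.2 h3
  have h2 : ‖toUltrapower ω B (x * constSeq B (i a) - constSeq B (i a) * x)‖ < r := by
    rw [h1, norm_zero]
    exact hr
  exact eventually_norm_lt ω B _ h2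

end P095G
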