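import Vale.Agent.Lib.P095G.GNApproxA

/-!
# P095 stage 3, part GN: GN.3, from `QB` to `B`
-/

open scoped ENNReal Topology
open Filter P101 P095E P095F

namespace P095G

universe u v

section

variable (ω : Ultrafilter ℕ) {E Z B : Type u} [CStarAlgebra E] [CStarAlgebra Z] [CStarAlgebra B]
  [Nontrivial E] [Nontrivial B] (I : Ideal E) (i : E →⋆ₐ[ℂ] B) (j : Z →⋆ₐ[ℂ] B)

/-- the estimate for one element -/
theorem gnApproxB_est {v jz ia iw : B} {δ M : ℝ} (hδ : 0 < δ) (hM : 0 ≤ M) (hv : v ∈ unitary B)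
    (hcomm : ia * jz = jz * ia) (hj : ‖jz‖ ≤ M) (hi : ‖ia‖ ≤ M) (h1 : ‖v * ia - ia * v‖ < δ)
    (h2 : ‖(v * jz * star v - iw) * ia‖ < δ * (‖ia‖ + 1)) :
    ‖v * (ia * jz) * star v - iw * ia‖ < δ * (2 * (M + 1)) := by
  have hsv : star v ∈ unitary B := Unitary.star_mem hv
  have hvv : star v * v = 1 := Unitary.star_mul_self_of_mem hv
  have hvv' : v * star v = 1 := Unitary.mul_star_self_of_mem hv
  have e1 : v * (ia * jz) * star v =
      v * jz * star v * (v * ia * star v) := by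
    rw [hcomm]
    calc v * (jz * ia) * star v = v * jz * 1 * ia * star v := by noncomm_ring
      _ = v * jz * (star v * v) * ia * star v := by rw [hvv]
      _ = _ := by noncomm_ring
  have e2 : v * ia * star v - ia = (v * ia - ia * v) * star v := by
    calc v * ia * star v - ia = v * ia * star v - ia * (v * star v) := by rw [hvv', mul_one]
      _ = _ := by noncomm_ring
  have n2 : ‖v * ia * star v - ia‖ < δ := by
    rw [e2, CStarRing.norm_mul_mem_unitary _ hsv]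
    exact h1
  have n3 : ‖v * jz * star v‖ ≤ M := by
    rw [P101.zinter_norm_conj hv]
    exact hj
  have e3 : v * (ia * jz) * star v - iw * ia =
      v * jz * star v * (v * ia * star v - ia) + (v * jz * star v - iw) * ia := by
    rw [e1]
    noncomm_ring
  rw [e3]
  have n4 : ‖v * jz * star v * (v * ia * star v - ia)‖ ≤ M * δ :=
    (norm_mul_le _ _).trans (mul_le_mul n3 n2.le (norm_nonneg _) hM)
  have n5 : δ * (‖ia‖ + 1) ≤ δ * (M + 1) := by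
    refine mul_le_mul_of_nonneg_left ?_ hδ.le
    linarith
  calc _ ≤ ‖v * jz * star v * (v * ia * star v - ia)‖ + ‖(v * jz * star v - iw) * ia‖ :=
        norm_add_le _ _
    _ < M * δ + δ * (M + 1) := by linarith
    _ ≤ δ * (2 * (M + 1)) := by nlinarith

/-- the sequence statement for `z` -/
theorem gnApproxB_z (g0 : FA ω I →⋆ₐ[ℂ] QB ω I i)
    (hg0 : ∀ (x : FOmega ω E) (y : lp (fun _ : ℕ => E) ∞),
      toUltrapower ω E y = (x : Ultrapower ω E) →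
        ∃ c : cenB ω i, (c : Ultrapower ω B) = toUltrapower ω B (lpMap i y) ∧
          g0 (toFA ω I x) = toQB ω I i c)
    (jQ : Z →⋆ₐ[ℂ] QB ω I i)
    (hjQ : ∀ z, ∃ c : cenB ω i, (c : Ultrapower ω B) = ultraConst ω B (j z) ∧
      jQ z = toQB ω I i c)
    (v : lp (fun _ : ℕ => B) ∞) (c : cenB ω i) (hvc : toUltrapower ω B v = (c : Ultrapower ω B))
    {δ : ℝ} (hδ : 0 < δ) (z : Z)
    (hz : ∃ x : FA ω I, ‖toQB ω I i c * jQ z * star (toQB ω I i c) - g0 x‖ < δ) :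
    ∃ w : lp (fun _ : ℕ => E) ∞, ∀ a ∈ I, ∀ᶠ n in (ω : Filter ℕ),
      ‖(v n * j z * star (v n) - i (w n)) * i a‖ < δ * (‖i a‖ + 1) := by
  obtain ⟨x, hx⟩ := hz
  obtain ⟨x', rfl⟩ := toFA_surjective ω I x
  obtain ⟨w, hw⟩ := toUltrapower_surjective ω E (x' : Ultrapower ω E)
  obtain ⟨c', hc', hgc'⟩ := hg0 x' w hw
  obtain ⟨cj, hcj, hjcj⟩ := hjQ z
  refine ⟨w, fun a ha => ?_⟩
  refine eventually_mul_lt ω I i (v * constSeq B (j z) * star v - lpMap i w)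
    (c * cj * star c - c') ?_ ha ?_
  · change _ = (c : Ultrapower ω B) * (cj : Ultrapower ω B) * star (c : Ultrapower ω B) -
      (c' : Ultrapower ω B)
    rw [map_sub, map_mul, map_mul, map_star, hvc, hcj, hc']
    rfl
  · rw [map_sub, map_mul, map_mul, map_star, ← hjcj, ← hgc']
    have h1 : 0 ≤ ‖i a‖ := norm_nonneg _
    nlinarith

/-- the sequence statement for `k` -/
theorem gnApproxB_k (γ : B ≃⋆ₐ[ℂ] B) (cQ : QB ω I i →⋆ₐ[ℂ] QB ω I i)
    (hcQ : ∀ (x : cenB ω i) (y : lp (fun _ : ℕ => B) ∞),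
      toUltrapower ω B y = (x : Ultrapower ω B) →
        ∃ x' : cenB ω i, (x' : Ultrapower ω B) =
          toUltrapower ω B (lpMap (γ : B →⋆ₐ[ℂ] B) y) ∧ cQ (toQB ω I i x) = toQB ω I i x')
    (v : lp (fun _ : ℕ => B) ∞) (c : cenB ω i) (hvc : toUltrapower ω B v = (c : Ultrapower ω B))
    {δ : ℝ} (hδ : 0 < δ) (hk : ‖cQ (toQB ω I i c) - toQB ω I i c‖ < δ) (a : E) (ha : a ∈ I) :
    ∀ᶠ n in (ω : Filter ℕ), ‖(γ (v n) - v n) * i a‖ < δ * (‖i a‖ + 1) := by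
  obtain ⟨c', hc', hcc'⟩ := hcQ c v hvc
  refine eventually_mul_lt ω I i (lpMap (γ : B →⋆ₐ[ℂ] B) v - v) (c' - c) ?_ ha ?_
  · change _ = (c' : Ultrapower ω B) - (c : Ultrapower ω B)
    rw [map_sub, hvc, hc']
  · rw [map_sub, ← hcc']
    have h1 : 0 ≤ ‖i a‖ := norm_nonneg _
    nlinarith

/-- **GN.3, second half**: from `QB` to `B`.

Proof.  `c, v` from `exists_unitary_seq` for `u`.  `cT z = (class of j z)`, `x z = g0 (toFA x')`,
`x' = [w]`, `g0 (toFA x') = toQB c'`, `c' = [lpMap i w]`.  The class of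
`v * constSeq (j z) * star v - lpMap i w` in `QB` is `u * jQ z * star u - g0 (x z)` of norm `< δ`, so by
`eventually_mul_lt` `‖(v n * j z * star (v n) - i (w n)) * i a‖ < δ (‖i a‖ + 1)`, and by
`eventually_comm_lt_cenB` `‖v n * i a - i a * v n‖ < δ`, so
`v n (i a j z) v n^* = v n j z i a v n^* ≈ v n j z v n^* i a ≈ i (w n) i a = i (w n * a)` with errors
`≤ ‖j z‖ δ` and `δ (‖i a‖ + 1)`; `w n * a ∈ I`.  Similarly the class of
`lpMap (γ k) v - v` is `cQ k u - u`.  Take `n` in the (finite) intersection. -/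
theorem exists_unitary_of_QB (g0 : FA ω I →⋆ₐ[ℂ] QB ω I i)
    (hg0 : ∀ (x : FOmega ω E) (y : lp (fun _ : ℕ => E) ∞),
      toUltrapower ω E y = (x : Ultrapower ω E) →
        ∃ c : cenB ω i, (c : Ultrapower ω B) = toUltrapower ω B (lpMap i y) ∧
          g0 (toFA ω I x) = toQB ω I i c)
    (jQ : Z →⋆ₐ[ℂ] QB ω I i)
    (hjQ : ∀ z, ∃ c : cenB ω i, (c : Ultrapower ω B) = ultraConst ω B (j z) ∧
      jQ z = toQB ω I i c)
    (hij : ∀ a z, Commute (i a) (j z))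
    {κ : Type v} (γ : κ → (B ≃⋆ₐ[ℂ] B)) (cQ : κ → (QB ω I i →⋆ₐ[ℂ] QB ω I i))
    (hcQ : ∀ k, ∀ (x : cenB ω i) (y : lp (fun _ : ℕ => B) ∞),
      toUltrapower ω B y = (x : Ultrapower ω B) →
        ∃ x' : cenB ω i, (x' : Ultrapower ω B) =
          toUltrapower ω B (lpMap (γ k : B →⋆ₐ[ℂ] B) y) ∧
          cQ k (toQB ω I i x) = toQB ω I i x')
    (S : Finset E) (hS : ∀ a ∈ S, a ∈ I) (T : Finset Z) (K : Finset κ) {ε : ℝ} (hε : 0 < ε) :
    ∃ δ : ℝ, 0 < δ ∧ ∀ u : QB ω I i, IsExpProd u →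
      (∀ z ∈ T, ∃ x : FA ω I, ‖u * jQ z * star u - g0 x‖ < δ) →
      (∀ k ∈ K, ‖cQ k u - u‖ < δ) →
      ∃ v ∈ unitary B, IsExpProd v ∧ (∀ a ∈ S, ‖v * i a - i a * v‖ < ε) ∧
        (∀ a ∈ S, ∀ z ∈ T, ∃ a' ∈ I, ‖v * (i a * j z) * star v - i a'‖ < ε) ∧
        ∀ k ∈ K, ∀ a ∈ S, ‖(γ k v - v) * i a‖ < ε := by
  classical
  obtain ⟨M, hM0, hMS, hMT⟩ : ∃ M : ℝ, 0 ≤ M ∧ (∀ a ∈ S, ‖i a‖ ≤ M) ∧ ∀ z ∈ T, ‖j z‖ ≤ M := by
    refine ⟨∑ a ∈ S, ‖i a‖ + ∑ z ∈ T, ‖j z‖, by positivity, fun a ha => ?_, fun z hz => ?_⟩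
    · have := Finset.single_le_sum (f := fun a => ‖i a‖) (fun _ _ => norm_nonneg _) ha
      have h2 : 0 ≤ ∑ z ∈ T, ‖j z‖ := by positivity
      linarith
    · have := Finset.single_le_sum (f := fun z => ‖j z‖) (fun _ _ => norm_nonneg _) hz
      have h2 : 0 ≤ ∑ a ∈ S, ‖i a‖ := by positivity
      linarith
  have hpos : 0 < 2 * (M + 1) := by linarith
  refine ⟨ε / (2 * (M + 1)), div_pos hε hpos, ?_⟩
  set δ := ε / (2 * (M + 1)) with hδdef
  have hδ : 0 < δ := div_pos hε hpos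
  have hδε : δ * (2 * (M + 1)) = ε := div_mul_cancel₀ ε hpos.ne'
  intro u hu hT hK
  obtain ⟨v, c, hvu, hve, hvc, rfl⟩ := exists_unitary_seq ω I i hu
  have h1 : ∀ z ∈ T, ∃ w : lp (fun _ : ℕ => E) ∞, ∀ a ∈ I, ∀ᶠ n in (ω : Filter ℕ),
      ‖(v n * j z * star (v n) - i (w n)) * i a‖ < δ * (‖i a‖ + 1) := fun z hz =>
    gnApproxB_z ω I i j g0 hg0 jQ hjQ v c hvc hδ z (hT z hz)
  choose! w hw using h1
  have e1 : ∀ᶠ n in (ω : Filter ℕ), ∀ a ∈ S, ‖v n * i a - i a * v n‖ < δ :=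
    (Filter.eventually_all_finset S).2 fun a _ => eventually_comm_lt_cenB ω i v c hvc a hδ
  have e2 : ∀ᶠ n in (ω : Filter ℕ), ∀ a ∈ S, ∀ z ∈ T,
      ‖(v n * j z * star (v n) - i (w z n)) * i a‖ < δ * (‖i a‖ + 1) :=
    (Filter.eventually_all_finset S).2 fun a ha => (Filter.eventually_all_finset T).2 fun z hz =>
      hw z hz a (hS a ha)
  have e3 : ∀ᶠ n in (ω : Filter ℕ), ∀ k ∈ K, ∀ a ∈ S,
      ‖(γ k (v n) - v n) * i a‖ < δ * (‖i a‖ + 1) :=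
    (Filter.eventually_all_finset K).2 fun k hk => (Filter.eventually_all_finset S).2 fun a ha =>
      gnApproxB_k ω I i (γ k) (cQ k) (hcQ k) v c hvc hδ (hK k hk) a (hS a ha)
  obtain ⟨n, n1, n2, n3⟩ := (e1.and (e2.and e3)).exists
  refine ⟨v n, hvu n, hve n, fun a ha => (n1 a ha).trans_le ?_, fun a ha z hz => ?_,
    fun k hk a ha => (n3 k hk a ha).trans_le ?_⟩
  · rw [← hδε]
    nlinarith
  · refine ⟨w z n * a, I.mul_mem_left _ (hS a ha), ?_⟩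
    rw [map_mul, ← hδε]
    exact gnApproxB_est hδ hM0 (hvu n) (hij a z).eq (hMT z hz) (hMS a ha) (n1 a ha)
      (n2 a ha z hz)
  · rw [← hδε]
    have := hMS a ha
    nlinarith

end

end P095G
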