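import Vale.Agent.Lib.P095E.HomE
import Vale.Agent.Lib.P095G.GNApproxB

/-!
# P095 stage 3, part GN: GN.3, approximately invariant absorption unitaries
-/

open scoped ENNReal Topology
open Filter P101 P095E P095F

namespace P095G

universe u v

theorem gnApproxC_symm {E : Type u} [CStarAlgebra E] (I : Ideal E) {G : Type v} [Group G]
    (α : G →* (E ≃⋆ₐ[ℂ] E)) (hα : ∀ g, ∀ a ∈ I, α g a ∈ I) (g : G) (a : E) (ha : a ∈ I) :
    (α g).symm a ∈ I := by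
  have h1 : (α g).symm a = α g⁻¹ a := by
    apply (α g).injective
    change (α g) ((α g).symm a) = (α g) (α g⁻¹ a)
    rw [StarAlgEquiv.apply_symm_apply, ← StarAlgEquiv.mul_apply, ← map_mul, mul_inv_cancel,
      map_one, StarAlgEquiv.one_apply]
  rw [h1]
  exact hα _ a ha

section

variable (ω : Ultrafilter ℕ) {E Z B : Type u} [CStarAlgebra E] [CStarAlgebra Z] [CStarAlgebra B]
  [Nontrivial E] [Nontrivial B] (I : Ideal E) (i : E →⋆ₐ[ℂ] B) (j : Z →⋆ₐ[ℂ] B)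

/-- **GN.3.**

Proof.  `θ` from `P095E.exists_hom_of_limitE` for `F := FA ω I` and `b := faAct ..`; the maps of
`GNMap.lean`; `exists_expProd_Q` with the `δ` of `exists_unitary_of_QB`. -/
theorem exists_unitary_approxG (hω : (ω : Filter ℕ) ≤ Filter.cofinite)
    (hflip : FlipExp Z) (hlim : IsLimitOfPrimeDimDrops Z)
    (hij : ∀ a z, Commute (i a) (j z)) (hnz : ∃ a ∈ I, i a ≠ 0)
    {G : Type v} [Group G] [Countable G] (α : G →* (E ≃⋆ₐ[ℂ] E))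
    (hα : ∀ g, ∀ a ∈ I, α g a ∈ I) (γ : G →* (B ≃⋆ₐ[ℂ] B))
    (hi : ∀ g x, γ g (i x) = i (α g x)) (hj : ∀ g z, γ g (j z) = j z)
    (β : G →* (FOmega ω E ≃⋆ₐ[ℂ] FOmega ω E)) (hβ : ∀ g, Induces ω (α g) (β g))
    (hF : ∀ p q : ℕ, 1 ≤ p → 1 ≤ q → Nat.Coprime p q →
      ∃ f : dimDrop p q →⋆ₐ[ℂ] FA ω I, ∀ g x, faAct ω I α hα β hβ g (f x) = f x)
    (S : Finset E) (hS : ∀ a ∈ S, a ∈ I) (T : Finset Z) (K : Finset G) {ε : ℝ} (hε : 0 < ε) :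
    ∃ v ∈ unitary B, IsExpProd v ∧ (∀ a ∈ S, ‖v * i a - i a * v‖ < ε) ∧
      (∀ a ∈ S, ∀ z ∈ T, ∃ a' ∈ I, ‖v * (i a * j z) * star v - i a'‖ < ε) ∧
      ∀ k ∈ K, ∀ a ∈ S, ‖(γ k v - v) * i a‖ < ε := by
  have hnz' : ∃ a ∈ I, a ≠ 0 := by
    obtain ⟨a, ha, hia⟩ := hnz
    refine ⟨a, ha, fun h => hia ?_⟩
    rw [h, map_zero]
  have : Nontrivial (FA ω I) := nontrivial_FA ω I hnz'
  have : Nontrivial (QB ω I i) := nontrivial_QB ω I i hnz
  obtain ⟨θ, hθ⟩ := exists_hom_of_limitE ω hω (F := FA ω I) Z hlim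
    (fun g => faAct ω I α hα β hβ g) (fun _ p q hp hq hpq => by
      obtain ⟨f, hf⟩ := hF p q hp hq hpq
      exact ⟨f, fun k _ x => hf k x⟩)
  obtain ⟨g0, hg0⟩ := exists_faToQB ω I i
  obtain ⟨jQ, hjQ⟩ := exists_zToQB ω I i j hij
  choose cQ hcQ using fun g => exists_autQB ω I i (α g) (gnApproxC_symm I α hα g) (γ g) (hi g)
  obtain ⟨δ, hδ, h⟩ := exists_unitary_of_QB ω I i j g0 hg0 jQ hjQ hij (fun g => γ g) cQ hcQ S hS T
    K hε
  obtain ⟨u, hu, hu1, hu2⟩ := exists_expProd_Q ω hflip (fun g => faAct ω I α hα β hβ g) θ hθ g0 jQ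
    (fun x z => commute_g0_jQ ω I i hij hg0 hjQ x z) cQ (fun k x => by
      obtain ⟨x', rfl⟩ := toFA_surjective ω I x
      rw [faAct_toFA]
      exact autQB_g0 ω I i hg0 (hβ k) (hcQ k) (hi k) x')
    (fun k z => autQB_jQ ω I i hjQ (hcQ k) (hj k) z) T K hδ
  exact h u hu hu1 hu2

end

end P095G
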