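import Mathlib.Order.CompletePartialOrder
import Vale.Agent.Lib.P101.Quot
import Vale.Agent.Lib.P101.ZInter

/-!
# P095 stage 3, part GN: the limit of the conjugations; Cauchy sequences
-/

open scoped Topology
open Filter P101

namespace P095G

universe u v

/-- **The limit isomorphism.**

Proof.  The same as the second half of the proof of `P095E.exists_limit_equiv` (file
`Lib/P095E/InterE.lean`), with `θ n x = v n * f x * star (v n)`, which is isometric
(`NonUnitalStarAlgHom.norm_map f hf`, `P101.zinter_norm_conj`) and has values in `J`.  The limit is a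
non-unital *-homomorphism, isometric, and its range is closed (isometry from a complete space),
contained in `J` (closed) and contains all `b k` up to any `ε`, hence contains `J`. -/
theorem exists_limitG {A : Type u} [NonUnitalCStarAlgebra A] {B : Type v} [CStarAlgebra B]
    (f : A →⋆ₙₐ[ℂ] B) (hf : Function.Injective f) (J : Ideal B) [J.IsTwoSided]
    (hJ : IsClosed (J : Set B)) (hfJ : ∀ x, f x ∈ J) (a : ℕ → A) (hda : DenseRange a)
    (b : ℕ → B) (hdb : (J : Set B) ⊆ closure (Set.range b)) (v : ℕ → unitary B)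
    (S : ℕ → Finset A) (hmono : Monotone S) (ha : ∀ n, a n ∈ S (n + 1))
    (hclose : ∀ n, ∀ x ∈ S n, ‖(v (n + 1) : B) * f x * star (v (n + 1) : B) -
      (v n : B) * f x * star (v n : B)‖ < (1 / 2 : ℝ) ^ n)
    (hhit : ∀ n, ∀ k ≤ n, ∃ c ∈ S (n + 1),
      ‖(v (n + 1) : B) * f c * star (v (n + 1) : B) - b k‖ < (1 / 2 : ℝ) ^ n) :
    ∃ Φ : A →⋆ₙₐ[ℂ] B, Function.Injective Φ ∧ Set.range Φ = (J : Set B) ∧
      ∀ x, Tendsto (fun n => (v n : B) * f x * star (v n : B)) atTop (𝓝 (Φ x)) := by
  have hfnorm : ∀ x, ‖f x‖ = ‖x‖ := fun x => NonUnitalStarAlgHom.norm_map f hf x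
  let θ : ℕ → A → B := fun n x => (v n : B) * f x * star (v n : B)
  have hvu : ∀ n, (v n : B) ∈ unitary B := fun n => (v n).2
  have hv1 : ∀ n, star (v n : B) * (v n : B) = 1 := fun n => (Unitary.mem_iff.1 (hvu n)).1
  have hclose' : ∀ n, ∀ x ∈ S n, ‖θ (n + 1) x - θ n x‖ < (1 / 2 : ℝ) ^ n := hclose
  have hhit' : ∀ n, ∀ k ≤ n, ∃ c ∈ S (n + 1), ‖θ (n + 1) c - b k‖ < (1 / 2 : ℝ) ^ n := hhit
  have hθsub : ∀ n x y, θ n x - θ n y = θ n (x - y) := by
    intro n x y
    simp only [θ, map_sub]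
    rw [mul_sub, sub_mul]
  have hθnorm : ∀ n x, ‖θ n x‖ = ‖x‖ := by
    intro n x
    simp only [θ]
    rw [P101.zinter_norm_conj (hvu n), hfnorm]
  have hθJ : ∀ n x, θ n x ∈ J := fun n x => J.mul_mem_right _ (J.mul_mem_left _ (hfJ x))
  have hgeo : ∀ n0, ∀ x ∈ S n0, ∀ m, dist (θ (m + n0) x) (θ (m + 1 + n0) x)
      ≤ (1 / 2 : ℝ) ^ n0 * (1 / 2 : ℝ) ^ m := by
    intro n0 x hx m
    have hx' : x ∈ S (m + n0) := hmono (Nat.le_add_left n0 m) hx
    have h1 := (hclose' (m + n0) x hx').le
    rw [dist_comm, dist_eq_norm]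
    have e : m + 1 + n0 = m + n0 + 1 := by ring
    rw [e]
    refine h1.trans (le_of_eq ?_)
    rw [pow_add]
    ring
  have hcauchy : ∀ x, CauchySeq (fun n => θ n x) := by
    intro x
    rw [Metric.cauchySeq_iff']
    intro ε hε
    obtain ⟨k, hk⟩ := hda.exists_dist_lt x (show (0 : ℝ) < ε / 3 by positivity)
    have hc : CauchySeq (fun n => θ n (a k)) := by
      rw [← cauchySeq_shift (k + 1)]
      exact cauchySeq_of_le_geometric (1 / 2 : ℝ) ((1 / 2 : ℝ) ^ (k + 1)) (by norm_num)
        (hgeo (k + 1) (a k) (ha k))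
    rw [Metric.cauchySeq_iff'] at hc
    obtain ⟨N, hN⟩ := hc (ε / 3) (by positivity)
    refine ⟨N, fun n hn => ?_⟩
    have h1 : dist (θ n x) (θ n (a k)) < ε / 3 := by
      rw [dist_eq_norm, hθsub, hθnorm, ← dist_eq_norm]; exact hk
    have h2 : dist (θ N (a k)) (θ N x) < ε / 3 := by
      rw [dist_comm, dist_eq_norm, hθsub, hθnorm, ← dist_eq_norm]; exact hk
    have h3 := hN n hn
    calc dist (θ n x) (θ N x) ≤ dist (θ n x) (θ n (a k)) + dist (θ n (a k)) (θ N (a k))
        + dist (θ N (a k)) (θ N x) := dist_triangle4 _ _ _ _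
      _ < ε := by linarith
  choose Θ hΘ using fun x => cauchySeq_tendsto_of_complete (hcauchy x)
  have hΘnorm : ∀ x, ‖Θ x‖ = ‖x‖ := by
    intro x
    refine tendsto_nhds_unique ((hΘ x).norm) ?_
    simp only [hθnorm]
    exact tendsto_const_nhds
  let F : A →⋆ₙₐ[ℂ] B :=
    { toFun := Θ
      map_smul' := by
        intro r x
        refine tendsto_nhds_unique (hΘ (r • x)) ?_
        have : (fun n => θ n (r • x)) = fun n => r • θ n x := by
          funext n
          simp only [θ, map_smul, mul_smul_comm, smul_mul_assoc]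
        rw [this]
        exact (hΘ x).const_smul r
      map_zero' := by
        refine tendsto_nhds_unique (hΘ 0) ?_
        have : (fun n => θ n 0) = fun _ => (0 : B) := by
          funext n
          simp only [θ, map_zero, mul_zero, zero_mul]
        rw [this]
        exact tendsto_const_nhds
      map_add' := by
        intro x y
        refine tendsto_nhds_unique (hΘ (x + y)) ?_
        have : (fun n => θ n (x + y)) = fun n => θ n x + θ n y := by
          funext n
          simp only [θ, map_add]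
          noncomm_ring
        rw [this]
        exact (hΘ x).add (hΘ y)
      map_mul' := by
        intro x y
        refine tendsto_nhds_unique (hΘ (x * y)) ?_
        have : (fun n => θ n (x * y)) = fun n => θ n x * θ n y := by
          funext n
          simp only [θ, map_mul]
          calc (v n : B) * (f x * f y) * star (v n : B)
              = (v n : B) * f x * 1 * f y * star (v n : B) := by noncomm_ring
            _ = _ := by rw [← hv1 n]; noncomm_ring
        rw [this]
        exact (hΘ x).mul (hΘ y)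
      map_star' := by
        intro x
        refine tendsto_nhds_unique (hΘ (star x)) ?_
        have : (fun n => θ n (star x)) = fun n => star (θ n x) := by
          funext n
          simp only [θ, map_star, star_mul, star_star, mul_assoc]
        rw [this]
        exact (hΘ x).star }
  have hFΘ : ∀ x, F x = Θ x := fun x => rfl
  have hFiso : Isometry F := by
    refine AddMonoidHomClass.isometry_of_norm F fun x => ?_
    rw [hFΘ, hΘnorm]
  have hclosed : IsClosed (Set.range F) := hFiso.isClosedEmbedding.isClosed_range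
  have hbmem : ∀ k, b k ∈ Set.range F := by
    intro k
    rw [← hclosed.closure_eq, Metric.mem_closure_iff]
    intro ε hε
    obtain ⟨n, hn⟩ := exists_pow_lt_of_lt_one (show (0 : ℝ) < ε / 3 by positivity)
      (show (1 / 2 : ℝ) < 1 by norm_num)
    obtain ⟨c, hc, hc2⟩ := hhit' (n + k) k (Nat.le_add_left k n)
    refine ⟨F c, ⟨c, rfl⟩, ?_⟩
    have h1 : dist (θ (0 + (n + k + 1)) c) (Θ c)
        ≤ (1 / 2 : ℝ) ^ (n + k + 1) * (1 / 2 : ℝ) ^ 0 / (1 - 1 / 2) := by
      have ht : Tendsto (fun m => θ (m + (n + k + 1)) c) atTop (𝓝 (Θ c)) :=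
        (tendsto_add_atTop_iff_nat (f := fun m => θ m c) (n + k + 1)).2 (hΘ c)
      exact dist_le_of_le_geometric_of_tendsto (1 / 2 : ℝ) ((1 / 2 : ℝ) ^ (n + k + 1))
        (by norm_num) (hgeo (n + k + 1) c hc) ht 0
    rw [zero_add] at h1
    have h2 : (1 / 2 : ℝ) ^ (n + k) ≤ (1 / 2 : ℝ) ^ n :=
      pow_le_pow_of_le_one (by norm_num) (by norm_num) (Nat.le_add_right n k)
    have h3 : (1 / 2 : ℝ) ^ (n + k + 1) * (1 / 2 : ℝ) ^ 0 / (1 - 1 / 2) =
        (1 / 2 : ℝ) ^ (n + k) := by
      rw [pow_succ, pow_zero]; ring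
    rw [h3] at h1
    rw [hFΘ]
    calc dist (b k) (Θ c) ≤ dist (b k) (θ (n + k + 1) c) + dist (θ (n + k + 1) c) (Θ c) :=
          dist_triangle _ _ _
      _ < ε := by
          rw [dist_comm (b k), dist_eq_norm]
          linarith
  refine ⟨F, hFiso.injective, Set.Subset.antisymm ?_ ?_, fun x => hΘ x⟩
  · rintro _ ⟨x, rfl⟩
    exact hJ.mem_of_tendsto (hΘ x) (Filter.Eventually.of_forall fun n => hθJ n x)
  · refine hdb.trans ?_
    rw [hclosed.closure_subset_iff]
    rintro _ ⟨k, rfl⟩
    exact hbmem k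

private theorem gnlim_cauchy {B : Type v} [CStarAlgebra B] (T : ℕ → B → B)
    (hT : ∀ n x y, ‖T n x - T n y‖ ≤ ‖x - y‖) (b : ℕ → B)
    (h : ∀ k, ∃ N, ∀ n, N ≤ n → ‖T (n + 1) (b k) - T n (b k)‖ ≤ (1 / 2 : ℝ) ^ n)
    {x : B} (hx : x ∈ closure (Set.range b)) : CauchySeq fun n => T n x := by
  rw [Metric.cauchySeq_iff']
  intro ε hε
  rw [Metric.mem_closure_iff] at hx
  obtain ⟨_, ⟨k, rfl⟩, hk⟩ := hx (ε / 3) (by positivity)
  have hc : CauchySeq (fun n => T n (b k)) := by
    obtain ⟨N, hN⟩ := h k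
    rw [← cauchySeq_shift N]
    refine cauchySeq_of_le_geometric (1 / 2 : ℝ) ((1 / 2 : ℝ) ^ N) (by norm_num) fun m => ?_
    have h1 := hN (m + N) (Nat.le_add_left N m)
    rw [dist_comm, dist_eq_norm]
    have e : m + 1 + N = m + N + 1 := by ring
    rw [e]
    refine h1.trans (le_of_eq ?_)
    rw [pow_add]
    ring
  rw [Metric.cauchySeq_iff'] at hc
  obtain ⟨N, hN⟩ := hc (ε / 3) (by positivity)
  refine ⟨N, fun n hn => ?_⟩
  have h1 : dist (T n x) (T n (b k)) < ε / 3 := by
    rw [dist_eq_norm]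
    refine (hT n x (b k)).trans_lt ?_
    rw [← dist_eq_norm]; exact hk
  have h2 : dist (T N (b k)) (T N x) < ε / 3 := by
    rw [dist_comm, dist_eq_norm]
    refine (hT N x (b k)).trans_lt ?_
    rw [← dist_eq_norm]; exact hk
  have h3 := hN n hn
  calc dist (T n x) (T N x) ≤ dist (T n x) (T n (b k)) + dist (T n (b k)) (T N (b k))
      + dist (T N (b k)) (T N x) := dist_triangle4 _ _ _ _
    _ < ε := by linarith

/-- Proof.  For `x = b k` the sequence is Cauchy by the geometric estimate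
(`cauchySeq_of_le_geometric` after a shift, `cauchySeq_shift`); the general case by approximation,
`‖w n * x - w n * b k‖ ≤ ‖x - b k‖`. -/
theorem cauchyG_left {B : Type v} [CStarAlgebra B] (w : ℕ → B) (hw : ∀ n, ‖w n‖ ≤ 1)
    (b : ℕ → B) (h : ∀ k, ∃ N, ∀ n, N ≤ n → ‖(w (n + 1) - w n) * b k‖ ≤ (1 / 2 : ℝ) ^ n)
    {x : B} (hx : x ∈ closure (Set.range b)) : CauchySeq fun n => w n * x := by
  refine gnlim_cauchy (fun n y => w n * y) ?_ b ?_ hx
  · intro n x y
    rw [← mul_sub]
    exact (norm_mul_le _ _).trans (mul_le_of_le_one_left (norm_nonneg _) (hw n))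
  · intro k
    obtain ⟨N, hN⟩ := h k
    refine ⟨N, fun n hn => ?_⟩
    rw [← sub_mul]
    exact hN n hn

/-- the same on the other side (apply the previous lemma to `star (w n)`, `star (b k)`, or copy the
proof) -/
theorem cauchyG_right {B : Type v} [CStarAlgebra B] (w : ℕ → B) (hw : ∀ n, ‖w n‖ ≤ 1)
    (b : ℕ → B) (h : ∀ k, ∃ N, ∀ n, N ≤ n → ‖b k * (w (n + 1) - w n)‖ ≤ (1 / 2 : ℝ) ^ n)
    {x : B} (hx : x ∈ closure (Set.range b)) : CauchySeq fun n => x * w n := by
  refine gnlim_cauchy (fun n y => y * w n) ?_ b ?_ hx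
  · intro n x y
    rw [← sub_mul]
    exact (norm_mul_le _ _).trans (mul_le_of_le_one_right (norm_nonneg _) (hw n))
  · intro k
    obtain ⟨N, hN⟩ := h k
    refine ⟨N, fun n hn => ?_⟩
    rw [← mul_sub]
    exact hN n hn

end P095G
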