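import Vale.Agent.Lib.P095G.GNStep
import Vale.Agent.Lib.P095G.GNLim

/-!
# P095 stage 3, part GN: the strict intertwining
-/

open scoped Topology
open Filter P101

namespace P095G

universe u v w

theorem GNInter_finset_seq (κ : Type w) [Countable κ] :
    ∃ K : ℕ → Finset κ, ∀ k, ∃ N, ∀ n, N ≤ n → k ∈ K n := by
  classical
  rcases isEmpty_or_nonempty κ with hκ | hκ
  · exact ⟨fun _ => ∅, fun k => (hκ.false k).elim⟩
  · obtain ⟨g, hg⟩ := exists_surjective_nat κ
    refine ⟨fun n => (Finset.range (n + 1)).image g, fun k => ?_⟩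
    obtain ⟨N, rfl⟩ := hg k
    exact ⟨N, fun n hn => Finset.mem_image_of_mem g (Finset.mem_range.2 (by omega))⟩

theorem GNInter_dense {B : Type v} [CStarAlgebra B] (J : Ideal B)
    (hJs : TopologicalSpace.IsSeparable (J : Set B)) :
    ∃ b : ℕ → B, (∀ k, b k ∈ J) ∧ (J : Set B) ⊆ closure (Set.range b) := by
  have : TopologicalSpace.SeparableSpace (J : Set B) := hJs.separableSpace
  have : Nonempty (J : Set B) := ⟨⟨0, J.zero_mem⟩⟩
  refine ⟨fun k => (TopologicalSpace.denseSeq (J : Set B) k : B), fun k =>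
    (TopologicalSpace.denseSeq (J : Set B) k).2, fun x hx => ?_⟩
  have h1 : (⟨x, hx⟩ : (J : Set B)) ∈ closure (Set.range (TopologicalSpace.denseSeq (J : Set B))) :=
    TopologicalSpace.denseRange_denseSeq (J : Set B) ⟨x, hx⟩
  have h2 := image_closure_subset_closure_image
    (f := (Subtype.val : ↥(J : Set B) → B)) continuous_subtype_val (Set.mem_image_of_mem _ h1)
  rw [← Set.range_comp] at h2
  exact h2

theorem GNInter_norm {B : Type v} [CStarAlgebra B] (γ : B ≃⋆ₐ[ℂ] B) (v : unitary B) :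
    ‖(v : B) * γ (star (v : B))‖ ≤ 1 := by
  rcases subsingleton_or_nontrivial B with hB | hB
  · rw [Subsingleton.elim ((v : B) * γ (star (v : B))) 0, norm_zero]
    exact zero_le_one
  · rw [CStarRing.norm_mem_unitary_mul _ v.2]
    have h1 : γ (star (v : B)) ∈ unitary B := by
      have h2 := Unitary.mem_iff.1 (Unitary.star_mem v.2)
      rw [Unitary.mem_iff, ← map_star, ← map_mul, ← map_mul, h2.1, h2.2, map_one]
      exact ⟨rfl, rfl⟩
    exact (CStarRing.norm_of_mem_unitary h1).le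

/-- **GN.4, abstract strict intertwining.**

Proof.  As `P095E.exists_limit_equiv` (file `Lib/P095E/InterE.lean`): dense sequences `a` of `A` and
`b` of `J`, finite sets `K n` exhausting `κ`, `choose` the step from `interG_step`, iterate from
`(1, ∅)`; `exists_limitG`, `cauchyG_left`, `cauchyG_right` with `w n = v n * γ g (star (v n))`, a product
of unitaries. -/
theorem exists_strict_intertwining {A : Type u} [NonUnitalCStarAlgebra A]
    [TopologicalSpace.SeparableSpace A] {B : Type v} [CStarAlgebra B]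
    (f : A →⋆ₙₐ[ℂ] B) (hf : Function.Injective f) (J : Ideal B) [J.IsTwoSided]
    (hJ : IsClosed (J : Set B)) (hJs : TopologicalSpace.IsSeparable (J : Set B))
    (hfJ : ∀ x, f x ∈ J) {κ : Type w} [Countable κ] (γ : κ → (B ≃⋆ₐ[ℂ] B))
    (h : ∀ (S : Finset A) (T : Finset B) (K : Finset κ) (ε : ℝ), (∀ b ∈ T, b ∈ J) → 0 < ε →
      ∃ u ∈ unitary B, (∀ a ∈ S, ‖u * f a - f a * u‖ < ε) ∧
        (∀ b ∈ T, ∃ a : A, ‖u * b * star u - f a‖ < ε) ∧
        ∀ k ∈ K, ∀ b ∈ T, ‖(γ k u - u) * b‖ < ε) :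
    ∃ (v : ℕ → unitary B) (Φ : A →⋆ₙₐ[ℂ] B), Function.Injective Φ ∧
      Set.range Φ = (J : Set B) ∧
      (∀ x, Tendsto (fun n => (v n : B) * f x * star (v n : B)) atTop (𝓝 (Φ x))) ∧
      ∀ k, ∀ b ∈ J, CauchySeq (fun n => (v n : B) * γ k (star (v n : B)) * b) ∧
        CauchySeq (fun n => b * ((v n : B) * γ k (star (v n : B)))) := by
  classical
  obtain ⟨K, hK⟩ := GNInter_finset_seq κ
  obtain ⟨b, hbJ, hdb⟩ := GNInter_dense J hJs
  set a : ℕ → A := TopologicalSpace.denseSeq A with ha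
  have hda : DenseRange a := TopologicalSpace.denseRange_denseSeq A
  choose st hst using fun (n : ℕ) (s : (unitary B) × Finset A) =>
    interG_step f J hJ γ h a b hbJ K n s
  let s : ℕ → (unitary B) × Finset A := fun n => Nat.rec (1, ∅) (fun n s => st n s) n
  have hs : ∀ n, s (n + 1) = st n (s n) := fun n => rfl
  have hmono : Monotone (fun n => (s n).2) := by
    refine monotone_nat_of_le_succ fun n => ?_
    rw [hs]
    exact (hst n (s n)).1
  have hamem : ∀ n, a n ∈ (s (n + 1)).2 := fun n => by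
    rw [hs]; exact (hst n (s n)).2.1
  have hclose : ∀ n, ∀ x ∈ (s n).2, ‖((s (n + 1)).1 : B) * f x * star ((s (n + 1)).1 : B) -
      ((s n).1 : B) * f x * star ((s n).1 : B)‖ < (1 / 2 : ℝ) ^ n := fun n x hx => by
    have := (hst n (s n)).2.2.1 x hx
    rw [← hs] at this
    exact this
  have hhit : ∀ n, ∀ k ≤ n, ∃ c ∈ (s (n + 1)).2,
      ‖((s (n + 1)).1 : B) * f c * star ((s (n + 1)).1 : B) - b k‖ < (1 / 2 : ℝ) ^ n :=
    fun n k hk => by
      have := (hst n (s n)).2.2.2.1 k hk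
      rw [← hs] at this
      exact this
  have hgam : ∀ n, ∀ g ∈ K n, ∀ k ≤ n,
      ‖(((s (n + 1)).1 : B) * γ g (star ((s (n + 1)).1 : B)) -
        ((s n).1 : B) * γ g (star ((s n).1 : B))) * b k‖ < (1 / 2 : ℝ) ^ n ∧
      ‖b k * (((s (n + 1)).1 : B) * γ g (star ((s (n + 1)).1 : B)) -
        ((s n).1 : B) * γ g (star ((s n).1 : B)))‖ < (1 / 2 : ℝ) ^ n := fun n g hg k hk => by
    have := (hst n (s n)).2.2.2.2 g hg k hk
    rw [← hs] at this
    exact this
  obtain ⟨Φ, hΦ1, hΦ2, hΦ3⟩ := exists_limitG f hf J hJ hfJ a hda b hdb (fun n => (s n).1)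
    (fun n => (s n).2) hmono hamem hclose hhit
  refine ⟨fun n => (s n).1, Φ, hΦ1, hΦ2, hΦ3, fun g x hx => ?_⟩
  have hw : ∀ n, ‖((s n).1 : B) * γ g (star ((s n).1 : B))‖ ≤ 1 := fun n =>
    GNInter_norm (γ g) (s n).1
  obtain ⟨N, hN⟩ := hK g
  have hx' : x ∈ closure (Set.range b) := hdb hx
  constructor
  · exact cauchyG_left (fun n => ((s n).1 : B) * γ g (star ((s n).1 : B))) hw b
      (fun k => ⟨max N k, fun n hn => (hgam n g (hN n ((le_max_left _ _).trans hn)) k
        ((le_max_right _ _).trans hn)).1.le⟩) hx'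
  · exact cauchyG_right (fun n => ((s n).1 : B) * γ g (star ((s n).1 : B))) hw b
      (fun k => ⟨max N k, fun n hn => (hgam n g (hN n ((le_max_left _ _).trans hn)) k
        ((le_max_right _ _).trans hn)).2.le⟩) hx'

end P095G
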