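import Mathlib.Algebra.Order.Star.Real
import Mathlib.Analysis.CStarAlgebra.Classes
import Mathlib.Tactic.Positivity

/-!
# P095 stage 3, part GN: from products `i(a) j(z)` to elements of the ideal `J`
-/

open scoped Topology

namespace P095G

universe u v w

/-- `b` is approximately moved into `i(I)`, and approximately fixed, by the unitaries of the hypothesis -/
private def GNMovedGood {E : Type u} {Z : Type v} {B : Type w} [CStarAlgebra E]
    [CStarAlgebra Z] [CStarAlgebra B] (I : Ideal E) (i : E →⋆ₐ[ℂ] B) (j : Z →⋆ₐ[ℂ] B)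
    {κ : Type*} (γ : κ → (B ≃⋆ₐ[ℂ] B)) (K : Finset κ) (η : ℝ) (b : B) : Prop :=
  ∃ (S : Finset E) (T : Finset Z) (δ : ℝ), (∀ a ∈ S, a ∈ I) ∧ 0 < δ ∧ ∀ u ∈ unitary B,
    (∀ a ∈ S, ‖u * i a - i a * u‖ < δ) →
    (∀ a ∈ S, ∀ z ∈ T, ∃ a' ∈ I, ‖u * (i a * j z) * star u - i a'‖ < δ) →
    (∀ k ∈ K, ∀ a ∈ S, ‖(γ k u - u) * i a‖ < δ) →
    (∃ a' ∈ I, ‖u * b * star u - i a'‖ < η) ∧ ∀ k ∈ K, ‖(γ k u - u) * b‖ < η

section GNMoved

variable {E : Type u} {Z : Type v} {B : Type w} [CStarAlgebra E]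
    [CStarAlgebra Z] [CStarAlgebra B] {I : Ideal E} {i : E →⋆ₐ[ℂ] B} {j : Z →⋆ₐ[ℂ] B}
    {κ : Type*} {γ : κ → (B ≃⋆ₐ[ℂ] B)} {K : Finset κ}

private theorem GNMoved_zero {η : ℝ} (hη : 0 < η) : GNMovedGood I i j γ K η 0 := by
  refine ⟨∅, ∅, 1, fun a ha => absurd ha (Finset.notMem_empty a), one_pos,
    fun u _ _ _ _ => ⟨⟨0, I.zero_mem, ?_⟩, fun k _ => ?_⟩⟩
  · simpa using hη
  · simpa using hη

private theorem GNMoved_mul {η : ℝ} (hη : 0 < η) {a : E} (ha : a ∈ I) (z : Z) :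
    GNMovedGood I i j γ K η (i a * j z) := by
  have hpos : 0 < ‖j z‖ + 1 := by positivity
  refine ⟨{a}, {z}, η / (‖j z‖ + 1), ?_, by positivity, fun u hu h1 h2 h3 => ⟨?_, ?_⟩⟩
  · intro a' ha'
    rw [Finset.mem_singleton.1 ha']
    exact ha
  · obtain ⟨a', ha', h4⟩ := h2 a (Finset.mem_singleton_self a) z (Finset.mem_singleton_self z)
    refine ⟨a', ha', h4.trans_le ?_⟩
    rw [div_le_iff₀ hpos]
    nlinarith [norm_nonneg (j z)]
  · intro k hk
    have h4 := h3 k hk a (Finset.mem_singleton_self a)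
    have e : (γ k u - u) * (i a * j z) = (γ k u - u) * i a * j z := by rw [mul_assoc]
    rw [e]
    calc ‖(γ k u - u) * i a * j z‖ ≤ ‖(γ k u - u) * i a‖ * ‖j z‖ := norm_mul_le _ _
      _ ≤ η / (‖j z‖ + 1) * ‖j z‖ := mul_le_mul_of_nonneg_right h4.le (norm_nonneg _)
      _ < η := by
        rw [div_mul_eq_mul_div, div_lt_iff₀ hpos]
        nlinarith [norm_nonneg (j z)]

private theorem GNMoved_add {η : ℝ} {b b' : B} (h : GNMovedGood I i j γ K (η / 2) b)
    (h' : GNMovedGood I i j γ K (η / 2) b') : GNMovedGood I i j γ K η (b + b') := by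
  classical
  obtain ⟨S, T, δ, hS, hδ, h⟩ := h
  obtain ⟨S', T', δ', hS', hδ', h'⟩ := h'
  refine ⟨S ∪ S', T ∪ T', min δ δ', ?_, lt_min hδ hδ', fun u hu h1 h2 h3 => ?_⟩
  · intro a ha
    rcases Finset.mem_union.1 ha with ha | ha
    · exact hS a ha
    · exact hS' a ha
  obtain ⟨⟨a, haI, ha⟩, hk⟩ := h u hu
    (fun a ha => (h1 a (Finset.mem_union_left _ ha)).trans_le (min_le_left _ _))
    (fun a ha z hz => by
      obtain ⟨a', haI, ha'⟩ := h2 a (Finset.mem_union_left _ ha) z (Finset.mem_union_left _ hz)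
      exact ⟨a', haI, ha'.trans_le (min_le_left _ _)⟩)
    (fun k hk a ha => (h3 k hk a (Finset.mem_union_left _ ha)).trans_le (min_le_left _ _))
  obtain ⟨⟨a', haI', ha'⟩, hk'⟩ := h' u hu
    (fun a ha => (h1 a (Finset.mem_union_right _ ha)).trans_le (min_le_right _ _))
    (fun a ha z hz => by
      obtain ⟨a', haI, ha'⟩ := h2 a (Finset.mem_union_right _ ha) z (Finset.mem_union_right _ hz)
      exact ⟨a', haI, ha'.trans_le (min_le_right _ _)⟩)
    (fun k hk a ha => (h3 k hk a (Finset.mem_union_right _ ha)).trans_le (min_le_right _ _))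
  refine ⟨⟨a + a', I.add_mem haI haI', ?_⟩, fun k hkK => ?_⟩
  · have e : u * (b + b') * star u - i (a + a') =
        (u * b * star u - i a) + (u * b' * star u - i a') := by
      rw [map_add]
      noncomm_ring
    rw [e]
    calc _ ≤ ‖u * b * star u - i a‖ + ‖u * b' * star u - i a'‖ := norm_add_le _ _
      _ < η / 2 + η / 2 := add_lt_add ha ha'
      _ = η := by ring
  · rw [mul_add]
    calc _ ≤ ‖(γ k u - u) * b‖ + ‖(γ k u - u) * b'‖ := norm_add_le _ _
      _ < η / 2 + η / 2 := add_lt_add (hk k hkK) (hk' k hkK)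
      _ = η := by ring

private theorem GNMoved_smul {η : ℝ} (c : ℂ) {b : B}
    (h : GNMovedGood I i j γ K (η / (‖c‖ + 1)) b) : GNMovedGood I i j γ K η (c • b) := by
  obtain ⟨S, T, δ, hS, hδ, h⟩ := h
  refine ⟨S, T, δ, hS, hδ, fun u hu h1 h2 h3 => ?_⟩
  obtain ⟨⟨a, haI, ha⟩, hk⟩ := h u hu h1 h2 h3
  have hpos : 0 < ‖c‖ + 1 := by positivity
  have key : ∀ x : B, ‖x‖ < η / (‖c‖ + 1) → ‖c • x‖ < η := by
    intro x hx
    rw [norm_smul]
    have h4 : 0 < η / (‖c‖ + 1) := (norm_nonneg x).trans_lt hx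
    calc ‖c‖ * ‖x‖ ≤ ‖c‖ * (η / (‖c‖ + 1)) :=
          mul_le_mul_of_nonneg_left hx.le (norm_nonneg _)
      _ < (‖c‖ + 1) * (η / (‖c‖ + 1)) := mul_lt_mul_of_pos_right (by linarith) h4
      _ = η := by field_simp
  refine ⟨⟨c • a, Submodule.smul_of_tower_mem I c haI, ?_⟩, fun k hkK => ?_⟩
  · have e : u * (c • b) * star u - i (c • a) = c • (u * b * star u - i a) := by
      rw [map_smul, smul_sub, mul_smul_comm, smul_mul_assoc]
    rw [e]
    exact key _ ha
  · rw [mul_smul_comm]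
    exact key _ (hk k hkK)

private theorem GNMoved_near {η : ℝ} {b b' : B} (h : GNMovedGood I i j γ K (η / 2) b)
    (h' : ‖b' - b‖ < η / 4) : GNMovedGood I i j γ K η b' := by
  obtain ⟨S, T, δ, hS, hδ, h⟩ := h
  refine ⟨S, T, δ, hS, hδ, fun u hu h1 h2 h3 => ?_⟩
  obtain ⟨⟨a, haI, ha⟩, hk⟩ := h u hu h1 h2 h3
  have hη : 0 < η := by
    have := (norm_nonneg _).trans_lt h'
    linarith
  have hsu : star u ∈ unitary B := Unitary.star_mem hu
  refine ⟨⟨a, haI, ?_⟩, fun k hkK => ?_⟩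
  · have e : u * b' * star u - i a = u * (b' - b) * star u + (u * b * star u - i a) := by
      noncomm_ring
    have n1 : ‖u * (b' - b) * star u‖ = ‖b' - b‖ := by
      rw [CStarRing.norm_mul_mem_unitary _ hsu, CStarRing.norm_mem_unitary_mul _ hu]
    rw [e]
    calc _ ≤ ‖u * (b' - b) * star u‖ + ‖u * b * star u - i a‖ := norm_add_le _ _
      _ < η / 4 + η / 2 := by
          rw [n1]
          exact add_lt_add h' ha
      _ < η := by linarith
  · have hγ : γ k u ∈ unitary B := by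
      rw [Unitary.mem_iff]
      refine ⟨?_, ?_⟩
      · rw [← map_star, ← map_mul, Unitary.star_mul_self_of_mem hu, map_one]
      · rw [← map_star, ← map_mul, Unitary.mul_star_self_of_mem hu, map_one]
    have e : (γ k u - u) * b' = (γ k u - u) * b + (γ k u * (b' - b) - u * (b' - b)) := by
      noncomm_ring
    rw [e]
    have n1 : ‖γ k u * (b' - b) - u * (b' - b)‖ ≤ ‖b' - b‖ + ‖b' - b‖ := by
      refine (norm_sub_le _ _).trans ?_
      rw [CStarRing.norm_mem_unitary_mul _ hγ, CStarRing.norm_mem_unitary_mul _ hu]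
    calc _ ≤ ‖(γ k u - u) * b‖ + ‖γ k u * (b' - b) - u * (b' - b)‖ := norm_add_le _ _
      _ < η / 2 + (η / 4 + η / 4) := by
          have := hk k hkK
          linarith
      _ = η := by ring

private theorem GNMoved_span {b : B}
    (hb : b ∈ Submodule.span ℂ {x : B | ∃ a ∈ I, ∃ z : Z, x = i a * j z}) :
    ∀ η : ℝ, 0 < η → GNMovedGood I i j γ K η b := by
  induction hb using Submodule.span_induction with
  | mem x hx =>
    intro η hη
    obtain ⟨a, ha, z, rfl⟩ := hx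
    exact GNMoved_mul hη ha z
  | zero =>
    intro η hη
    exact GNMoved_zero hη
  | add x y _ _ hx hy =>
    intro η hη
    exact GNMoved_add (hx _ (half_pos hη)) (hy _ (half_pos hη))
  | smul c x _ hx =>
    intro η hη
    exact GNMoved_smul c (hx _ (by positivity))

private theorem GNMoved_closure {b : B}
    (hb : b ∈ closure (Submodule.span ℂ {x : B | ∃ a ∈ I, ∃ z : Z, x = i a * j z} : Set B))
    {η : ℝ} (hη : 0 < η) : GNMovedGood I i j γ K η b := by
  obtain ⟨b', hb', hd⟩ := Metric.mem_closure_iff.1 hb (η / 4) (by positivity)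
  rw [dist_eq_norm] at hd
  exact GNMoved_near (GNMoved_span hb' _ (half_pos hη)) hd

private theorem GNMoved_finset {η : ℝ} (R : Finset B)
    (hR : ∀ b ∈ R, GNMovedGood I i j γ K η b) :
    ∃ (S : Finset E) (T : Finset Z) (δ : ℝ), (∀ a ∈ S, a ∈ I) ∧ 0 < δ ∧ ∀ u ∈ unitary B,
    (∀ a ∈ S, ‖u * i a - i a * u‖ < δ) →
    (∀ a ∈ S, ∀ z ∈ T, ∃ a' ∈ I, ‖u * (i a * j z) * star u - i a'‖ < δ) →
    (∀ k ∈ K, ∀ a ∈ S, ‖(γ k u - u) * i a‖ < δ) →
    ∀ b ∈ R, (∃ a' ∈ I, ‖u * b * star u - i a'‖ < η) ∧ ∀ k ∈ K, ‖(γ k u - u) * b‖ < η := by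
  classical
  induction R using Finset.induction_on with
  | empty =>
    exact ⟨∅, ∅, 1, fun a ha => absurd ha (Finset.notMem_empty a), one_pos,
      fun u _ _ _ _ b hb => absurd hb (Finset.notMem_empty b)⟩
  | insert b R _ ih =>
    obtain ⟨S, T, δ, hS, hδ, h⟩ := ih fun b hb => hR b (Finset.mem_insert_of_mem hb)
    obtain ⟨S', T', δ', hS', hδ', h'⟩ := hR b (Finset.mem_insert_self b R)
    refine ⟨S ∪ S', T ∪ T', min δ δ', ?_, lt_min hδ hδ', fun u hu h1 h2 h3 c hc => ?_⟩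
    · intro a ha
      rcases Finset.mem_union.1 ha with ha | ha
      · exact hS a ha
      · exact hS' a ha
    rcases Finset.mem_insert.1 hc with rfl | hc
    · exact h' u hu
        (fun a ha => (h1 a (Finset.mem_union_right _ ha)).trans_le (min_le_right _ _))
        (fun a ha z hz => by
          obtain ⟨a', haI, ha'⟩ :=
            h2 a (Finset.mem_union_right _ ha) z (Finset.mem_union_right _ hz)
          exact ⟨a', haI, ha'.trans_le (min_le_right _ _)⟩)
        (fun k hk a ha => (h3 k hk a (Finset.mem_union_right _ ha)).trans_le (min_le_right _ _))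
    · exact h u hu
        (fun a ha => (h1 a (Finset.mem_union_left _ ha)).trans_le (min_le_left _ _))
        (fun a ha z hz => by
          obtain ⟨a', haI, ha'⟩ :=
            h2 a (Finset.mem_union_left _ ha) z (Finset.mem_union_left _ hz)
          exact ⟨a', haI, ha'.trans_le (min_le_left _ _)⟩)
        (fun k hk a ha => (h3 k hk a (Finset.mem_union_left _ ha)).trans_le (min_le_left _ _))
        c hc

end GNMoved

/-- **GN.4, first step.**

Proof.  For fixed `K` call `b` good if for every `η > 0` there are finite `S ⊆ I`, `T ⊆ Z` and `δ > 0`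
such that for every unitary `u` with `‖u * i a - i a * u‖ < δ` (`a ∈ S`),
`∃ a' ∈ I, ‖u * (i a * j z) * star u - i a'‖ < δ` (`a ∈ S`, `z ∈ T`),
`‖(γ k u - u) * i a‖ < δ` (`k ∈ K`, `a ∈ S`) there is `a' ∈ I` with `‖u * b * star u - i a'‖ < η`, and
`‖(γ k u - u) * b‖ < η` for `k ∈ K`.  The good elements contain the products `i a * j z`
(`S = {a}`, `T = {z}`, `δ = η / (‖j z‖ + 1)`), are closed under sums (`S ∪ S'`, `T ∪ T'`, `min`), scalar
multiples (`η / (‖c‖ + 1)`) and limits (`‖γ k u - u‖ ≤ 2`), so contain `J`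
(`Submodule.span_induction`, `Metric.mem_closure_iff`).  Then induction on the finite set `T`.
Compare `P101.ApproxMoved`, `P101.approxMoved_finset` (file `Lib/P101/ZFinal.lean`). -/
theorem exists_unitary_approxJ {E : Type u} {Z : Type v} {B : Type w} [CStarAlgebra E]
    [CStarAlgebra Z] [CStarAlgebra B] (I : Ideal E) (i : E →⋆ₐ[ℂ] B) (j : Z →⋆ₐ[ℂ] B)
    {J : Set B} (hJ : ∀ b ∈ J, b ∈ closure
      (Submodule.span ℂ {x : B | ∃ a ∈ I, ∃ z : Z, x = i a * j z} : Set B))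
    {κ : Type*} (γ : κ → (B ≃⋆ₐ[ℂ] B))
    (h : ∀ (S : Finset E) (T : Finset Z) (K : Finset κ) (ε : ℝ), (∀ a ∈ S, a ∈ I) → 0 < ε →
      ∃ v ∈ unitary B, (∀ a ∈ S, ‖v * i a - i a * v‖ < ε) ∧
        (∀ a ∈ S, ∀ z ∈ T, ∃ a' ∈ I, ‖v * (i a * j z) * star v - i a'‖ < ε) ∧
        ∀ k ∈ K, ∀ a ∈ S, ‖(γ k v - v) * i a‖ < ε)
    (S : Finset E) (hS : ∀ a ∈ S, a ∈ I) (T : Finset B) (hT : ∀ b ∈ T, b ∈ J) (K : Finset κ)
    {ε : ℝ} (hε : 0 < ε) :
    ∃ u ∈ unitary B, (∀ a ∈ S, ‖u * i a - i a * u‖ < ε) ∧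
      (∀ b ∈ T, ∃ a' ∈ I, ‖u * b * star u - i a'‖ < ε) ∧
      ∀ k ∈ K, ∀ b ∈ T, ‖(γ k u - u) * b‖ < ε := by
  classical
  obtain ⟨S', T', δ, hS', hδ, h'⟩ := GNMoved_finset (I := I) (i := i) (j := j) (γ := γ) (K := K)
    T fun b hb => GNMoved_closure (hJ b (hT b hb)) hε
  obtain ⟨v, hv, h1, h2, h3⟩ := h (S ∪ S') T' K (min ε δ) (fun a ha => by
    rcases Finset.mem_union.1 ha with ha | ha
    · exact hS a ha
    · exact hS' a ha) (lt_min hε hδ)
  have h4 := h' v hv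
    (fun a ha => (h1 a (Finset.mem_union_right _ ha)).trans_le (min_le_right _ _))
    (fun a ha z hz => by
      obtain ⟨a', haI, ha'⟩ := h2 a (Finset.mem_union_right _ ha) z hz
      exact ⟨a', haI, ha'.trans_le (min_le_right _ _)⟩)
    (fun k hk a ha => (h3 k hk a (Finset.mem_union_right _ ha)).trans_le (min_le_right _ _))
  exact ⟨v, hv, fun a ha => (h1 a (Finset.mem_union_left _ ha)).trans_le (min_le_left _ _),
    fun b hb => (h4 b hb).1, fun k hk b hb => (h4 b hb).2 k hk⟩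

end P095G
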