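import Vale.Agent.Lib.P101.TransferB
import Vale.Agent.Lib.P095G.GNApproxC
import Vale.Agent.Lib.P095G.GNMoved
import Vale.Agent.Lib.P095G.GNInter

/-!
# P095 stage 3, part GN: main theorem
-/

open scoped ENNReal Topology
open Filter P101 P095E P095F

namespace P095G

universe u v

/-- `J` is separable. -/
theorem gnFinal_separable {E Z B : Type u} [CStarAlgebra E] [CStarAlgebra Z] [CStarAlgebra B]
    (I : Ideal E) {A : Type u} [NonUnitalCStarAlgebra A] [TopologicalSpace.SeparableSpace A]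
    [TopologicalSpace.SeparableSpace Z] (ι : A →⋆ₙₐ[ℂ] E) (hι : Set.range ι = (I : Set E))
    (i : E →⋆ₐ[ℂ] B) (j : Z →⋆ₐ[ℂ] B) (J : Ideal B)
    (hJ2 : ∀ b ∈ J, b ∈ closure
      (Submodule.span ℂ {x : B | ∃ a ∈ I, ∃ z : Z, x = i a * j z} : Set B)) :
    TopologicalSpace.IsSeparable (J : Set B) := by
  have hi : Continuous i := by
    have := NonUnitalStarAlgHom.norm_apply_le i
    exact AddMonoidHomClass.continuous_of_bound i 1 (fun x => by simpa using this x)
  have hj : Continuous j := by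
    have := NonUnitalStarAlgHom.norm_apply_le j
    exact AddMonoidHomClass.continuous_of_bound j 1 (fun x => by simpa using this x)
  have hι' : Continuous ι := by
    have := NonUnitalStarAlgHom.norm_apply_le ι
    exact AddMonoidHomClass.continuous_of_bound ι 1 (fun x => by simpa using this x)
  have h1 : TopologicalSpace.IsSeparable (Set.range fun p : A × Z => i (ι p.1) * j p.2) :=
    TopologicalSpace.isSeparable_range (by fun_prop)
  refine ((h1.span (R := ℂ)).closure).mono fun b hb => ?_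
  refine closure_mono (Submodule.span_mono ?_) (hJ2 b hb)
  rintro _ ⟨a, ha, z, rfl⟩
  have ha' : a ∈ Set.range ι := by
    rw [hι]
    exact ha
  obtain ⟨x, rfl⟩ := ha'
  exact ⟨(x, z), rfl⟩

/-- **GN, main theorem.**

Proof.  `f = i ∘ ι` is injective and has range in `J` (`i a = i a * j 1`); `J` is separable as
`A`, `Z` are (compare `P101.separable_of_tensor`).  `exists_strict_intertwining` with hypothesis from
`exists_unitary_approxJ` (for the image of `S` under `ι`) and `exists_unitary_approxG`;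
`flipExp_of`, `P101.isLimit_of_dimDropLimit`. -/
theorem exists_intertwiningG (ω : Ultrafilter ℕ) (hω : (ω : Filter ℕ) ≤ Filter.cofinite)
    {E Z B : Type u} [CStarAlgebra E] [CStarAlgebra Z] [CStarAlgebra B] [Nontrivial E]
    (I : Ideal E) (hI : ∃ a ∈ I, a ≠ 0)
    {A : Type u} [NonUnitalCStarAlgebra A] [TopologicalSpace.SeparableSpace A]
    (ι : A →⋆ₙₐ[ℂ] E) (hι : Set.range ι = (I : Set E))
    (hZ : IsJiangSu Z) (hexp : ∀ u ∈ unitary Z, IsExpProd u)
    (i : E →⋆ₐ[ℂ] B) (j : Z →⋆ₐ[ℂ] B) (hij : ∀ a z, Commute (i a) (j z))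
    (hinj : Function.Injective fun x : A => i (ι x))
    (J : Ideal B) [J.IsTwoSided] (hJ : IsClosed (J : Set B))
    (hJ1 : ∀ a ∈ I, ∀ z : Z, i a * j z ∈ J)
    (hJ2 : ∀ b ∈ J, b ∈ closure
      (Submodule.span ℂ {x : B | ∃ a ∈ I, ∃ z : Z, x = i a * j z} : Set B))
    {G : Type v} [Group G] [Countable G] (α : G →* (E ≃⋆ₐ[ℂ] E))
    (hα : ∀ g, ∀ a ∈ I, α g a ∈ I) (γ : G →* (B ≃⋆ₐ[ℂ] B))
    (hi : ∀ g x, γ g (i x) = i (α g x)) (hj : ∀ g z, γ g (j z) = j z)
    (β : G →* (FOmega ω E ≃⋆ₐ[ℂ] FOmega ω E)) (hβ : ∀ g, Induces ω (α g) (β g))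
    (hF : ∀ p q : ℕ, 1 ≤ p → 1 ≤ q → Nat.Coprime p q →
      ∃ f : dimDrop p q →⋆ₐ[ℂ] FA ω I, ∀ g x, faAct ω I α hα β hβ g (f x) = f x) :
    ∃ (v : ℕ → unitary B) (Φ : A →⋆ₙₐ[ℂ] B), Function.Injective Φ ∧
      Set.range Φ = (J : Set B) ∧
      (∀ x, Tendsto (fun n => (v n : B) * i (ι x) * star (v n : B)) atTop (𝓝 (Φ x))) ∧
      ∀ g, ∀ b ∈ J, CauchySeq (fun n => (v n : B) * γ g (star (v n : B)) * b) ∧
        CauchySeq (fun n => b * ((v n : B) * γ g (star (v n : B)))) := by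
  classical
  have := hZ.separable
  have hmem : ∀ x, ι x ∈ I := fun x => by
    have : ι x ∈ (I : Set E) := by
      rw [← hι]
      exact ⟨x, rfl⟩
    exact this
  have hlift : ∀ a ∈ I, ∃ x, ι x = a := fun a ha => by
    have : a ∈ Set.range ι := by
      rw [hι]
      exact ha
    exact this
  obtain ⟨a₀, ha₀, ha₀'⟩ := hI
  obtain ⟨x₀, rfl⟩ := hlift a₀ ha₀
  have hx₀ : i (ι x₀) ≠ 0 := by
    intro h0
    apply ha₀'
    have h1 : x₀ = 0 := hinj (by
      change i (ι x₀) = i (ι 0)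
      rw [h0, map_zero, map_zero])
    rw [h1, map_zero]
  have : Nontrivial B := ⟨⟨_, _, hx₀⟩⟩
  have hflip : FlipExp Z := flipExp_of hZ hexp
  have hlim := isLimit_of_dimDropLimit hZ.limit
  let f : A →⋆ₙₐ[ℂ] B := (i : E →⋆ₙₐ[ℂ] B).comp ι
  have hf : ∀ x, f x = i (ι x) := fun x => rfl
  obtain ⟨v, Φ, h1, h2, h3, h4⟩ := exists_strict_intertwining f hinj J hJ
    (gnFinal_separable I ι hι i j J hJ2) (fun x => by
      have h5 := hJ1 (ι x) (hmem x) 1
      rwa [map_one, mul_one] at h5) (fun g => γ g) (by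
      intro S T K ε hT hε
      obtain ⟨u, hu, hu1, hu2, hu3⟩ := exists_unitary_approxJ I i j (J := (J : Set B)) hJ2
        (fun g => γ g) (by
          intro S T K ε hS hε
          obtain ⟨w, hw, -, hw1, hw2, hw3⟩ := exists_unitary_approxG ω I i j hω hflip hlim hij
            ⟨ι x₀, ha₀, hx₀⟩ α hα γ hi hj β hβ hF S hS T K hε
          exact ⟨w, hw, hw1, hw2, hw3⟩) (S.image ι) (by
          intro a ha
          obtain ⟨x, _, rfl⟩ := Finset.mem_image.1 ha
          exact hmem x) T hT K hε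
      refine ⟨u, hu, fun a ha => hu1 _ (Finset.mem_image_of_mem _ ha), fun b hb => ?_, hu3⟩
      obtain ⟨a', ha', h6⟩ := hu2 b hb
      obtain ⟨x, rfl⟩ := hlift a' ha'
      exact ⟨x, h6⟩)
  exact ⟨v, Φ, h1, h2, h3, h4⟩

end P095G
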