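import Vale.Agent.Lib.P095G.GDefs

/-!
# P095 stage 3, part GN: the relative commutant modulo the annihilator of `i(I)`
-/

open scoped ENNReal Topology
open Filter P101 P095E P095F

namespace P095G

universe u v

section Q

variable (ω : Ultrafilter ℕ) {E B : Type u} [CStarAlgebra E] [CStarAlgebra B] [Nontrivial B]
  (I : Ideal E) (i : E →⋆ₐ[ℂ] B)

/-- the elements of the ultrapower of `B` that commute with the constants `i(E)` -/
noncomputable def cenB : StarSubalgebra ℂ (Ultrapower ω B) :=
  StarSubalgebra.centralizer ℂ (Set.range fun a : E => ultraConst ω B (i a))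

instance cenB_isClosed : IsClosed (cenB ω i : Set (Ultrapower ω B)) := by
  rw [cenB, StarSubalgebra.coe_centralizer]
  exact Set.isClosed_centralizer _

variable {ω i} in
theorem mem_cenB {x : Ultrapower ω B} :
    x ∈ cenB ω i ↔ ∀ a : E, Commute x (ultraConst ω B (i a)) := by
  rw [cenB, StarSubalgebra.mem_centralizer_iff]
  constructor
  · intro h a
    exact (show Commute (ultraConst ω B (i a)) x from (h _ ⟨a, rfl⟩).1).symm
  · rintro h _ ⟨a, rfl⟩
    refine ⟨(h a).symm, ?_⟩
    have h1 := (h (star a)).symm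
    rw [map_star, map_star] at h1
    exact h1

/-- the annihilator of `i(I)` in `cenB` -/
noncomputable def annB : Ideal (cenB ω i) where
  carrier := {x | ∀ a ∈ I, (x : Ultrapower ω B) * ultraConst ω B (i a) = 0}
  add_mem' := by
    intro x y hx hy a ha
    change ((x : Ultrapower ω B) + y) * ultraConst ω B (i a) = 0
    rw [add_mul, hx a ha, hy a ha, add_zero]
  zero_mem' := by
    intro a _
    change (0 : Ultrapower ω B) * ultraConst ω B (i a) = 0
    rw [zero_mul]
  smul_mem' := by
    intro c x hx a ha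
    change ((c : Ultrapower ω B) * x) * ultraConst ω B (i a) = 0
    rw [mul_assoc, hx a ha, mul_zero]

theorem mem_annB {x : cenB ω i} :
    x ∈ annB ω I i ↔ ∀ a ∈ I, (x : Ultrapower ω B) * ultraConst ω B (i a) = 0 := Iff.rfl

instance annB_isTwoSided : (annB ω I i).IsTwoSided where
  mul_mem_of_left := by
    intro x y hx a ha
    change ((x : Ultrapower ω B) * y) * ultraConst ω B (i a) = 0
    rw [mul_assoc, (mem_cenB.1 y.2 a).eq, ← mul_assoc, hx a ha, zero_mul]

instance annB_isClosed : IsClosed (annB ω I i : Set (cenB ω i)) := by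
  have h : (annB ω I i : Set (cenB ω i)) =
      ⋂ a ∈ I, {x : cenB ω i | (x : Ultrapower ω B) * ultraConst ω B (i a) = 0} := by
    ext x
    simp only [SetLike.mem_coe, mem_annB, Set.mem_iInter, Set.mem_ofPred_eq]
  rw [h]
  refine isClosed_biInter fun a _ => ?_
  exact isClosed_eq (continuous_subtype_val.mul continuous_const) continuous_const

/-- the quotient `cenB / annB` -/
def QB : Type u := cenB ω i ⧸ annB ω I i

set_option warn.classDefReducibility false in
/-- the C*-algebra structure of `QB` -/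
noncomputable def qbCStar : CStarAlgebra (QB ω I i) := quotCStarAlgebra (annB ω I i)

noncomputable instance qbCStarAlgebra : CStarAlgebra (QB ω I i) := qbCStar ω I i

/-- the quotient map -/
noncomputable def toQB : cenB ω i →⋆ₐ[ℂ] QB ω I i := quotMk (annB ω I i)

theorem toQB_surjective : Function.Surjective (toQB ω I i) := quotMk_surjective (annB ω I i)

theorem toQB_eq_zero_iff (x : cenB ω i) : toQB ω I i x = 0 ↔ x ∈ annB ω I i :=
  quotMk_eq_zero_iff (annB ω I i) x

theorem norm_mul_le_toQB (x : cenB ω i) {a : E} (ha : a ∈ I) :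
    ‖(x : Ultrapower ω B) * ultraConst ω B (i a)‖ ≤ ‖toQB ω I i x‖ * ‖i a‖ := by
  have hc : ‖ultraConst ω B (i a)‖ ≤ ‖i a‖ :=
    NonUnitalStarAlgHom.norm_apply_le (ultraConst ω B) (i a)
  have h : ∀ ε : ℝ, 0 < ε →
      ‖(x : Ultrapower ω B) * ultraConst ω B (i a)‖ ≤ (‖toQB ω I i x‖ + ε) * ‖i a‖ := by
    intro ε hε
    obtain ⟨y, hy, hyn⟩ := quot_exists_lift (annB ω I i) (toQB ω I i x) hε
    have h1 : x - y ∈ annB ω I i := by
      rw [← toQB_eq_zero_iff, map_sub, sub_eq_zero]
      exact hy.symm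
    have h2 := h1 a ha
    have h3 : (x : Ultrapower ω B) * ultraConst ω B (i a) =
        (y : Ultrapower ω B) * ultraConst ω B (i a) := by
      have h4 : ((x : Ultrapower ω B) - y) * ultraConst ω B (i a) = 0 := h2
      rwa [sub_mul, sub_eq_zero] at h4
    rw [h3]
    refine (norm_mul_le _ _).trans ?_
    exact mul_le_mul hyn.le hc (norm_nonneg _) (by positivity)
  by_contra hlt
  push Not at hlt
  set d := ‖(x : Ultrapower ω B) * ultraConst ω B (i a)‖ - ‖toQB ω I i x‖ * ‖i a‖ with hd
  have hd0 : 0 < d := by linarith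
  have h1 := h (d / (2 * (‖i a‖ + 1))) (by positivity)
  have h2 : d / (2 * (‖i a‖ + 1)) * ‖i a‖ ≤ d / 2 := by
    rw [div_mul_eq_mul_div, div_le_div_iff₀ (by positivity) (by norm_num)]
    nlinarith [norm_nonneg (i a)]
  nlinarith

/-- If `i` is not zero on `I` then `QB` is nontrivial. -/
theorem nontrivial_QB (h : ∃ a ∈ I, i a ≠ 0) : Nontrivial (QB ω I i) := by
  obtain ⟨a, ha, hia⟩ := h
  refine ⟨⟨1, 0, fun h1 => hia ?_⟩⟩
  have h2 : toQB ω I i 1 = 0 := by rw [map_one, h1]
  have h3 := (toQB_eq_zero_iff ω I i 1).1 h2 a ha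
  have h4 : ultraConst ω B (i a) = 0 := by
    have h5 : (1 : Ultrapower ω B) * ultraConst ω B (i a) = 0 := h3
    rwa [one_mul] at h5
  rw [show ultraConst ω B (i a) = toUltrapower ω B (constSeq B (i a)) from rfl, toUltrapower_eq_zero_iff] at h4
  exact norm_eq_zero.1 (tendsto_nhds_unique tendsto_const_nhds h4)

end Q

end P095G
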