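import Vale.Agent.Lib.P101.ZApprox
import Vale.Agent.Lib.P095G.GNQ

/-!
# P095 stage 3, part GN: the maps between `FA`, `Z` and `QB`
-/

open scoped ENNReal Topology
open Filter P101 P095E P095F

namespace P095G

universe u v

section Maps

variable (ω : Ultrafilter ℕ) {E B : Type u} [CStarAlgebra E] [CStarAlgebra B] [Nontrivial E]
  [Nontrivial B] (I : Ideal E) (i : E →⋆ₐ[ℂ] B)

/-- `FA` is nontrivial if `I` is not zero.

Proof.  As `nontrivial_QB` (file `GNQ.lean`); `1 ∈ annF` gives `ultraConst ω E a = 0` for `a ∈ I`. -/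
theorem nontrivial_FA (h : ∃ a ∈ I, a ≠ 0) : Nontrivial (FA ω I) := by
  obtain ⟨a, ha, hia⟩ := h
  refine ⟨⟨1, 0, fun h1 => hia ?_⟩⟩
  have h2 : toFA ω I 1 = 0 := by rw [map_one, h1]
  have h3 := (toFA_eq_zero_iff ω I 1).1 h2 a ha
  have h4 : ultraConst ω E a = 0 := by
    have h5 : (1 : Ultrapower ω E) * ultraConst ω E a = 0 := h3
    rwa [one_mul] at h5
  rw [zapprox_ultraConst, toUltrapower_eq_zero_iff] at h4
  exact norm_eq_zero.1 (tendsto_nhds_unique tendsto_const_nhds h4)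

/-- the homomorphism `FOmega ω E → cenB ω i` -/
theorem gnMap_g : ∃ g : FOmega ω E →⋆ₐ[ℂ] cenB ω i,
    ∀ (x : FOmega ω E) (y : lp (fun _ : ℕ => E) ∞), toUltrapower ω E y = (x : Ultrapower ω E) →
      ((g x : cenB ω i) : Ultrapower ω B) = toUltrapower ω B (lpMap i y) := by
  obtain ⟨gi, hgi⟩ := exists_ultraMap ω i
  have hgiC : ∀ a : E, gi (ultraConst ω E a) = ultraConst ω B (i a) := by
    intro a
    rw [zapprox_ultraConst, hgi, zapprox_ultraConst]
    rfl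
  have hmem : ∀ x : FOmega ω E, gi (x : Ultrapower ω E) ∈ cenB ω i := by
    intro x
    rw [mem_cenB]
    intro a
    rw [← hgiC]
    exact (commute_ultraConst ω x a).map gi
  refine ⟨StarAlgHom.codRestrict (gi.comp (centralSeq ω E).subtype) (cenB ω i) hmem, ?_⟩
  intro x y hxy
  change gi (x : Ultrapower ω E) = _
  rw [← hxy, hgi]

/-- The map `FA → QB` induced by `i`.

Proof.  `gi : Ultrapower ω E → Ultrapower ω B` from `exists_ultraMap ω i`; it maps `FOmega ω E` into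
`cenB ω i` (`mem_cenB`: `gi (ultraConst ω E a) = ultraConst ω B (i a)` and
`commute_ultraConst`), corestrict (`StarAlgHom.codRestrict`) to `g : FOmega ω E → cenB ω i`;
`(toQB ω I i).comp g` kills `annF ω I`; use `P095F.exists_quotLift (annF ω I)`. -/
theorem exists_faToQB : ∃ g0 : FA ω I →⋆ₐ[ℂ] QB ω I i,
    ∀ (x : FOmega ω E) (y : lp (fun _ : ℕ => E) ∞), toUltrapower ω E y = (x : Ultrapower ω E) →
      ∃ c : cenB ω i, (c : Ultrapower ω B) = toUltrapower ω B (lpMap i y) ∧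
        g0 (toFA ω I x) = toQB ω I i c := by
  obtain ⟨g, hg⟩ := gnMap_g ω i
  have hker : ∀ x ∈ annF ω I, ((toQB ω I i).comp g) x = 0 := by
    intro x hx
    obtain ⟨y, hy⟩ := toUltrapower_surjective ω E (x : Ultrapower ω E)
    change toQB ω I i (g x) = 0
    rw [toQB_eq_zero_iff]
    intro a ha
    have h1 := hx a ha
    rw [← hy, zapprox_ultraConst, ← map_mul, toUltrapower_eq_zero_iff] at h1
    rw [hg x y hy, zapprox_ultraConst, ← map_mul, toUltrapower_eq_zero_iff]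
    refine squeeze_zero (fun n => norm_nonneg _) (fun n => ?_) h1
    have h2 : (lpMap i y * constSeq B (i a)) n = i ((y * constSeq E a) n) := by
      change i (y n) * i a = i (y n * a)
      rw [map_mul]
    rw [h2]
    exact NonUnitalStarAlgHom.norm_apply_le i _
  obtain ⟨g0, hg0⟩ := exists_quotLift (annF ω I) ((toQB ω I i).comp g) hker
  refine ⟨g0, fun x y hxy => ⟨g x, hg x y hxy, ?_⟩⟩
  exact hg0 x

/-- The map `Z → QB` induced by `j`.

Proof.  `ultraConst ω B (j z) ∈ cenB ω i`; corestrict and compose with `toQB ω I i`. -/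
theorem exists_zToQB {Z : Type u} [CStarAlgebra Z] (j : Z →⋆ₐ[ℂ] B)
    (hij : ∀ a z, Commute (i a) (j z)) : ∃ jQ : Z →⋆ₐ[ℂ] QB ω I i,
    ∀ z, ∃ c : cenB ω i, (c : Ultrapower ω B) = ultraConst ω B (j z) ∧ jQ z = toQB ω I i c := by
  have hmem : ∀ z : Z, ((ultraConst ω B).comp j) z ∈ cenB ω i := by
    intro z
    rw [mem_cenB]
    intro a
    exact (hij a z).symm.map (ultraConst ω B)
  let g : Z →⋆ₐ[ℂ] cenB ω i := StarAlgHom.codRestrict ((ultraConst ω B).comp j) (cenB ω i) hmem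
  exact ⟨(toQB ω I i).comp g, fun z => ⟨g z, rfl, rfl⟩⟩

/-- the endomorphism of `cenB` -/
theorem gnMap_c (a : E ≃⋆ₐ[ℂ] E) (c : B ≃⋆ₐ[ℂ] B) (hc : ∀ x, c (i x) = i (a x)) :
    ∃ g : cenB ω i →⋆ₐ[ℂ] cenB ω i,
    ∀ (x : cenB ω i) (y : lp (fun _ : ℕ => B) ∞), toUltrapower ω B y = (x : Ultrapower ω B) →
      ((g x : cenB ω i) : Ultrapower ω B) =
        toUltrapower ω B (lpMap (c : B →⋆ₐ[ℂ] B) y) := by
  obtain ⟨c1, hc1⟩ := exists_ultraMap ω (c : B →⋆ₐ[ℂ] B)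
  have hc1C : ∀ x : E, c1 (ultraConst ω B (i (a.symm x))) = ultraConst ω B (i x) := by
    intro x
    rw [zapprox_ultraConst, hc1, zapprox_ultraConst]
    congr 1
    ext n
    change c (i (a.symm x)) = i x
    rw [hc, StarAlgEquiv.apply_symm_apply]
  have hmem : ∀ x : cenB ω i, c1 (x : Ultrapower ω B) ∈ cenB ω i := by
    intro x
    rw [mem_cenB]
    intro e
    rw [← hc1C]
    exact (mem_cenB.1 x.2 (a.symm e)).map c1
  refine ⟨StarAlgHom.codRestrict (c1.comp (cenB ω i).subtype) (cenB ω i) hmem, ?_⟩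
  intro x y hxy
  change c1 (x : Ultrapower ω B) = _
  rw [← hxy, hc1]

/-- The endomorphism of `QB` induced by an automorphism `c` of `B` which extends an automorphism
`a` of `E` that leaves `I` invariant.

Proof.  `c1 : Ultrapower ω B → Ultrapower ω B` from `exists_ultraMap ω c`;
`c1 (ultraConst (i (a.symm x))) = ultraConst (i x)`, so `c1` maps `cenB` into `cenB` and `annB` into
`annB`; corestrict, compose with `toQB`, use `P095F.exists_quotLift (annB ω I i)`. -/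
theorem exists_autQB (a : E ≃⋆ₐ[ℂ] E) (ha : ∀ x ∈ I, a.symm x ∈ I) (c : B ≃⋆ₐ[ℂ] B)
    (hc : ∀ x, c (i x) = i (a x)) : ∃ cQ : QB ω I i →⋆ₐ[ℂ] QB ω I i,
    ∀ (x : cenB ω i) (y : lp (fun _ : ℕ => B) ∞), toUltrapower ω B y = (x : Ultrapower ω B) →
      ∃ x' : cenB ω i, (x' : Ultrapower ω B) =
        toUltrapower ω B (lpMap (c : B →⋆ₐ[ℂ] B) y) ∧ cQ (toQB ω I i x) = toQB ω I i x' := by
  obtain ⟨g, hg⟩ := gnMap_c ω i a c hc
  have hker : ∀ x ∈ annB ω I i, ((toQB ω I i).comp g) x = 0 := by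
    intro x hx
    obtain ⟨y, hy⟩ := toUltrapower_surjective ω B (x : Ultrapower ω B)
    change toQB ω I i (g x) = 0
    rw [toQB_eq_zero_iff]
    intro e he
    have h1 := hx (a.symm e) (ha e he)
    rw [← hy, zapprox_ultraConst, ← map_mul, toUltrapower_eq_zero_iff] at h1
    rw [hg x y hy, zapprox_ultraConst, ← map_mul, toUltrapower_eq_zero_iff]
    refine h1.congr fun n => ?_
    have h2 : (lpMap (c : B →⋆ₐ[ℂ] B) y * constSeq B (i e)) n =
        c ((y * constSeq B (i (a.symm e))) n) := by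
      change c (y n) * i e = c (y n * i (a.symm e))
      rw [map_mul, hc, StarAlgEquiv.apply_symm_apply]
    rw [h2, norm_aut]
  obtain ⟨cQ, hcQ⟩ := exists_quotLift (annB ω I i) ((toQB ω I i).comp g) hker
  refine ⟨cQ, fun x y hxy => ⟨g x, hg x y hxy, ?_⟩⟩
  exact hcQ x

/-- The values of `g0` and `jQ` commute.

Proof.  Take `x' : FOmega ω E` with `toFA x' = x`, `y` with `[y] = x'`
(`toUltrapower_surjective`); the two elements of `cenB` commute by `P101.zapprox_commute`. -/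
theorem commute_g0_jQ {Z : Type u} [CStarAlgebra Z] {j : Z →⋆ₐ[ℂ] B}
    (hij : ∀ a z, Commute (i a) (j z)) {g0 : FA ω I →⋆ₐ[ℂ] QB ω I i}
    (hg0 : ∀ (x : FOmega ω E) (y : lp (fun _ : ℕ => E) ∞),
      toUltrapower ω E y = (x : Ultrapower ω E) →
        ∃ c : cenB ω i, (c : Ultrapower ω B) = toUltrapower ω B (lpMap i y) ∧
          g0 (toFA ω I x) = toQB ω I i c)
    {jQ : Z →⋆ₐ[ℂ] QB ω I i}
    (hjQ : ∀ z, ∃ c : cenB ω i, (c : Ultrapower ω B) = ultraConst ω B (j z) ∧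
      jQ z = toQB ω I i c) (x : FA ω I) (z : Z) : Commute (g0 x) (jQ z) := by
  obtain ⟨x', rfl⟩ := toFA_surjective ω I x
  obtain ⟨y, hy⟩ := toUltrapower_surjective ω E (x' : Ultrapower ω E)
  obtain ⟨c, hc, hgc⟩ := hg0 x' y hy
  obtain ⟨d, hd, hjd⟩ := hjQ z
  rw [hgc, hjd]
  have h1 : Commute c d := by
    apply Subtype.ext
    change (c : Ultrapower ω B) * (d : Ultrapower ω B) = (d : Ultrapower ω B) * c
    rw [hc, hd, zapprox_ultraConst]
    exact zapprox_commute ω _ _ fun n => hij (y n) z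
  exact h1.map (toQB ω I i)

/-- `cQ` fixes the range of `jQ`. -/
theorem autQB_jQ {Z : Type u} [CStarAlgebra Z] {j : Z →⋆ₐ[ℂ] B} {jQ : Z →⋆ₐ[ℂ] QB ω I i}
    (hjQ : ∀ z, ∃ c : cenB ω i, (c : Ultrapower ω B) = ultraConst ω B (j z) ∧
      jQ z = toQB ω I i c)
    {c : B ≃⋆ₐ[ℂ] B} {cQ : QB ω I i →⋆ₐ[ℂ] QB ω I i}
    (hcQ : ∀ (x : cenB ω i) (y : lp (fun _ : ℕ => B) ∞),
      toUltrapower ω B y = (x : Ultrapower ω B) →
        ∃ x' : cenB ω i, (x' : Ultrapower ω B) =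
          toUltrapower ω B (lpMap (c : B →⋆ₐ[ℂ] B) y) ∧ cQ (toQB ω I i x) = toQB ω I i x')
    (hj : ∀ z, c (j z) = j z) (z : Z) : cQ (jQ z) = jQ z := by
  obtain ⟨d, hd, hjd⟩ := hjQ z
  obtain ⟨d', hd', hcd⟩ := hcQ d (constSeq B (j z)) (by rw [hd, zapprox_ultraConst])
  rw [hjd, hcd]
  congr 1
  apply Subtype.ext
  rw [hd', hd, zapprox_ultraConst]
  congr 1
  ext n
  exact hj z

/-- `cQ` and `g0` intertwine the induced automorphisms.

Proof.  `x = toFA x'`, `[y] = x'`; `β x' = [lpMap a y]` (`Induces`), so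
`g0 (toFA (β x')) = toQB c'` with `c' = [lpMap i (lpMap a y)] = [lpMap c (lpMap i y)]`. -/
theorem autQB_g0 {g0 : FA ω I →⋆ₐ[ℂ] QB ω I i}
    (hg0 : ∀ (x : FOmega ω E) (y : lp (fun _ : ℕ => E) ∞),
      toUltrapower ω E y = (x : Ultrapower ω E) →
        ∃ c : cenB ω i, (c : Ultrapower ω B) = toUltrapower ω B (lpMap i y) ∧
          g0 (toFA ω I x) = toQB ω I i c)
    {a : E ≃⋆ₐ[ℂ] E} {b : FOmega ω E ≃⋆ₐ[ℂ] FOmega ω E} (hab : Induces ω a b)
    {c : B ≃⋆ₐ[ℂ] B} {cQ : QB ω I i →⋆ₐ[ℂ] QB ω I i}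
    (hcQ : ∀ (x : cenB ω i) (y : lp (fun _ : ℕ => B) ∞),
      toUltrapower ω B y = (x : Ultrapower ω B) →
        ∃ x' : cenB ω i, (x' : Ultrapower ω B) =
          toUltrapower ω B (lpMap (c : B →⋆ₐ[ℂ] B) y) ∧ cQ (toQB ω I i x) = toQB ω I i x')
    (hc : ∀ x, c (i x) = i (a x)) (x : FOmega ω E) :
    cQ (g0 (toFA ω I x)) = g0 (toFA ω I (b x)) := by
  obtain ⟨y, hy⟩ := toUltrapower_surjective ω E (x : Ultrapower ω E)
  obtain ⟨d, hd, hgd⟩ := hg0 x y hy
  obtain ⟨d', hd', hgd'⟩ := hg0 (b x) (lpMap (a : E →⋆ₐ[ℂ] E) y) (hab x y hy).symm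
  obtain ⟨d'', hd'', hcd⟩ := hcQ d (lpMap i y) hd.symm
  rw [hgd, hcd, hgd']
  congr 1
  apply Subtype.ext
  rw [hd', hd'']
  congr 1
  ext n
  exact hc (y n)

end Maps

end P095G
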