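import Vale.Agent.Lib.P101.Quot
import Vale.Agent.Lib.P101.ZInter
import Vale.Agent.Lib.P095E.Defs

/-!
# P095 stage 3, part GN: one step of the strict intertwining
-/

open scoped Topology
open P101

namespace P095G

universe u v w

/-- **One step of the recursion.**

Proof.  `s = (v, S)`, apply `h` to `S`, the set
`T = {v^* b_k v, γ_g(v^*) b_k, (b_k v)^* : k ≤ n, g ∈ K n}` (contained in `J`, which is closed under
adjoints by `P101.star_mem_of_closed`), `K n` and `ε = (1/2)^n`; `v' = v u^*`.
`S' = {a n} ∪ S ∪ {c_k}`, `‖u (v^* b_k v) u^* - f(c_k)‖ < ε`.  The first three conditions: as in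
`limit_equiv_step`, file `Lib/P095E/InterE.lean`.
`(v' γ(v'^*) - v γ(v^*)) b = v u^* (γ(u) - u) γ(v^*) b` and
`b (v' γ(v'^*) - v γ(v^*)) = b v (u^* - γ(u)^*) γ(u) γ(v^*)`, whose norm is
`≤ ‖b v (u - γ(u))^*‖ = ‖(γ(u) - u) (b v)^*‖`. -/
theorem interG_step {A : Type u} [NonUnitalCStarAlgebra A] {B : Type v} [CStarAlgebra B]
    (f : A →⋆ₙₐ[ℂ] B) (J : Ideal B) [J.IsTwoSided] (hJ : IsClosed (J : Set B))
    {κ : Type w} (γ : κ → (B ≃⋆ₐ[ℂ] B))
    (h : ∀ (S : Finset A) (T : Finset B) (K : Finset κ) (ε : ℝ), (∀ b ∈ T, b ∈ J) → 0 < ε →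
      ∃ u ∈ unitary B, (∀ a ∈ S, ‖u * f a - f a * u‖ < ε) ∧
        (∀ b ∈ T, ∃ a : A, ‖u * b * star u - f a‖ < ε) ∧
        ∀ k ∈ K, ∀ b ∈ T, ‖(γ k u - u) * b‖ < ε)
    (a : ℕ → A) (b : ℕ → B) (hb : ∀ k, b k ∈ J) (K : ℕ → Finset κ) (n : ℕ)
    (s : (unitary B) × Finset A) :
    ∃ s' : (unitary B) × Finset A, s.2 ⊆ s'.2 ∧ a n ∈ s'.2 ∧
      (∀ x ∈ s.2, ‖(s'.1 : B) * f x * star (s'.1 : B) - (s.1 : B) * f x * star (s.1 : B)‖
        < (1 / 2 : ℝ) ^ n) ∧
      (∀ k ≤ n, ∃ c ∈ s'.2, ‖(s'.1 : B) * f c * star (s'.1 : B) - b k‖ < (1 / 2 : ℝ) ^ n) ∧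
      ∀ g ∈ K n, ∀ k ≤ n,
        ‖((s'.1 : B) * γ g (star (s'.1 : B)) - (s.1 : B) * γ g (star (s.1 : B))) * b k‖
          < (1 / 2 : ℝ) ^ n ∧
        ‖b k * ((s'.1 : B) * γ g (star (s'.1 : B)) - (s.1 : B) * γ g (star (s.1 : B)))‖
          < (1 / 2 : ℝ) ^ n := by
  classical
  obtain ⟨v, S⟩ := s
  have hv : (v : B) ∈ unitary B := v.2
  set T1 : Finset B := (Finset.range (n + 1)).image (fun k => star (v : B) * b k * (v : B)) with hT1
  set T2 : Finset B := ((K n) ×ˢ Finset.range (n + 1)).image
    (fun q => γ q.1 (star (v : B)) * b q.2) with hT2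
  set T3 : Finset B := (Finset.range (n + 1)).image (fun k => star (b k * (v : B))) with hT3
  have hTJ : ∀ t ∈ T1 ∪ T2 ∪ T3, t ∈ J := by
    intro t ht
    rcases Finset.mem_union.1 ht with ht | ht
    · rcases Finset.mem_union.1 ht with ht | ht
      · obtain ⟨k, -, rfl⟩ := Finset.mem_image.1 ht
        exact J.mul_mem_right _ (J.mul_mem_left _ (hb k))
      · obtain ⟨q, -, rfl⟩ := Finset.mem_image.1 ht
        exact J.mul_mem_left _ (hb q.2)
    · obtain ⟨k, -, rfl⟩ := Finset.mem_image.1 ht
      exact P101.star_mem_of_closed J hJ (J.mul_mem_right _ (hb k))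
  obtain ⟨u, hu, hu1, hu2, huK⟩ := h S (T1 ∪ T2 ∪ T3) (K n) ((1 / 2 : ℝ) ^ n) hTJ
    (by positivity)
  have hu3 : ∀ k : ℕ, ∃ c : A, k ≤ n → ‖u * (star (v : B) * b k * (v : B)) * star u - f c‖
      < (1 / 2 : ℝ) ^ n := by
    intro k
    by_cases hk : k ≤ n
    · obtain ⟨c, hc⟩ := hu2 (star (v : B) * b k * (v : B))
        (Finset.mem_union_left _ (Finset.mem_union_left _
          (Finset.mem_image_of_mem _ (Finset.mem_range.2 (by omega)))))
      exact ⟨c, fun _ => hc⟩
    · exact ⟨0, fun h => absurd h hk⟩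
  choose c hc using hu3
  have hvu : (v : B) * star u ∈ unitary B := mul_mem hv (Unitary.star_mem hu)
  have huu : star u * u = 1 := (Unitary.mem_iff.1 hu).1
  have huu' : u * star u = 1 := (Unitary.mem_iff.1 hu).2
  have hvv : star (v : B) * (v : B) = 1 := (Unitary.mem_iff.1 hv).1
  have hvv' : (v : B) * star (v : B) = 1 := (Unitary.mem_iff.1 hv).2
  refine ⟨(⟨(v : B) * star u, hvu⟩, insert (a n) (S ∪ (Finset.range (n + 1)).image c)), ?_, ?_, ?_,
    ?_, ?_⟩
  · intro x hx
    simp only [Finset.mem_insert, Finset.mem_union]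
    exact Or.inr (Or.inl hx)
  · simp
  · intro x hx
    show ‖(v : B) * star u * f x * star ((v : B) * star u) - (v : B) * f x * star (v : B)‖ < _
    have e1 : (v : B) * star u * f x * star ((v : B) * star u) - (v : B) * f x * star (v : B)
        = (v : B) * (star u * f x * u - f x) * star (v : B) := by
      rw [star_mul, star_star]
      noncomm_ring
    have e2 : star u * f x * u - f x = star u * (f x * u - u * f x) := by
      rw [mul_sub, ← mul_assoc (star u) u, huu, one_mul, ← mul_assoc]
    rw [e1, P101.zinter_norm_conj hv, e2,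
      CStarRing.norm_mem_unitary_mul _ (Unitary.star_mem hu), norm_sub_rev]
    exact hu1 x hx
  · intro k hk
    refine ⟨c k, ?_, ?_⟩
    · simp only [Finset.mem_insert, Finset.mem_union, Finset.mem_image, Finset.mem_range]
      exact Or.inr (Or.inr ⟨k, by omega, rfl⟩)
    · show ‖(v : B) * star u * f (c k) * star ((v : B) * star u) - b k‖ < _
      have e3 : (v : B) * star u * (u * (star (v : B) * b k * (v : B)) * star u)
          * star ((v : B) * star u) = b k := by
        rw [star_mul, star_star]
        calc (v : B) * star u * (u * (star (v : B) * b k * (v : B)) * star u) * (u * star (v : B))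
            = (v : B) * (star u * u) * (star (v : B) * b k * (v : B)) * (star u * u)
              * star (v : B) := by noncomm_ring
          _ = ((v : B) * star (v : B)) * b k * ((v : B) * star (v : B)) := by
              rw [huu]; noncomm_ring
          _ = b k := by rw [hvv']; simp
      have e4 : (v : B) * star u * f (c k) * star ((v : B) * star u) - b k
          = ((v : B) * star u) * (f (c k) - u * (star (v : B) * b k * (v : B)) * star u)
            * star ((v : B) * star u) := by
        rw [mul_sub, sub_mul, e3]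
      rw [e4, P101.zinter_norm_conj hvu, norm_sub_rev]
      exact hc k hk
  · intro g hg k hk
    have e5 : (v : B) * star u * γ g (star ((v : B) * star u)) - (v : B) * γ g (star (v : B)) =
        ((v : B) * star u) * ((γ g u - u) * γ g (star (v : B))) := by
      rw [star_mul, star_star, map_mul, sub_mul, mul_sub]
      congr 1
      rw [mul_assoc, ← mul_assoc (star u), huu, one_mul]
    have e6 : ((v : B) * star u) * ((γ g u - u) * γ g (star (v : B))) =
        (v : B) * (star u - star (γ g u)) * (γ g u * γ g (star (v : B))) := by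
      have e7 : star (γ g u) * γ g u = 1 := by
        rw [← map_star, ← map_mul, huu, map_one]
      rw [mul_sub (v : B), sub_mul, sub_mul, mul_sub]
      congr 1
      rw [mul_assoc (v : B) (star u), ← mul_assoc (star u), huu, one_mul, mul_assoc (v : B),
        ← mul_assoc (star (γ g u)), e7, one_mul]
    have hgv : γ g u * γ g (star (v : B)) ∈ unitary B := by
      have h1 : γ g u ∈ unitary B := by
        rw [Unitary.mem_iff]
        constructor
        · rw [← map_star, ← map_mul, huu, map_one]
        · rw [← map_star, ← map_mul, huu', map_one]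
      have h2 : γ g (star (v : B)) ∈ unitary B := by
        rw [Unitary.mem_iff]
        constructor
        · rw [← map_star, ← map_mul, star_star, hvv', map_one]
        · rw [← map_star, ← map_mul, star_star, hvv, map_one]
      exact mul_mem h1 h2
    constructor
    · show ‖((v : B) * star u * γ g (star ((v : B) * star u)) - (v : B) * γ g (star (v : B)))
        * b k‖ < _
      rw [e5, mul_assoc, CStarRing.norm_mem_unitary_mul _ hvu, mul_assoc]
      exact huK g hg _ (Finset.mem_union_left _ (Finset.mem_union_right _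
        (Finset.mem_image.2 ⟨(g, k), Finset.mem_product.2 ⟨hg, Finset.mem_range.2 (by omega)⟩,
          rfl⟩)))
    · show ‖b k * ((v : B) * star u * γ g (star ((v : B) * star u))
        - (v : B) * γ g (star (v : B)))‖ < _
      rw [e5, e6, ← mul_assoc, CStarRing.norm_mul_mem_unitary _ hgv, ← norm_star, star_mul,
        star_mul, star_sub, star_star, star_star, mul_assoc, ← star_mul, ← neg_sub, neg_mul,
        norm_neg]
      exact huK g hg _ (Finset.mem_union_right _
        (Finset.mem_image_of_mem _ (Finset.mem_range.2 (by omega))))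

end P095G
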