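import Vale.Agent.Lib.P095G.GTr

/-!
# P095 stage 3, part GV (very weak comparison for the ideal `I`): definitions

`Her v` is the hereditary subalgebra generated by a positive `v`, `Nrm v` its idealizer in `E`: a closed unital
*-subalgebra, to which the Cuntz-Pedersen theorem `P095F.V1_main` is applied.

Outline of part GV (adaption of Lib/P095F/PROOF2V.md).  `VWCG I a₀`: given `u ∈ P` (the algebraic ideal generated by
`a₀`), `PosC u`, put `v = u + a₀ ∈ P`, `H = Her v`.  `gv_rank` (GVb): `L` such that approximate units of `H` are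
approximated by sums `∑_{k<L} r_k^* f r_k`.  `gv_trace` (GVc): traces of `Nrm v` are dominated by traces in `Tr a₀` on
positive elements of `H ∩ P`.  So V1 applies in `Nrm v`; cut by `u` all `x_i` are in `H` (`gv_split`, GVx).  `gv_transfer` (GVd):
as V3d, but all rows in `H`.  `gv_cut` (GVe), `gv_rows` (GVf), `gv_V4` (GVg: dimension drop comparison with relations in
`FA`).  `vwcG` (GV).
-/

open scoped ENNReal Topology
open Filter P101 P095E P095F

namespace P095G

universe u

variable {E : Type u} [CStarAlgebra E]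

/-- the hereditary subalgebra generated by `v` (used for positive `v`) -/
def Her (v : E) : Set E := closure (Set.range fun y : E => v * y * v)

theorem isClosed_Her (v : E) : IsClosed (Her v) := isClosed_closure

/-- the idealizer of `Her v` -/
def Nrm (v : E) : StarSubalgebra ℂ E where
  carrier := {x | ∀ h ∈ Her v, x * h ∈ Her v ∧ h * x ∈ Her v ∧ star x * h ∈ Her v ∧
    h * star x ∈ Her v}
  mul_mem' := by
    intro x y hx hy h hh
    refine ⟨?_, ?_, ?_, ?_⟩
    · rw [mul_assoc]
      exact (hx _ (hy h hh).1).1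
    · rw [← mul_assoc]
      exact (hy _ (hx h hh).2.1).2.1
    · rw [star_mul, mul_assoc]
      exact (hy _ (hx h hh).2.2.1).2.2.1
    · rw [star_mul, ← mul_assoc]
      exact (hx _ (hy h hh).2.2.2).2.2.2
  add_mem' := by
    intro x y hx hy h hh
    have hadd : ∀ a ∈ Her v, ∀ b ∈ Her v, a + b ∈ Her v := by
      intro a ha b hb
      refine map_mem_closure₂ continuous_add ha hb ?_
      rintro _ ⟨y, rfl⟩ _ ⟨z, rfl⟩
      exact ⟨y + z, by simp only [mul_add, add_mul]⟩
    refine ⟨?_, ?_, ?_, ?_⟩
    · rw [add_mul]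
      exact hadd _ (hx h hh).1 _ (hy h hh).1
    · rw [mul_add]
      exact hadd _ (hx h hh).2.1 _ (hy h hh).2.1
    · rw [star_add, add_mul]
      exact hadd _ (hx h hh).2.2.1 _ (hy h hh).2.2.1
    · rw [star_add, mul_add]
      exact hadd _ (hx h hh).2.2.2 _ (hy h hh).2.2.2
  algebraMap_mem' := by
    intro c h hh
    have hsmul : ∀ (c : ℂ), ∀ a ∈ Her v, c • a ∈ Her v := by
      intro c a ha
      refine map_mem_closure (continuous_const_smul c) ha ?_
      rintro _ ⟨y, rfl⟩
      exact ⟨c • y, by simp only [mul_smul_comm, smul_mul_assoc]⟩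
    simp only [Algebra.algebraMap_eq_smul_one, star_smul, star_one, smul_mul_assoc, one_mul,
      mul_smul_comm, mul_one]
    exact ⟨hsmul _ _ hh, hsmul _ _ hh, hsmul _ _ hh, hsmul _ _ hh⟩
  star_mem' := by
    intro x hx h hh
    refine ⟨(hx h hh).2.2.1, (hx h hh).2.2.2, ?_, ?_⟩
    · rw [star_star]
      exact (hx h hh).1
    · rw [star_star]
      exact (hx h hh).2.1

instance isClosed_Nrm (v : E) : IsClosed (Nrm v : Set E) := by
  have h : (Nrm v : Set E) = ⋂ h ∈ Her v, ({x | x * h ∈ Her v} ∩ {x | h * x ∈ Her v} ∩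
      {x | star x * h ∈ Her v} ∩ {x | h * star x ∈ Her v}) := by
    ext x
    simp only [Set.mem_iInter, Set.mem_inter_iff, Set.mem_ofPred_eq, and_assoc]
    rfl
  rw [h]
  refine isClosed_biInter fun h _ => ?_
  refine IsClosed.inter (IsClosed.inter (IsClosed.inter ?_ ?_) ?_) ?_
  · exact (isClosed_Her v).preimage (by fun_prop)
  · exact (isClosed_Her v).preimage (by fun_prop)
  · exact (isClosed_Her v).preimage (by fun_prop)
  · exact (isClosed_Her v).preimage (by fun_prop)

noncomputable example (v : E) : CStarAlgebra (Nrm v) := inferInstance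

end P095G
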