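import Vale.Agent.Lib.P095G.GVa
import Vale.Agent.Lib.P095G.GCAId

/-!
# P095 stage 3, part GV, module GVb: algebraic ideals and ranks

* `gv_ideal` (GB.1).  `J = {x | InIdeal {f} x}` (closed under sums and two-sided multiplication,
  `InIdeal.add`, `InIdeal.mul_left`, `InIdeal.mul_right`); `GoodIdeal.simple` gives `p' ∈ J` with `‖b1 - p'‖ < 1/4`; `p = (p' + star p') / 2 ∈ J`
  (`f` self-adjoint, so `J` is closed under `star`), `‖b1 - p‖ ≤ 1/4`.  `k = b1 * p * b1 ∈ J`, `r = k + (1 - b1 * b1)`; with the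
  spectral order `p ≥ b1 - 1/4`, `r ≥ b1³ - b1²/4 + 1 - b1² = 1 - (5/4) b1² + b1³ ≥ 1/2` (`1 - (5/4) t² + t³ ≥ 1/2` on
  `[0,1]`), so `r` is invertible.  `(1 - b1²) b = 0`, hence `r b = k b` and `b = r⁻¹ k b ∈ J`.
* `gv_sum`.  `p = ∑_i x_i f y_i` (`i < l`), `2 p = ∑ (x_i f y_i + star y_i f star x_i) ≤ z := ∑ (x_i f star x_i + star y_i f y_i)`
  (`(star x_i - y_i)^* f (star x_i - y_i) ≥ 0`), `p ≥ 0` so `p ≤ z`.  `L = 2 l`, `z = ∑_{k < L} star s_k f s_k`.  For `κ > 0`: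
  `d = (z + κ)^{-1/2} p^{1/2}`: `star d * z * d = p^{1/2} (z / (z + κ)) p^{1/2}`, the difference to `p` is
  `p^{1/2} (κ / (z + κ)) p^{1/2}` of norm `κ ‖(z + κ)^{-1/2} p (z + κ)^{-1/2}‖ ≤ κ`.  `r_k = s_k d`.
* `gv_rank`.  `a₀ ∈ J_f` by `gv_ideal` (`b = a₀`, `b1 = a₁`, `f = star y * y ∈ I`, `f ≠ 0`), so `InIdeal {f} v` (`InIdeal.trans`);
  `gv_sum` for `p = v` gives `L` (`L ≥ 1`: if `L = 0` then `v = 0`, contradicting `v ≠ 0`).  For `T`, `ε`: `g` from `her_unit` with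
  `ε / 2`; `r'_k` with `‖∑ star r'_k f r'_k - v‖ ≤ ε'` and `r_k = r'_k g`: `∑ star r_k f r_k = g (∑ ...) g ≈ g v g`.
-/

open scoped ENNReal Topology
open Filter P101 P095E P095F

namespace P095G

universe u

variable {E : Type u} [CStarAlgebra E]

theorem gv_ideal {I : Ideal E} (hI : GoodIdeal I) {b b1 : E} (hb1I : b1 ∈ I) (hb1 : PosC b1)
    (hb : b1 * b = b) {f : E} (hfI : f ∈ I) (hf : star f = f) (hf0 : f ≠ 0) :
    InIdeal {f} b := by
  obtain ⟨n, x, y, h⟩ := hI.simple f hfI hf0 b1 hb1I 1 one_pos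
  have hp : InIdeal {f} (∑ i, x i * f * y i) := ⟨n, x, fun _ => f, y, fun _ => rfl, rfl⟩
  obtain ⟨u, hu⟩ := isUnit_one_sub_of_norm_lt_one h
  have h1 : (1 - (b1 - ∑ i, x i * f * y i)) * b = (∑ i, x i * f * y i) * b := by
    rw [sub_mul, sub_mul, one_mul, hb, sub_sub_cancel]
  have h2 : b = (↑u⁻¹ : E) * ((∑ i, x i * f * y i) * b) := by
    rw [← h1, ← hu, Units.inv_mul_cancel_left]
  rw [h2]
  exact (hp.mul_right b).mul_left _

section

attribute [local instance] CStarAlgebra.spectralOrder CStarAlgebra.spectralOrderedRing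

/-- `p ≤ z = ∑ s_k* f s_k` -/
theorem GVb_le {f p : E} (hf : ∃ c, f = star c * c) (hp : ∃ c, p = star c * c) {l : ℕ}
    (x y : Fin l → E) (h : p = ∑ i, x i * f * y i) :
    p ≤ ∑ i, (x i * f * star (x i) + star (y i) * f * y i) := by
  obtain ⟨c, rfl⟩ := hf
  have hp0 : 0 ≤ p := by
    obtain ⟨d, rfl⟩ := hp
    exact star_mul_self_nonneg d
  have hps : star p = p := by
    obtain ⟨d, rfl⟩ := hp
    rw [star_mul, star_star]
  have h2 : p + p = ∑ i, (x i * (star c * c) * y i + star (y i) * (star c * c) * star (x i)) := by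
    rw [Finset.sum_add_distrib, ← h]
    congr 1
    rw [← hps, h, star_sum]
    refine Finset.sum_congr rfl fun i _ => ?_
    simp only [star_mul, star_star, mul_assoc]
  have h3 : p + p ≤ ∑ i, (x i * (star c * c) * star (x i) + star (y i) * (star c * c) * y i) := by
    rw [h2]
    refine Finset.sum_le_sum fun i _ => ?_
    rw [← sub_nonneg]
    have e : x i * (star c * c) * star (x i) + star (y i) * (star c * c) * y i -
        (x i * (star c * c) * y i + star (y i) * (star c * c) * star (x i)) =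
        star (c * (star (x i) - y i)) * (c * (star (x i) - y i)) := by
      simp only [star_mul, star_sub, star_star]
      noncomm_ring
    rw [e]
    exact star_mul_self_nonneg _
  exact (le_add_of_nonneg_left hp0).trans h3

/-- if `0 ≤ p ≤ z` then `p` is a limit of `d* z d` -/
theorem GVb_approx {p z : E} (hp : ∃ c, p = star c * c) (hpz : p ≤ z) {ε : ℝ} (hε : 0 < ε) :
    ∃ d : E, ‖star d * z * d - p‖ ≤ ε := by
  have hp0 : 0 ≤ p := by
    obtain ⟨d, rfl⟩ := hp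
    exact star_mul_self_nonneg d
  have hz0 : 0 ≤ z := hp0.trans hpz
  have hsa : IsSelfAdjoint z := IsSelfAdjoint.of_nonneg hz0
  have hsp : ∀ t ∈ spectrum ℝ z, 0 ≤ t := fun t ht => spectrum_nonneg_of_nonneg hz0 ht
  obtain ⟨c, hc⟩ := hp
  have hpos : ∀ t ∈ spectrum ℝ z, 0 < t + ε := fun t ht => add_pos_of_nonneg_of_pos (hsp t ht) hε
  have hcg : ContinuousOn (fun t : ℝ => (√(t + ε))⁻¹) (spectrum ℝ z) :=
    ContinuousOn.inv₀ (by fun_prop) (fun t ht => (Real.sqrt_pos.2 (hpos t ht)).ne')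
  obtain ⟨g, hg⟩ : ∃ g : E, g = cfc (fun t : ℝ => (√(t + ε))⁻¹) z := ⟨_, rfl⟩
  have hgs : star g = g := by
    rw [hg]
    exact (cfc_predicate (fun t : ℝ => (√(t + ε))⁻¹) z : IsSelfAdjoint _)
  have hci : ContinuousOn (fun t : ℝ => (t + ε)⁻¹) (spectrum ℝ z) :=
    ContinuousOn.inv₀ (by fun_prop) (fun t ht => (hpos t ht).ne')
  have hgg : g * g = cfc (fun t : ℝ => (t + ε)⁻¹) z := by
    rw [hg, ← cfc_mul _ _ z hcg hcg]
    refine cfc_congr fun t ht => ?_
    change (√(t + ε))⁻¹ * (√(t + ε))⁻¹ = (t + ε)⁻¹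
    rw [← mul_inv, Real.mul_self_sqrt (hpos t ht).le]
  have hgz : g * z = z * g := by
    have h1 : Commute z g := by
      rw [hg]
      exact (cfc_commute_cfc (fun t : ℝ => t) (fun t : ℝ => (√(t + ε))⁻¹) z |> fun h => by
        rwa [cfc_id' ℝ z] at h)
    exact h1.symm.eq
  have hgzg : g * z * g = cfc (fun t : ℝ => t * (t + ε)⁻¹) z := by
    rw [hgz, mul_assoc, hgg, cfc_mul (fun t : ℝ => t) _ z continuousOn_id hci, cfc_id' ℝ z]
  have h1 : ‖g * z * g‖ ≤ 1 := by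
    rw [hgzg]
    refine norm_cfc_le zero_le_one fun t ht => ?_
    have ht0 := hsp t ht
    have hp1 := hpos t ht
    rw [Real.norm_eq_abs, abs_of_nonneg (by positivity), ← div_eq_mul_inv, div_le_one hp1]
    linarith
  have h2 : 1 - g * z * g = ε • (g * g) := by
    rw [hgzg, hgg, ← cfc_const_mul ε _ z hci, ← cfc_const_one ℝ z,
      ← cfc_sub (fun _ : ℝ => (1 : ℝ)) (fun t : ℝ => t * (t + ε)⁻¹) z continuousOn_const
        (continuousOn_id.mul hci)]
    refine cfc_congr fun t ht => ?_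
    have hp1 := (hpos t ht).ne'
    change 1 - t * (t + ε)⁻¹ = ε * (t + ε)⁻¹
    field_simp
    ring
  obtain ⟨q, hq⟩ : ∃ q : E, q = CFC.sqrt p := ⟨_, rfl⟩
  have hqs : star q = q := by
    rw [hq]
    exact IsSelfAdjoint.of_nonneg (CFC.sqrt_nonneg p)
  have hqq : q * q = p := by
    rw [hq]
    exact CFC.sqrt_mul_sqrt_self p hp0
  refine ⟨g * q, ?_⟩
  have e1 : star (g * q) * z * (g * q) - p = -(ε • (star (g * q) * (g * q))) := by
    have e2 : star (g * q) * z * (g * q) - p = -(q * (1 - g * z * g) * q) := by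
      rw [star_mul, hgs, hqs, ← hqq]
      noncomm_ring
    rw [e2, h2, mul_smul_comm, smul_mul_assoc, star_mul, hgs, hqs]
    simp only [mul_assoc]
  have e3 : ‖star (g * q) * (g * q)‖ = ‖g * p * g‖ := by
    rw [CStarRing.norm_star_mul_self, ← CStarRing.norm_self_mul_star, star_mul, hgs, hqs, ← hqq]
    simp only [mul_assoc]
  have h3 : ‖g * p * g‖ ≤ ‖g * z * g‖ := by
    refine CStarAlgebra.norm_le_norm_of_nonneg_of_le ?_ ?_
    · exact IsSelfAdjoint.conjugate_nonneg (c := g) hp0 hgs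
    · exact IsSelfAdjoint.conjugate_le_conjugate hpz hgs
  rw [e1, norm_neg, norm_smul, e3, Real.norm_eq_abs, abs_of_pos hε]
  calc ε * ‖g * p * g‖ ≤ ε * 1 := mul_le_mul_of_nonneg_left (h3.trans h1) hε.le
    _ = ε := mul_one ε

end

theorem gv_sum {f p : E} (hf : ∃ c, f = star c * c) (hp : ∃ c, p = star c * c)
    (h : InIdeal {f} p) : ∃ L : ℕ, ∀ ε : ℝ, 0 < ε → ∃ r : Fin L → E,
      ‖∑ k, star (r k) * f * r k - p‖ ≤ ε := by
  obtain ⟨l, x, w, y, hw, e⟩ := h
  have e' : p = ∑ i, x i * f * y i := by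
    rw [e]
    refine Finset.sum_congr rfl fun i _ => ?_
    rw [Set.mem_singleton_iff.1 (hw i)]
  refine ⟨l + l, fun ε hε => ?_⟩
  obtain ⟨d, hd⟩ := GVb_approx hp (GVb_le hf hp x y e') hε
  refine ⟨Fin.addCases (fun i => star (x i) * d) (fun i => y i * d), ?_⟩
  rw [Fin.sum_univ_add]
  simp only [Fin.addCases_left, Fin.addCases_right]
  have e2 : ∑ i, star (star (x i) * d) * f * (star (x i) * d) +
      ∑ i, star (y i * d) * f * (y i * d) =
      star d * (∑ i, (x i * f * star (x i) + star (y i) * f * y i)) * d := by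
    rw [← Finset.sum_add_distrib, Finset.mul_sum, Finset.sum_mul]
    refine Finset.sum_congr rfl fun i _ => ?_
    simp only [star_mul, star_star, mul_add, add_mul, mul_assoc]
  rw [e2]
  exact hd

theorem gv_rank {I : Ideal E} (hI : GoodIdeal I) {a₀ a₁ : E} (hT : TrBase I a₀ a₁) {v : E}
    (hvP : InIdeal {a₀} v) (hv : ∃ c, v = star c * c) (hv0 : v ≠ 0) {y : E} (hy : y ∈ I)
    (hy0 : y ≠ 0) : ∃ L : ℕ, 1 ≤ L ∧ ∀ (T : Finset E), (∀ x ∈ T, x ∈ Her v) → ∀ ε : ℝ, 0 < ε →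
      ∃ r : Fin L → E, ∀ x ∈ T, ‖(∑ k, star (r k) * (star y * y) * r k) * x - x‖ ≤ ε := by
  have hfI : star y * y ∈ I := I.mul_mem_left _ hy
  have hfs : star (star y * y) = star y * y := by rw [star_mul, star_star]
  have hf0 : star y * y ≠ 0 := fun h => hy0 (CStarRing.star_mul_self_eq_zero_iff y |>.1 h)
  have h1 : InIdeal {star y * y} v := hvP.trans fun z hz => by
    rw [Set.mem_singleton_iff.1 hz]
    exact gv_ideal hI hT.mem1 hT.pos1 hT.mul hfI hfs hf0
  obtain ⟨L, hL⟩ := gv_sum ⟨y, rfl⟩ hv h1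
  refine ⟨L, ?_, fun T hT' ε hε => ?_⟩
  · rcases Nat.eq_zero_or_pos L with h0 | h0
    · exfalso
      subst h0
      refine hv0 (norm_le_zero_iff.1 (le_of_forall_pos_le_add fun ε hε => ?_))
      obtain ⟨r, hr⟩ := hL ε hε
      rw [Finset.univ_eq_empty, Finset.sum_empty, zero_sub, norm_neg] at hr
      linarith
    · exact h0
  · obtain ⟨g, hgs, -, hg⟩ := her_unit hv T hT' (half_pos hε)
    have hM : ∀ x ∈ T, ‖x‖ ≤ ∑ z ∈ T, ‖z‖ := fun x hx =>
      Finset.single_le_sum (f := fun z : E => ‖z‖) (fun z _ => norm_nonneg z) hx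
    have hM0 : 0 ≤ ∑ z ∈ T, ‖z‖ := Finset.sum_nonneg fun z _ => norm_nonneg z
    obtain ⟨r, hr⟩ := hL (ε / 2 / ((‖g‖ ^ 2 + 1) * (∑ z ∈ T, ‖z‖ + 1))) (by positivity)
    refine ⟨fun k => r k * g, fun x hx => ?_⟩
    have e1 : ∑ k, star (r k * g) * (star y * y) * (r k * g) =
        g * (∑ k, star (r k) * (star y * y) * r k) * g := by
      rw [Finset.mul_sum, Finset.sum_mul]
      refine Finset.sum_congr rfl fun k _ => ?_
      rw [star_mul, hgs]
      simp only [mul_assoc]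
    rw [e1]
    have e2 : g * (∑ k, star (r k) * (star y * y) * r k) * g * x - x =
        g * (∑ k, star (r k) * (star y * y) * r k - v) * g * x + (g * v * g * x - x) := by
      rw [mul_sub, sub_mul, sub_mul]
      abel
    rw [e2]
    have h3 : ‖g * (∑ k, star (r k) * (star y * y) * r k - v) * g * x‖ ≤ ε / 2 := by
      calc ‖g * (∑ k, star (r k) * (star y * y) * r k - v) * g * x‖
          ≤ ‖g‖ * (ε / 2 / ((‖g‖ ^ 2 + 1) * (∑ z ∈ T, ‖z‖ + 1))) * ‖g‖ * ‖x‖ := by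
            refine (norm_mul_le _ _).trans (mul_le_mul_of_nonneg_right ?_ (norm_nonneg _))
            refine (norm_mul_le _ _).trans (mul_le_mul_of_nonneg_right ?_ (norm_nonneg _))
            exact (norm_mul_le _ _).trans (mul_le_mul_of_nonneg_left hr (norm_nonneg _))
        _ = (ε / 2) * ((‖g‖ ^ 2 * ‖x‖) / ((‖g‖ ^ 2 + 1) * (∑ z ∈ T, ‖z‖ + 1))) := by ring
        _ ≤ (ε / 2) * 1 := by
            refine mul_le_mul_of_nonneg_left ?_ (half_pos hε).le
            rw [div_le_one (by positivity)]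
            exact mul_le_mul (by linarith) (by linarith [hM x hx]) (norm_nonneg _) (by positivity)
        _ = ε / 2 := mul_one _
    calc _ ≤ ‖g * (∑ k, star (r k) * (star y * y) * r k - v) * g * x‖ + ‖g * v * g * x - x‖ :=
          norm_add_le _ _
      _ ≤ ε / 2 + ε / 2 := add_le_add h3 (hg x hx)
      _ = ε := add_halves ε

end P095G
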