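import Vale.Agent.Lib.P095G.GVb
import Vale.Agent.Lib.P095G.G1Unit
import Vale.Agent.Lib.P095G.GBG

/-!
# P095 stage 3, part GV, module GVc: extension of traces (GB.6), preparations

* `gv_rho`: extend the linear map `ρ` on the submodule `Nrm v` to `E` (`LinearMap.exists_extend`, on
  `(Nrm v).toSubmodule`); `her_sub_nrm`; the bound: a positive functional `ρ` with `ρ 1 = 1` on the C*-algebra `Nrm v`
  satisfies `‖ρ x‖ ≤ ‖x‖` (Cauchy-Schwarz `|ρ(x)|² ≤ ρ(x^*x)` and `ρ(x^*x) ≤ ‖x‖²`, since `‖x‖² - x^*x = y^*y`; see also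
  Lib/P095F/PTrBasic.lean).
* `gv_unit`: `exists_unit_fin` gives `u ∈ I`, `PosC u`, with a unit `v' ∈ I` and `‖u y - y‖ ≤ ε / 2`; `InIdeal {a₀} u` by `gv_ideal`;
  `gv_sum` (`f = a₀`, `p = u`) gives `r_k` with `‖∑ star r_k a₀ r_k - u‖` small; `z k = star (r k)`.
* `gv_W`: `w = ∑_l z_l a₀ star z_l`;
  `∑_i ρ(b y_i w x_i b) = ∑_{i,l} ρ((b y_i z_l b)(b (star z_l) x_i b)) = ∑_{i,l} ρ((b (star z_l) x_i b)(b y_i z_l b)) = ∑_l ρ(b (star z_l) p z_l b)`
  by the trace property (`b y z b ∈ Her v` by `her_mul`, `b * b = a₀`), and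
  `‖ρ(b y_i (w - 1) x_i b)‖ ≤ ‖b y_i‖ ‖(w - 1) x_i b‖` (`b y_i w x_i b`, `b y_i x_i b ∈ Her v`).

TEMPLATE: helper44 has proved almost the same facts in Vale/Agent/Lib/P095G/GBH.lean and GBI.lean (`gb_formula`, `gb_corner`), with a
unit `u'` instead of `Her v` (not available here): copy and adapt the proofs; `gb_full_unit` (GBG.lean) is `gv_unit`
(you may import GBG).
-/

open scoped ENNReal Topology
open Filter P101 P095E P095F

namespace P095G

universe u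

variable {E : Type u} [CStarAlgebra E]

/-- a tracial positive functional of norm at most one on `Her v`, extended linearly to `E` -/
structure IsRho (v : E) (ρ : E →ₗ[ℂ] ℂ) : Prop where
  tr : ∀ x ∈ Her v, ∀ y ∈ Her v, ρ (x * y) = ρ (y * x)
  bd : ∀ x ∈ Her v, ‖ρ x‖ ≤ ‖x‖
  pos : ∀ x ∈ Her v, 0 ≤ (ρ (star x * x)).re ∧ (ρ (star x * x)).im = 0

theorem gv_rho {v : E} (hv : ∃ c, v = star c * c) (ρ : ↥(Nrm v) →ₗ[ℂ] ℂ)
    (hρ : ρ ∈ TState ↥(Nrm v)) :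
    ∃ ρ' : E →ₗ[ℂ] ℂ, IsRho v ρ' ∧ ∀ x : ↥(Nrm v), ρ' (x : E) = ρ x := by
  have hvs : star v = v := by
    obtain ⟨c, rfl⟩ := hv
    rw [star_mul, star_star]
  obtain ⟨hρ1, hρ2⟩ := hρ
  have hst : IsSt ρ := ⟨hρ1.nonneg, hρ1.im_eq, hρ2⟩
  obtain ⟨R, hRx⟩ := LinearMap.exists_extend (p := Subalgebra.toSubmodule (Nrm v).toSubalgebra) ρ
  have hRρ : ∀ x (hx : x ∈ Nrm v), R x = ρ ⟨x, hx⟩ := fun x hx => LinearMap.congr_fun hRx ⟨x, hx⟩
  refine ⟨R, ⟨fun x hx y hy => ?_, fun x hx => ?_, fun x hx => ?_⟩, fun x => hRρ x x.2⟩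
  · have hx' := her_sub_nrm hvs hx
    have hy' := her_sub_nrm hvs hy
    rw [hRρ _ (mul_mem hx' hy'), hRρ _ (mul_mem hy' hx')]
    exact hρ1.comm ⟨_, hx'⟩ ⟨_, hy'⟩
  · have hx' := her_sub_nrm hvs hx
    rw [hRρ _ hx']
    let _ : PartialOrder ↥(Nrm v) := CStarAlgebra.spectralOrder ↥(Nrm v)
    have _ : StarOrderedRing ↥(Nrm v) := CStarAlgebra.spectralOrderedRing ↥(Nrm v)
    exact hst.norm_le (⟨_, hx'⟩ : ↥(Nrm v))
  · have hx' := her_sub_nrm hvs hx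
    rw [hRρ _ (mul_mem (star_mem hx') hx')]
    exact ⟨hρ1.nonneg ⟨x, hx'⟩, hρ1.im_eq ⟨x, hx'⟩⟩

theorem gv_unit {I : Ideal E} (hI : GoodIdeal I) {a₀ a₁ : E} (hT : TrBase I a₀ a₁) (Y : Finset E)
    (hY : ∀ y ∈ Y, y ∈ I) {ε : ℝ} (hε : 0 < ε) :
    ∃ (n : ℕ) (z : Fin n → E), ∀ y ∈ Y, ‖(∑ l, z l * a₀ * star (z l)) * y - y‖ ≤ ε :=
  gb_full_unit hI hT Y hY hε

theorem gv_W {v : E} {ρ : E →ₗ[ℂ] ℂ} (hρ : IsRho v ρ) {a₀ b : E} (hb : b ∈ Her v)
    (hbs : star b = b) (hbb : b * b = a₀) {m : ℕ} (x y : Fin m → E) {n : ℕ} (z : Fin n → E)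
    {ε : ℝ} (hz : ∀ i, ‖(∑ l, z l * a₀ * star (z l)) * (x i * b) - x i * b‖ ≤ ε) :
    ‖(∑ i, ρ (b * (y i * x i) * b)) -
      ∑ l, ρ (b * (star (z l) * (∑ i, x i * a₀ * y i) * z l) * b)‖ ≤ ε * ∑ i, ‖b * y i‖ := by
  have htr : ∀ p q : E, ρ (b * p * b * (b * q * b)) = ρ (b * q * b * (b * p * b)) := fun p q =>
    hρ.tr _ (her_mul hb p hb) _ (her_mul hb q hb)
  obtain ⟨w, hw⟩ : ∃ w : E, w = ∑ l, z l * a₀ * star (z l) := ⟨_, rfl⟩
  -- the second sum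
  have h2 : ∑ l, ρ (b * (star (z l) * (∑ i, x i * a₀ * y i) * z l) * b) =
      ∑ i, ρ (b * (y i * w * x i) * b) := by
    have h3 : ∀ l, ρ (b * (star (z l) * (∑ i, x i * a₀ * y i) * z l) * b) =
        ∑ i, ρ (b * (y i * (z l * a₀ * star (z l)) * x i) * b) := by
      intro l
      rw [Finset.mul_sum, Finset.sum_mul, Finset.mul_sum, Finset.sum_mul, map_sum]
      refine Finset.sum_congr rfl fun i _ => ?_
      have e1 : b * (star (z l) * (x i * a₀ * y i) * z l) * b =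
          b * (star (z l) * x i) * b * (b * (y i * z l) * b) := by
        rw [← hbb]
        simp only [mul_assoc]
      have e2 : b * (y i * (z l * a₀ * star (z l)) * x i) * b =
          b * (y i * z l) * b * (b * (star (z l) * x i) * b) := by
        rw [← hbb]
        simp only [mul_assoc]
      rw [e1, e2]
      exact htr _ _
    rw [Finset.sum_congr rfl fun l _ => h3 l, Finset.sum_comm]
    refine Finset.sum_congr rfl fun i _ => ?_
    rw [← map_sum]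
    congr 1
    rw [hw, Finset.mul_sum, Finset.sum_mul, Finset.mul_sum, Finset.sum_mul]
  rw [h2, ← Finset.sum_sub_distrib]
  refine (norm_sum_le _ _).trans ?_
  rw [Finset.mul_sum]
  refine Finset.sum_le_sum fun i _ => ?_
  have e1 : b * (y i * x i) * b - b * (y i * w * x i) * b = b * (y i * (x i - w * x i)) * b := by
    simp only [mul_sub, sub_mul, mul_assoc]
  rw [← map_sub, e1]
  refine (hρ.bd _ (her_mul hb _ hb)).trans ?_
  have e2 : b * (y i * (x i - w * x i)) * b = -(b * y i * (w * (x i * b) - x i * b)) := by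
    simp only [mul_sub, sub_mul, mul_assoc]
    abel
  rw [e2, norm_neg]
  refine (norm_mul_le _ _).trans ?_
  have h5 := hz i
  rw [← hw] at h5
  rw [mul_comm ε]
  exact mul_le_mul_of_nonneg_left h5 (norm_nonneg _)

end P095G
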