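import Vale.Agent.Lib.P095G.GVc

/-!
# P095 stage 3, part GV, module GVc2: extension of traces (GB.6), the trace

`P = {p | InIdeal {a₀} p}` (a submodule).  `τ' p = ∑_i ρ(b y_i x_i b)` for a chosen representation
`p = ∑ x_i a₀ y_i`.

Well defined: `gv_W` and `gv_unit` (for the finite set of all `x_i b ∈ I` of two representations of the same `p`; `b ∈ I` since
`b = b * b * ...`: `b ∈ I` as `b * b = a₀ ∈ I`: `gca_mem_of_star_mul_self`) show that two representations give the same value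
(the middle terms `∑_l ρ(b (star z_l) p z_l b)` agree).  Linear: representations can be concatenated and multiplied by
scalars.  A convenient way: the graph `{(p, t) | ∃ m x y, p = ∑ x_i a₀ y_i ∧ t = ∑ ρ(b y_i x_i b)}` is a submodule of `E × ℂ`
and a function graph (`Submodule.toLinearPMap`), or define `τ'` on `P` by choice and prove additivity and homogeneity;
extend to `E` with `LinearMap.exists_extend`.
Trace property: `p x = ∑ x_i a₀ (y_i x)`, `x p = ∑ (x x_i) a₀ y_i`, both give `∑ ρ(b y_i x x_i b)`.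
Positivity: if `p = star c * c`, then `b (star z_l) p z_l b = star (c z_l b) * (c z_l b)` is a positive element of `Her v`
(`her_mul` for `b`, `b`), equal to `s * s = star s * s` with `s ∈ Her v` (`her_sqrt`), so `ρ ≥ 0` (real part `≥ 0`, imaginary part `0`);
let `ε → 0` in `gv_W`.
The last item: `h = s * s` (`her_sqrt`), `w = ∑ z_l a₀ star z_l` with `‖w s - s‖` small and `gv_W`'s condition:
`∑_l ρ(b (star z_l) h z_l b) = ∑_l ρ((b (star z_l) s)(s z_l b)) = ∑_l ρ((s z_l b)(b (star z_l) s)) = ρ(s w s) → ρ(s s)`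
(`s z_l b`, `b (star z_l) s ∈ Her v` by `her_mul`).

TEMPLATE: helper44 has proved almost the same in Vale/Agent/Lib/P095G/GBH.lean (`gb_wd`, `gb_ext`) and GBI.lean (`gb_ext_props`):
copy and adapt (there: a unit `u'`, here: `Her v`).
-/

open scoped ENNReal Topology TensorProduct
open Filter P101 P095E P095F

namespace P095G

universe u

variable {E : Type u} [CStarAlgebra E]

/-- the approximate formula -/
theorem GVc2_formula {I : Ideal E} (hI : GoodIdeal I) {a₀ a₁ : E} (hT : TrBase I a₀ a₁) {v : E}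
    (hvI : v ∈ I) {ρ : E →ₗ[ℂ] ℂ} (hρ : IsRho v ρ) {b : E} (hb : b ∈ Her v) (hbs : star b = b)
    (hbb : b * b = a₀) {m : ℕ} (x y : Fin m → E) {s : E} (hs : s ∈ I) {ε : ℝ} (hε : 0 < ε) :
    ∃ (n : ℕ) (z : Fin n → E), ‖(∑ l, z l * a₀ * star (z l)) * s - s‖ ≤ ε ∧
      ‖(∑ i, ρ (b * (y i * x i) * b)) -
        ∑ l, ρ (b * (star (z l) * (∑ i, x i * a₀ * y i) * z l) * b)‖ ≤ ε := by
  classical
  have hbI : b ∈ I := her_mem_ideal hI hvI hb
  have hS : 0 ≤ ∑ i, ‖b * y i‖ := Finset.sum_nonneg fun _ _ => norm_nonneg _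
  have hδ : 0 < min ε (ε / (∑ i, ‖b * y i‖ + 1)) := lt_min hε (by positivity)
  obtain ⟨n, z, hz⟩ := gv_unit hI hT (insert s (Finset.univ.image fun i => x i * b)) (by
    intro v hv
    rcases Finset.mem_insert.1 hv with rfl | hv
    · exact hs
    · obtain ⟨i, -, rfl⟩ := Finset.mem_image.1 hv
      exact I.mul_mem_left _ hbI) hδ
  refine ⟨n, z, (hz s (Finset.mem_insert_self _ _)).trans (min_le_left _ _), ?_⟩
  have h1 := gv_W hρ hb hbs hbb x y z (ε := min ε (ε / (∑ i, ‖b * y i‖ + 1))) fun i =>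
    hz _ (Finset.mem_insert_of_mem (Finset.mem_image_of_mem (fun i => x i * b) (Finset.mem_univ i)))
  refine h1.trans ?_
  calc min ε (ε / (∑ i, ‖b * y i‖ + 1)) * ∑ i, ‖b * y i‖
      ≤ ε / (∑ i, ‖b * y i‖ + 1) * (∑ i, ‖b * y i‖ + 1) :=
        mul_le_mul (min_le_right _ _) (by linarith) hS (by positivity)
    _ = ε := by field_simp

theorem GVc2_wd {I : Ideal E} (hI : GoodIdeal I) {a₀ a₁ : E} (hT : TrBase I a₀ a₁) {v : E}
    (hvI : v ∈ I) {ρ : E →ₗ[ℂ] ℂ} (hρ : IsRho v ρ) {b : E} (hb : b ∈ Her v) (hbs : star b = b)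
    (hbb : b * b = a₀) {m : ℕ} (x y : Fin m → E) (h : ∑ i, x i * a₀ * y i = 0) :
    ∑ i, ρ (b * (y i * x i) * b) = 0 := by
  have h1 : ‖∑ i, ρ (b * (y i * x i) * b)‖ ≤ 0 := le_of_forall_pos_le_add fun ε hε => by
    obtain ⟨n, z, -, hz⟩ := GVc2_formula hI hT hvI hρ hb hbs hbb x y hT.mem0 hε
    rw [h] at hz
    simp only [mul_zero, zero_mul, map_zero, Finset.sum_const_zero, sub_zero] at hz
    rw [zero_add]
    exact hz
  exact norm_le_zero_iff.1 h1

/-- the extension -/
theorem GVc2_ext {I : Ideal E} (hI : GoodIdeal I) {a₀ a₁ : E} (hT : TrBase I a₀ a₁) {v : E}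
    (hvI : v ∈ I) {ρ : E →ₗ[ℂ] ℂ} (hρ : IsRho v ρ) {b : E} (hb : b ∈ Her v) (hbs : star b = b)
    (hbb : b * b = a₀) : ∃ τ' : E →ₗ[ℂ] ℂ, ∀ x y : E, τ' (x * a₀ * y) = ρ (b * (y * x) * b) := by
  let f : E ⊗[ℂ] E →ₗ[ℂ] E := TensorProduct.lift
    (LinearMap.mk₂ ℂ (fun x y => x * a₀ * y)
      (fun x x' y => by rw [add_mul, add_mul])
      (fun r x y => by rw [smul_mul_assoc, smul_mul_assoc])
      (fun x y y' => by rw [mul_add])
      (fun r x y => by rw [mul_smul_comm]))
  let g : E ⊗[ℂ] E →ₗ[ℂ] ℂ := TensorProduct.lift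
    (LinearMap.mk₂ ℂ (fun x y => ρ (b * (y * x) * b))
      (fun x x' y => by rw [mul_add, mul_add, add_mul, map_add])
      (fun r x y => by rw [mul_smul_comm, mul_smul_comm, smul_mul_assoc, map_smul])
      (fun x y y' => by rw [add_mul, mul_add, add_mul, map_add])
      (fun r x y => by rw [smul_mul_assoc, mul_smul_comm, smul_mul_assoc, map_smul]))
  have hker : LinearMap.ker f ≤ LinearMap.ker g := by
    intro t ht
    rw [LinearMap.mem_ker] at ht ⊢
    obtain ⟨m, x, y, hxy⟩ : ∃ (m : ℕ) (x y : Fin m → E), t = ∑ i, x i ⊗ₜ[ℂ] y i := by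
      clear ht
      induction t using TensorProduct.induction_on with
      | zero => exact ⟨0, fun i => i.elim0, fun i => i.elim0, by simp⟩
      | tmul x y => exact ⟨1, fun _ => x, fun _ => y, by simp⟩
      | add t₁ t₂ h₁ h₂ =>
        obtain ⟨m₁, x₁, y₁, e₁⟩ := h₁
        obtain ⟨m₂, x₂, y₂, e₂⟩ := h₂
        refine ⟨m₁ + m₂, Fin.append x₁ x₂, Fin.append y₁ y₂, ?_⟩
        rw [Fin.sum_univ_add, e₁, e₂]
        simp only [Fin.append_left, Fin.append_right]
    have h1 : f t = ∑ i, x i * a₀ * y i := by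
      rw [hxy, map_sum]
      rfl
    have h2 : g t = ∑ i, ρ (b * (y i * x i) * b) := by
      rw [hxy, map_sum]
      rfl
    rw [h2]
    apply GVc2_wd hI hT hvI hρ hb hbs hbb
    rw [← h1, ht]
  obtain ⟨τ', hτ'⟩ : ∃ τ' : E →ₗ[ℂ] ℂ, τ' ∘ₗ f = g := by
    obtain ⟨τ', hτ'⟩ := LinearMap.exists_extend
      (((LinearMap.ker f).liftQ g hker) ∘ₗ f.quotKerEquivRange.symm.toLinearMap)
    refine ⟨τ', LinearMap.ext fun t => ?_⟩
    have h1 := LinearMap.congr_fun hτ' ⟨f t, LinearMap.mem_range_self f t⟩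
    rw [LinearMap.comp_apply, LinearMap.comp_apply] at h1
    rw [LinearMap.comp_apply]
    have h2 : f.quotKerEquivRange.symm ⟨f t, LinearMap.mem_range_self f t⟩ =
        Submodule.Quotient.mk t := by
      rw [LinearEquiv.symm_apply_eq]
      rfl
    have h3 : τ' (f t) = (LinearMap.ker f).liftQ g hker
        (f.quotKerEquivRange.symm ⟨f t, LinearMap.mem_range_self f t⟩) := h1
    rw [h3, h2]
    rfl
  refine ⟨τ', fun x y => ?_⟩
  exact LinearMap.congr_fun hτ' (x ⊗ₜ[ℂ] y)

/-- the trace on `P` extending `ρ` -/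
theorem gv_ext {I : Ideal E} (hI : GoodIdeal I) {a₀ a₁ : E} (hT : TrBase I a₀ a₁) {v : E}
    (hvI : v ∈ I) (hv : ∃ c, v = star c * c) {ρ : E →ₗ[ℂ] ℂ} (hρ : IsRho v ρ) {b : E}
    (hb : b ∈ Her v) (hbs : star b = b) (hbb : b * b = a₀) :
    ∃ τ : E →ₗ[ℂ] ℂ, (∀ p, InIdeal {a₀} p → ∀ x, τ (p * x) = τ (x * p)) ∧
      (∀ p, InIdeal {a₀} p → (∃ c, p = star c * c) → 0 ≤ (τ p).re ∧ (τ p).im = 0) ∧
      ∀ h ∈ Her v, InIdeal {a₀} h → (∃ c : E, h = star c * c) → τ h = ρ h := by
  have hvs : star v = v := by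
    obtain ⟨c, hc⟩ := hv
    rw [hc, star_mul, star_star]
  obtain ⟨τ', h⟩ := GVc2_ext hI hT hvI hρ hb hbs hbb
  refine ⟨τ', ?_, ?_, ?_⟩
  · rintro p ⟨m, x, z, y, hz, rfl⟩ w
    have hz' : ∀ l, z l = a₀ := fun l => hz l
    rw [Finset.sum_mul, Finset.mul_sum, map_sum, map_sum]
    refine Finset.sum_congr rfl fun l _ => ?_
    rw [hz' l]
    have e1 : x l * a₀ * y l * w = x l * a₀ * (y l * w) := by rw [mul_assoc (x l * a₀)]
    have e2 : w * (x l * a₀ * y l) = (w * x l) * a₀ * y l := by simp only [mul_assoc]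
    rw [e1, e2, h, h]
    simp only [mul_assoc]
  · rintro p ⟨m, x, z, y, hz, hp⟩ ⟨d, hd⟩
    have hz' : ∀ l, z l = a₀ := fun l => hz l
    have hp' : p = ∑ i, x i * a₀ * y i := by
      rw [hp]
      exact Finset.sum_congr rfl fun l _ => by rw [hz' l]
    have hτ : τ' p = ∑ i, ρ (b * (y i * x i) * b) := by
      rw [hp', map_sum]
      exact Finset.sum_congr rfl fun l _ => h _ _
    have key : ∀ ε : ℝ, 0 < ε → -ε ≤ (τ' p).re ∧ |(τ' p).im| ≤ ε := by
      intro ε hε
      obtain ⟨n, zz, -, hzz⟩ := GVc2_formula hI hT hvI hρ hb hbs hbb x y hT.mem0 hε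
      rw [← hτ, ← hp', hd] at hzz
      have hpos : ∀ l, 0 ≤ (ρ (b * (star (zz l) * (star d * d) * zz l) * b)).re ∧
          (ρ (b * (star (zz l) * (star d * d) * zz l) * b)).im = 0 := by
        intro l
        have h2 : b * (star (zz l) * (star d * d) * zz l) * b =
            star (d * zz l * b) * (d * zz l * b) := by
          rw [star_mul, star_mul, hbs]
          simp only [mul_assoc]
        obtain ⟨s, hs, hss, hse⟩ := her_sqrt hvs
          (her_mul hb (star (zz l) * (star d * d) * zz l) hb) ⟨_, h2⟩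
        have h3 := hρ.pos s hs
        rw [hss] at h3
        rw [hse]
        exact h3
      set T := ∑ l, ρ (b * (star (zz l) * (star d * d) * zz l) * b) with hTdef
      have hT1 : 0 ≤ T.re := by
        rw [hTdef, Complex.re_sum]
        exact Finset.sum_nonneg fun l _ => (hpos l).1
      have hT2 : T.im = 0 := by
        rw [hTdef, Complex.im_sum]
        exact Finset.sum_eq_zero fun l _ => (hpos l).2
      have h3 := (Complex.abs_re_le_norm (τ' (star d * d) - T)).trans hzz
      have h4 := (Complex.abs_im_le_norm (τ' (star d * d) - T)).trans hzz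
      rw [Complex.sub_re] at h3
      rw [Complex.sub_im, hT2, sub_zero] at h4
      rw [hd]
      refine ⟨?_, h4⟩
      have h5 := (abs_le.1 h3).1
      linarith
    refine ⟨?_, ?_⟩
    · by_contra hcon
      push Not at hcon
      have h1 := (key (-(τ' p).re / 2) (by linarith)).1
      linarith
    · by_contra hcon
      have h0 : 0 < |(τ' p).im| := abs_pos.2 hcon
      have h1 := (key (|(τ' p).im| / 2) (by linarith)).2
      linarith
  · rintro p hpH ⟨m, x, z, y, hz, hp⟩ hpp
    have hz' : ∀ l, z l = a₀ := fun l => hz l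
    have hp' : p = ∑ i, x i * a₀ * y i := by
      rw [hp]
      exact Finset.sum_congr rfl fun l _ => by rw [hz' l]
    have hτ : τ' p = ∑ i, ρ (b * (y i * x i) * b) := by
      rw [hp', map_sum]
      exact Finset.sum_congr rfl fun l _ => h _ _
    obtain ⟨s, hs, hss, hse⟩ := her_sqrt hvs hpH hpp
    have hsI : s ∈ I := her_mem_ideal hI hvI hs
    have key : ‖τ' p - ρ p‖ ≤ 0 := le_of_forall_pos_le_add fun ε hε => by
      rw [zero_add]
      have hs1 : 0 < ‖s‖ + 1 := by positivity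
      have hδ : 0 < ε / (‖s‖ + 1) := by positivity
      obtain ⟨n, zz, hw, hzz⟩ := GVc2_formula hI hT hvI hρ hb hbs hbb x y hsI hδ
      rw [← hτ, ← hp'] at hzz
      have h1 : ∑ l, ρ (b * (star (zz l) * p * zz l) * b) =
          ρ (s * (∑ l, zz l * a₀ * star (zz l)) * s) := by
        rw [Finset.mul_sum, Finset.sum_mul, map_sum]
        refine Finset.sum_congr rfl fun l _ => ?_
        have e1 : b * (star (zz l) * p * zz l) * b =
            b * star (zz l) * s * (s * zz l * b) := by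
          rw [hse]
          simp only [mul_assoc]
        have e2 : s * (zz l * a₀ * star (zz l)) * s =
            s * zz l * b * (b * star (zz l) * s) := by
          rw [← hbb]
          simp only [mul_assoc]
        rw [e1, e2]
        exact hρ.tr _ (her_mul hb _ hs) _ (her_mul hs _ hb)
      rw [h1] at hzz
      have h2 : ‖ρ (s * (∑ l, zz l * a₀ * star (zz l)) * s) - ρ p‖ ≤
          ‖s‖ * (ε / (‖s‖ + 1)) := by
        have h3 : s * (∑ l, zz l * a₀ * star (zz l)) * s - p ∈ Her v := by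
          have h4 := her_add (her_mul hs (∑ l, zz l * a₀ * star (zz l)) hs)
            (her_smul (-1 : ℂ) hpH)
          rwa [neg_smul, one_smul, ← sub_eq_add_neg] at h4
        rw [← map_sub]
        refine (hρ.bd _ h3).trans ?_
        have h5 : s * (∑ l, zz l * a₀ * star (zz l)) * s - p =
            s * ((∑ l, zz l * a₀ * star (zz l)) * s - s) := by
          rw [hse, mul_sub, mul_assoc]
        rw [h5]
        refine (norm_mul_le _ _).trans ?_
        exact mul_le_mul_of_nonneg_left hw (norm_nonneg _)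
      calc ‖τ' p - ρ p‖ = ‖(τ' p - ρ (s * (∑ l, zz l * a₀ * star (zz l)) * s)) +
            (ρ (s * (∑ l, zz l * a₀ * star (zz l)) * s) - ρ p)‖ := by
            rw [sub_add_sub_cancel]
        _ ≤ ε / (‖s‖ + 1) + ‖s‖ * (ε / (‖s‖ + 1)) := (norm_add_le _ _).trans (add_le_add hzz h2)
        _ = ε := by
          field_simp
          ring
    exact sub_eq_zero.1 (norm_le_zero_iff.1 key)

end P095G
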