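import Vale.Agent.Lib.P095G.GVc2

/-!
# P095 stage 3, part GV, module GVc3: domination of traces (GB.6), conclusion

* `gv_zero`: `h = s * s`, `s ∈ Her v` (`her_sqrt`); for `z` from `gv_unit` (finite set `{s}`, `s ∈ I`), `w = ∑ z_l a₀ star z_l`:
  `ρ(s w s) = ∑_l ρ((s z_l b)(b (star z_l) s)) = ∑_l ρ(b (star z_l) h z_l b)` and `0 ≤ b (star z_l) h z_l b ≤ C b b = C a₀`,
  `C = ‖star z_l h z_l‖`; the difference `C a₀ - b (star z_l) h z_l b` is a positive element of `Her v`, so `= s' * s'` with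
  `s' ∈ Her v` and `ρ ≥ 0` there: `0 ≤ ρ(b (star z_l) h z_l b) ≤ C ρ(a₀) = 0`.  So `ρ(s w s) = 0`, and `ρ(s w s) → ρ(h)` (`IsRho.bd`).
* `gv_trace`: `gv_rho`; `b` = the square root of `a₀ ∈ Her v` (`her_of_le`, `her_sqrt`); `ρ(a₀) ≥ 0` real and `≤ 1` (`IsRho.bd`).  If
  `ρ(a₀) = 0` use `gv_zero`.  Otherwise `τ' = τ / ρ(a₀) ∈ Tr a₀` for `τ` from `gv_ext`, so `ρ(e) = τ(e) = ρ(a₀) τ'(e)`,
  `0 ≤ τ'(e) ≤ η`, and `(ρ e).re ≤ η` as `0 < ρ(a₀) ≤ 1`.

TEMPLATE: GBI.lean (`GBI_zero`, `gb_R_le`, `gb_corner`).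
-/

open scoped ENNReal Topology
open Filter P101 P095E P095F

namespace P095G

universe u

variable {E : Type u} [CStarAlgebra E]

/-- a positive functional vanishing at `1` is zero -/
theorem GVc3_pos_zero {φ : E →ₗ[ℂ] ℂ}
    (h : ∀ d, 0 ≤ (φ (star d * d)).re ∧ (φ (star d * d)).im = 0) (h1 : φ 1 = 0) (w : E) :
    φ w = 0 := by
  have key : ∀ w : E, φ w + φ (star w) = 0 := by
    intro w
    have e1 : ∀ t : ℝ, φ (star ((t : ℂ) • (1 : E) + w) * ((t : ℂ) • (1 : E) + w)) =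
        (t : ℂ) * (φ w + φ (star w)) + φ (star w * w) := by
      intro t
      have e2 : star ((t : ℂ) • (1 : E) + w) * ((t : ℂ) • (1 : E) + w) =
          ((t : ℂ) * (t : ℂ)) • (1 : E) + (t : ℂ) • w + (t : ℂ) • star w + star w * w := by
        rw [star_add, star_smul, star_one, add_mul, mul_add, mul_add, smul_mul_smul_comm, one_mul,
          smul_mul_assoc, one_mul, mul_smul_comm, mul_one]
        simp only [RCLike.star_def, Complex.conj_ofReal]
        abel
      rw [e2, map_add, map_add, map_add, map_smul, map_smul, map_smul, h1]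
      simp only [smul_eq_mul, mul_zero, zero_add]
      ring
    obtain ⟨q1, q2⟩ := h w
    have h2 : ∀ t : ℝ, 0 ≤ t * (φ w + φ (star w)).re + (φ (star w * w)).re ∧
        t * (φ w + φ (star w)).im = 0 := by
      intro t
      have h3 := h ((t : ℂ) • (1 : E) + w)
      rw [e1, Complex.add_re, Complex.add_im, Complex.re_ofReal_mul, Complex.im_ofReal_mul, q2,
        add_zero] at h3
      exact h3
    apply Complex.ext
    · rw [Complex.zero_re]
      by_contra hne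
      have h3 := (h2 (-((φ (star w * w)).re + 1) / (φ w + φ (star w)).re)).1
      rw [div_mul_cancel₀ _ hne] at h3
      linarith
    · have h3 := (h2 1).2
      rw [one_mul] at h3
      rw [h3, Complex.zero_im]
  have h3 := key w
  have h4 := key (Complex.I • w)
  rw [star_smul, map_smul, map_smul, smul_eq_mul, smul_eq_mul] at h4
  simp only [RCLike.star_def, Complex.conj_I] at h4
  have h5 : Complex.I * (φ w - φ (star w)) = 0 := by linear_combination h4
  have h6 : φ w - φ (star w) = 0 := (mul_eq_zero.1 h5).resolve_left Complex.I_ne_zero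
  linear_combination (h3 + h6) / 2

/-- if `ρ a₀ = 0` then `ρ (b w b) = 0` -/
theorem GVc3_zero {v : E} (hvs : star v = v) {ρ : E →ₗ[ℂ] ℂ} (hρ : IsRho v ρ) {a₀ b : E}
    (hb : b ∈ Her v) (hbs : star b = b) (hbb : b * b = a₀) (h0 : ρ a₀ = 0) (w : E) :
    ρ (b * w * b) = 0 := by
  let φ : E →ₗ[ℂ] ℂ :=
    { toFun := fun w => ρ (b * w * b)
      map_add' := fun x y => by rw [mul_add, add_mul, map_add]
      map_smul' := fun z x => by
        rw [RingHom.id_apply, mul_smul_comm, smul_mul_assoc, map_smul] }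
  refine GVc3_pos_zero (φ := φ) (fun d => ?_) ?_ w
  · change 0 ≤ (ρ (b * (star d * d) * b)).re ∧ (ρ (b * (star d * d) * b)).im = 0
    have h2 : b * (star d * d) * b = star (d * b) * (d * b) := by
      rw [star_mul, hbs]
      simp only [mul_assoc]
    obtain ⟨s, hs, hss, hse⟩ := her_sqrt hvs (her_mul hb (star d * d) hb) ⟨_, h2⟩
    have h3 := hρ.pos s hs
    rw [hss] at h3
    rw [hse]
    exact h3
  · change ρ (b * 1 * b) = 0
    rw [mul_one, hbb, h0]

theorem gv_zero {I : Ideal E} (hI : GoodIdeal I) {a₀ a₁ : E} (hT : TrBase I a₀ a₁) {v : E}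
    (hvI : v ∈ I) (hv : ∃ c, v = star c * c) {ρ : E →ₗ[ℂ] ℂ} (hρ : IsRho v ρ) {b : E}
    (hb : b ∈ Her v) (hbs : star b = b) (hbb : b * b = a₀) (h0 : ρ a₀ = 0) {h : E}
    (hh : h ∈ Her v) (hp : ∃ c : E, h = star c * c) : ρ h = 0 := by
  classical
  have hvs : star v = v := by
    obtain ⟨c, hc⟩ := hv
    rw [hc, star_mul, star_star]
  obtain ⟨s, hs, hss, hse⟩ := her_sqrt hvs hh hp
  have hsI : s ∈ I := her_mem_ideal hI hvI hs
  have key : ‖ρ h‖ ≤ 0 := le_of_forall_pos_le_add fun ε hε => by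
    rw [zero_add]
    have hs1 : 0 < ‖s‖ + 1 := by positivity
    have hδ : 0 < ε / (‖s‖ + 1) := by positivity
    obtain ⟨n, zz, hz⟩ := gv_unit hI hT {s} (by
      intro y hy
      rw [Finset.mem_singleton.1 hy]
      exact hsI) hδ
    have hw := hz s (Finset.mem_singleton_self s)
    have h1 : ρ (s * (∑ l, zz l * a₀ * star (zz l)) * s) = 0 := by
      rw [Finset.mul_sum, Finset.sum_mul, map_sum]
      refine Finset.sum_eq_zero fun l _ => ?_
      have e2 : s * (zz l * a₀ * star (zz l)) * s =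
          s * zz l * b * (b * star (zz l) * s) := by
        rw [← hbb]
        simp only [mul_assoc]
      have e1 : b * star (zz l) * s * (s * zz l * b) =
          b * (star (zz l) * (s * s) * zz l) * b := by
        simp only [mul_assoc]
      rw [e2, hρ.tr _ (her_mul hs _ hb) _ (her_mul hb _ hs), e1]
      exact GVc3_zero hvs hρ hb hbs hbb h0 _
    have h3 : s * (∑ l, zz l * a₀ * star (zz l)) * s - h ∈ Her v := by
      have h4 := her_add (her_mul hs (∑ l, zz l * a₀ * star (zz l)) hs)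
        (her_smul (-1 : ℂ) hh)
      rwa [neg_smul, one_smul, ← sub_eq_add_neg] at h4
    have h2 := hρ.bd _ h3
    rw [map_sub, h1, zero_sub, norm_neg] at h2
    refine h2.trans ?_
    have h5 : s * (∑ l, zz l * a₀ * star (zz l)) * s - h =
        s * ((∑ l, zz l * a₀ * star (zz l)) * s - s) := by
      rw [hse, mul_sub, mul_assoc]
    rw [h5]
    refine (norm_mul_le _ _).trans ?_
    calc ‖s‖ * ‖(∑ l, zz l * a₀ * star (zz l)) * s - s‖ ≤ (‖s‖ + 1) * (ε / (‖s‖ + 1)) :=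
          mul_le_mul (by linarith) hw (norm_nonneg _) hs1.le
      _ = ε := by field_simp
  exact norm_le_zero_iff.1 key

theorem gv_trace {I : Ideal E} (hI : GoodIdeal I) {a₀ a₁ : E} (hT : TrBase I a₀ a₁) {v : E}
    (hvI : v ∈ I) (hv : ∃ c, v = star c * c) (hva : ∃ c, v - a₀ = star c * c)
    (ρ : ↥(Nrm v) →ₗ[ℂ] ℂ) (hρ : ρ ∈ TState ↥(Nrm v)) {η : ℝ} (hη : 0 ≤ η) (e : ↥(Nrm v))
    (he : (e : E) ∈ Her v) (heP : InIdeal {a₀} (e : E)) (hep : ∃ c : E, (e : E) = star c * c)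
    (hτ : ∀ τ ∈ Tr a₀, (τ (e : E)).re ≤ η) : (ρ e).re ≤ η := by
  have hvs : star v = v := by
    obtain ⟨c, hc⟩ := hv
    rw [hc, star_mul, star_star]
  obtain ⟨ρ', hρ', hext⟩ := gv_rho hv ρ hρ
  rw [← hext e]
  have ha₀ : a₀ ∈ Her v := her_of_le hT.pos0.1 hva
  obtain ⟨b, hb, hbs, hbb'⟩ := her_sqrt hvs ha₀ hT.pos0.1
  have hbb : b * b = a₀ := hbb'.symm
  have hpos := hρ'.pos b hb
  rw [hbs, hbb] at hpos
  obtain ⟨a1, a2⟩ := hpos
  have a3 := hρ'.bd a₀ ha₀
  rcases a1.eq_or_lt with h0 | h0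
  · have h0' : ρ' a₀ = 0 := Complex.ext h0.symm a2
    rw [gv_zero hI hT hvI hv hρ' hb hbs hbb h0' he hep]
    exact hη
  · obtain ⟨τ', p1, p2, p4⟩ := gv_ext hI hT hvI hv hρ' hb hbs hbb
    have p3 : τ' a₀ = ρ' a₀ := p4 a₀ ha₀ (InIdeal.of_mem rfl) hT.pos0.1
    have hne : ρ' a₀ ≠ 0 := by
      intro h
      rw [h, Complex.zero_re] at h0
      exact lt_irrefl _ h0
    have hre : ρ' a₀ = ((ρ' a₀).re : ℂ) := by
      apply Complex.ext
      · rw [Complex.ofReal_re]
      · rw [Complex.ofReal_im, a2]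
    have hle1 : (ρ' a₀).re ≤ 1 := by
      have h3 := (Complex.re_le_norm (ρ' a₀)).trans a3
      rwa [hT.norm0] at h3
    have hmem : ((ρ' a₀)⁻¹ • τ') ∈ Tr a₀ := by
      refine ⟨fun p hp x => ?_, fun p hp hd => ?_, ?_⟩
      · rw [LinearMap.smul_apply, LinearMap.smul_apply, p1 p hp x]
      · obtain ⟨q1, q2⟩ := p2 p hp hd
        have h3 : ((ρ' a₀)⁻¹ • τ') p = (((ρ' a₀).re⁻¹ : ℝ) : ℂ) * τ' p := by
          rw [LinearMap.smul_apply, smul_eq_mul]
          conv_lhs => rw [hre]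
          rw [Complex.ofReal_inv]
        rw [h3, Complex.re_ofReal_mul, Complex.im_ofReal_mul, q2, mul_zero]
        exact ⟨mul_nonneg (inv_nonneg.2 h0.le) q1, rfl⟩
      · rw [LinearMap.smul_apply, p3, smul_eq_mul, inv_mul_cancel₀ hne]
    have h5 := hτ _ hmem
    have h6 : ρ' (e : E) = ((ρ' a₀).re : ℂ) * ((ρ' a₀)⁻¹ • τ') (e : E) := by
      rw [LinearMap.smul_apply, smul_eq_mul, p4 (e : E) he heP hep, ← mul_assoc, ← hre,
        mul_inv_cancel₀ hne, one_mul]
    rw [h6, Complex.re_ofReal_mul]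
    calc (ρ' a₀).re * (((ρ' a₀)⁻¹ • τ') (e : E)).re ≤ (ρ' a₀).re * η :=
          mul_le_mul_of_nonneg_left h5 h0.le
      _ ≤ 1 * η := mul_le_mul_of_nonneg_right hle1 hη
      _ = η := one_mul η

end P095G
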