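import Mathlib
import Vale.Agent.Lib.P095G.GFin
import Vale.Agent.Lib.P095G.GM

/-!
# P095 stage 3: the final theorem for all (unital or nonunital) algebras
-/

open scoped ENNReal Topology TensorProduct MultiplierAlgebra
open Filter P101 P095E P095F

namespace P095G

universe u v

theorem whole {G : Type v} [Group G] [Countable G] (hG : AmenableGroup G)
    {A Z B : Type u} [NonUnitalCStarAlgebra A] [CStarAlgebra Z] [NonUnitalCStarAlgebra B]
    [TopologicalSpace.SeparableSpace A] (hA : SimpleCStar A) (hnuc : NuclearN A)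
    (hZ : IsJiangSu Z) (m : A ⊗[ℂ] Z →ₗ[ℂ] B) (hm : IsTensorCompletion m)
    (hAB : Nonempty (A ≃⋆ₐ[ℂ] B)) (α : G →* (A ≃⋆ₐ[ℂ] A)) :
    ∃ γ : G →* (B ≃⋆ₐ[ℂ] B), IsTensorActionN m α γ ∧ CocycleConjugateM α γ := by
  refine whole_of hG hA hnuc hZ m hm hAB α ?_
  intro ω hω β hβ a₀ a₁ hT hZ'
  have : TopologicalSpace.SeparableSpace (Unitization ℂ A) := separable_unitization
  have hI := uI_good hA
  obtain ⟨v, h1, h2, h3⟩ := exists_vG hω hI hT (uAut_mem α) hG hβ hZ'
  exact ⟨JG ω hI hT (uAut_mem α), inferInstance, fun x => Iff.rfl, v, h1, h2, h3⟩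

end P095G
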